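import Crest.Agent.R339.PInv

/-! # Row 339: the convexity certificate -/

set_option autoImplicit false

namespace Crest.Agent.R339

open MeasureTheory ProbabilityTheory Real Set Filter Topology

/-- Pointwise certificate, first integration by parts (scaled variables `E = x (y - 2 z)`, `Z = x z`,
`B = x² b`, `K = x² k`). -/
theorem cert_C {E Z B K : ℝ} (hE : 0 ≤ E) (hZ : 0 ≤ Z) (hB : 0 ≤ B) (hK : 0 ≤ K) :
    0 ≤ K ^ 2 - 1 / 2 * B * K + 1 / 5 * B ^ 2 + 27 / 100 * Z * K - 6 / 25 * Z * B + 3 / 25 * Z ^ 2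
      - 29 / 20 * Z ^ 2 * K + 3 / 10 * Z ^ 2 * B + 9 / 25 * Z ^ 3 + 7 / 10 * Z ^ 4 - 73 / 50 * E * K
      + 27 / 100 * E * B - 27 / 100 * E * Z - 23 / 10 * E * Z * K + E * Z * B - 57 / 100 * E * Z ^ 2
      + 43 / 20 * E * Z ^ 3 + 73 / 100 * E ^ 2 - 179 / 100 * E ^ 2 * K + 7 / 20 * E ^ 2 * B
      + 33 / 20 * E ^ 2 * Z + 47 / 20 * E ^ 2 * Z ^ 2 + 73 / 50 * E ^ 3 + 209 / 100 * E ^ 3 * Z
      + 43 / 50 * E ^ 4 := by
  have h1 : 0 ≤ 451 * E ^ 2 - 822 * E * Z + 380 * Z ^ 2 := by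
    nlinarith [sq_nonneg (451 * E - 411 * Z), sq_nonneg Z]
  have h2 : 0 ≤ 215 * E ^ 2 - 620 * E * Z + 460 * Z ^ 2 := by
    nlinarith [sq_nonneg (215 * E - 310 * Z), sq_nonneg Z]
  have h3 : 0 ≤ (K + (-1 / 4) * B + (-73 / 100) * E + (27 / 200) * Z + (-179 / 200) * (E ^ 2) +
        (-23 / 20) * (E * Z) + (-29 / 40) * (Z ^ 2)) ^ 2 +
      (11 / 80) * (B + (-19 / 55) * E + (-69 / 110) * Z + (-39 / 110) * (E ^ 2) +
        (17 / 11) * (E * Z) + (-5 / 22) * (Z ^ 2)) ^ 2 +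
      (4969 / 27500) * (E + (-7287 / 19876) * Z + (6359 / 19876) * (E ^ 2) +
        (-3305 / 9938) * (E * Z) + (-15515 / 19876) * (Z ^ 2)) ^ 2 +
      (7437 / 318016) * (Z + (176483 / 929625) * (E ^ 2) + (-337306 / 929625) * (E * Z) +
        (658381 / 929625) * (Z ^ 2)) ^ 2 +
      (10389959 / 464812500) * (E ^ 2 + (8230673 / 41559836) * (E * Z) +
        (2336338 / 10389959) * (Z ^ 2)) ^ 2 +
      (817090443 / 16623934400) * (E * Z + (32607128 / 90787827) * (Z ^ 2)) ^ 2 +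
      (143648547 / 3782826125) * (Z ^ 2) ^ 2 + E * (E ^ 2 + Z ^ 2) / 250 +
      Z * (451 * E ^ 2 - 822 * E * Z + 380 * Z ^ 2) / 1000 +
      E * Z * (215 * E ^ 2 - 620 * E * Z + 460 * Z ^ 2) / 1000 + E ^ 2 * Z / 1000 := by
    positivity
  exact h3.trans_eq (by ring)

namespace PCert

/-- first multiplier -/
noncomputable def chi (e z b x : ℝ) : ℝ :=
  9 / 2 * (b * e) + 49 / 5 * (b * z) - 7 / 100 * (e * e * e) - 57 / 20 * (e * e * z) -
    131 / 20 * (e * z * z) - 51 / 10 * (z * z * z) +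
    (73 / 100 * (e * e) - 27 / 100 * (e * z) + 3 / 25 * (z * z)) / x

/-- its derivative -/
noncomputable def chi' (e z b k x : ℝ) : ℝ :=
  9 / 2 * (-(b * (e + 2 * z)) * e + b * k) + 49 / 5 * (-(b * (e + 2 * z)) * z + b * b) -
    7 / 100 * (3 * e * e * k) - 57 / 20 * (2 * e * k * z + e * e * b) -
    131 / 20 * (k * z * z + 2 * e * z * b) - 51 / 10 * (3 * z * z * b) +
    ((73 / 100 * (2 * e * k) - 27 / 100 * (k * z + e * b) + 3 / 25 * (2 * z * b)) * x -
      (73 / 100 * (e * e) - 27 / 100 * (e * z) + 3 / 25 * (z * z))) / x ^ 2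

/-- second multiplier -/
noncomputable def om (e z b x : ℝ) : ℝ :=
  x * (91 / 40 * (z * z) + 27 / 20 * (e * z) + 7 / 40 * (e * e)) + 21 / 20 * (z - b * x)

/-- its derivative -/
noncomputable def om' (e z b k x : ℝ) : ℝ :=
  (91 / 40 * (z * z) + 27 / 20 * (e * z) + 7 / 40 * (e * e)) +
    x * (91 / 40 * (2 * z * b) + 27 / 20 * (k * z + e * b) + 7 / 40 * (2 * e * k)) +
    21 / 20 * (b * (e + 2 * z) * x)

/-- the integrand divided by `W` -/
noncomputable def TT (e z b k : ℝ) : ℝ :=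
  ((e + 2 * z) ^ 2 - 2 * b - k) ^ 2 - 12 * (e + 2 * z) ^ 2 * b + 6 * b ^ 2

theorem ineqC {e z b k x : ℝ} (he : 0 ≤ e) (hz : 0 ≤ z) (hb : 0 ≤ b) (hk : 0 ≤ k) (hx : 0 < x) :
    chi' e z b k x + (z - 2 * (e + 2 * z)) * chi e z b x ≤ TT e z b k := by
  have h := cert_C (E := x * e) (Z := x * z) (B := x ^ 2 * b) (K := x ^ 2 * k) (by positivity)
    (by positivity) (by positivity) (by positivity)
  have h2 : 0 ≤ x ^ 4 * (TT e z b k - (chi' e z b k x + (z - 2 * (e + 2 * z)) * chi e z b x)) := by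
    refine h.trans_eq ?_
    unfold TT chi chi'
    field_simp
    ring
  exact sub_nonneg.1 ((mul_nonneg_iff_of_pos_left (pow_pos hx 4)).1 h2)

theorem ineqB {e z b k x : ℝ} (he : 0 ≤ e) (hz : 0 ≤ z) (hx : 0 < x)
    (hk : x * k ≤ e + x * (e + 2 * z) * e / 2) :
    om' e z b k x + (z - 2 * (e + 2 * z)) * om e z b x ≤ x * chi e z b x := by
  have h1 : 0 ≤ 41 / 200 * e ^ 2 - 87 / 100 * e * z + 199 / 200 * z ^ 2 := by
    nlinarith [sq_nonneg (41 * e - 87 * z), sq_nonneg z]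
  have h2 : 0 ≤ 21 / 200 * e ^ 2 - 9 / 10 * e * z + 2 * z ^ 2 := by
    nlinarith [sq_nonneg (21 * e - 90 * z), sq_nonneg z]
  have h3 : 0 ≤ 1 / 4 * e ^ 2 - 13 / 10 * e * z + 69 / 40 * z ^ 2 := by
    nlinarith [sq_nonneg (5 * e - 13 * z), sq_nonneg z]
  have h4 : 0 ≤ (e + x * (e + 2 * z) * e / 2 - x * k) * (27 / 20 * z + 7 / 20 * e) :=
    mul_nonneg (sub_nonneg.2 hk) (by positivity)
  have h5 : x * chi e z b x - (om' e z b k x + (z - 2 * (e + 2 * z)) * om e z b x) =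
      (41 / 200 * e ^ 2 - 87 / 100 * e * z + 199 / 200 * z ^ 2) +
        x * (e * (21 / 200 * e ^ 2 - 9 / 10 * e * z + 2 * z ^ 2) +
          z * (1 / 4 * e ^ 2 - 13 / 10 * e * z + 69 / 40 * z ^ 2)) +
        (e + x * (e + 2 * z) * e / 2 - x * k) * (27 / 20 * z + 7 / 20 * e) := by
    unfold chi om om'
    field_simp
    ring
  rw [← sub_nonneg, h5]
  positivity

theorem nonneg_of_deriv {f f' : ℝ → ℝ} (hf : ∀ x, HasDerivAt f (f' x) x) (h0 : f 0 = 0)
    (h : ∀ x, 0 ≤ x → 0 ≤ f' x) {x : ℝ} (hx : 0 ≤ x) : 0 ≤ f x := by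
  have hm : MonotoneOn f (Ici 0) :=
    monotoneOn_of_deriv_nonneg (convex_Ici 0) (fun y _ => (hf y).continuousAt.continuousWithinAt)
      (fun y _ => (hf y).differentiableAt.differentiableWithinAt) fun y hy => by
        rw [(hf y).deriv]
        exact h y (interior_subset hy)
  exact h0 ▸ hm self_mem_Ici hx hx

theorem slope0 {f : ℝ → ℝ} {c : ℝ} (hf : HasDerivAt f c 0) (h0 : f 0 = 0) :
    Tendsto (fun x => f x / x) (𝓝[>] 0) (𝓝 c) := by
  refine (hf.tendsto_slope_zero_right).congr fun x => ?_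
  rw [zero_add, h0, sub_zero, smul_eq_mul, div_eq_inv_mul]

theorem tendsto_bdd {P : ℝ × ℝ × ℝ × ℝ → ℝ} (hP : Continuous P) {e z b g : ℝ → ℝ} {M : ℝ}
    (hM : ∀ x, |e x| ≤ M ∧ |z x| ≤ M ∧ |b x| ≤ M) (hg : Tendsto g atTop (𝓝 0)) :
    Tendsto (fun x => g x * P (e x, z x, b x, x⁻¹)) atTop (𝓝 0) := by
  obtain ⟨C, hC⟩ := (isCompact_closedBall (0 : ℝ × ℝ × ℝ × ℝ) (max M 1)).exists_bound_of_continuousOn
    hP.continuousOn
  refine hg.zero_mul_isBoundedUnder_le ⟨C, ?_⟩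
  rw [eventually_map]
  filter_upwards [eventually_ge_atTop 1] with x hx
  refine hC _ ?_
  obtain ⟨h1, h2, h3⟩ := hM x
  have h4 : |x⁻¹| ≤ 1 := by
    rw [abs_of_nonneg (by positivity)]
    exact inv_le_one_of_one_le₀ hx
  simp only [mem_closedBall_zero_iff, Prod.norm_def, Real.norm_eq_abs, max_le_iff]
  exact ⟨le_max_of_le_left h1, le_max_of_le_left h2, le_max_of_le_left h3, le_max_of_le_right h4⟩

theorem hasDerivAt_chi {e z b : ℝ → ℝ} {k x : ℝ} (he : HasDerivAt e k x) (hz : HasDerivAt z (b x) x)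
    (hb : HasDerivAt b (-(b x * (e x + 2 * z x))) x) (hx : x ≠ 0) :
    HasDerivAt (fun x => chi (e x) (z x) (b x) x) (chi' (e x) (z x) (b x) k x) x := by
  unfold chi chi'
  refine HasDerivAt.congr_deriv
    ((((((((hb.fun_mul he).const_mul _).fun_add ((hb.fun_mul hz).const_mul _)).fun_sub
      (((he.fun_mul he).fun_mul he).const_mul _)).fun_sub
      (((he.fun_mul he).fun_mul hz).const_mul _)).fun_sub
      (((he.fun_mul hz).fun_mul hz).const_mul _)).fun_sub
      (((hz.fun_mul hz).fun_mul hz).const_mul _)).fun_add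
      ((((((he.fun_mul he).const_mul _).fun_sub ((he.fun_mul hz).const_mul _)).fun_add
        ((hz.fun_mul hz).const_mul _))).fun_div (hasDerivAt_id' x) hx)) ?_
  ring

theorem hasDerivAt_om {e z b : ℝ → ℝ} {k x : ℝ} (he : HasDerivAt e k x) (hz : HasDerivAt z (b x) x)
    (hb : HasDerivAt b (-(b x * (e x + 2 * z x))) x) :
    HasDerivAt (fun x => om (e x) (z x) (b x) x) (om' (e x) (z x) (b x) k x) x := by
  unfold om om'
  refine HasDerivAt.congr_deriv
    (((hasDerivAt_id' x).fun_mul ((((hz.fun_mul hz).const_mul _).fun_add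
      ((he.fun_mul hz).const_mul _)).fun_add ((he.fun_mul he).const_mul _))).fun_add
      ((hz.fun_sub (hb.fun_mul (hasDerivAt_id' x))).const_mul _)) ?_
  ring

theorem main {e z b k k' W h h1 h2 F : ℝ → ℝ} {M : ℝ} (he : ∀ x, HasDerivAt e (k x) x)
    (hz : ∀ x, HasDerivAt z (b x) x) (hb : ∀ x, HasDerivAt b (-(b x * (e x + 2 * z x))) x)
    (hk : ∀ x, HasDerivAt k (k' x) x)
    (hW : ∀ x, HasDerivAt W ((z x - 2 * (e x + 2 * z x)) * W x) x)
    (e0 : e 0 = 0) (z0 : z 0 = 0) (b0 : ∀ x, 0 ≤ b x) (k0 : ∀ x, 0 ≤ k x) (W0 : ∀ x, 0 ≤ W x)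
    (hk' : ∀ x, 0 ≤ x → k' x ≤ k x * (e x + 2 * z x) / 2)
    (hh : ∀ x, HasDerivAt h (h1 x) x) (hh1 : ∀ x, HasDerivAt h1 (h2 x) x) (h10 : h1 0 = 0)
    (h0 : ∀ x, 0 ≤ h x) (ha : ∀ x, 0 ≤ x → h1 x ≤ 0) (hc : ∀ x, 0 ≤ x → h1 x ≤ x * h2 x)
    (hM : ∀ x, |e x| ≤ M ∧ |z x| ≤ M ∧ |b x| ≤ M)
    (d0 : Tendsto (fun x => h x * W x) atTop (𝓝 0))
    (d1 : Tendsto (fun x => h1 x * W x) atTop (𝓝 0))
    (hF : ∀ x, F x = h x * W x * TT (e x) (z x) (b x) (k x)) (hFc : Continuous F)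
    (hFi : IntegrableOn F (Ioi 0)) : 0 ≤ ∫ x in Ioi 0, F x := by
  have pe : ∀ x, 0 ≤ x → 0 ≤ e x := fun x hx => nonneg_of_deriv he e0 (fun x _ => k0 x) hx
  have pz : ∀ x, 0 ≤ x → 0 ≤ z x := fun x hx => nonneg_of_deriv hz z0 (fun x _ => b0 x) hx
  have pzb : ∀ x, 0 ≤ x → 0 ≤ z x - b x * x := fun x hx =>
    nonneg_of_deriv (f := fun x => z x - b x * x)
      (fun x => (hz x).fun_sub ((hb x).fun_mul (hasDerivAt_id' x))) (by simp [z0]) (fun x hx => by
        have := pe x hx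
        have := pz x hx
        have := b0 x
        have h3 : 0 ≤ b x * (e x + 2 * z x) * x := by positivity
        linarith) hx
  have pk : ∀ x, 0 ≤ x → 0 ≤ e x + x * (e x + 2 * z x) * e x / 2 - x * k x := fun x hx =>
    nonneg_of_deriv (f := fun x => e x + x * (e x + 2 * z x) * e x / 2 - x * k x)
      (fun x => ((he x).fun_add (((((hasDerivAt_id' x).fun_mul ((he x).fun_add
        ((hz x).const_mul 2))).fun_mul (he x))).div_const 2)).fun_sub
        ((hasDerivAt_id' x).fun_mul (hk x))) (by simp [e0]) (fun x hx => by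
        have := pe x hx
        have := pz x hx
        have := b0 x
        have := k0 x
        have h3 : 0 ≤ (e x + 2 * z x) * e x := by positivity
        have h4 : 0 ≤ x * (k x + 2 * b x) * e x := by positivity
        have h5 := mul_le_mul_of_nonneg_left (hk' x hx) hx
        linarith) hx
  set χ : ℝ → ℝ := fun x => chi (e x) (z x) (b x) x with hχ
  set ω : ℝ → ℝ := fun x => om (e x) (z x) (b x) x with hω
  set Θ : ℝ → ℝ := fun x => h x * (W x * χ x) - h1 x / x * (W x * ω x) with hΘ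
  have key : ∀ x, 0 < x → ∃ d, HasDerivAt Θ d x ∧ d ≤ F x := by
    intro x hx
    have a1 := (hW x).fun_mul (hasDerivAt_chi (he x) (hz x) (hb x) hx.ne')
    have a2 := (hW x).fun_mul (hasDerivAt_om (he x) (hz x) (hb x))
    have a3 := (hh1 x).fun_div (hasDerivAt_id' x) hx.ne'
    refine ⟨_, ((hh x).fun_mul a1).fun_sub (a3.fun_mul a2), ?_⟩
    have c1 := ineqC (pe x hx.le) (pz x hx.le) (b0 x) (k0 x) hx
    have c2 := ineqB (b := b x) (pe x hx.le) (pz x hx.le) hx (sub_nonneg.1 (pk x hx.le))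
    have c3 : 0 ≤ om (e x) (z x) (b x) x := by
      have := pe x hx.le
      have := pz x hx.le
      have := pzb x hx.le
      unfold om
      positivity
    have c4 : 0 ≤ (h2 x * x - h1 x * 1) / x ^ 2 :=
      div_nonneg (by linarith [hc x hx.le]) (sq_nonneg x)
    have c5 : 0 ≤ -(h1 x / x) := neg_nonneg.2 (div_nonpos_of_nonpos_of_nonneg (ha x hx.le) hx.le)
    have c6 := mul_le_mul_of_nonneg_left c1 (mul_nonneg (h0 x) (W0 x))
    have c7 := mul_le_mul_of_nonneg_left c2 (mul_nonneg c5 (W0 x))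
    have c8 := mul_nonneg c4 (mul_nonneg (W0 x) c3)
    have c9 : h1 x = h1 x / x * x := by field_simp
    rw [hF]
    generalize h1 x / x = A at c7 c9 ⊢
    rw [c9] at c8 ⊢
    linarith
  have hI : ∀ x, HasDerivAt (fun u => ∫ t in (0 : ℝ)..u, F t) (F x) x := fun x =>
    (hFc.integral_hasStrictDerivAt 0 x).hasDerivAt
  have hm : MonotoneOn (fun u => (∫ t in (0 : ℝ)..u, F t) - Θ u) (Ioi 0) := by
    refine monotoneOn_of_deriv_nonneg (convex_Ioi 0) (fun y hy => ?_) (fun y hy => ?_) fun y hy => ?_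
    · obtain ⟨d, h3, -⟩ := key y hy
      exact ((hI y).fun_sub h3).continuousAt.continuousWithinAt
    · obtain ⟨d, h3, -⟩ := key y (interior_subset hy)
      exact ((hI y).fun_sub h3).differentiableAt.differentiableWithinAt
    · obtain ⟨d, h3, h4⟩ := key y (interior_subset hy)
      rw [((hI y).fun_sub h3).deriv]
      linarith
  have t0 : ∀ {f f' : ℝ → ℝ}, (∀ x, HasDerivAt f (f' x) x) → Tendsto f (𝓝[>] 0) (𝓝 (f 0)) :=
    fun hf => (hf 0).continuousAt.tendsto.mono_left nhdsWithin_le_nhds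
  have te := t0 he
  have tz := t0 hz
  have tb := t0 hb
  have tI := t0 hI
  have tx := t0 hasDerivAt_id'
  rw [e0] at te
  rw [z0] at tz
  rw [intervalIntegral.integral_same] at tI
  have se := slope0 (he 0) e0
  have sz := slope0 (hz 0) z0
  have tχ : Tendsto χ (𝓝[>] 0) (𝓝 0) := by
    have := (te.mul ((((((tb.const_mul (9 / 2)).sub ((te.mul te).const_mul (7 / 100))).sub
      ((te.mul tz).const_mul (57 / 20))).sub ((tz.mul tz).const_mul (131 / 20))).add
      (se.const_mul (73 / 100))).sub (sz.const_mul (27 / 100)))).add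
      (tz.mul (((tb.const_mul (49 / 5)).sub ((tz.mul tz).const_mul (51 / 10))).add
        (sz.const_mul (3 / 25))))
    rw [zero_mul, zero_mul, add_zero] at this
    refine this.congr fun x => ?_
    simp only [hχ, chi]
    ring
  have tω : Tendsto ω (𝓝[>] 0) (𝓝 0) := by
    have := (tx.mul ((((tz.mul tz).const_mul (91 / 40)).add ((te.mul tz).const_mul (27 / 20))).add
      ((te.mul te).const_mul (7 / 40)))).add ((tz.sub (tb.mul tx)).const_mul (21 / 20))
    rw [zero_mul, mul_zero (b 0), sub_zero, mul_zero, add_zero] at this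
    exact this
  have tΘ : Tendsto Θ (𝓝[>] 0) (𝓝 0) := by
    have := ((t0 hh).mul ((t0 hW).mul tχ)).sub ((slope0 (hh1 0) h10).mul ((t0 hW).mul tω))
    rw [mul_zero, mul_zero, mul_zero, sub_zero] at this
    exact this
  have tΘ' : Tendsto Θ atTop (𝓝 0) := by
    have b1 := tendsto_bdd (P := fun p => chi p.1 p.2.1 p.2.2.1 p.2.2.2⁻¹) (by
      simp only [chi, div_inv_eq_mul]
      fun_prop) hM d0
    have b2 := tendsto_bdd (P := fun p => (91 / 40 * (p.2.1 * p.2.1) + 27 / 20 * (p.1 * p.2.1) +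
      7 / 40 * (p.1 * p.1)) + 21 / 20 * (p.2.1 * p.2.2.2 - p.2.2.1)) (by fun_prop) hM d1
    have := b1.sub b2
    rw [sub_zero] at this
    refine this.congr' ?_
    filter_upwards [eventually_gt_atTop 0] with x hx
    simp only [hΘ, hχ, hω, inv_inv, om]
    field_simp
  have l0 := tI.sub tΘ
  have l1 := (intervalIntegral_tendsto_integral_Ioi 0 hFi tendsto_id).sub tΘ'
  rw [sub_zero] at l0 l1
  refine ge_of_tendsto l1 ?_
  filter_upwards [eventually_gt_atTop 0] with R hR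
  refine le_of_tendsto l0 ?_
  filter_upwards [Ioo_mem_nhdsGT hR] with a ha'
  exact hm ha'.1 hR ha'.2.le

theorem decay {m : ℝ} {φ g : ℝ → ℝ} (hm : 0 < m) (hφ : Reg φ) {C : ℝ}
    (hg : ∀ x, |g x| ≤ C * exp (-((m + 1) * |x|))) :
    Tendsto (fun x => g x * (exp (m * φ x) * D 2 φ x ^ 2)) atTop (𝓝 0) := by
  obtain ⟨C2, h2⟩ := hφ.bdd 2 (by norm_num)
  have hC : 0 ≤ C := by
    have := (abs_nonneg _).trans (hg 0)
    simpa using this
  have h1 := Real.tendsto_exp_neg_atTop_nhds_zero.const_mul (C * exp (m * |φ 0|) * C2 ^ 2)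
  rw [mul_zero] at h1
  refine squeeze_zero_norm' ?_ h1
  filter_upwards [eventually_ge_atTop 0] with x hx
  have a1 : exp (m * φ x) ≤ exp (m * (|φ 0| + |x|)) :=
    exp_le_exp.2 (mul_le_mul_of_nonneg_left ((le_abs_self _).trans (hφ.abs_le x)) hm.le)
  have a2 : D 2 φ x ^ 2 ≤ C2 ^ 2 := by
    rw [← sq_abs]
    exact pow_le_pow_left₀ (abs_nonneg _) (h2 x) 2
  have a3 : exp (-((m + 1) * |x|)) * exp (m * (|φ 0| + |x|)) = exp (m * |φ 0|) * exp (-x) := by
    rw [← exp_add, ← exp_add, abs_of_nonneg hx]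
    congr 1
    ring
  rw [Real.norm_eq_abs, abs_mul, abs_of_nonneg (a := exp (m * φ x) * D 2 φ x ^ 2) (by positivity)]
  calc |g x| * (exp (m * φ x) * D 2 φ x ^ 2)
      ≤ C * exp (-((m + 1) * |x|)) * (exp (m * (|φ 0| + |x|)) * C2 ^ 2) := by
        gcongr
        exact hg x
    _ = C * (exp (-((m + 1) * |x|)) * exp (m * (|φ 0| + |x|))) * C2 ^ 2 := by ring
    _ = _ := by
        rw [a3]
        ring

end PCert

theorem cert_main {m : ℝ} {φ h : ℝ → ℝ} (hm : 0 < m) (hφ : Reg φ) (hI : Inv m φ) (hh : Good h) :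
    0 ≤ ∫ x, h x * exp (m * φ x) * QQ m φ x := by
  by_cases hi : Integrable fun x => h x * exp (m * φ x) * QQ m φ x
  swap
  · rw [integral_undef hi]
  have hev : ∀ x, h |x| * exp (m * φ |x|) * QQ m φ |x| = h x * exp (m * φ x) * QQ m φ x := by
    intro x
    rcases abs_choice x with e | e <;> rw [e]
    rw [hh.even, hφ.even, QQ, QQ, hφ.D_neg, hφ.D_neg, hφ.D_neg]
    ring
  have h2 := integral_comp_abs (f := fun x => h x * exp (m * φ x) * QQ m φ x)
  simp only [hev] at h2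
  rw [h2]
  refine mul_nonneg zero_le_two ?_
  have dφ : ∀ x, HasDerivAt φ (D 1 φ x) x := fun x => by
    have := hφ.hasDerivAt 0 x
    rwa [D, iteratedDeriv_zero] at this
  have dh : ∀ x, HasDerivAt h (D 1 h x) x := fun x => by
    rw [D, iteratedDeriv_one]
    exact (hh.smooth.differentiable (by norm_num) x).hasDerivAt
  have dh1 : ∀ x, HasDerivAt (D 1 h) (D 2 h x) x := fun x => by
    rw [D, D, iteratedDeriv_succ (n := 1)]
    exact (hh.smooth.differentiable_iteratedDeriv 1 (by norm_num) x).hasDerivAt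
  have cD : ∀ n, Continuous (D n φ) := fun n =>
    continuous_iff_continuousAt.2 fun x => (hφ.hasDerivAt n x).continuousAt
  have z1 : D 1 φ 0 = 0 := by
    have := hφ.D_neg 1 0
    rw [neg_zero] at this
    linarith
  have z3 : D 3 φ 0 = 0 := by
    have := hφ.D_neg 3 0
    rw [neg_zero] at this
    linarith
  have zh : D 1 h 0 = 0 := by
    have h3 : HasDerivAt h (D 1 h 0) (-0) := by
      rw [neg_zero]
      exact dh 0
    have h4 := h3.comp 0 (hasDerivAt_neg' 0)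
    have h5 : (h ∘ fun x => -x) = h := funext hh.even
    rw [h5] at h4
    have := h4.unique (dh 0)
    linarith
  have hy : ∀ x, yy φ x - 2 * (m * D 1 φ x) + 2 * (m * D 1 φ x) = yy φ x := fun x => by ring
  obtain ⟨C, hC⟩ := hφ.ratio
  obtain ⟨C2, hC2⟩ := hφ.bdd 2 (by norm_num)
  obtain ⟨C3, hC3⟩ := hh.decay (m + 1)
  refine PCert.main (e := fun x => yy φ x - 2 * (m * D 1 φ x)) (z := fun x => m * D 1 φ x)
    (b := fun x => m * D 2 φ x) (k := kk m φ) (k' := kk' m φ)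
    (W := fun x => exp (m * φ x) * D 2 φ x ^ 2) (h := h) (h1 := D 1 h) (h2 := D 2 h)
    (M := |C| + 2 * m + m * |C2|)
    (fun x => ?_) (fun x => (hφ.hasDerivAt 1 x).const_mul m) (fun x => ?_) (hφ.hasDerivAt_kk m)
    (fun x => ?_) ?_ ?_ (fun x => (mul_pos hm (hφ.pos x)).le) hI.k_nonneg (fun x => by positivity)
    (fun x hx => ?_) dh dh1 zh hh.nonneg hh.anti hh.conv (fun x => ?_)
    (PCert.decay hm hφ fun x => (hC3 x).1) (PCert.decay hm hφ fun x => (hC3 x).2.1)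
    (fun x => ?_) ?_ hi.integrableOn
  · refine ((hφ.hasDerivAt_yy m x).fun_sub
      (((hφ.hasDerivAt 1 x).const_mul m).const_mul 2)).congr_deriv ?_
    ring
  · refine ((hφ.hasDerivAt 2 x).const_mul m).congr_deriv ?_
    have := (hφ.pos x).ne'
    rw [hy, yy]
    field_simp
  · refine ((((dφ x).const_mul m).exp).fun_mul ((hφ.hasDerivAt 2 x).fun_pow 2)).congr_deriv ?_
    have := (hφ.pos x).ne'
    rw [hy, yy]
    norm_num
    field_simp
  · simp only [yy, z1, z3]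
    simp
  · simp only [z1, mul_zero]
  · rw [hy]
    exact hI.k'_le x hx
  · have a1 : |yy φ x| ≤ |C| := by
      rw [yy, abs_neg, abs_div, abs_of_pos (hφ.pos x), div_le_iff₀ (hφ.pos x)]
      exact (hC x).1.trans (mul_le_mul_of_nonneg_right (le_abs_self C) (hφ.pos x).le)
    have a2 : |m * D 1 φ x| ≤ m := by
      rw [abs_mul, abs_of_pos hm]
      exact mul_le_of_le_one_right hm.le (hφ.d1 x)
    have a3 : |m * D 2 φ x| ≤ m * |C2| := by
      rw [abs_mul, abs_of_pos hm]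
      exact mul_le_mul_of_nonneg_left ((hC2 x).trans (le_abs_self _)) hm.le
    have a4 : 0 ≤ m * |C2| := by positivity
    have a5 := abs_nonneg C
    have a6 := abs_le.1 a1
    have a7 := abs_le.1 a2
    refine ⟨abs_le.2 ⟨?_, ?_⟩, ?_, ?_⟩ <;> linarith
  · have := (hφ.pos x).ne'
    simp only [PCert.TT, hy]
    rw [QQ, yy, kk]
    field_simp
    ring
  · have := hh.smooth.continuous
    have := hφ.smooth.continuous
    have := cD 2
    have := cD 3
    have := cD 4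
    unfold QQ
    fun_prop

end Crest.Agent.R339
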