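import Mathlib

/-!
# Row 339, Parisi side: definitions

Finite-step Parisi recursion on the grid `t_l = l / L` at inverse temperature `β`
(`Φ_L = β⁻¹ log 2cosh(β x)`, `Φ_l = T (g l) δ Φ_{l+1}`, `δ = 1/L`), the law of the tilted chain, the
regularity class `Reg`, the backward invariants `Inv`, the forward class `Good`, and the message
passing data `AMP` which is the interface with the quantum side.
-/

set_option autoImplicit false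

namespace Crest.Agent.R339

open MeasureTheory ProbabilityTheory Real

/-- Standard Gaussian measure on `ℝ`. -/
noncomputable abbrev γ1 : Measure ℝ := gaussianReal 0 1

/-- Standard Gaussian measure on `ℝ^(K+1)`. -/
noncomputable abbrev gam (K : ℕ) : Measure (Fin (K + 1) → ℝ) := Measure.pi fun _ => γ1

/-- One Cole–Hopf step of length `τ` with exponent `m`. -/
noncomputable def T (m τ : ℝ) (φ : ℝ → ℝ) (x : ℝ) : ℝ :=
  m⁻¹ * log (∫ z, exp (m * φ (x + √τ * z)) ∂γ1)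

/-- Terminal condition. -/
noncomputable def term (β x : ℝ) : ℝ := β⁻¹ * log (2 * cosh (β * x))

/-- `PhiN β L g k` is `Φ_{L-k}`. -/
noncomputable def PhiN (β : ℝ) (L : ℕ) (g : ℕ → ℝ) : ℕ → ℝ → ℝ
  | 0 => term β
  | k + 1 => T (g (L - (k + 1))) (1 / L) (PhiN β L g k)

/-- `Φ_l`, the solution at the grid time `l / L`. -/
noncomputable def Phi (β : ℝ) (L : ℕ) (g : ℕ → ℝ) (l : ℕ) : ℝ → ℝ := PhiN β L g (L - l)

lemma Phi_of_ge (β : ℝ) {L : ℕ} (g : ℕ → ℝ) {l : ℕ} (h : L ≤ l) : Phi β L g l = term β := by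
  simp [Phi, Nat.sub_eq_zero_of_le h, PhiN]

lemma Phi_of_lt (β : ℝ) {L : ℕ} (g : ℕ → ℝ) {l : ℕ} (h : l < L) :
    Phi β L g l = T (g l) (1 / L) (Phi β L g (l + 1)) := by
  have h1 : L - l = (L - (l + 1)) + 1 := by omega
  have h2 : L - (L - (l + 1) + 1) = l := by omega
  simp only [Phi, h1, PhiN, h2]

/-- The solution at time `l / L + τ`, for `0 ≤ τ ≤ 1 / L`. -/
noncomputable def Psi (β : ℝ) (L : ℕ) (g : ℕ → ℝ) (l : ℕ) (τ : ℝ) : ℝ → ℝ :=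
  T (g l) (1 / L - τ) (Phi β L g (l + 1))

/-- The finite-step Parisi functional `Φ(0,0) - ½ ∫ s γ(s) ds`. -/
noncomputable def Par (β : ℝ) (L : ℕ) (g : ℕ → ℝ) : ℝ :=
  Phi β L g 0 0 - ∑ l ∈ Finset.range L, g l * ((2 * l + 1) / (4 * (L : ℝ) ^ 2))

/-- Admissible order parameters. -/
structure Adm (β γ₀ : ℝ) (g : ℕ → ℝ) : Prop where
  lo : ∀ l, γ₀ ≤ g l
  hi : ∀ l, g l ≤ β
  mono : Monotone g

/-- Push the law `ν` forward by a tilted Gaussian step. -/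
noncomputable def step (m τ : ℝ) (ψ φ : ℝ → ℝ) (ν : Measure ℝ) : Measure ℝ :=
  ((ν.prod γ1).withDensity fun p => ENNReal.ofReal (exp (m * (ψ (p.1 + √τ * p.2) - φ p.1)))).map
    fun p => p.1 + √τ * p.2

/-- Law of the tilted chain at the grid time `l / L`. -/
noncomputable def rho (β : ℝ) (L : ℕ) (g : ℕ → ℝ) : ℕ → Measure ℝ
  | 0 => Measure.dirac 0
  | l + 1 => step (g l) (1 / L) (Phi β L g (l + 1)) (Phi β L g l) (rho β L g l)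

/-- Law of the tilted chain at time `l / L + τ`. -/
noncomputable def law (β : ℝ) (L : ℕ) (g : ℕ → ℝ) (l : ℕ) (τ : ℝ) : Measure ℝ :=
  step (g l) τ (Psi β L g l τ) (Phi β L g l) (rho β L g l)

/-- `n`-th derivative. -/
noncomputable abbrev D (n : ℕ) (φ : ℝ → ℝ) : ℝ → ℝ := iteratedDeriv n φ

/-- Regularity class of the solutions of the Parisi recursion. -/
structure Reg (φ : ℝ → ℝ) : Prop where
  smooth : ContDiff ℝ (⊤ : ℕ∞) φ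
  even : ∀ x, φ (-x) = φ x
  d1 : ∀ x, |D 1 φ x| ≤ 1
  bdd : ∀ n, 1 ≤ n → ∃ C, ∀ x, |D n φ x| ≤ C
  pos : ∀ x, 0 < D 2 φ x
  ratio : ∃ C, ∀ x, |D 3 φ x| ≤ C * D 2 φ x ∧ |D 4 φ x| ≤ C * D 2 φ x ∧ |D 5 φ x| ≤ C * D 2 φ x

/-- `y = -w'/w` with `w = φ''`. -/
noncomputable def yy (φ : ℝ → ℝ) (x : ℝ) : ℝ := -(D 3 φ x / D 2 φ x)

/-- `k = y' - 2 m w`. -/
noncomputable def kk (m : ℝ) (φ : ℝ → ℝ) (x : ℝ) : ℝ :=
  (D 3 φ x ^ 2 - D 4 φ x * D 2 φ x) / D 2 φ x ^ 2 - 2 * m * D 2 φ x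

/-- `k'`. -/
noncomputable def kk' (m : ℝ) (φ : ℝ → ℝ) (x : ℝ) : ℝ :=
  (3 * D 2 φ x * D 3 φ x * D 4 φ x - D 5 φ x * D 2 φ x ^ 2 - 2 * D 3 φ x ^ 3) / D 2 φ x ^ 3
    - 2 * m * D 3 φ x

/-- The two backward invariants. -/
structure Inv (m : ℝ) (φ : ℝ → ℝ) : Prop where
  k_nonneg : ∀ x, 0 ≤ kk m φ x
  k'_le : ∀ x, 0 ≤ x → kk' m φ x ≤ kk m φ x * yy φ x / 2

/-- The forward class: `h x = H (x^2)` with `H` convex and decreasing, with fast decay. -/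
structure Good (h : ℝ → ℝ) : Prop where
  smooth : ContDiff ℝ 2 h
  even : ∀ x, h (-x) = h x
  nonneg : ∀ x, 0 ≤ h x
  anti : ∀ x, 0 ≤ x → D 1 h x ≤ 0
  conv : ∀ x, 0 ≤ x → D 1 h x ≤ x * D 2 h x
  decay : ∀ c : ℝ, ∃ C, ∀ x, |h x| ≤ C * exp (-(c * |x|)) ∧ |D 1 h x| ≤ C * exp (-(c * |x|)) ∧
    |D 2 h x| ≤ C * exp (-(c * |x|))

/-- The integrand of `F'''`. -/
noncomputable def QQ (m : ℝ) (φ : ℝ → ℝ) (x : ℝ) : ℝ :=
  D 4 φ x ^ 2 - 12 * m * D 2 φ x * D 3 φ x ^ 2 + 6 * m ^ 2 * D 2 φ x ^ 4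

section
variable (β : ℝ) (L : ℕ) (g : ℕ → ℝ) (l : ℕ) (τ : ℝ)

/-- `F = E u²`. -/
noncomputable def F0 : ℝ := ∫ x, D 1 (Psi β L g l τ) x ^ 2 ∂law β L g l τ
/-- `F' = E w²`. -/
noncomputable def F1 : ℝ := ∫ x, D 2 (Psi β L g l τ) x ^ 2 ∂law β L g l τ
/-- `F'' = E (p² - 2 m w³)`. -/
noncomputable def F2 : ℝ :=
  ∫ x, (D 3 (Psi β L g l τ) x ^ 2 - 2 * g l * D 2 (Psi β L g l τ) x ^ 3) ∂law β L g l τ
/-- `F'''`. -/
noncomputable def F3 : ℝ := ∫ x, QQ (g l) (Psi β L g l τ) x ∂law β L g l τ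
/-- `E Φ`. -/
noncomputable def EA : ℝ := ∫ x, Psi β L g l τ x ∂law β L g l τ
/-- `E X u`. -/
noncomputable def EB : ℝ := ∫ x, x * D 1 (Psi β L g l τ) x ∂law β L g l τ
/-- `E w`. -/
noncomputable def EW : ℝ := ∫ x, D 2 (Psi β L g l τ) x ∂law β L g l τ
/-- `E X²`. -/
noncomputable def EM : ℝ := ∫ x, x ^ 2 ∂law β L g l τ
/-- `f = F - s`. -/
noncomputable def ff : ℝ := F0 β L g l τ - (l / L + τ)
end

/-- `G i = ∫_{t_i}^1 f`. -/
noncomputable def GG (β : ℝ) (L : ℕ) (g : ℕ → ℝ) (i : ℕ) : ℝ :=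
  ∑ l ∈ Finset.Ico i L, ∫ τ in (0 : ℝ)..(1 / L), ff β L g l τ

/-- The grid point `i` carries mass of `dγ`. -/
def Supp (β γ₀ : ℝ) (L : ℕ) (g : ℕ → ℝ) (i : ℕ) : Prop :=
  (i = 0 ∧ γ₀ < g 0) ∨ (0 < i ∧ i < L ∧ g (i - 1) < g i) ∨ (i = L ∧ g (L - 1) < β)

/-- `f` is continuous on `[0, δ]` with derivative `f'` on `(0, δ)`. -/
def DerOn (δ : ℝ) (f f' : ℝ → ℝ) : Prop :=
  ContinuousOn f (Set.Icc 0 δ) ∧ ∀ τ ∈ Set.Ioo 0 δ, HasDerivAt f (f' τ) τ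

/-- Message passing data: labels `ω 0, …, ω K` are independent standard Gaussians; `ω a` is the field
created by the (orthonormal) function `f a` of the earlier labels; `m` is the final magnetisation. -/
structure AMP (K : ℕ) where
  f : Fin (K + 1) → (Fin (K + 1) → ℝ) → ℝ
  m : (Fin (K + 1) → ℝ) → ℝ
  f_meas : ∀ a, Measurable (f a)
  m_meas : Measurable m
  f_bdd : ∃ C, ∀ a ω, |f a ω| ≤ C
  m_bdd : ∀ ω, |m ω| ≤ 1
  f_zero : ∀ ω, f 0 ω = 1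
  f_odd : ∀ a, a ≠ 0 → ∀ ω, f a (-ω) = -f a ω
  m_odd : ∀ ω, m (-ω) = -m ω
  f_dep : ∀ a ω ω', (∀ b, b < a → ω b = ω' b) → f a ω = f a ω'
  orth : ∀ a b, ∫ ω, f a ω * f b ω ∂gam K = if a = b then 1 else 0

/-- The energy reached by the message passing scheme. -/
noncomputable def AMP.value {K : ℕ} (A : AMP K) : ℝ :=
  ∑ a, (∫ ω, A.f a ω * A.m ω ∂gam K) * ∫ ω, ω a * A.m ω ∂gam K

end Crest.Agent.R339
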