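import Crest.Agent.R339.PDefs

/-! # Row 339: a martingale chain driven by the labels is a message passing scheme -/

set_option autoImplicit false

namespace Crest.Agent.R339.Eul

open MeasureTheory ProbabilityTheory Real Set Filter Topology

variable {K : ℕ}

/-- the label with index `l` -/
def co (ω : Fin (K + 1) → ℝ) (l : ℕ) : ℝ := if h : l < K + 1 then ω ⟨l, h⟩ else 0

/-- the chain -/
def ch (Y : ℕ → ℝ → ℝ → ℝ) : ℕ → (Fin (K + 1) → ℝ) → ℝ
  | 0, _ => 0
  | l + 1, ω => Y l (ch Y l ω) (co ω l)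

/-- depends only on the labels with index `< l` -/
def Dep (l : ℕ) (A : (Fin (K + 1) → ℝ) → ℝ) : Prop :=
  ∀ ω ω', (∀ b : Fin (K + 1), b.val < l → ω b = ω' b) → A ω = A ω'

theorem Dep.mono {l n : ℕ} {A : (Fin (K + 1) → ℝ) → ℝ} (h : Dep l A) (hl : l ≤ n) : Dep n A :=
  fun ω ω' e => h ω ω' fun b hb => e b (hb.trans_le hl)

theorem co_meas (l : ℕ) : Measurable fun ω : Fin (K + 1) → ℝ => co ω l := by
  unfold co
  split_ifs
  · exact measurable_pi_apply _
  · exact measurable_const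

theorem co_fin (ω : Fin (K + 1) → ℝ) (i : Fin (K + 1)) : co ω i = ω i := by
  simp [co, i.isLt]

variable {Y : ℕ → ℝ → ℝ → ℝ}

theorem ch_meas (hY : ∀ l, Measurable fun p : ℝ × ℝ => Y l p.1 p.2) (l : ℕ) :
    Measurable (ch (K := K) Y l) := by
  induction l with
  | zero => exact measurable_const
  | succ l ih => exact (hY l).comp (ih.prodMk (co_meas l))

theorem ch_neg (hY : ∀ l x z, Y l (-x) (-z) = -Y l x z) (l : ℕ) (ω : Fin (K + 1) → ℝ) :
    ch Y l (-ω) = -ch Y l ω := by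
  induction l with
  | zero => simp [ch]
  | succ l ih =>
    have : co (-ω) l = -co ω l := by
      unfold co
      split_ifs <;> simp
    simp only [ch, ih, this, hY]

theorem ch_dep (l : ℕ) : Dep l (ch (K := K) Y l) := by
  induction l with
  | zero => intro _ _ _; rfl
  | succ l ih =>
    intro ω ω' e
    have h1 := ih ω ω' fun b hb => e b (by omega)
    have h2 : co ω l = co ω' l := by
      unfold co
      split_ifs with h
      · exact e _ (by simp)
      · rfl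
    simp only [ch, h1, h2]

theorem resample (i : Fin (K + 1)) :
    MeasurePreserving (fun p : (Fin (K + 1) → ℝ) × ℝ => Function.update p.1 i p.2)
      ((gam K).prod γ1) (gam K) := by
  have hm : Measurable (fun p : (Fin (K + 1) → ℝ) × ℝ => Function.update p.1 i p.2) :=
    measurable_update'
  refine ⟨hm, ?_⟩
  symm
  refine Measure.pi_eq fun s hs => ?_
  rw [Measure.map_apply hm (MeasurableSet.univ_pi hs)]
  have : (fun p : (Fin (K + 1) → ℝ) × ℝ => Function.update p.1 i p.2) ⁻¹' Set.univ.pi s =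
      (Set.univ.pi (Function.update s i Set.univ)) ×ˢ s i := by
    ext ⟨g, t⟩
    simp only [Set.mem_preimage, Set.mem_pi, Set.mem_univ, true_implies, Set.mem_prod]
    constructor
    · intro h
      refine ⟨fun j => ?_, by simpa using h i⟩
      by_cases hj : j = i
      · subst hj; simp
      · simpa [Function.update_of_ne hj] using h j
    · rintro ⟨h1, h2⟩ j
      by_cases hj : j = i
      · subst hj; simpa using h2
      · simpa [Function.update_of_ne hj] using h1 j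
  rw [this, Measure.prod_prod, gam, Measure.pi_pi, ← Finset.mul_prod_erase _ _ (Finset.mem_univ i),
    ← Finset.mul_prod_erase _ (fun j => gaussianReal 0 1 (s j)) (Finset.mem_univ i)]
  rw [Function.update_self, measure_univ, one_mul, mul_comm]
  congr 1
  exact Finset.prod_congr rfl fun j hj => by rw [Function.update_of_ne (Finset.ne_of_mem_erase hj)]

/-- conditioning on the labels `< l` -/
theorem int_step {l : ℕ} (hl : l ≤ K) (G : (Fin (K + 1) → ℝ) → ℝ → ℝ)
    (hG : ∀ z, Dep l fun ω => G ω z) (hi : Integrable (fun ω => G ω (co ω l)) (gam K)) :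
    Integrable (fun ω => ∫ z, G ω z ∂γ1) (gam K) ∧
      ∫ ω, G ω (co ω l) ∂gam K = ∫ ω, ∫ z, G ω z ∂γ1 ∂gam K := by
  let i : Fin (K + 1) := ⟨l, by omega⟩
  have h := resample (K := K) i
  have e : (fun ω => G ω (co ω l)) ∘ (fun p : (Fin (K + 1) → ℝ) × ℝ => Function.update p.1 i p.2) =
      fun p => G p.1 p.2 := by
    funext p
    have h1 : co (Function.update p.1 i p.2) l = p.2 := by
      have := co_fin (Function.update p.1 i p.2) i
      rw [Function.update_self] at this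
      exact this
    simp only [Function.comp, h1]
    refine hG p.2 _ _ fun b hb => Function.update_of_ne ?_ _ _
    rintro rfl
    exact lt_irrefl _ hb
  have hi' := h.integrable_comp_of_integrable hi
  rw [e] at hi'
  refine ⟨hi'.integral_prod_left, ?_⟩
  rw [← integral_prod _ hi', ← e]
  conv_lhs => rw [← h.map_eq]
  exact integral_map h.measurable.aemeasurable (by rw [h.map_eq]; exact hi.aestronglyMeasurable)

theorem int_bdd {α : Type*} [MeasurableSpace α] {μ : Measure α} [IsFiniteMeasure μ] {f : α → ℝ}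
    (hf : Measurable f) {B : ℝ} (hB : ∀ x, |f x| ≤ B) : Integrable f μ :=
  Integrable.of_bound hf.aestronglyMeasurable B (Eventually.of_forall hB)

/-- data of a martingale chain -/
structure Ch (K : ℕ) (Y : ℕ → ℝ → ℝ → ℝ) (u : ℕ → ℝ → ℝ) : Prop where
  meas : ∀ l, Measurable fun p : ℝ × ℝ => Y l p.1 p.2
  odd : ∀ l x z, Y l (-x) (-z) = -Y l x z
  um : ∀ l, Measurable (u l)
  uo : ∀ l x, u l (-x) = -u l x
  ub : ∀ l x, |u l x| ≤ 1
  mart : ∀ l ≤ K, ∀ x, ∫ z, u (l + 1) (Y l x z) ∂γ1 = u l x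
  pos : ∀ l ≤ K, ∀ x, 0 < ∫ z, (u (l + 1) (Y l x z) - u l x) ^ 2 ∂γ1

variable {u : ℕ → ℝ → ℝ}

theorem Ch.law (h : Ch K Y u) {l : ℕ} (hl : l ≤ K) {f : ℝ → ℝ} (hf : Measurable f) {B : ℝ}
    (hB : ∀ x, |f x| ≤ B) :
    Integrable (fun ω => ∫ z, f (Y l (ch Y l ω) z) ∂γ1) (gam K) ∧
    ∫ ω, f (ch Y (l + 1) ω) ∂gam K = ∫ ω, ∫ z, f (Y l (ch Y l ω) z) ∂γ1 ∂gam K :=
  int_step hl (fun ω z => f (Y l (ch Y l ω) z))
    (fun _ ω ω' e => by simp only [ch_dep l ω ω' e])
    (int_bdd (hf.comp (ch_meas h.meas (l + 1))) fun _ => hB _)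

theorem Ch.int_mul (h : Ch K Y u) {A : (Fin (K + 1) → ℝ) → ℝ} (hA : Integrable A (gam K)) (n : ℕ) :
    Integrable (fun ω => A ω * u n (ch Y n ω)) (gam K) :=
  hA.mul_bdd ((h.um n).comp (ch_meas h.meas n)).aestronglyMeasurable
    (Eventually.of_forall fun _ => h.ub n _)

theorem Ch.mart' (h : Ch K Y u) {l : ℕ} {A : (Fin (K + 1) → ℝ) → ℝ} (hA : Integrable A (gam K))
    (hd : Dep l A) {n : ℕ} (hl : l ≤ n) (hn : n ≤ K + 1) :
    ∫ ω, A ω * u n (ch Y n ω) ∂gam K = ∫ ω, A ω * u l (ch Y l ω) ∂gam K := by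
  induction n, hl using Nat.le_induction with
  | base => rfl
  | succ n hl ih =>
    rw [← ih (by omega)]
    have := (int_step (K := K) (l := n) (by omega) (fun ω z => A ω * u (n + 1) (Y n (ch Y n ω) z))
      (fun _ ω ω' e => by simp only [ch_dep n ω ω' e, hd.mono hl ω ω' e]) (h.int_mul hA (n + 1))).2
    refine this.trans (integral_congr_ae (Eventually.of_forall fun ω => ?_))
    simp only [integral_const_mul, h.mart n (by omega)]

/-- martingale increments -/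
def inc (Y : ℕ → ℝ → ℝ → ℝ) (u : ℕ → ℝ → ℝ) (l : ℕ) (ω : Fin (K + 1) → ℝ) : ℝ :=
  u (l + 1) (ch Y (l + 1) ω) - u l (ch Y l ω)

/-- their norms -/
noncomputable def sig (K : ℕ) (Y : ℕ → ℝ → ℝ → ℝ) (u : ℕ → ℝ → ℝ) (l : ℕ) : ℝ :=
  √(∫ ω, inc Y u l ω ^ 2 ∂gam K)

theorem Ch.inc_meas (h : Ch K Y u) (l : ℕ) : Measurable (inc (K := K) Y u l) :=
  ((h.um _).comp (ch_meas h.meas _)).sub ((h.um _).comp (ch_meas h.meas _))

theorem Ch.inc_bd (h : Ch K Y u) (l : ℕ) (ω : Fin (K + 1) → ℝ) : |inc Y u l ω| ≤ 2 := by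
  have h1 := abs_le.1 (h.ub (l + 1) (ch Y (l + 1) ω))
  have h2 := abs_le.1 (h.ub l (ch Y l ω))
  unfold inc
  exact abs_le.2 ⟨by linarith, by linarith⟩

theorem inc_dep (l : ℕ) : Dep (l + 1) (inc (K := K) Y u l) := fun ω ω' e => by
  simp only [inc, ch_dep (l + 1) ω ω' e, (ch_dep l).mono (Nat.le_succ l) ω ω' e]

theorem Ch.inc_orth (h : Ch K Y u) {l : ℕ} (hl : l ≤ K) {A : (Fin (K + 1) → ℝ) → ℝ}
    (hA : Integrable A (gam K)) (hd : Dep l A) : ∫ ω, A ω * inc Y u l ω ∂gam K = 0 := by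
  simp only [inc, mul_sub]
  rw [integral_sub (h.int_mul hA _) (h.int_mul hA _), h.mart' hA hd (Nat.le_succ l) (by omega),
    sub_self]

theorem Ch.inc_sq (h : Ch K Y u) {l : ℕ} (hl : l ≤ K) :
    Integrable (fun ω => ∫ z, (u (l + 1) (Y l (ch Y l ω) z) - u l (ch Y l ω)) ^ 2 ∂γ1) (gam K) ∧
    ∫ ω, inc Y u l ω ^ 2 ∂gam K =
      ∫ ω, ∫ z, (u (l + 1) (Y l (ch Y l ω) z) - u l (ch Y l ω)) ^ 2 ∂γ1 ∂gam K :=
  int_step hl (fun ω z => (u (l + 1) (Y l (ch Y l ω) z) - u l (ch Y l ω)) ^ 2)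
    (fun _ ω ω' e => by simp only [ch_dep l ω ω' e])
    (int_bdd ((h.inc_meas l).pow_const 2) (B := 2 ^ 2) fun ω => by
      rw [abs_pow]
      exact pow_le_pow_left₀ (abs_nonneg _) (h.inc_bd l ω) 2)

theorem Ch.sig_pos (h : Ch K Y u) {l : ℕ} (hl : l ≤ K) : 0 < sig K Y u l := by
  obtain ⟨h1, h2⟩ := h.inc_sq hl
  rw [sig, h2, Real.sqrt_pos,
    integral_pos_iff_support_of_nonneg (fun ω => (h.pos l hl _).le) h1]
  have : (Function.support fun ω : Fin (K + 1) → ℝ =>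
      ∫ z, (u (l + 1) (Y l (ch Y l ω) z) - u l (ch Y l ω)) ^ 2 ∂γ1) = univ :=
    eq_univ_of_forall fun ω => (h.pos l hl _).ne'
  rw [this]
  simp

theorem sig_sq (l : ℕ) : sig K Y u l ^ 2 = ∫ ω, inc Y u l ω ^ 2 ∂gam K :=
  Real.sq_sqrt (integral_nonneg fun _ => sq_nonneg _)

/-- the orthonormal functions -/
noncomputable def fn (K : ℕ) (Y : ℕ → ℝ → ℝ → ℝ) (u : ℕ → ℝ → ℝ) : ℕ → (Fin (K + 1) → ℝ) → ℝ
  | 0, _ => 1
  | l + 1, ω => (sig K Y u l)⁻¹ * inc Y u l ω

theorem Ch.fn_meas (h : Ch K Y u) : ∀ a, Measurable (fn K Y u a)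
  | 0 => measurable_const
  | l + 1 => (h.inc_meas l).const_mul _

theorem Ch.fn_bd (h : Ch K Y u) : ∀ a, ∃ B, ∀ ω, |fn K Y u a ω| ≤ B
  | 0 => ⟨1, fun _ => by simp [fn]⟩
  | l + 1 => ⟨|(sig K Y u l)⁻¹| * 2, fun ω => by
      rw [fn, abs_mul]
      exact mul_le_mul_of_nonneg_left (h.inc_bd l ω) (abs_nonneg _)⟩

theorem Ch.fn_int (h : Ch K Y u) (a : ℕ) : Integrable (fn K Y u a) (gam K) :=
  (h.fn_bd a).elim fun _ hB => int_bdd (h.fn_meas a) hB

theorem fn_dep : ∀ a, Dep a (fn K Y u a)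
  | 0 => fun _ _ _ => rfl
  | l + 1 => fun ω ω' e => by simp only [fn, inc_dep l ω ω' e]

theorem Ch.fn_orth (h : Ch K Y u) {a b : ℕ} (hab : a < b) (hb : b ≤ K) :
    ∫ ω, fn K Y u a ω * fn K Y u b ω ∂gam K = 0 := by
  obtain ⟨l, rfl⟩ : ∃ l, b = l + 1 := ⟨b - 1, by omega⟩
  have := h.inc_orth (l := l) (by omega) (h.fn_int a) ((fn_dep a).mono (by omega))
  have e : ∀ ω, fn K Y u a ω * fn K Y u (l + 1) ω =
      (sig K Y u l)⁻¹ * (fn K Y u a ω * inc Y u l ω) := fun ω => mul_left_comm _ _ _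
  simp only [e]
  rw [integral_const_mul, this, mul_zero]

theorem Ch.fn_norm (h : Ch K Y u) {a : ℕ} (ha : a ≤ K) :
    ∫ ω, fn K Y u a ω * fn K Y u a ω ∂gam K = 1 := by
  cases a with
  | zero => simp [fn]
  | succ l =>
    have h0 := (h.sig_pos (l := l) (by omega)).ne'
    have e : ∀ ω, fn K Y u (l + 1) ω * fn K Y u (l + 1) ω =
        (sig K Y u l)⁻¹ ^ 2 * inc Y u l ω ^ 2 := fun ω => by simp only [fn]; ring
    simp only [e]
    rw [integral_const_mul, ← sig_sq]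
    field_simp

theorem Ch.fn_m (h : Ch K Y u) {l : ℕ} (hl : l ≤ K) :
    ∫ ω, fn K Y u (l + 1) ω * u (K + 1) (ch Y (K + 1) ω) ∂gam K = sig K Y u l := by
  have h0 := (h.sig_pos hl).ne'
  rw [h.mart' (h.fn_int _) (fn_dep _) (by omega) le_rfl]
  have i1 : Integrable (fun ω : Fin (K + 1) → ℝ => u l (ch Y l ω)) (gam K) :=
    int_bdd ((h.um l).comp (ch_meas h.meas l)) fun _ => h.ub l _
  have h1 := h.inc_orth hl i1 fun ω ω' e => by simp only [ch_dep l ω ω' e]
  have i2 : Integrable (fun ω => inc Y u l ω ^ 2) (gam K) :=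
    int_bdd ((h.inc_meas l).pow_const 2) (B := 2 ^ 2) fun ω => by
      rw [abs_pow]
      exact pow_le_pow_left₀ (abs_nonneg _) (h.inc_bd l ω) 2
  have i3 : Integrable (fun ω => u l (ch Y l ω) * inc Y u l ω) (gam K) :=
    i1.mul_bdd (h.inc_meas l).aestronglyMeasurable (Eventually.of_forall (h.inc_bd l))
  have e : ∀ ω, fn K Y u (l + 1) ω * u (l + 1) (ch Y (l + 1) ω) =
      (sig K Y u l)⁻¹ * (inc Y u l ω ^ 2 + u l (ch Y l ω) * inc Y u l ω) := fun ω => by
    simp only [fn, inc]; ring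
  simp only [e]
  rw [integral_const_mul, integral_add i2 i3, h1, ← sig_sq]
  field_simp
  ring

theorem int_co (i : Fin (K + 1)) : Integrable (fun ω : Fin (K + 1) → ℝ => ω i) (gam K) :=
  (measurePreserving_eval (fun _ : Fin (K + 1) => γ1) i).integrable_comp_of_integrable
    (g := id) ((memLp_id_gaussianReal' 1 (by simp)).integrable le_rfl)

theorem Ch.co_m (h : Ch K Y u) (i : Fin (K + 1)) :
    Integrable (fun ω => ∫ z, z * u (i + 1) (Y i (ch Y i ω) z) ∂γ1) (gam K) ∧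
    ∫ ω, ω i * u (K + 1) (ch Y (K + 1) ω) ∂gam K =
      ∫ ω, ∫ z, z * u (i + 1) (Y i (ch Y i ω) z) ∂γ1 ∂gam K := by
  rw [h.mart' (l := i + 1) (int_co i) (fun ω ω' e => e i (by omega)) (by omega) le_rfl]
  have := int_step (K := K) (l := i) (by omega) (fun ω z => z * u (i + 1) (Y i (ch Y i ω) z))
    (fun _ ω ω' e => by simp only [ch_dep i ω ω' e])
    (by simpa only [co_fin, ch] using h.int_mul (int_co i) (i + 1))
  simpa only [co_fin, ch] using this

theorem Ch.amp (h : Ch K Y u) : ∃ A : AMP K, A.value = ∑ a ∈ Finset.range K, sig K Y u a *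
    ∫ ω, ∫ z, z * u (a + 2) (Y (a + 1) (ch Y (a + 1) ω) z) ∂γ1 ∂gam K := by
  choose B hB using h.fn_bd
  refine ⟨⟨fun a => fn K Y u a, fun ω => u (K + 1) (ch Y (K + 1) ω), fun a => h.fn_meas a,
    (h.um _).comp (ch_meas h.meas _), ⟨∑ a : Fin (K + 1), |B a|, fun a ω => ?_⟩,
    fun ω => h.ub _ _, fun _ => rfl, fun a ha ω => ?_, fun ω => ?_,
    fun a ω ω' e => fn_dep a ω ω' e, fun a b => ?_⟩, ?_⟩
  · exact ((hB a ω).trans (le_abs_self _)).trans
      (Finset.single_le_sum (f := fun a : Fin (K + 1) => |B a|) (fun _ _ => abs_nonneg _)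
        (Finset.mem_univ a))
  · obtain ⟨l, hl⟩ : ∃ l, a.val = l + 1 := ⟨a.val - 1, by
      have : a.val ≠ 0 := fun h => ha (Fin.ext h)
      omega⟩
    simp only [hl, fn, inc, ch_neg h.odd, h.uo]
    ring
  · simp only [ch_neg h.odd, h.uo]
  · rcases lt_trichotomy a b with hab | rfl | hab
    · rw [if_neg hab.ne]
      exact h.fn_orth hab (by omega)
    · rw [if_pos rfl]
      exact h.fn_norm (by omega)
    · rw [if_neg hab.ne']
      simp only [mul_comm (fn K Y u a _)]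
      exact h.fn_orth hab (by omega)
  · simp only [AMP.value]
    rw [Fin.sum_univ_succ, Finset.sum_range]
    have h0 : ∫ ω, fn K Y u 0 ω * u (K + 1) (ch Y (K + 1) ω) ∂gam K = 0 := by
      rw [h.mart' (h.fn_int 0) (fn_dep 0) (by omega) le_rfl]
      have : u 0 0 = 0 := by
        have := h.uo 0 0
        rw [neg_zero] at this
        linarith
      simp [ch, this]
    rw [Fin.val_zero, h0, zero_mul, zero_add]
    refine Finset.sum_congr rfl fun a _ => ?_
    rw [Fin.val_succ, h.fn_m (by omega), (h.co_m a.succ).2, Fin.val_succ]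

end Crest.Agent.R339.Eul
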