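import Crest.Agent.R339.PDefs

/-! # Row 339: monotone transport of the Gaussian to a log-convex tilt -/

set_option autoImplicit false

namespace Crest.Agent.R339

open MeasureTheory ProbabilityTheory Real Set Filter Topology

theorem tr_setInt (f : ℝ → ℝ) {s : Set ℝ} (hs : MeasurableSet s) :
    ∫ z in s, f z ∂γ1 = ∫ z in s, gaussianPDFReal 0 1 z * f z := by
  rw [← integral_indicator hs, ← integral_indicator hs,
    integral_gaussianReal_eq_integral_smul one_ne_zero]
  refine integral_congr_ae (Eventually.of_forall fun z => ?_)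
  by_cases hz : z ∈ s <;> simp [hz]

theorem tr_pos {f : ℝ → ℝ} {s : Set ℝ} (hs : MeasurableSet s) (h0 : volume s ≠ 0)
    (hf : IntegrableOn f s γ1) (hp : ∀ z ∈ s, 0 < f z) : 0 < ∫ z in s, f z ∂γ1 := by
  rw [setIntegral_pos_iff_support_of_nonneg_ae
    ((ae_restrict_mem hs).mono fun z hz => (hp z hz).le) hf,
    inter_eq_right.2 (show s ⊆ Function.support f from fun z hz => (hp z hz).ne'), pos_iff_ne_zero]
  exact fun h => h0 (gaussianReal_absolutelyContinuous' 0 one_ne_zero h)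

theorem tr_shift (b z : ℝ) :
    gaussianPDFReal 0 1 z * exp (b * z - b ^ 2 / 2) = gaussianPDFReal b 1 z := by
  simp only [gaussianPDFReal_def, NNReal.coe_one]
  rw [mul_assoc, ← exp_add]
  congr 2
  ring

theorem tr_Q_int (b : ℝ) : Integrable (fun z => exp (b * z - b ^ 2 / 2)) γ1 := by
  simp only [exp_sub]
  exact (integrable_exp_mul_gaussianReal b).div_const _

theorem tr_Q_set (b : ℝ) {s : Set ℝ} (hs : MeasurableSet s) :
    ∫ z in s, exp (b * z - b ^ 2 / 2) ∂γ1 = γ1.real ((· + b) ⁻¹' s) := by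
  rw [tr_setInt _ hs, ← map_measureReal_apply (measurable_add_const b) hs,
    gaussianReal_map_add_const, zero_add, measureReal_def,
    gaussianReal_apply_eq_integral _ one_ne_zero,
    ENNReal.toReal_ofReal (integral_nonneg fun z => gaussianPDFReal_nonneg _ _ _)]
  simp only [tr_shift]

/-- Comparison with a shifted Gaussian.  Put `b = y - a`, `Q z = exp (b z - b²/2)`, so that
`Q z * pdf z = pdf (z - b)`, `∫_{Iic y} Q dγ = γ (Iic a)`, `∫ Q dγ = 1`.  If `exp (θ y) > Q y` then the convex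
function `θ z - (b z - b²/2)` is positive on all of `Iic y` or on all of `Ici y`
(`ConvexOn.le_max_of_mem_Icc`), contradicting `∫_{Iic y} (exp θ - Q) dγ = 0 = ∫_{Ioi y} (exp θ - Q) dγ`. -/
theorem tr_compare {θ : ℝ → ℝ} (hv : ConvexOn ℝ univ θ) (hi : Integrable (fun z => exp (θ z)) γ1)
    (h1 : ∫ z, exp (θ z) ∂γ1 = 1) {y a : ℝ} (h : ∫ z in Iic y, exp (θ z) ∂γ1 = γ1.real (Iic a)) :
    exp (θ y) * gaussianPDFReal 0 1 y ≤ gaussianPDFReal 0 1 a := by
  obtain ⟨b, rfl⟩ : ∃ b, a = y - b := ⟨y - a, by ring⟩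
  rw [gaussianPDFReal_sub, zero_add, ← tr_shift b, mul_comm]
  refine mul_le_mul_of_nonneg_left (exp_le_exp.2 ?_) (gaussianPDFReal_nonneg _ _ _)
  by_contra hlt
  rw [not_le] at hlt
  have hQ := tr_Q_int b
  have hl : ConcaveOn ℝ univ fun z : ℝ => b * z - b ^ 2 / 2 :=
    ⟨convex_univ, fun x _ z _ s t _ _ hst => le_of_eq (by
      simp only [smul_eq_mul]
      linear_combination (-(b ^ 2 / 2)) * hst)⟩
  have hg := hv.sub hl
  have e1 : ∫ z in Iic y, exp (b * z - b ^ 2 / 2) ∂γ1 = γ1.real (Iic (y - b)) := by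
    rw [tr_Q_set b measurableSet_Iic, preimage_add_const_Iic]
  have e2 : ∫ z, exp (b * z - b ^ 2 / 2) ∂γ1 = 1 := by
    rw [← setIntegral_univ, tr_Q_set b MeasurableSet.univ, preimage_univ, probReal_univ]
  have e3 := intervalIntegral.integral_Iic_add_Ioi (b := y) hi.integrableOn hi.integrableOn
  have e4 := intervalIntegral.integral_Iic_add_Ioi (b := y) hQ.integrableOn hQ.integrableOn
  by_cases h2 : ∀ z ∈ Iic y, b * z - b ^ 2 / 2 < θ z
  · have h3 := tr_pos measurableSet_Iic (by simp) (hi.sub hQ).integrableOn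
      fun z hz => sub_pos.2 (exp_lt_exp.2 (h2 z hz))
    simp only [Pi.sub_apply] at h3
    rw [integral_sub hi.integrableOn hQ.integrableOn] at h3
    linarith
  · by_cases h2' : ∀ z ∈ Ioi y, b * z - b ^ 2 / 2 < θ z
    · have h3 := tr_pos measurableSet_Ioi (by simp) (hi.sub hQ).integrableOn
        fun z hz => sub_pos.2 (exp_lt_exp.2 (h2' z hz))
      simp only [Pi.sub_apply] at h3
      rw [integral_sub hi.integrableOn hQ.integrableOn] at h3
      linarith
    · push Not at h2 h2'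
      obtain ⟨z1, hz1, h3⟩ := h2
      obtain ⟨z2, hz2, h4⟩ := h2'
      have h5 := hg.le_max_of_mem_Icc (mem_univ z1) (mem_univ z2) ⟨hz1, le_of_lt hz2⟩
      simp only [Pi.sub_apply] at h5
      rcases le_max_iff.1 h5 with h6 | h6 <;> linarith

/-- `∫_{Ici a} z dγ = pdf a` (`integral_Ioi_of_hasDerivAt_of_tendsto`) -/
theorem tr_tail (a : ℝ) : ∫ z in Ici a, z ∂γ1 = gaussianPDFReal 0 1 a := by
  have e : gaussianPDFReal 0 1 = fun z => (√(2 * π))⁻¹ * exp (-(1 / 2) * z ^ 2) := by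
    funext z
    simp only [gaussianPDFReal_def, NNReal.coe_one, mul_one]
    congr 2
    ring
  rw [tr_setInt (fun z => z) measurableSet_Ici, integral_Ici_eq_integral_Ioi, e]
  have hd : ∀ z ∈ Ici a, HasDerivAt (fun z => -((√(2 * π))⁻¹ * exp (-(1 / 2) * z ^ 2)))
      ((√(2 * π))⁻¹ * exp (-(1 / 2) * z ^ 2) * z) z := by
    intro z _
    have h1 := ((((hasDerivAt_pow 2 z).const_mul (-(1 / 2))).exp).const_mul (√(2 * π))⁻¹).neg
    refine h1.congr_deriv ?_
    norm_num
    ring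
  have hi : IntegrableOn (fun z => (√(2 * π))⁻¹ * exp (-(1 / 2) * z ^ 2) * z) (Ioi a) := by
    have h1 := (integrable_mul_exp_neg_mul_sq (b := 1 / 2) (by norm_num)).const_mul (√(2 * π))⁻¹
    refine (h1.congr (Eventually.of_forall fun z => ?_)).integrableOn
    ring
  have ht : Tendsto (fun z : ℝ => -((√(2 * π))⁻¹ * exp (-(1 / 2) * z ^ 2))) atTop
      (𝓝 (-((√(2 * π))⁻¹ * 0))) :=
    ((tendsto_exp_atBot.comp ((tendsto_pow_atTop two_ne_zero).const_mul_atTop_of_neg
      (by norm_num))).const_mul _).neg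
  rw [integral_Ioi_of_hasDerivAt_of_tendsto' hd hi ht]
  ring

/-- distribution function of the density `g` -/
noncomputable def tr_F (g : ℝ → ℝ) (y : ℝ) : ℝ := ∫ z in Iic y, g z ∂γ1

theorem tr_F_mono {g : ℝ → ℝ} (hi : Integrable g γ1) (hp : ∀ z, 0 < g z) : StrictMono (tr_F g) := by
  intro y y' h
  have h1 := intervalIntegral.integral_Iic_sub_Iic (a := y) (b := y') hi.integrableOn hi.integrableOn
  rw [intervalIntegral.integral_of_le h.le] at h1
  have h2 := tr_pos (s := Ioc y y') measurableSet_Ioc (by simpa using h) hi.integrableOn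
    fun z _ => hp z
  change ∫ z in Iic y, g z ∂γ1 < ∫ z in Iic y', g z ∂γ1
  linarith

theorem tr_F_surj {g : ℝ → ℝ} (hi : Integrable g γ1) (h1 : ∫ z, g z ∂γ1 = 1) {t : ℝ}
    (ht : t ∈ Ioo (0 : ℝ) 1) : ∃ y, tr_F g y = t := by
  have := nullSingletonClass_gaussianReal (μ := 0) (v := 1) one_ne_zero
  have hc : Continuous (tr_F g) := by
    have h2 := (hi.continuous_primitive 0).add (continuous_const (y := ∫ z in Iic 0, g z ∂γ1))
    refine h2.congr fun y => ?_
    have h3 := intervalIntegral.integral_Iic_sub_Iic (a := 0) (b := y) hi.integrableOn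
      hi.integrableOn
    change (∫ z in (0 : ℝ)..y, g z ∂γ1) + ∫ z in Iic 0, g z ∂γ1 = ∫ z in Iic y, g z ∂γ1
    linarith
  have h2 : Tendsto (tr_F g) atBot (𝓝 0) := tendsto_integral_Iic_zero tendsto_id
  have h3 : Tendsto (tr_F g) atTop (𝓝 1) :=
    h1 ▸ (aecover_Iic tendsto_id).integral_tendsto_of_countably_generated hi
  obtain ⟨y, -, hy⟩ := isPreconnected_univ.intermediate_value_Ioo (l₁ := atBot) (l₂ := atTop)
    (by simp) (by simp) hc.continuousOn h2 h3 ht
  exact ⟨y, hy⟩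

theorem tr_F_mem {g : ℝ → ℝ} (hi : Integrable g γ1) (hp : ∀ z, 0 < g z) (h1 : ∫ z, g z ∂γ1 = 1)
    (y : ℝ) : tr_F g y ∈ Ioo (0 : ℝ) 1 := by
  have h2 := tr_pos (s := Iic y) measurableSet_Iic (by simp) hi.integrableOn fun z _ => hp z
  have h3 := tr_pos (s := Ioi y) measurableSet_Ioi (by simp) hi.integrableOn fun z _ => hp z
  have h4 := intervalIntegral.integral_Iic_add_Ioi (b := y) hi.integrableOn hi.integrableOn
  refine ⟨h2, ?_⟩
  change ∫ z in Iic y, g z ∂γ1 < 1
  linarith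

theorem tr_F_neg {g g' : ℝ → ℝ} (hi : Integrable g γ1) (h1 : ∫ z, g z ∂γ1 = 1)
    (hs : ∀ z, g' (-z) = g z) (y : ℝ) : tr_F g' (-y) = 1 - tr_F g y := by
  have := nullSingletonClass_gaussianReal (μ := 0) (v := 1) one_ne_zero
  have hm : MeasurePreserving (fun z : ℝ => -z) γ1 γ1 :=
    ⟨measurable_neg, by rw [gaussianReal_map_neg, neg_zero]⟩
  have h2 := hm.setIntegral_preimage_emb (Homeomorph.neg ℝ).measurableEmbedding g' (Iic (-y))
  have h3 : (fun z : ℝ => -z) ⁻¹' Iic (-y) = Ici y := by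
    ext z
    simp
  simp only [hs] at h2
  rw [h3, integral_Ici_eq_integral_Ioi] at h2
  have h4 := intervalIntegral.integral_Iic_add_Ioi (b := y) hi.integrableOn hi.integrableOn
  change ∫ z in Iic (-y), g' z ∂γ1 = 1 - ∫ z in Iic y, g z ∂γ1
  linarith

theorem tr_G (y : ℝ) : tr_F (fun _ => 1) y = γ1.real (Iic y) := by
  change ∫ _ in Iic y, (1 : ℝ) ∂γ1 = _
  rw [setIntegral_const, smul_eq_mul, mul_one]

theorem tr_last {θ S u k : ℝ → ℝ} (hS : Measurable S)
    (ha : ∀ y, ∃ a, exp (θ y) * gaussianPDFReal 0 1 y ≤ gaussianPDFReal 0 1 a ∧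
      ∀ ω, y ≤ S ω ↔ a ≤ ω)
    (hu : ∀ z, HasDerivAt u (k z) z) (hk : Continuous k) (h0 : ∀ z, 0 ≤ k z)
    (h1 : ∀ z, |u z| ≤ 1) : ∫ z, exp (θ z) * k z ∂γ1 ≤ ∫ ω, ω * u (S ω) ∂γ1 := by
  have ftc : ∀ a b, ∫ z in a..b, k z = u b - u a := fun a b =>
    intervalIntegral.integral_eq_sub_of_hasDerivAt (fun z _ => hu z) (hk.intervalIntegrable a b)
  have hki : Integrable k := by
    refine integrable_of_intervalIntegral_norm_bounded (l := atTop) (a := fun t : ℝ => -t)
      (b := fun t => t) 2 (fun t => hk.integrableOn_Ioc) tendsto_neg_atTop_atBot tendsto_id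
      (Eventually.of_forall fun t => ?_)
    simp only [Real.norm_of_nonneg (h0 _)]
    rw [ftc]
    linarith [abs_le.1 (h1 t), abs_le.1 (h1 (-t))]
  have hid : Integrable (fun ω : ℝ => ω) γ1 := (memLp_id_gaussianReal 1).integrable le_rfl
  have hA : MeasurableSet {p : ℝ × ℝ | p.2 ≤ S p.1} :=
    measurableSet_le measurable_snd (hS.comp measurable_fst)
  have hH : Integrable (Function.uncurry fun ω y : ℝ =>
      {p : ℝ × ℝ | p.2 ≤ S p.1}.indicator (fun p => p.1 * k p.2) (ω, y)) (γ1.prod volume) :=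
    (hid.mul_prod hki).indicator hA
  have e1 : ∀ ω, ω * u (S ω) = (∫ y, {p : ℝ × ℝ | p.2 ≤ S p.1}.indicator
      (fun p => p.1 * k p.2) (ω, y)) + ω * (u 0 - ∫ y in Iic 0, k y) := by
    intro ω
    have h2 := intervalIntegral.integral_Iic_sub_Iic (a := 0) (b := S ω) hki.integrableOn
      hki.integrableOn
    rw [ftc] at h2
    have h3 : (fun y => {p : ℝ × ℝ | p.2 ≤ S p.1}.indicator (fun p => p.1 * k p.2) (ω, y)) =
        (Iic (S ω)).indicator fun y => ω * k y := rfl
    rw [h3, integral_indicator measurableSet_Iic, integral_const_mul]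
    linear_combination (-ω) * h2
  simp only [e1]
  have hH1 : Integrable (fun ω => ∫ y, {p : ℝ × ℝ | p.2 ≤ S p.1}.indicator
      (fun p => p.1 * k p.2) (ω, y)) γ1 := hH.integral_prod_left
  rw [integral_add hH1 (hid.mul_const _), integral_mul_const,
    integral_id_gaussianReal, zero_mul, add_zero, integral_integral_swap hH,
    integral_gaussianReal_eq_integral_smul one_ne_zero]
  refine integral_mono_of_nonneg (Eventually.of_forall fun y => ?_) hH.integral_prod_right
    (Eventually.of_forall fun y => ?_)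
  · exact mul_nonneg (gaussianPDFReal_nonneg _ _ _) (mul_nonneg (exp_pos _).le (h0 y))
  · obtain ⟨a, h2, h3⟩ := ha y
    have h4 : (fun ω => {p : ℝ × ℝ | p.2 ≤ S p.1}.indicator (fun p => p.1 * k p.2) (ω, y)) =
        (Ici a).indicator fun ω => ω * k y := by
      funext ω
      by_cases hω : a ≤ ω
      · rw [indicator_of_mem (show (ω, y) ∈ {p : ℝ × ℝ | p.2 ≤ S p.1} from (h3 ω).2 hω),
          indicator_of_mem (show ω ∈ Ici a from hω)]
      · rw [indicator_of_notMem (show (ω, y) ∉ {p : ℝ × ℝ | p.2 ≤ S p.1} from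
          fun h => hω ((h3 ω).1 h)), indicator_of_notMem (show ω ∉ Ici a from hω)]
    change gaussianPDFReal 0 1 y * (exp (θ y) * k y) ≤
      ∫ ω, {p : ℝ × ℝ | p.2 ≤ S p.1}.indicator (fun p => p.1 * k p.2) (ω, y) ∂γ1
    rw [h4, integral_indicator measurableSet_Ici, integral_mul_const, tr_tail]
    have := mul_le_mul_of_nonneg_right h2 (h0 y)
    linarith

/-- Monotone rearrangement: `F x y = ∫_{Iic y} exp (θ x ·) dγ` and `G ω = γ (Iic ω)` are continuous, strictly
increasing, onto `(0,1)`; `S x ω` is the unique `y` with `F x y = G ω`, so `S x ω ≤ y ↔ G ω ≤ F x y`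
(measurability: `measurable_of_Iic`; law: `Measure.ext_of_Iic`; oddness: `F (-x) (-y) = 1 - F x y`).
Last part: `k` is integrable on `ℝ` (`integrable_of_intervalIntegral_norm_bounded`),
`u s = c + ∫_{Iic s} k`, Fubini gives `∫ ω u (S ω) dγ = ∫ k y * (∫_{ω : y ≤ S ω} ω dγ) dy`, the set is `Ici a`
with `G a = F x y`; `tr_tail`, `tr_compare`. -/
theorem transport {θ : ℝ → ℝ → ℝ} (hc : Continuous fun p : ℝ × ℝ => θ p.1 p.2)
    (hv : ∀ x, ConvexOn ℝ univ (θ x)) (hi : ∀ x, Integrable (fun z => exp (θ x z)) γ1)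
    (h1 : ∀ x, ∫ z, exp (θ x z) ∂γ1 = 1) (hs : ∀ x z, θ (-x) (-z) = θ x z) :
    ∃ S : ℝ → ℝ → ℝ, Measurable (fun p : ℝ × ℝ => S p.1 p.2) ∧ (∀ x ω, S (-x) (-ω) = -S x ω) ∧
      (∀ x (f : ℝ → ℝ), Measurable f → ∫ ω, f (S x ω) ∂γ1 = ∫ z, exp (θ x z) * f z ∂γ1) ∧
      ∀ x (u k : ℝ → ℝ), (∀ z, HasDerivAt u (k z) z) → Continuous k → (∀ z, 0 ≤ k z) →
        (∀ z, |u z| ≤ 1) → (∃ B, ∀ z, k z ≤ B) →
        ∫ z, exp (θ x z) * k z ∂γ1 ≤ ∫ ω, ω * u (S x ω) ∂γ1 := by
  have g1 : Integrable (fun _ : ℝ => (1 : ℝ)) γ1 := integrable_const _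
  have g2 : ∫ _ : ℝ, (1 : ℝ) ∂γ1 = 1 := by simp
  have hG := tr_F_mono g1 fun _ => one_pos
  have hF : ∀ x, StrictMono (tr_F fun z => exp (θ x z)) := fun x =>
    tr_F_mono (hi x) fun _ => exp_pos _
  choose S hS using fun x ω => tr_F_surj (hi x) (h1 x) (tr_F_mem g1 (fun _ => one_pos) g2 ω)
  choose A hA using fun x y => tr_F_surj g1 g2 (tr_F_mem (hi x) (fun _ => exp_pos _) (h1 x) y)
  have hm : Measurable fun p : ℝ × ℝ => S p.1 p.2 := by
    refine measurable_of_Iic fun y => ?_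
    have e : (fun p : ℝ × ℝ => S p.1 p.2) ⁻¹' Iic y =
        {p | tr_F (fun _ => 1) p.2 ≤ tr_F (fun z => exp (θ p.1 z)) y} := by
      ext p
      rw [mem_preimage, mem_Iic, ← (hF p.1).le_iff_le, hS]
      rfl
    rw [e]
    refine measurableSet_le (hG.monotone.measurable.comp measurable_snd)
      (Measurable.comp (g := fun x => tr_F (fun z => exp (θ x z)) y) ?_ measurable_fst)
    exact (StronglyMeasurable.integral_prod_right' (ν := γ1.restrict (Iic y))
      (continuous_exp.comp hc).stronglyMeasurable).measurable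
  have hmx : ∀ x, Measurable (S x) := fun x => hm.comp measurable_prodMk_left
  refine ⟨S, hm, fun x ω => (hF (-x)).injective ?_, fun x f hf => ?_,
    fun x u k hu hk h0 hb _ => tr_last (hmx x) (fun y => ⟨A x y, ?_, fun ω => ?_⟩) hu hk h0 hb⟩
  · rw [hS, tr_F_neg (hi x) (h1 x) (g' := fun z => exp (θ (-x) z)) (fun z => by rw [hs]), hS,
      tr_F_neg g1 g2 fun _ => rfl]
  · have hθ : Measurable fun z => exp (θ x z) :=
      (continuous_exp.comp (hc.comp (Continuous.prodMk_right x))).measurable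
    have e : γ1.map (S x) = γ1.withDensity fun z => ENNReal.ofReal (exp (θ x z)) := by
      refine Measure.ext_of_Iic _ _ fun y => ?_
      have e1 : S x ⁻¹' Iic y = Iic (A x y) := by
        ext ω
        rw [mem_preimage, mem_Iic, mem_Iic, ← (hF x).le_iff_le, hS, ← hA, hG.le_iff_le]
      rw [Measure.map_apply (hmx x) measurableSet_Iic, e1, withDensity_apply _ measurableSet_Iic,
        ← ofReal_integral_eq_lintegral_ofReal (hi x).integrableOn
          (Eventually.of_forall fun _ => (exp_pos _).le), ← ofReal_measureReal, ← tr_G, hA]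
      rfl
    rw [← integral_map (hmx x).aemeasurable hf.aestronglyMeasurable, e,
      integral_withDensity_eq_integral_toReal_smul hθ.ennreal_ofReal
        (Eventually.of_forall fun _ => ENNReal.ofReal_lt_top)]
    simp only [ENNReal.toReal_ofReal (exp_pos _).le, smul_eq_mul]
  · exact tr_compare (hv x) (hi x) (h1 x) ((hA x y).symm.trans (tr_G _))
  · rw [← (hF x).le_iff_le, hS, ← hA, hG.le_iff_le]

end Crest.Agent.R339
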