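import Crest.Agent.R339.PDefs

/-! # Row 339: a maximum principle on the line -/

set_option autoImplicit false

namespace Crest.Agent.R339

open MeasureTheory ProbabilityTheory Real Set Filter Topology

/-- necessary conditions at a local maximum -/
theorem PMax_second {g g' : ℝ → ℝ} {g'' x : ℝ} (h1 : ∀ᶠ y in 𝓝 x, HasDerivAt g (g' y) y)
    (h2 : HasDerivAt g' g'' x) (hm : IsLocalMax g x) : g' x = 0 ∧ g'' ≤ 0 := by
  have hx := h1.self_of_nhds
  have h0 : g' x = 0 := hm.hasDerivAt_eq_zero hx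
  refine ⟨h0, ?_⟩
  by_contra hlt
  have e1 : deriv g =ᶠ[𝓝 x] g' := h1.mono fun y hy => hy.deriv
  have e2 : deriv (deriv g) x = g'' := by rw [e1.deriv_eq, h2.deriv]
  have hmin : IsLocalMin g x := isLocalMin_of_deriv_deriv_pos (by rw [e2]; exact not_le.1 hlt)
    (by rw [hx.deriv, h0]) hx.continuousAt
  have e3 : g =ᶠ[𝓝 x] fun _ => g x := by
    filter_upwards [hm, hmin] with y a b using le_antisymm a b
  have e4 : deriv g =ᶠ[𝓝 x] fun _ => 0 := by
    filter_upwards [e3.eventuallyEq_nhds] with y hy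
    rw [hy.deriv_eq, deriv_const]
  rw [e4.deriv_eq, deriv_const] at e2
  exact hlt e2.ge

theorem PMax_left {g : ℝ → ℝ} {g' t : ℝ} (ht : 0 < t) (h1 : HasDerivAt g g' t)
    (hm : ∀ s ∈ Ioo 0 t, g s ≤ g t) : 0 ≤ g' := by
  refine ge_of_tendsto (hasDerivAt_iff_tendsto_slope_left_right.1 h1).1 ?_
  filter_upwards [Ioo_mem_nhdsLT ht] with s hs
  rw [slope_def_field]
  exact div_nonneg_of_nonpos (sub_nonpos.2 (hm s hs)) (sub_nonpos.2 hs.2.le)

theorem PMax_abs_le_cosh (x : ℝ) : |x| ≤ cosh x := by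
  rw [← cosh_abs]
  exact ((self_le_sinh_iff.2 (abs_nonneg x)).trans (sinh_lt_cosh _).le)

theorem PMax_abs_sinh (x : ℝ) : |sinh x| ≤ cosh x := by
  rw [abs_sinh, ← cosh_abs]
  exact (sinh_lt_cosh _).le

theorem max_principle {T₀ A C M : ℝ} (f : ℝ → ℝ → ℝ)
    (hc : ContinuousOn (fun p : ℝ × ℝ => f p.1 p.2) (Icc 0 T₀ ×ˢ univ))
    (hb : ∀ t ∈ Icc 0 T₀, ∀ x, f t x ≤ M) (h0 : ∀ x, f 0 x ≤ 0)
    (h : ∀ t ∈ Ioc 0 T₀, ∀ x, 0 < f t x → ∃ (ft fxx : ℝ) (fx : ℝ → ℝ),
      HasDerivAt (fun s => f s x) ft t ∧ (∀ᶠ y in 𝓝 x, HasDerivAt (f t) (fx y) y) ∧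
        HasDerivAt fx fxx x ∧ ft ≤ fxx / 2 + A * |fx x| + C * f t x) :
    ∀ t ∈ Icc 0 T₀, ∀ x, f t x ≤ 0 := by
  obtain ⟨lam, hlam⟩ : ∃ lam : ℝ, lam = 1 + |A| + |C| := ⟨_, rfl⟩
  have hA := abs_nonneg A
  have hC := abs_nonneg C
  have key : ∀ ε > 0, ∀ t ∈ Icc 0 T₀, ∀ x, exp (-(lam * t)) * f t x ≤ ε * cosh x := by
    intro ε hε t₁ ht₁ x₁
    by_contra hlt
    have hpos : 0 < exp (-(lam * t₁)) * f t₁ x₁ - ε * cosh x₁ := sub_pos.2 (not_le.1 hlt)
    obtain ⟨R, hR⟩ : ∃ R : ℝ, R = max |x₁| (|M| / ε) := ⟨_, rfl⟩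
    have hK : IsCompact (Icc 0 T₀ ×ˢ Icc (-R) R) := isCompact_Icc.prod isCompact_Icc
    have hmem : (t₁, x₁) ∈ Icc 0 T₀ ×ˢ Icc (-R) R :=
      ⟨ht₁, abs_le.1 (hR ▸ le_max_left _ _)⟩
    have hcG : ContinuousOn (fun p : ℝ × ℝ => exp (-(lam * p.1)) * f p.1 p.2 - ε * cosh p.2)
        (Icc 0 T₀ ×ˢ Icc (-R) R) :=
      (ContinuousOn.mul (by fun_prop) (hc.mono (prod_mono Subset.rfl (subset_univ _)))).sub
        (by fun_prop)
    obtain ⟨⟨t, x⟩, ⟨ht, hx⟩, hmax⟩ := hK.exists_isMaxOn ⟨_, hmem⟩ hcG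
    have hG : 0 < exp (-(lam * t)) * f t x - ε * cosh x := hpos.trans_le (hmax hmem)
    have hglob : ∀ s ∈ Icc 0 T₀, ∀ y,
        exp (-(lam * s)) * f s y - ε * cosh y ≤ exp (-(lam * t)) * f t x - ε * cosh x := by
      intro s hs y
      by_cases hy : |y| ≤ R
      · exact hmax (show (s, y) ∈ Icc 0 T₀ ×ˢ Icc (-R) R from ⟨hs, abs_le.1 hy⟩)
      · have h1 : |M| / ε ≤ cosh y :=
          ((le_max_right _ _).trans (hR ▸ (not_le.1 hy).le)).trans (PMax_abs_le_cosh y)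
        have h2 : |M| ≤ ε * cosh y := by rwa [div_le_iff₀ hε, mul_comm] at h1
        have h3 : exp (-(lam * s)) ≤ 1 :=
          exp_le_one_iff.2 (neg_nonpos.2 (mul_nonneg (by linarith) hs.1))
        have h4 : exp (-(lam * s)) * f s y ≤ |M| :=
          (mul_le_mul_of_nonneg_left ((hb s hs y).trans (le_abs_self M)) (exp_pos _).le).trans
            (mul_le_of_le_one_left (abs_nonneg M) h3)
        linarith
    have hB : 0 < ε * cosh x := mul_pos hε (cosh_pos x)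
    have hE : 0 < exp (-(lam * t)) := exp_pos _
    have hf : 0 < f t x := (mul_pos_iff_of_pos_left hE).1 (by linarith)
    have ht0 : 0 < t := by
      refine lt_of_le_of_ne ht.1 fun h1 => ?_
      have h2 := h0 x
      have h3 : f t x = f 0 x := by rw [← show (0 : ℝ) = t from h1]
      linarith
    obtain ⟨ft, fxx, fx, d1, d2, d3, d4⟩ := h t ⟨ht0, ht.2⟩ x hf
    have e1 : HasDerivAt (fun s => exp (-(lam * s)) * f s x - ε * cosh x)
        (exp (-(lam * t)) * -lam * f t x + exp (-(lam * t)) * ft) t := by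
      have := ((hasDerivAt_id t).const_mul lam).neg.exp
      simp only [id, mul_one] at this
      exact (this.mul d1).sub_const _
    have i1 := PMax_left ht0 e1 fun s hs => hglob s ⟨hs.1.le, hs.2.le.trans ht.2⟩ x
    have i2 := PMax_second (g := fun y => exp (-(lam * t)) * f t y - ε * cosh y)
      (g' := fun y => exp (-(lam * t)) * fx y - ε * sinh y)
      (g'' := exp (-(lam * t)) * fxx - ε * cosh x) (x := x)
      (d2.mono fun y hy => (hy.const_mul _).sub ((hasDerivAt_cosh y).const_mul _))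
      ((d3.const_mul _).sub ((hasDerivAt_sinh x).const_mul _))
      (Eventually.of_forall fun y => hglob t ht y)
    have i3 : exp (-(lam * t)) * |fx x| ≤ ε * cosh x := by
      rw [← abs_of_pos hE, ← abs_mul, sub_eq_zero.1 i2.1, abs_mul, abs_of_pos hε]
      exact mul_le_mul_of_nonneg_left (PMax_abs_sinh x) hε.le
    have i4 : ft ≤ fxx / 2 + |A| * |fx x| + |C| * f t x := by
      have a1 := mul_le_mul_of_nonneg_right (le_abs_self A) (abs_nonneg (fx x))
      have a2 := mul_le_mul_of_nonneg_right (le_abs_self C) hf.le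
      linarith
    have i5 := mul_le_mul_of_nonneg_left i4 hE.le
    have i6 : |A| * (exp (-(lam * t)) * |fx x|) ≤ |A| * (exp (-(lam * t)) * f t x) :=
      mul_le_mul_of_nonneg_left (by linarith) hA
    have i7 := i2.2
    have i8 : exp (-(lam * t)) * -lam * f t x =
        -(exp (-(lam * t)) * f t x) - |A| * (exp (-(lam * t)) * f t x) -
          |C| * (exp (-(lam * t)) * f t x) := by
      have : -lam = -1 - |A| - |C| := by rw [hlam]; ring
      rw [this]
      ring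
    nlinarith
  intro t ht x
  have h1 : exp (-(lam * t)) * f t x ≤ 0 := by
    refine le_of_forall_pos_le_add fun ε hε => ?_
    have := key (ε / cosh x) (div_pos hε (cosh_pos x)) t ht x
    rwa [div_mul_cancel₀ _ (cosh_pos x).ne', ← zero_add ε] at this
  by_contra hlt
  exact absurd (mul_pos (exp_pos (-(lam * t))) (not_le.1 hlt)) (not_lt.2 h1)

end Crest.Agent.R339
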