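import Crest.Agent.R339.PReg
import Crest.Agent.R339.PMax

/-! # Row 339: bounds depending only on `β` -/

set_option autoImplicit false

namespace Crest.Agent.R339

open MeasureTheory ProbabilityTheory Real Set Filter Topology

theorem PUnif_step {m β : ℝ} {φ : ℝ → ℝ} (hm : 0 < m) (hmβ : m ≤ β) (hφ : Reg φ)
    (h : ∀ x, D 2 φ x ≤ β * (1 - D 1 φ x ^ 2)) (τ x : ℝ) :
    D 2 (T m τ φ) x ≤ β * (1 - D 1 (T m τ φ) x ^ 2) := by
  have h0 := T_norm hm hφ τ x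
  have h1 := T_D1 hm hφ τ x
  rw [T_D2 hm hφ τ x]
  obtain ⟨U, hU⟩ : ∃ U, U = D 1 (T m τ φ) x := ⟨_, rfl⟩
  rw [← hU] at h1 ⊢
  have i0 : Integrable (fun z => exp (m * (φ (x + √τ * z) - T m τ φ x))) γ1 :=
    Integrable.of_integral_ne_zero (by rw [h0]; exact one_ne_zero)
  have hc : Continuous (D 1 φ) :=
    continuous_iff_continuousAt.2 fun y => (hφ.hasDerivAt 1 y).continuousAt
  have i1 : Integrable (fun z => exp (m * (φ (x + √τ * z) - T m τ φ x)) *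
      D 1 φ (x + √τ * z)) γ1 :=
    i0.mul_bdd (c := 1) (hc.comp (by fun_prop)).aestronglyMeasurable
      (Eventually.of_forall fun z => hφ.d1 _)
  have i2 := i0.const_mul (β * (1 + U ^ 2))
  have i3 := i1.const_mul (2 * β * U)
  have i4 : Integrable (fun z => β * (1 + U ^ 2) * exp (m * (φ (x + √τ * z) - T m τ φ x)) -
      2 * β * U * (exp (m * (φ (x + √τ * z) - T m τ φ x)) * D 1 φ (x + √τ * z))) γ1 := i2.sub i3
  refine (integral_mono_of_nonneg (Eventually.of_forall fun z => ?_) i4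
    (Eventually.of_forall fun z => ?_)).trans_eq ?_
  · exact mul_nonneg (exp_pos _).le (add_nonneg (hφ.pos _).le (mul_nonneg hm.le (sq_nonneg _)))
  · beta_reduce
    have a1 := h (x + √τ * z)
    have a2 := mul_le_mul_of_nonneg_right hmβ (sq_nonneg (D 1 φ (x + √τ * z) - U))
    have a3 : D 2 φ (x + √τ * z) + m * (D 1 φ (x + √τ * z) - U) ^ 2 ≤
        β * (1 + U ^ 2) - 2 * β * U * D 1 φ (x + √τ * z) := by nlinarith
    have a4 := mul_le_mul_of_nonneg_left a3 (exp_pos (m * (φ (x + √τ * z) - T m τ φ x))).le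
    linarith
  · rw [integral_sub i2 i3, integral_const_mul, integral_const_mul, h0, ← h1]
    ring

theorem PUnif_PhiN {β γ₀ : ℝ} (hγ : 0 < γ₀) {L : ℕ} {g : ℕ → ℝ} (hg : Adm β γ₀ g) (k : ℕ) :
    Reg (PhiN β L g k) ∧ ∀ x, D 2 (PhiN β L g k) x ≤ β * (1 - D 1 (PhiN β L g k) x ^ 2) := by
  have hβ : 0 < β := hγ.trans_le ((hg.lo 0).trans (hg.hi 0))
  induction k with
  | zero =>
    refine ⟨term_reg hβ, fun x => ?_⟩
    show D 2 (term β) x ≤ β * (1 - D 1 (term β) x ^ 2)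
    rw [term_D2 hβ, term_D1 hβ]
  | succ k ih =>
    exact ⟨ih.1.T (hγ.trans_le (hg.lo _)) _,
      PUnif_step (hγ.trans_le (hg.lo _)) (hg.hi _) ih.1 ih.2 _⟩

theorem Phi_D2_le {β γ₀ : ℝ} (hγ : 0 < γ₀) {L : ℕ} {g : ℕ → ℝ} (hg : Adm β γ₀ g) (l : ℕ) (x : ℝ) :
    D 2 (Phi β L g l) x ≤ β * (1 - D 1 (Phi β L g l) x ^ 2) :=
  (PUnif_PhiN hγ hg (L - l)).2 x

theorem PUnif_le {m β : ℝ} {φ : ℝ → ℝ} (hm : 0 < m) (hmβ : m ≤ β) (hφ : Reg φ)
    (h : ∀ x, D 2 φ x ≤ β * (1 - D 1 φ x ^ 2)) (τ x : ℝ) : D 2 (T m τ φ) x ≤ β := by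
  have h1 := PUnif_step hm hmβ hφ h τ x
  have h2 := mul_nonneg (hm.trans_le hmβ).le (sq_nonneg (D 1 (T m τ φ) x))
  linarith

theorem Psi_D2_le {β γ₀ : ℝ} (hγ : 0 < γ₀) {L : ℕ} {g : ℕ → ℝ} (hg : Adm β γ₀ g) (l : ℕ)
    (τ x : ℝ) : D 2 (Psi β L g l τ) x ≤ β :=
  PUnif_le (hγ.trans_le (hg.lo _)) (hg.hi _) (PUnif_PhiN hγ hg (L - (l + 1))).1
    (PUnif_PhiN hγ hg (L - (l + 1))).2 _ x

theorem PUnif_d3 {m β M : ℝ} {φ : ℝ → ℝ} (hm : 0 < m) (hmβ : m ≤ β) (hφ : Reg φ)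
    (h : ∀ x, D 2 φ x ≤ β * (1 - D 1 φ x ^ 2)) (hM : ∀ x, |D 3 φ x| ≤ M) {t : ℝ} (ht : 0 ≤ t)
    (x : ℝ) : |D 3 (T m t φ) x| ≤ M * exp (3 * β ^ 2 * t) := by
  have hM0 : 0 ≤ M := (abs_nonneg _).trans (hM 0)
  have hβ : 0 < β := hm.trans_le hmβ
  obtain ⟨C, hC⟩ := T_bdd hm hφ 3 (by norm_num)
  have key : ∀ σ : ℝ, |σ| = 1 → σ * D 3 (T m t φ) x - M * exp (3 * β ^ 2 * t) ≤ 0 := by
    intro σ hσ
    have hle : ∀ a : ℝ, σ * a ≤ |a| := fun a => by
      have := le_abs_self (σ * a)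
      rwa [abs_mul, hσ, one_mul] at this
    refine max_principle (T₀ := t) (A := β) (C := 3 * β ^ 2) (M := C)
      (fun s y => σ * D 3 (T m s φ) y - M * exp (3 * β ^ 2 * s)) ?_ ?_ ?_ ?_ t ⟨ht, le_rfl⟩ x
    · exact ((continuous_const.mul (T_cont hm hφ 3)).sub (by fun_prop)).continuousOn
    · intro s _ y
      have := mul_nonneg hM0 (exp_pos (3 * β ^ 2 * s)).le
      linarith [hle (D 3 (T m s φ) y), hC s y]
    · intro y
      rw [T_zero hm, mul_zero, exp_zero, mul_one]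
      linarith [hle (D 3 φ y), hM y]
    · intro s hs y hpos
      have hr := hφ.T hm s
      have d1 : HasDerivAt (fun s => M * exp (3 * β ^ 2 * s))
          (M * (exp (3 * β ^ 2 * s) * (3 * β ^ 2))) s := by
        have := (((hasDerivAt_id s).const_mul (3 * β ^ 2)).exp).const_mul M
        simpa only [id, mul_one] using this
      refine ⟨_, σ * D 5 (T m s φ) y, fun z => σ * D 4 (T m s φ) z,
        ((T_pde3 hm hφ hs.1 y).const_mul σ).sub d1,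
        Eventually.of_forall fun z => ((hr.hasDerivAt 3 z).const_mul σ).sub_const _,
        (hr.hasDerivAt 4 y).const_mul σ, ?_⟩
      have b0 := mul_nonneg hM0 (exp_pos (3 * β ^ 2 * s)).le
      have b1 : 0 ≤ σ * D 3 (T m s φ) y := by linarith
      have b2 : m * D 2 (T m s φ) y ≤ β ^ 2 := by
        rw [sq]
        exact mul_le_mul hmβ (PUnif_le hm hmβ hφ h s y) (hr.pos y).le hβ.le
      have b3 := mul_le_mul_of_nonneg_right b2 b1
      have b4 : m * D 1 (T m s φ) y * (σ * D 4 (T m s φ) y) ≤ β * |σ * D 4 (T m s φ) y| := by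
        refine (le_abs_self _).trans ?_
        rw [abs_mul, abs_mul, abs_of_pos hm]
        refine mul_le_mul_of_nonneg_right ?_ (abs_nonneg _)
        exact (mul_le_of_le_one_right hm.le (hr.d1 y)).trans hmβ
      nlinarith
  refine abs_le.2 ⟨?_, ?_⟩
  · have := key (-1) (by simp)
    linarith
  · have := key 1 (by simp)
    linarith

theorem PUnif_d3N {β γ₀ : ℝ} (hγ : 0 < γ₀) {L : ℕ} {g : ℕ → ℝ} (hg : Adm β γ₀ g) (k : ℕ) (x : ℝ) :
    |D 3 (PhiN β L g k) x| ≤ 2 * β ^ 2 * exp (3 * β ^ 2 * (k / L)) := by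
  have hβ : 0 < β := hγ.trans_le ((hg.lo 0).trans (hg.hi 0))
  induction k generalizing x with
  | zero =>
    show |D 3 (term β) x| ≤ _
    rw [term_D3 hβ, Nat.cast_zero, zero_div, mul_zero, exp_zero, mul_one, abs_mul, abs_mul,
      abs_mul, abs_neg, abs_two, abs_of_pos hβ, abs_of_pos ((term_reg hβ).pos x), term_D2 hβ]
    have h1 : |tanh (β * x)| ≤ 1 := by
      have := (term_reg hβ).d1 x
      rwa [term_D1 hβ] at this
    have h2 : 0 ≤ 1 - tanh (β * x) ^ 2 := sub_nonneg.2 ((sq_le_one_iff_abs_le_one _).2 h1)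
    have h3 : |tanh (β * x)| * (1 - tanh (β * x) ^ 2) ≤ 1 :=
      mul_le_one₀ h1 h2 (by linarith [sq_nonneg (tanh (β * x))])
    have h4 := mul_le_mul_of_nonneg_left h3 (sq_nonneg β)
    nlinarith
  | succ k ih =>
    have h1 := PUnif_d3 (hγ.trans_le (hg.lo (L - (k + 1)))) (hg.hi _) (PUnif_PhiN hγ hg k).1
      (PUnif_PhiN hγ hg k).2 ih (t := 1 / L) (by positivity) x
    refine h1.trans_eq ?_
    rw [mul_assoc _ (exp _), ← exp_add]
    congr 2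
    push_cast
    ring

theorem D3_unif {β : ℝ} (hβ : 0 < β) : ∃ C, 0 ≤ C ∧ ∀ γ₀, 0 < γ₀ → ∀ (L : ℕ) (g : ℕ → ℝ),
    Adm β γ₀ g → (∀ l x, |D 3 (Phi β L g l) x| ≤ C) ∧
      ∀ l < L, ∀ τ ∈ Icc (0 : ℝ) (1 / L), ∀ x, |D 3 (Psi β L g l τ) x| ≤ C := by
  refine ⟨2 * β ^ 2 * exp (3 * β ^ 2) * exp (3 * β ^ 2), by positivity, fun γ₀ hγ L g hg => ?_⟩
  have h1 : ∀ l x, |D 3 (Phi β L g l) x| ≤ 2 * β ^ 2 * exp (3 * β ^ 2) := fun l x => by
    refine (PUnif_d3N hγ hg (L - l) x).trans (mul_le_mul_of_nonneg_left (exp_le_exp.2 ?_)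
      (by positivity))
    refine mul_le_of_le_one_right (by positivity) (div_le_one_of_le₀ ?_ (Nat.cast_nonneg _))
    exact_mod_cast Nat.sub_le L l
  refine ⟨fun l x => (h1 l x).trans (le_mul_of_one_le_right (by positivity)
    (one_le_exp (by positivity))), fun l hl τ hτ x => ?_⟩
  refine (PUnif_d3 (hγ.trans_le (hg.lo l)) (hg.hi _) (PUnif_PhiN hγ hg (L - (l + 1))).1
    (PUnif_PhiN hγ hg (L - (l + 1))).2 (h1 (l + 1)) (sub_nonneg.2 hτ.2) x).trans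
    (mul_le_mul_of_nonneg_left (exp_le_exp.2 ?_) (by positivity))
  refine mul_le_of_le_one_right (by positivity) ?_
  have : (1 : ℝ) / L ≤ 1 := div_le_one_of_le₀ (by exact_mod_cast (Nat.zero_le l).trans_lt hl)
    (Nat.cast_nonneg _)
  linarith [hτ.1]

end Crest.Agent.R339
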