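import Crest.Agent.R339.PLaw
import Crest.Agent.R339.PUnif
import Crest.Agent.R339.PEulerT
import Crest.Agent.R339.PEulerC

/-! # Row 339: the Euler chain is a message passing scheme -/

set_option autoImplicit false

namespace Crest.Agent.R339

open MeasureTheory ProbabilityTheory Real Set Filter Topology

namespace Eul

theorem lip {f f' : ℝ → ℝ} (h : ∀ z, HasDerivAt f (f' z) z) {B : ℝ} (hB : ∀ z, |f' z| ≤ B)
    (x y : ℝ) : |f y - f x| ≤ B * |y - x| :=
  (convex_univ (𝕜 := ℝ) (E := ℝ)).norm_image_sub_le_of_norm_hasDerivWithin_le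
    (fun z _ => (h z).hasDerivWithinAt) (fun z _ => hB z) (mem_univ x) (mem_univ y)

theorem int_id : Integrable (fun z : ℝ => z) γ1 :=
  (memLp_id_gaussianReal' 1 (by simp)).integrable le_rfl

theorem int_sq : Integrable (fun z : ℝ => z ^ 2) γ1 :=
  (memLp_id_gaussianReal' 2 (by simp)).integrable_sq

theorem int_sq_eq : ∫ z, z ^ 2 ∂γ1 = 1 := by
  have h := variance_fun_id_gaussianReal (μ := 0) (v := 1)
  rw [variance_eq_integral measurable_id'.aemeasurable] at h
  simpa using h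

theorem cs_gauss {f : ℝ → ℝ} (hf : Measurable f) {B : ℝ} (hB : ∀ z, |f z| ≤ B) (c : ℝ) :
    (∫ z, z * f z ∂γ1) ^ 2 ≤ ∫ z, (f z - c) ^ 2 ∂γ1 := by
  set t := ∫ z, z * f z ∂γ1 with ht
  have i1 : Integrable (fun z => (f z - c) ^ 2) γ1 :=
    int_bdd ((hf.sub_const c).pow_const 2) (B := (B + |c|) ^ 2) fun z => by
      rw [abs_pow]
      exact pow_le_pow_left₀ (abs_nonneg _) ((abs_sub _ _).trans (by linarith [hB z])) 2
  have i2 : Integrable (fun z => z * f z) γ1 :=
    int_id.mul_bdd hf.aestronglyMeasurable (Eventually.of_forall hB)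
  have j1 : Integrable (fun z => (f z - c) ^ 2 - 2 * t * (z * f z)) γ1 := i1.sub (i2.const_mul _)
  have j2 : Integrable (fun z => (f z - c) ^ 2 - 2 * t * (z * f z) + 2 * t * c * z) γ1 :=
    j1.add (int_id.const_mul _)
  have h0 : 0 ≤ ∫ z, ((f z - c) ^ 2 - 2 * t * (z * f z) + 2 * t * c * z + t ^ 2 * z ^ 2) ∂γ1 :=
    integral_nonneg fun z => by
      have := sq_nonneg (f z - c - t * z)
      simp only [Pi.zero_apply]
      linarith
  rw [integral_add j2 (int_sq.const_mul _), integral_add j1 (int_id.const_mul _),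
    integral_sub i1 (i2.const_mul _), integral_const_mul, integral_const_mul, integral_const_mul,
    int_sq_eq, integral_id_gaussianReal, ← ht] at h0
  linarith

theorem var_le {f : ℝ → ℝ} (hf : Measurable f) {B : ℝ} (hB : ∀ z, |f z| ≤ B) (c : ℝ) :
    (∫ z, f z ^ 2 ∂γ1) - (∫ z, f z ∂γ1) ^ 2 ≤ ∫ z, (f z - c) ^ 2 ∂γ1 := by
  have i1 : Integrable f γ1 := int_bdd hf hB
  have i2 : Integrable (fun z => f z ^ 2) γ1 :=
    int_bdd (hf.pow_const 2) (B := B ^ 2) fun z => by
      rw [abs_pow]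
      exact pow_le_pow_left₀ (abs_nonneg _) (hB z) 2
  have j1 : Integrable (fun z => f z ^ 2 - 2 * c * f z) γ1 := i2.sub (i1.const_mul _)
  have e : ∫ z, (f z - c) ^ 2 ∂γ1 = ∫ z, (f z ^ 2 - 2 * c * f z + c ^ 2) ∂γ1 :=
    integral_congr_ae (Eventually.of_forall fun z => by ring)
  rw [e, integral_add j1 (integrable_const _), integral_sub i2 (i1.const_mul _),
    integral_const_mul]
  simp only [integral_const, probReal_univ, smul_eq_mul, one_mul]
  nlinarith [sq_nonneg (∫ z, f z ∂γ1 - c)]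

theorem D_cont {φ : ℝ → ℝ} (hφ : Reg φ) (n : ℕ) : Continuous (D n φ) :=
  continuous_iff_continuousAt.2 fun x => (hφ.hasDerivAt n x).continuousAt

theorem onestep {β : ℝ} (hβ : 0 < β) (C3 : ℝ) : ∃ C, 0 ≤ C ∧ ∀ (m τ : ℝ) (φ : ℝ → ℝ), 0 < m →
    m ≤ β → 0 < τ → τ ≤ 1 → Reg φ → (∀ x, |D 3 φ x| ≤ C3) →
    ∃ Y : ℝ → ℝ → ℝ, Measurable (fun p : ℝ × ℝ => Y p.1 p.2) ∧ (∀ x z, Y (-x) (-z) = -Y x z) ∧
      (∀ x (f : ℝ → ℝ), Measurable f → ∫ z, f (Y x z) ∂γ1 =
        ∫ z, exp (m * (φ (x + √τ * z) - T m τ φ x)) * f (x + √τ * z) ∂γ1) ∧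
      (∀ x, √τ * ∫ z, D 2 φ (Y x z) ∂γ1 ≤ ∫ z, z * D 1 φ (Y x z) ∂γ1) ∧
      ∀ x, (∫ z, D 2 φ (Y x z) ^ 2 ∂γ1) - C * τ ≤ (∫ z, D 2 φ (Y x z) ∂γ1) ^ 2 := by
  have hE : Integrable (fun z : ℝ => exp ((β + 1) * |z|)) γ1 :=
    integrable_exp_mul_abs (X := fun z => z) (integrable_exp_mul_gaussianReal _)
      (integrable_exp_mul_gaussianReal _)
  set B : ℝ := β + β ^ 2 / 2 + log 2 with hB
  refine ⟨C3 ^ 2 * (2 * exp B) * ∫ z, exp ((β + 1) * |z|) ∂γ1,
    mul_nonneg (by positivity) (integral_nonneg fun z => (exp_pos _).le),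
    fun m τ φ hm hmβ hτ hτ1 hφ h3 => ?_⟩
  have hs0 : 0 ≤ √τ := sqrt_nonneg τ
  have hs1 : √τ ≤ 1 := sqrt_le_one.2 hτ1
  have d0 : ∀ x, HasDerivAt φ (D 1 φ x) x := fun x => by
    simpa using hφ.hasDerivAt 0 x
  have lin : ∀ x z : ℝ, HasDerivAt (fun z : ℝ => x + √τ * z) √τ z := fun x z => by
    simpa using ((hasDerivAt_id z).const_mul √τ).const_add x
  have mono1 : Monotone (D 1 φ) :=
    monotone_of_deriv_nonneg (fun x => (hφ.hasDerivAt 1 x).differentiableAt) fun x => by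
      rw [(hφ.hasDerivAt 1 x).deriv]; exact (hφ.pos x).le
  obtain ⟨S, hS1, hS2, hS3, hS4⟩ := transport
    (θ := fun x z => m * (φ (x + √τ * z) - T m τ φ x))
    (by
      have c1 := hφ.smooth.continuous
      have c2 := (T_smooth hm hφ τ).continuous
      fun_prop)
    (fun x => by
      have hd : ∀ z, HasDerivAt (fun z => m * (φ (x + √τ * z) - T m τ φ x))
          (m * (D 1 φ (x + √τ * z) * √τ)) z := fun z =>
        (((d0 _).comp z (lin x z)).sub_const _).const_mul m
      refine Monotone.convexOn_univ_of_deriv (fun z => (hd z).differentiableAt) fun z z' hz => ?_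
      rw [(hd z).deriv, (hd z').deriv]
      have := mono1 (show x + √τ * z ≤ x + √τ * z' by gcongr)
      gcongr)
    (fun x => Integrable.of_integral_ne_zero (by rw [T_norm hm hφ]; exact one_ne_zero))
    (T_norm hm hφ τ)
    (fun x z => by
      rw [T_even hm hφ, ← hφ.even (x + √τ * z)]
      congr 3
      ring)
  obtain ⟨B2, hB2⟩ := hφ.bdd 2 (by norm_num)
  have hlaw : ∀ x (f : ℝ → ℝ), Measurable f → ∫ z, f (x + √τ * S x z) ∂γ1 =
      ∫ z, exp (m * (φ (x + √τ * z) - T m τ φ x)) * f (x + √τ * z) ∂γ1 := fun x f hf =>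
    hS3 x (fun z => f (x + √τ * z)) (hf.comp (by fun_prop))
  have c2 := D_cont hφ 2
  refine ⟨fun x z => x + √τ * S x z, measurable_fst.add (hS1.const_mul _), fun x z => ?_, hlaw,
    fun x => ?_, fun x => ?_⟩
  · simp only [hS2]
    ring
  · have := hS4 x (fun z => D 1 φ (x + √τ * z)) (fun z => D 2 φ (x + √τ * z) * √τ)
      (fun z => (hφ.hasDerivAt 1 _).comp z (lin x z)) (by fun_prop)
      (fun z => mul_nonneg (hφ.pos _).le hs0) (fun z => hφ.d1 _)
      ⟨B2 * √τ, fun z => mul_le_mul_of_nonneg_right ((le_abs_self _).trans (hB2 _)) hs0⟩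
    refine le_trans (le_of_eq ?_) this
    rw [hlaw x _ c2.measurable, ← integral_const_mul]
    exact integral_congr_ae (Eventually.of_forall fun z => by ring)
  · have mS : Measurable fun z => x + √τ * S x z :=
      ((hS1.comp (measurable_const.prodMk measurable_id)).const_mul _).const_add x
    have h1 := var_le (c2.measurable.comp mS) (fun z => hB2 _) (D 2 φ x)
    have h2 := hlaw x (fun y => (D 2 φ y - D 2 φ x) ^ 2) (by fun_prop)
    have h4 : ∫ z, exp (m * (φ (x + √τ * z) - T m τ φ x)) * (D 2 φ (x + √τ * z) - D 2 φ x) ^ 2 ∂γ1 ≤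
        ∫ z, C3 ^ 2 * (2 * exp B) * τ * exp ((β + 1) * |z|) ∂γ1 := by
      refine integral_mono_of_nonneg (Eventually.of_forall fun z => by positivity)
        (hE.const_mul _) (Eventually.of_forall fun z => ?_)
      have a1 := lip d0 hφ.d1 x (x + √τ * z)
      have a2 := lip (hφ.hasDerivAt 2) h3 x (x + √τ * z)
      rw [add_sub_cancel_left, abs_mul, abs_of_nonneg hs0] at a1 a2
      have a3 := T_sub_le hm hφ hτ.le x
      have az := abs_nonneg z
      have a4 : m * (φ (x + √τ * z) - T m τ φ x) ≤ B + β * |z| := by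
        have b1 : φ (x + √τ * z) - T m τ φ x ≤ |z| + (1 + β / 2 + log 2 / m) := by
          have := (abs_le.1 a1).2
          have := (abs_le.1 a3).1
          have : √τ * |z| ≤ |z| := mul_le_of_le_one_left az hs1
          have : m * τ ≤ β := (mul_le_of_le_one_right hm.le hτ1).trans hmβ
          linarith
        have b2 := mul_le_mul_of_nonneg_left b1 hm.le
        have b3 : m * (|z| + (1 + β / 2 + log 2 / m)) = m * (|z| + 1 + β / 2) + log 2 := by
          field_simp
          ring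
        have b4 : m * (|z| + 1 + β / 2) ≤ β * (|z| + 1 + β / 2) :=
          mul_le_mul_of_nonneg_right hmβ (by positivity)
        rw [hB]
        nlinarith
      have a5 : (D 2 φ (x + √τ * z) - D 2 φ x) ^ 2 ≤ C3 ^ 2 * τ * |z| ^ 2 := by
        have := pow_le_pow_left₀ (abs_nonneg _) a2 2
        rwa [sq_abs, mul_pow, mul_pow, sq_sqrt hτ.le, ← mul_assoc] at this
      have a6 : |z| ^ 2 ≤ 2 * exp |z| := by
        have := Real.pow_div_factorial_le_exp |z| az 2
        norm_num [Nat.factorial] at this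
        rw [sq_abs]
        linarith
      calc exp (m * (φ (x + √τ * z) - T m τ φ x)) * (D 2 φ (x + √τ * z) - D 2 φ x) ^ 2
          ≤ exp (B + β * |z|) * (C3 ^ 2 * τ * (2 * exp |z|)) := by
            refine mul_le_mul (exp_le_exp.2 a4) (a5.trans ?_) (sq_nonneg _) (exp_pos _).le
            gcongr
        _ = C3 ^ 2 * (2 * exp B) * τ * exp ((β + 1) * |z|) := by
            rw [add_mul, one_mul, exp_add B, exp_add (β * |z|)]
            ring
    rw [integral_const_mul] at h4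
    simp only [Function.comp] at h1
    linarith

theorem sig_arith {σ d S c : ℝ} (hσ : 0 ≤ σ) (hd : 0 ≤ d) (hc : 0 ≤ c) (hS : 0 ≤ S)
    (h : d * (S - c) ≤ σ ^ 2) : √d * (min 1 S - √c) ≤ σ := by
  have h1 : min 1 S ≤ 1 := min_le_left _ _
  have h2 : min 1 S ≤ S := min_le_right _ _
  have h3 : 0 ≤ min 1 S := le_min zero_le_one hS
  have h4 := sqrt_nonneg c
  have h5 := sq_sqrt hc
  by_cases hh : min 1 S ≤ √c
  · exact (mul_nonpos_of_nonneg_of_nonpos (sqrt_nonneg d) (by linarith)).trans hσ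
  · refine (abs_le_of_sq_le_sq' ?_ hσ).2
    rw [mul_pow, sq_sqrt hd]
    refine le_trans (mul_le_mul_of_nonneg_left ?_ hd) h
    nlinarith

end Eul

open Eul in
theorem euler {β : ℝ} (hβ : 0 < β) : ∃ (C : ℝ) (L₀ : ℕ), ∀ γ₀, 0 < γ₀ → ∀ (L : ℕ) (g : ℕ → ℝ),
    L₀ ≤ L → Adm β γ₀ g → ∀ K, K + 1 ≤ L → ∃ A : AMP K,
      ∑ a ∈ Finset.range K, (1 / L : ℝ) *
          min 1 (∫ x, D 2 (Phi β L g (a + 1)) x ^ 2 ∂rho β L g (a + 1)) *
          (∫ x, D 2 (Phi β L g (a + 2)) x ∂rho β L g (a + 2)) - C * √(1 / L) ≤ A.value := by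
  obtain ⟨C3, -, h3⟩ := D3_unif hβ
  obtain ⟨C, hC, hstep⟩ := onestep hβ C3
  refine ⟨β * √C, 1, fun γ₀ hγ L g hL hg K hK => ?_⟩
  have hg0 : ∀ l, 0 < g l := fun l => hγ.trans_le (hg.lo l)
  have hL0 : (1 : ℝ) ≤ L := by exact_mod_cast hL
  set d : ℝ := 1 / L with hd
  have hd0 : 0 < d := by positivity
  have hd1 : d ≤ 1 := by rw [hd, div_le_one (by linarith)]; exact hL0
  have hreg := Phi_reg hβ L hg0
  choose Y hY1 hY2 hY3 hY4 hY5 using fun l =>
    hstep (g l) d (Phi β L g (l + 1)) (hg0 l) (hg.hi l) hd0 hd1 (hreg _) ((h3 γ₀ hγ L g hg).1 _)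
  have mY : ∀ l x, Measurable (Y l x) := fun l x =>
    (hY1 l).comp (measurable_const.prodMk measurable_id)
  have mD : ∀ n l, Measurable (D n (Phi β L g l)) := fun n l => (D_cont (hreg l) n).measurable
  have w0 : ∀ l x, 0 < D 2 (Phi β L g l) x := fun l => (hreg l).pos
  have wb : ∀ l x, |D 2 (Phi β L g l) x| ≤ β := fun l x => by
    rw [abs_of_pos (w0 l x)]
    have := Phi_D2_le hγ hg (L := L) l x
    nlinarith [sq_nonneg (D 1 (Phi β L g l) x)]
  have wb2 : ∀ l x, |D 2 (Phi β L g l) x ^ 2| ≤ β ^ 2 := fun l x => by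
    rw [abs_pow]
    exact pow_le_pow_left₀ (abs_nonneg _) (wb l x) 2
  have Pw : ∀ l x, 0 < ∫ z, D 2 (Phi β L g (l + 1)) (Y l x z) ∂γ1 := fun l x => by
    rw [integral_pos_iff_support_of_nonneg (fun z => (w0 _ _).le)
      (int_bdd ((mD 2 _).comp (mY l x)) fun z => wb _ _)]
    have : (Function.support fun z => D 2 (Phi β L g (l + 1)) (Y l x z)) = univ :=
      eq_univ_of_forall fun z => (w0 _ _).ne'
    rw [this]
    simp
  have key : ∀ l x c, d * (∫ z, D 2 (Phi β L g (l + 1)) (Y l x z) ∂γ1) ^ 2 ≤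
      ∫ z, (D 1 (Phi β L g (l + 1)) (Y l x z) - c) ^ 2 ∂γ1 := fun l x c => by
    refine le_trans ?_ (cs_gauss ((mD 1 _).comp (mY l x)) (fun z => (hreg _).d1 _) c)
    have := pow_le_pow_left₀ (mul_nonneg (sqrt_nonneg d) (Pw l x).le) (hY4 l x) 2
    rwa [mul_pow, sq_sqrt hd0.le] at this
  have hch : Ch K Y fun l => D 1 (Phi β L g l) := by
    refine ⟨hY1, hY2, mD 1, fun l x => ?_, fun l => (hreg l).d1, fun l hl x => ?_,
      fun l _ x => lt_of_lt_of_le (by have := Pw l x; positivity) (key l x _)⟩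
    · rw [(hreg l).D_neg]; ring
    · rw [hY3 l x _ (mD 1 _), Phi_of_lt β g (show l < L by omega), T_D1 (hg0 l) (hreg _)]
  have hlaw : ∀ l ≤ K + 1, ∀ (f : ℝ → ℝ) (B : ℝ), Measurable f → (∀ x, |f x| ≤ B) →
      ∫ ω, f (ch Y l ω) ∂gam K = ∫ x, f x ∂rho β L g l := by
    intro l
    induction l with
    | zero => intro _ f B _ _; simp [ch, rho]
    | succ l ih =>
      intro hl f B hf hB
      obtain ⟨hp, hi⟩ := rho_prob (L := L) hβ hg0 (l := l) (by omega)
      rw [(hch.law (by omega) hf hB).2, rho,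
        integral_step (hreg _) (hreg _) hi hf (C := B) (c := 0) (by simpa using hB),
        ih (by omega) (fun x => ∫ z, f (Y l x z) ∂γ1) B
          (hf.comp (hY1 l)).stronglyMeasurable.integral_prod_right'.measurable fun x => by
            simpa using norm_integral_le_of_norm_le_const (μ := γ1) (f := fun z => f (Y l x z))
              (Eventually.of_forall fun z => hB _)]
      refine integral_congr_ae (Eventually.of_forall fun x => ?_)
      simp only [hY3 l x f hf, Phi_of_lt β g (show l < L by omega), hd]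
  obtain ⟨A, hA⟩ := hch.amp
  refine ⟨A, ?_⟩
  rw [hA]
  have term : ∀ a ∈ Finset.range K, d * min 1 (∫ x, D 2 (Phi β L g (a + 1)) x ^ 2 ∂rho β L g (a + 1)) *
      (∫ x, D 2 (Phi β L g (a + 2)) x ∂rho β L g (a + 2)) - d * (β * √C * √d) ≤
      sig K Y (fun l => D 1 (Phi β L g l)) a *
        ∫ ω, ∫ z, z * D 1 (Phi β L g (a + 2)) (Y (a + 1) (ch Y (a + 1) ω) z) ∂γ1 ∂gam K := by
    intro a ha
    have ha' : a < K := Finset.mem_range.1 ha
    set S := ∫ x, D 2 (Phi β L g (a + 1)) x ^ 2 ∂rho β L g (a + 1) with hS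
    set W := ∫ x, D 2 (Phi β L g (a + 2)) x ∂rho β L g (a + 2) with hW
    have hS0 : 0 ≤ S := integral_nonneg fun x => sq_nonneg _
    have hW0 : 0 ≤ W := integral_nonneg fun x => (w0 _ x).le
    have hWβ : W ≤ β := by
      obtain ⟨hp, -⟩ := rho_prob (L := L) hβ hg0 (l := a + 2) (by omega)
      have := norm_integral_le_of_norm_le_const (μ := rho β L g (a + 2))
        (f := fun x => D 2 (Phi β L g (a + 2)) x) (Eventually.of_forall fun z => wb _ _)
      simp only [probReal_univ, mul_one, Real.norm_eq_abs] at this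
      exact (le_abs_self _).trans this
    have h1 : √d * W ≤
        ∫ ω, ∫ z, z * D 1 (Phi β L g (a + 2)) (Y (a + 1) (ch Y (a + 1) ω) z) ∂γ1 ∂gam K := by
      obtain ⟨i1, e1⟩ := hch.law (l := a + 1) (by omega) (mD 2 (a + 2)) (wb _)
      rw [hW, ← hlaw (a + 2) (by omega) _ β (mD 2 _) (wb _), e1, ← integral_const_mul]
      exact integral_mono (i1.const_mul _) (hch.co_m ⟨a + 1, by omega⟩).1 fun ω => hY4 _ _
    have h2 : d * (S - C * d) ≤ sig K Y (fun l => D 1 (Phi β L g l)) a ^ 2 := by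
      obtain ⟨i1, e1⟩ := hch.law (l := a) (by omega) ((mD 2 (a + 1)).pow_const 2) (wb2 _)
      obtain ⟨i2, e2⟩ := hch.inc_sq (l := a) (by omega)
      have e3 : S - C * d =
          ∫ ω, ((∫ z, D 2 (Phi β L g (a + 1)) (Y a (ch Y a ω) z) ^ 2 ∂γ1) - C * d) ∂gam K := by
        rw [integral_sub i1 (integrable_const _), ← e1, hS,
          ← hlaw (a + 1) (by omega) _ _ ((mD 2 (a + 1)).pow_const 2) (wb2 _)]
        simp
      rw [sig_sq, e2, e3, ← integral_const_mul]
      refine integral_mono ((i1.sub (integrable_const _)).const_mul _) i2 fun ω => ?_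
      exact (mul_le_mul_of_nonneg_left (hY5 _ _) hd0.le).trans (key _ _ _)
    have hσ := (hch.sig_pos (l := a) (by omega)).le
    have h4 := sig_arith hσ hd0.le (by positivity) hS0 h2
    have h5 := mul_le_mul_of_nonneg_left h1 hσ
    have h6 := mul_le_mul_of_nonneg_right h4 (mul_nonneg (sqrt_nonneg d) hW0)
    have h7 : √d * (min 1 S - √(C * d)) * (√d * W) = d * min 1 S * W - d * (W * √C * √d) := by
      rw [sqrt_mul hC]
      have := mul_self_sqrt hd0.le
      linear_combination (min 1 S * W - W * √C * √d) * this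
    have h8 : d * (W * √C * √d) ≤ d * (β * √C * √d) := by gcongr
    linarith
  refine le_trans ?_ (Finset.sum_le_sum term)
  rw [Finset.sum_sub_distrib, Finset.sum_const, Finset.card_range, nsmul_eq_mul]
  have hKd : (K : ℝ) * d ≤ 1 := by
    rw [hd, mul_one_div, div_le_one (by linarith)]
    exact_mod_cast (by omega : K ≤ L)
  have : (K : ℝ) * (d * (β * √C * √d)) ≤ β * √C * √d := by
    rw [← mul_assoc]
    exact mul_le_of_le_one_left (by positivity) hKd
  linarith

end Crest.Agent.R339
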