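import Crest.Agent.R339.PHeat

/-! # Row 339: the Cole–Hopf flow: smoothness, PDE, bounds, semigroup -/

set_option autoImplicit false

namespace Crest.Agent.R339

open MeasureTheory ProbabilityTheory Real Set Filter Topology

variable {m : ℝ} {φ : ℝ → ℝ}

lemma PFlow_hasDerivAt {f : ℝ → ℝ} (hf : ContDiff ℝ (⊤ : ℕ∞) f) (n : ℕ) (x : ℝ) :
    HasDerivAt (D n f) (D (n + 1) f x) x := by
  have h := hf.differentiable_iteratedDeriv n (by exact_mod_cast ENat.natCast_lt_top n)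
  rw [D, D, iteratedDeriv_succ]
  exact (h x).hasDerivAt

lemma PFlow_D_succ {f g : ℝ → ℝ} {n : ℕ} {x g' : ℝ} (h : ∀ y, D n f y = g y)
    (hg : HasDerivAt g g' x) : D (n + 1) f x = g' := by
  rw [D, iteratedDeriv_succ, show iteratedDeriv n f = g from funext h]
  exact hg.deriv

lemma PFlow_lip (hφ : Reg φ) (x y : ℝ) : |φ y - φ x| ≤ |y - x| := by
  have h := (convex_univ (𝕜 := ℝ) (E := ℝ)).norm_image_sub_le_of_norm_hasDerivWithin_le
    (f := φ) (f' := D 1 φ) (C := 1) (x := x) (y := y)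
    (fun z _ => by
      have := PFlow_hasDerivAt hφ.smooth 0 z
      rw [D, iteratedDeriv_zero] at this
      exact this.hasDerivWithinAt)
    (fun z _ => hφ.d1 z) (mem_univ _) (mem_univ _)
  simpa using h

theorem Reg.abs_le (hφ : Reg φ) (x : ℝ) : |φ x| ≤ |φ 0| + |x| := by
  have h := PFlow_lip hφ 0 x
  rw [sub_zero] at h
  have h2 := abs_add_le (φ 0) (φ x - φ 0)
  rw [add_sub_cancel] at h2
  linarith

theorem Reg.hasDerivAt (hφ : Reg φ) (n : ℕ) (x : ℝ) : HasDerivAt (D n φ) (D (n + 1) φ x) x :=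
  PFlow_hasDerivAt hφ.smooth n x

lemma PFlow_d0 (hφ : Reg φ) (x : ℝ) : HasDerivAt φ (D 1 φ x) x := by
  have := hφ.hasDerivAt 0 x
  rwa [D, iteratedDeriv_zero] at this

/-- bounded elements of an algebra of functions -/
lemma PFlow_bdd {X : Type} {S : Set (X → ℝ)} (hS : ∀ f ∈ S, ∃ C, ∀ x, |f x| ≤ C) {f : X → ℝ}
    (hf : f ∈ Algebra.adjoin ℝ S) : ∃ C, ∀ x, |f x| ≤ C := by
  induction hf using Algebra.adjoin_induction with
  | mem f hf => exact hS f hf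
  | algebraMap r => exact ⟨|r|, fun x => le_rfl⟩
  | add f g _ _ hf hg =>
    obtain ⟨C, hC⟩ := hf
    obtain ⟨C', hC'⟩ := hg
    exact ⟨C + C', fun x => (abs_add_le _ _).trans (add_le_add (hC x) (hC' x))⟩
  | mul f g _ _ hf hg =>
    obtain ⟨C, hC⟩ := hf
    obtain ⟨C', hC'⟩ := hg
    refine ⟨C * C', fun x => ?_⟩
    rw [Pi.mul_apply, abs_mul]
    exact mul_le_mul (hC x) (hC' x) (abs_nonneg _) ((abs_nonneg _).trans (hC x))

/-- an algebra of functions closed under differentiation along a family of curves -/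
lemma PFlow_der {X P : Type} (c : P → ℝ → X) {S : Set (X → ℝ)}
    (hS : ∀ f ∈ S, ∃ f' ∈ Algebra.adjoin ℝ S, ∀ p x, HasDerivAt (fun y => f (c p y)) (f' (c p x)) x)
    {f : X → ℝ} (hf : f ∈ Algebra.adjoin ℝ S) :
    ∃ f' ∈ Algebra.adjoin ℝ S, ∀ p x, HasDerivAt (fun y => f (c p y)) (f' (c p x)) x := by
  induction hf using Algebra.adjoin_induction with
  | mem f hf => exact hS f hf
  | algebraMap r => exact ⟨0, zero_mem _, fun p x => hasDerivAt_const x r⟩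
  | add f g _ _ hf hg =>
    obtain ⟨f', h1, h2⟩ := hf
    obtain ⟨g', h3, h4⟩ := hg
    exact ⟨f' + g', add_mem h1 h3, fun p x => (h2 p x).add (h4 p x)⟩
  | mul f g hf0 hg0 hf hg =>
    obtain ⟨f', h1, h2⟩ := hf
    obtain ⟨g', h3, h4⟩ := hg
    exact ⟨f' * g + f * g', add_mem (mul_mem h1 hg0) (mul_mem hf0 h3),
      fun p x => (h2 p x).mul (h4 p x)⟩

lemma PFlow_V_deriv (hφ : Reg φ) (m x : ℝ) :
    HasDerivAt (fun x => exp (m * φ x)) (exp (m * φ x) * (m * D 1 φ x)) x :=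
  ((PFlow_d0 hφ x).const_mul m).exp

lemma PFlow_B (hφ : Reg φ) (m : ℝ) (n : ℕ) :
    ∃ B ∈ Algebra.adjoin ℝ (range fun j : ℕ => D (j + 1) φ),
      ∀ x, D n (fun x => exp (m * φ x)) x = exp (m * φ x) * B x := by
  induction n with
  | zero => exact ⟨1, one_mem _, fun x => by simp [D]⟩
  | succ n ih =>
    obtain ⟨B, hB, h⟩ := ih
    obtain ⟨B', hB', h'⟩ := PFlow_der (P := Unit) (fun _ y => y)
      (S := range fun j : ℕ => D (j + 1) φ) (by
        rintro _ ⟨j, rfl⟩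
        exact ⟨D (j + 1 + 1) φ, Algebra.subset_adjoin ⟨j + 1, rfl⟩,
          fun _ x => hφ.hasDerivAt (j + 1) x⟩) hB
    have h1 : D 1 φ ∈ Algebra.adjoin ℝ (range fun j : ℕ => D (j + 1) φ) :=
      Algebra.subset_adjoin ⟨0, rfl⟩
    refine ⟨m • D 1 φ * B + B', add_mem (mul_mem (Subalgebra.smul_mem _ h1 m) hB) hB', fun x => ?_⟩
    rw [PFlow_D_succ h ((PFlow_V_deriv hφ m x).mul (h' () x))]
    simp only [Pi.add_apply, Pi.mul_apply, Pi.smul_apply, smul_eq_mul]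
    ring

lemma PFlow_DV_le (hφ : Reg φ) (m : ℝ) (n : ℕ) :
    ∃ C, ∀ x, |D n (fun x => exp (m * φ x)) x| ≤ C * exp (m * φ x) := by
  obtain ⟨B, hB, h⟩ := PFlow_B hφ m n
  obtain ⟨C, hC⟩ := PFlow_bdd (by
    rintro _ ⟨j, rfl⟩
    exact hφ.bdd (j + 1) (by omega)) hB
  refine ⟨C, fun x => ?_⟩
  rw [h, abs_mul, abs_of_pos (exp_pos _), mul_comm]
  exact mul_le_mul_of_nonneg_right (hC x) (exp_pos _).le

theorem Reg.expG (hφ : Reg φ) (m : ℝ) : ExpG |m| fun x => exp (m * φ x) := by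
  refine ⟨(contDiff_const.mul hφ.smooth).exp, fun n => ?_⟩
  obtain ⟨C, hC⟩ := PFlow_DV_le hφ m n
  have hC0 : 0 ≤ C := by
    have := (abs_nonneg _).trans (hC 0)
    exact nonneg_of_mul_nonneg_left this (exp_pos _)
  refine ⟨C * exp (|m| * |φ 0|), fun x => (hC x).trans ?_⟩
  rw [mul_assoc, ← exp_add]
  refine mul_le_mul_of_nonneg_left (exp_le_exp.2 ?_) hC0
  have h1 : m * φ x ≤ |m| * |φ x| := by rw [← abs_mul]; exact le_abs_self _
  have h2 := mul_le_mul_of_nonneg_left (hφ.abs_le x) (abs_nonneg m)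
  linarith

/-- Parity of the derivatives. -/
theorem Reg.D_neg (hφ : Reg φ) (n : ℕ) (x : ℝ) : D n φ (-x) = (-1) ^ n * D n φ x := by
  have h := iteratedDeriv_comp_neg n φ (-x)
  rw [show (fun x => φ (-x)) = φ from funext hφ.even, neg_neg] at h
  exact h

theorem T_zero (hm : 0 < m) (φ : ℝ → ℝ) : T m 0 φ = φ := by
  funext x
  simp [T, hm.ne']

/-- the partition function -/
noncomputable def PFlowA (m : ℝ) (φ : ℝ → ℝ) (n : ℕ) (τ x : ℝ) : ℝ :=
  heat (fun x => exp (m * φ x)) n τ x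

/-- the normalised moments -/
noncomputable def PFlowMu (m : ℝ) (φ : ℝ → ℝ) (n : ℕ) (p : ℝ × ℝ) : ℝ :=
  PFlowA m φ n p.1 p.2 / PFlowA m φ 0 p.1 p.2

lemma PFlowA_zero (τ x : ℝ) : PFlowA m φ 0 τ x = ∫ z, exp (m * φ (x + √τ * z)) ∂γ1 := by
  simp [PFlowA, heat, D]

lemma PFlow_T_eq (τ x : ℝ) : T m τ φ x = m⁻¹ * log (PFlowA m φ 0 τ x) := by
  rw [PFlowA_zero, T]

lemma PFlow_int0 (hφ : Reg φ) (m τ x : ℝ) :
    Integrable (fun z => exp (m * φ (x + √τ * z))) γ1 := by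
  simpa [D] using heat_integrable (hφ.expG m) 0 τ x

lemma PFlowA_pos (hφ : Reg φ) (τ x : ℝ) : 0 < PFlowA m φ 0 τ x := by
  rw [PFlowA_zero]
  exact integral_exp_pos (PFlow_int0 hφ m τ x)

lemma PFlowA_deriv (hφ : Reg φ) (n : ℕ) (τ x : ℝ) :
    HasDerivAt (PFlowA m φ n τ) (PFlowA m φ (n + 1) τ x) x :=
  heat_deriv_x (hφ.expG m) n τ x

lemma PFlowA_le (hφ : Reg φ) {n : ℕ} {C : ℝ}
    (hC : ∀ x, |D n (fun x => exp (m * φ x)) x| ≤ C * exp (m * φ x)) (τ x : ℝ) :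
    |PFlowA m φ n τ x| ≤ C * PFlowA m φ 0 τ x := by
  rw [PFlowA_zero, ← integral_const_mul]
  exact norm_integral_le_of_norm_le (f := fun z => D n (fun x => exp (m * φ x)) (x + √τ * z))
    ((PFlow_int0 hφ m τ x).const_mul C) (Eventually.of_forall fun z => hC _)

lemma PFlow_exp_T (hm : 0 < m) (hφ : Reg φ) (τ x : ℝ) :
    exp (m * T m τ φ x) = PFlowA m φ 0 τ x := by
  rw [PFlow_T_eq, ← mul_assoc, mul_inv_cancel₀ hm.ne', one_mul, exp_log (PFlowA_pos hφ τ x)]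

lemma PFlowMu_deriv (hφ : Reg φ) (n : ℕ) (τ x : ℝ) :
    HasDerivAt (fun y => PFlowMu m φ n (τ, y))
      (PFlowMu m φ (n + 1) (τ, x) - PFlowMu m φ n (τ, x) * PFlowMu m φ 1 (τ, x)) x := by
  have h := (PFlowA_deriv (m := m) hφ n τ x).div (PFlowA_deriv (m := m) hφ 0 τ x)
    (PFlowA_pos hφ τ x).ne'
  refine h.congr_deriv ?_
  have := (PFlowA_pos (m := m) hφ τ x).ne'
  simp only [PFlowMu, zero_add]
  field_simp

lemma PFlow_T_deriv (hφ : Reg φ) (τ x : ℝ) :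
    HasDerivAt (T m τ φ) (m⁻¹ * PFlowMu m φ 1 (τ, x)) x := by
  rw [show T m τ φ = fun x => m⁻¹ * log (PFlowA m φ 0 τ x) from funext (PFlow_T_eq τ)]
  exact ((PFlowA_deriv hφ 0 τ x).log (PFlowA_pos hφ τ x).ne').const_mul m⁻¹

lemma PFlow_D1 (hφ : Reg φ) (τ x : ℝ) : D 1 (T m τ φ) x = m⁻¹ * PFlowMu m φ 1 (τ, x) :=
  PFlow_D_succ (n := 0) (fun y => by simp [D]) (PFlow_T_deriv hφ τ x)

lemma PFlow_D2 (hφ : Reg φ) (τ x : ℝ) :
    D 2 (T m τ φ) x = m⁻¹ * (PFlowMu m φ 2 (τ, x) - PFlowMu m φ 1 (τ, x) * PFlowMu m φ 1 (τ, x)) :=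
  PFlow_D_succ (n := 1) (PFlow_D1 hφ τ) ((PFlowMu_deriv hφ 1 τ x).const_mul m⁻¹)

lemma PFlow_adj_der (hφ : Reg φ) {f : ℝ × ℝ → ℝ} (hf : f ∈ Algebra.adjoin ℝ (range (PFlowMu m φ))) :
    ∃ f' ∈ Algebra.adjoin ℝ (range (PFlowMu m φ)),
      ∀ τ x, HasDerivAt (fun y => f (τ, y)) (f' (τ, x)) x :=
  PFlow_der (P := ℝ) (fun τ y => (τ, y)) (by
    rintro _ ⟨j, rfl⟩
    exact ⟨PFlowMu m φ (j + 1) - PFlowMu m φ j * PFlowMu m φ 1,
      sub_mem (Algebra.subset_adjoin ⟨j + 1, rfl⟩)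
        (mul_mem (Algebra.subset_adjoin ⟨j, rfl⟩) (Algebra.subset_adjoin ⟨1, rfl⟩)),
      fun τ x => PFlowMu_deriv hφ j τ x⟩) hf

lemma PFlow_mem (hφ : Reg φ) (n : ℕ) :
    (fun p : ℝ × ℝ => D (n + 1) (T m p.1 φ) p.2) ∈ Algebra.adjoin ℝ (range (PFlowMu m φ)) := by
  induction n with
  | zero =>
    have : (fun p : ℝ × ℝ => D (0 + 1) (T m p.1 φ) p.2) = m⁻¹ • PFlowMu m φ 1 :=
      funext fun p => PFlow_D1 hφ p.1 p.2
    rw [this]
    exact Subalgebra.smul_mem _ (Algebra.subset_adjoin (mem_range_self 1)) _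
  | succ n ih =>
    obtain ⟨f', hf', h⟩ := PFlow_adj_der hφ ih
    have : (fun p : ℝ × ℝ => D (n + 1 + 1) (T m p.1 φ) p.2) = f' :=
      funext fun p => PFlow_D_succ (fun _ => rfl) (h p.1 p.2)
    rw [this]
    exact hf'

theorem T_smooth (hm : 0 < m) (hφ : Reg φ) (τ : ℝ) : ContDiff ℝ (⊤ : ℕ∞) (T m τ φ) := by
  have _ := hm
  refine contDiff_of_differentiable_iteratedDeriv fun n _ x => ?_
  cases n with
  | zero => exact (PFlow_T_deriv hφ τ x).differentiableAt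
  | succ n =>
    obtain ⟨f', -, h⟩ := PFlow_adj_der hφ (PFlow_mem (m := m) hφ n)
    exact (h τ x).differentiableAt

theorem T_even (hm : 0 < m) (hφ : Reg φ) (τ x : ℝ) : T m τ φ (-x) = T m τ φ x := by
  have _ := hm
  have h1 : γ1.map (fun z => -z) = γ1 := by
    rw [gaussianReal_map_neg, neg_zero]
  have h2 : ∫ z, exp (m * φ (-x + √τ * z)) ∂γ1 = ∫ z, exp (m * φ (x + √τ * z)) ∂γ1 := by
    conv_lhs => rw [← h1]
    rw [integral_map (by fun_prop)]
    · refine integral_congr_ae (Eventually.of_forall fun z => ?_)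
      simp only
      rw [← hφ.even]
      congr 3
      ring
    · have := hφ.smooth.continuous
      exact Continuous.aestronglyMeasurable (by fun_prop)
  rw [T, T, h2]

lemma PFlow_tilt (hm : 0 < m) (hφ : Reg φ) (τ x y : ℝ) :
    exp (m * (φ y - T m τ φ x)) = (PFlowA m φ 0 τ x)⁻¹ * exp (m * φ y) := by
  rw [mul_sub, exp_sub, PFlow_exp_T hm hφ, div_eq_inv_mul]

/-- The tilted density integrates to one. -/
theorem T_norm (hm : 0 < m) (hφ : Reg φ) (τ x : ℝ) :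
    ∫ z, exp (m * (φ (x + √τ * z) - T m τ φ x)) ∂γ1 = 1 := by
  simp only [PFlow_tilt hm hφ]
  rw [integral_const_mul, ← PFlowA_zero, inv_mul_cancel₀ (PFlowA_pos hφ τ x).ne']

lemma PFlow_DV1 (hφ : Reg φ) (m x : ℝ) :
    D 1 (fun x => exp (m * φ x)) x = exp (m * φ x) * (m * D 1 φ x) :=
  PFlow_D_succ (n := 0) (fun y => by simp [D]) (PFlow_V_deriv hφ m x)

lemma PFlow_DV2 (hφ : Reg φ) (m x : ℝ) :
    D 2 (fun x => exp (m * φ x)) x =
      exp (m * φ x) * (m * D 1 φ x) * (m * D 1 φ x) + exp (m * φ x) * (m * D 2 φ x) :=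
  PFlow_D_succ (n := 1) (PFlow_DV1 hφ m)
    ((PFlow_V_deriv hφ m x).mul ((hφ.hasDerivAt 1 x).const_mul m))

/-- `u` is a martingale. -/
theorem T_D1 (hm : 0 < m) (hφ : Reg φ) (τ x : ℝ) :
    D 1 (T m τ φ) x = ∫ z, exp (m * (φ (x + √τ * z) - T m τ φ x)) * D 1 φ (x + √τ * z) ∂γ1 := by
  have h : ∀ y, exp (m * (φ y - T m τ φ x)) * D 1 φ y =
      (m⁻¹ * (PFlowA m φ 0 τ x)⁻¹) * D 1 (fun x => exp (m * φ x)) y := by
    intro y
    rw [PFlow_tilt hm hφ, PFlow_DV1 hφ]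
    field_simp
  simp only [h]
  rw [integral_const_mul, PFlow_D1 hφ, PFlowMu, div_eq_inv_mul, mul_assoc]
  rfl

/-- `w = E' w + m Var' u`. -/
theorem T_D2 (hm : 0 < m) (hφ : Reg φ) (τ x : ℝ) :
    D 2 (T m τ φ) x = ∫ z, exp (m * (φ (x + √τ * z) - T m τ φ x)) *
      (D 2 φ (x + √τ * z) + m * (D 1 φ (x + √τ * z) - D 1 (T m τ φ) x) ^ 2) ∂γ1 := by
  have ha := (PFlowA_pos (m := m) hφ τ x).ne'
  have h : ∀ y, exp (m * (φ y - T m τ φ x)) * (D 2 φ y + m * (D 1 φ y - D 1 (T m τ φ) x) ^ 2) =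
      (m⁻¹ * (PFlowA m φ 0 τ x)⁻¹) * D 2 (fun x => exp (m * φ x)) y -
        (2 * D 1 (T m τ φ) x * (PFlowA m φ 0 τ x)⁻¹) * D 1 (fun x => exp (m * φ x)) y +
        (m * D 1 (T m τ φ) x ^ 2 * (PFlowA m φ 0 τ x)⁻¹) * D 0 (fun x => exp (m * φ x)) y := by
    intro y
    rw [PFlow_tilt hm hφ, PFlow_DV1 hφ, PFlow_DV2 hφ,
      show D 0 (fun x => exp (m * φ x)) y = exp (m * φ y) from rfl]
    field_simp
    ring
  simp only [h]
  have hi := fun n => heat_integrable (hφ.expG m) n τ x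
  rw [integral_add (by exact ((hi 2).const_mul _).sub ((hi 1).const_mul _)) ((hi 0).const_mul _),
    integral_sub ((hi 2).const_mul _) ((hi 1).const_mul _), integral_const_mul, integral_const_mul,
    integral_const_mul]
  change _ = _ * PFlowA m φ 2 τ x - _ * PFlowA m φ 1 τ x + _ * PFlowA m φ 0 τ x
  rw [PFlow_D2 hφ, PFlow_D1 hφ]
  simp only [PFlowMu]
  field_simp
  ring

theorem T_d1 (hm : 0 < m) (hφ : Reg φ) (τ x : ℝ) : |D 1 (T m τ φ) x| ≤ 1 := by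
  have ha := PFlowA_pos (m := m) hφ τ x
  have h := PFlowA_le (m := m) hφ (n := 1) (C := m) (fun y => by
    rw [PFlow_DV1 hφ, abs_mul, abs_mul, abs_of_pos (exp_pos _), abs_of_pos hm, mul_comm]
    exact mul_le_mul_of_nonneg_right (mul_le_of_le_one_right hm.le (hφ.d1 y)) (exp_pos _).le) τ x
  rw [PFlow_D1 hφ, PFlowMu, abs_mul, abs_div, abs_of_pos ha, abs_of_pos (inv_pos.2 hm),
    inv_mul_le_iff₀ hm, div_le_iff₀ ha, mul_one]
  exact h

lemma PFlow_gauss_abs (a : ℝ) : Integrable (fun z => exp (a * |z|)) γ1 ∧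
    ∫ z, exp (a * |z|) ∂γ1 ≤ 2 * exp (a ^ 2 / 2) := by
  have h1 := integrable_exp_mul_gaussianReal (μ := 0) (v := 1) a
  have h2 := integrable_exp_mul_gaussianReal (μ := 0) (v := 1) (-a)
  have hle : ∀ z : ℝ, exp (a * |z|) ≤ exp (a * z) + exp (-a * z) := by
    intro z
    rcases abs_choice z with h | h
    · rw [h]
      linarith [exp_pos (-a * z)]
    · rw [h, show a * -z = -a * z by ring]
      linarith [exp_pos (a * z)]
  have hi : Integrable (fun z => exp (a * |z|)) γ1 :=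
    (h1.add h2).mono' (Continuous.aestronglyMeasurable (by fun_prop))
      (Eventually.of_forall fun z => by
        rw [Real.norm_eq_abs, abs_of_pos (exp_pos _)]
        exact hle z)
  refine ⟨hi, (integral_mono (g := fun z => exp (a * z) + exp (-a * z)) hi (h1.add h2) hle).trans ?_⟩
  have e : ∀ t : ℝ, ∫ z, exp (t * z) ∂γ1 = exp (t ^ 2 / 2) := by
    intro t
    have := congrFun (mgf_fun_id_gaussianReal (μ := 0) (v := 1)) t
    simpa [mgf] using this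
  rw [integral_add h1 h2, e, e, neg_sq]
  linarith

/-- Crude two-sided comparison. -/
theorem T_sub_le (hm : 0 < m) (hφ : Reg φ) {τ : ℝ} (hτ : 0 ≤ τ) (x : ℝ) :
    |T m τ φ x - φ x| ≤ √τ + m * τ / 2 + log 2 / m := by
  obtain ⟨hi, hle⟩ := PFlow_gauss_abs (m * √τ)
  set c := 2 * exp ((m * √τ) ^ 2 / 2) with hc
  have hc0 : 0 < c := by positivity
  have hlc : log c = log 2 + m * (m * τ / 2) := by
    rw [hc, log_mul two_ne_zero (exp_pos _).ne', log_exp, mul_pow, sq_sqrt hτ]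
    ring
  have hlip : ∀ z, |m * φ (x + √τ * z) - m * φ x| ≤ m * √τ * |z| := by
    intro z
    have := PFlow_lip hφ x (x + √τ * z)
    rw [add_sub_cancel_left, abs_mul, abs_of_nonneg (sqrt_nonneg τ)] at this
    rw [← mul_sub, abs_mul, abs_of_pos hm, mul_assoc]
    exact mul_le_mul_of_nonneg_left this hm.le
  have ha := PFlowA_pos (m := m) hφ τ x
  have hup : PFlowA m φ 0 τ x ≤ exp (m * φ x) * c := by
    rw [PFlowA_zero]
    refine le_trans ?_ (mul_le_mul_of_nonneg_left hle (exp_pos _).le)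
    rw [← integral_const_mul]
    refine integral_mono (PFlow_int0 hφ m τ x) (hi.const_mul _) fun z => ?_
    simp only
    rw [← exp_add, exp_le_exp]
    linarith [(abs_le.1 (hlip z)).2]
  have hlo : exp (m * φ x) * c⁻¹ ≤ PFlowA m φ 0 τ x := by
    rw [PFlowA_zero]
    have h1 : ∫ z, exp (m * φ x) * (2 / c - exp (m * √τ * |z|) / c ^ 2) ∂γ1 ≤
        ∫ z, exp (m * φ (x + √τ * z)) ∂γ1 := by
      refine integral_mono (((integrable_const _).sub (hi.div_const _)).const_mul _)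
        (PFlow_int0 hφ m τ x) fun z => ?_
      simp only
      have h2 : exp (m * φ x) * (exp (m * √τ * |z|))⁻¹ ≤ exp (m * φ (x + √τ * z)) := by
        rw [← exp_neg, ← exp_add, exp_le_exp]
        linarith [(abs_le.1 (hlip z)).1]
      refine le_trans (mul_le_mul_of_nonneg_left ?_ (exp_pos _).le) h2
      have hy := exp_pos (m * √τ * |z|)
      set y := exp (m * √τ * |z|)
      have : y⁻¹ - (2 / c - y / c ^ 2) = (y - c) ^ 2 / (y * c ^ 2) := by
        field_simp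
        ring
      have h3 : 0 ≤ (y - c) ^ 2 / (y * c ^ 2) := by positivity
      linarith
    refine le_trans ?_ h1
    rw [integral_const_mul, integral_sub (integrable_const _) (hi.div_const _),
      integral_div (c ^ 2)]
    refine mul_le_mul_of_nonneg_left ?_ (exp_pos _).le
    have h4 : (∫ z, exp (m * √τ * |z|) ∂γ1) / c ^ 2 ≤ c / c ^ 2 :=
      div_le_div_of_nonneg_right hle (by positivity)
    have h5 : c / c ^ 2 = c⁻¹ := by field_simp
    have h6 : 2 / c = 2 * c⁻¹ := div_eq_mul_inv _ _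
    simp only [integral_const, probReal_univ, smul_eq_mul, one_mul]
    linarith
  have l1 := log_le_log ha hup
  have l2 := log_le_log (by positivity) hlo
  rw [log_mul (exp_pos _).ne' hc0.ne', log_exp, hlc] at l1
  rw [log_mul (exp_pos _).ne' (inv_pos.2 hc0).ne', log_exp, log_inv, hlc] at l2
  have e1 : T m τ φ x - φ x = (log (PFlowA m φ 0 τ x) - m * φ x) / m := by
    rw [PFlow_T_eq]
    field_simp
  have e2 : m * τ / 2 + log 2 / m = (log 2 + m * (m * τ / 2)) / m := by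
    field_simp
    ring
  have h7 : |T m τ φ x - φ x| ≤ m * τ / 2 + log 2 / m := by
    rw [e1, e2, abs_div, abs_of_pos hm]
    exact div_le_div_of_nonneg_right (abs_le.2 ⟨by linarith, by linarith⟩) hm.le
  linarith [sqrt_nonneg τ]

theorem T_bdd (hm : 0 < m) (hφ : Reg φ) (n : ℕ) (hn : 1 ≤ n) :
    ∃ C, ∀ τ x, |D n (T m τ φ) x| ≤ C := by
  have _ := hm
  obtain ⟨n, rfl⟩ : ∃ k, n = k + 1 := ⟨n - 1, by omega⟩
  obtain ⟨C, hC⟩ := PFlow_bdd (by
    rintro _ ⟨j, rfl⟩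
    obtain ⟨C, hC⟩ := PFlow_DV_le hφ m j
    refine ⟨C, fun p => ?_⟩
    have ha := PFlowA_pos (m := m) hφ p.1 p.2
    rw [PFlowMu, abs_div, abs_of_pos ha, div_le_iff₀ ha]
    exact PFlowA_le hφ hC p.1 p.2) (PFlow_mem (m := m) hφ n)
  exact ⟨C, fun τ x => hC (τ, x)⟩

theorem T_cont (hm : 0 < m) (hφ : Reg φ) (n : ℕ) :
    Continuous fun p : ℝ × ℝ => D n (T m p.1 φ) p.2 := by
  have _ := hm
  have hA : ∀ j, Continuous fun p : ℝ × ℝ => PFlowA m φ j p.1 p.2 := heat_cont (hφ.expG m)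
  cases n with
  | zero =>
    simp only [D, iteratedDeriv_zero, PFlow_T_eq]
    exact continuous_const.mul ((hA 0).log fun p => (PFlowA_pos hφ p.1 p.2).ne')
  | succ n =>
    have h := PFlow_mem (m := m) hφ n
    generalize (fun p : ℝ × ℝ => D (n + 1) (T m p.1 φ) p.2) = f at h
    induction h using Algebra.adjoin_induction with
    | mem f hf =>
      obtain ⟨j, rfl⟩ := hf
      exact (hA j).div (hA 0) fun p => (PFlowA_pos hφ p.1 p.2).ne'
    | algebraMap r => exact continuous_const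
    | add f g _ _ hf hg => exact hf.add hg
    | mul f g _ _ hf hg => exact hf.mul hg

theorem T_contDiffOn (hm : 0 < m) (hφ : Reg φ) (n : ℕ) :
    ContDiffOn ℝ (⊤ : ℕ∞) (fun p : ℝ × ℝ => D n (T m p.1 φ) p.2) (Ioi 0 ×ˢ univ) := by
  have _ := hm
  have hA : ∀ j, ContDiffOn ℝ (⊤ : ℕ∞) (fun p : ℝ × ℝ => PFlowA m φ j p.1 p.2) (Ioi 0 ×ˢ univ) :=
    heat_contDiffOn (hφ.expG m)
  cases n with
  | zero =>
    simp only [D, iteratedDeriv_zero, PFlow_T_eq]
    exact contDiffOn_const.mul ((hA 0).log fun p _ => (PFlowA_pos hφ p.1 p.2).ne')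
  | succ n =>
    have h := PFlow_mem (m := m) hφ n
    generalize (fun p : ℝ × ℝ => D (n + 1) (T m p.1 φ) p.2) = f at h
    induction h using Algebra.adjoin_induction with
    | mem f hf =>
      obtain ⟨j, rfl⟩ := hf
      exact (hA j).div (hA 0) fun p _ => (PFlowA_pos hφ p.1 p.2).ne'
    | algebraMap r => exact contDiffOn_const
    | add f g _ _ hf hg => exact hf.add hg
    | mul f g _ _ hf hg => exact hf.mul hg

theorem T_add (hm : 0 < m) (hφ : Reg φ) {s t : ℝ} (hs : 0 ≤ s) (ht : 0 ≤ t) :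
    T m s (T m t φ) = T m (s + t) φ := by
  funext x
  obtain ⟨C, hC⟩ := (hφ.expG m).bound 0
  have h := gauss_two (f := fun x => exp (m * φ x)) (hφ.expG m).smooth.continuous.measurable
    (C := C) (c := |m|) (fun z => by simpa [D] using hC z) hs ht x
  rw [T, T, ← h]
  simp only [PFlow_exp_T hm hφ, PFlowA_zero]

/-- commuting the two partial derivatives -/
lemma PFlow_mixed {F F1 G : ℝ × ℝ → ℝ} (hF : ContDiffOn ℝ (⊤ : ℕ∞) F (Ioi 0 ×ˢ univ))
    (h1 : ∀ t y, 0 < t → HasDerivAt (fun y => F (t, y)) (F1 (t, y)) y)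
    (h2 : ∀ t y, 0 < t → HasDerivAt (fun t => F (t, y)) (G (t, y)) t)
    {τ x g : ℝ} (hτ : 0 < τ) (h3 : HasDerivAt (fun y => G (τ, y)) g x) :
    HasDerivAt (fun t => F1 (t, x)) g τ := by
  have hU : IsOpen (Ioi (0 : ℝ) ×ˢ (univ : Set ℝ)) := isOpen_Ioi.prod isOpen_univ
  have hat : ∀ t y, 0 < t → ContDiffAt ℝ (⊤ : ℕ∞) F (t, y) := fun t y ht =>
    hF.contDiffAt (hU.mem_nhds ⟨ht, mem_univ _⟩)
  have hx : ∀ t y : ℝ, HasDerivAt (fun y : ℝ => (t, y)) ((0 : ℝ), (1 : ℝ)) y := fun t y =>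
    (hasDerivAt_const y t).prodMk (hasDerivAt_id y)
  have ht : ∀ t y : ℝ, HasDerivAt (fun t : ℝ => (t, y)) ((1 : ℝ), (0 : ℝ)) t := fun t y =>
    (hasDerivAt_id t).prodMk (hasDerivAt_const t y)
  have e1 : ∀ t y, 0 < t → F1 (t, y) = fderiv ℝ F (t, y) (0, 1) := fun t y h0 =>
    (h1 t y h0).unique
      (((hat t y h0).differentiableAt (by simp)).hasFDerivAt.comp_hasDerivAt y (hx t y))
  have e2 : ∀ t y, 0 < t → G (t, y) = fderiv ℝ F (t, y) (1, 0) := fun t y h0 =>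
    (h2 t y h0).unique
      (((hat t y h0).differentiableAt (by simp)).hasFDerivAt.comp_hasDerivAt t (ht t y))
  have hd : DifferentiableAt ℝ (fderiv ℝ F) (τ, x) :=
    ((hat τ x hτ).fderiv_right (m := 1) (WithTop.coe_le_coe.2 (le_top : ((1 + 1 : ℕ∞)) ≤ ⊤))).differentiableAt (by simp)
  have hs := (hat τ x hτ).isSymmSndFDerivAt (by
    rw [minSmoothness_of_isRCLikeNormedField]
    exact WithTop.coe_le_coe.2 (le_top : ((2 : ℕ∞)) ≤ ⊤))
  have a1 : HasDerivAt (fun t => fderiv ℝ F (t, x) (0, 1))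
      (fderiv ℝ (fderiv ℝ F) (τ, x) (1, 0) (0, 1)) τ := by
    have := (hd.hasFDerivAt.comp_hasDerivAt τ (ht τ x)).clm_apply (hasDerivAt_const τ ((0 : ℝ), (1 : ℝ)))
    simpa using this
  have a2 : HasDerivAt (fun y => fderiv ℝ F (τ, y) (1, 0))
      (fderiv ℝ (fderiv ℝ F) (τ, x) (0, 1) (1, 0)) x := by
    have := (hd.hasFDerivAt.comp_hasDerivAt x (hx τ x)).clm_apply (hasDerivAt_const x ((1 : ℝ), (0 : ℝ)))
    simpa using this
  have a3 : g = fderiv ℝ (fderiv ℝ F) (τ, x) (0, 1) (1, 0) := by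
    refine h3.unique ?_
    rw [show (fun y => G (τ, y)) = fun y => fderiv ℝ F (τ, y) (1, 0) from funext fun y => e2 τ y hτ]
    exact a2
  rw [a3, hs.eq]
  refine a1.congr_of_eventuallyEq ?_
  filter_upwards [Ioi_mem_nhds hτ] with t h0 using e1 t x h0

section pde
variable (hm : 0 < m) (hφ : Reg φ) {τ : ℝ} (hτ : 0 < τ) (x : ℝ)
include hm hφ hτ

theorem T_pde0 : HasDerivAt (fun t => T m t φ x)
    (D 2 (T m τ φ) x / 2 + m * D 1 (T m τ φ) x ^ 2 / 2) τ := by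
  have ha := (PFlowA_pos (m := m) hφ τ x).ne'
  have h1 : HasDerivAt (fun t => PFlowA m φ 0 t x) (PFlowA m φ 2 τ x / 2) τ := by
    have := (heat_fderiv (hφ.expG m) 0 hτ x).comp_hasDerivAt τ
      ((hasDerivAt_id τ).prodMk (hasDerivAt_const τ x))
    refine HasDerivAt.congr_deriv this ?_
    simp [PFlowA]
  simp only [PFlow_T_eq]
  refine ((h1.log ha).const_mul m⁻¹).congr_deriv ?_
  rw [PFlow_D2 hφ, PFlow_D1 hφ]
  simp only [PFlowMu]
  field_simp
  ring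

omit hτ in
lemma PFlow_step (n : ℕ) {G : ℝ × ℝ → ℝ}
    (h2 : ∀ t y, 0 < t → HasDerivAt (fun t => D n (T m t φ) y) (G (t, y)) t) {τ : ℝ} (hτ : 0 < τ)
    {g : ℝ} (h3 : HasDerivAt (fun y => G (τ, y)) g x) :
    HasDerivAt (fun t => D (n + 1) (T m t φ) x) g τ :=
  PFlow_mixed (F := fun p => D n (T m p.1 φ) p.2) (F1 := fun p => D (n + 1) (T m p.1 φ) p.2)
    (T_contDiffOn hm hφ n) (fun t y _ => PFlow_hasDerivAt (T_smooth hm hφ t) n y) h2 hτ h3

theorem T_pde1 : HasDerivAt (fun t => D 1 (T m t φ) x)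
    (D 3 (T m τ φ) x / 2 + m * (D 1 (T m τ φ) x * D 2 (T m τ φ) x)) τ := by
  have h := fun n => PFlow_hasDerivAt (T_smooth hm hφ τ) n x
  refine PFlow_step hm hφ x 0
    (G := fun p => D 2 (T m p.1 φ) p.2 / 2 + m * D 1 (T m p.1 φ) p.2 ^ 2 / 2)
    (fun t y ht => by simpa only [D, iteratedDeriv_zero] using T_pde0 hm hφ ht y) hτ ?_
  refine (((h 2).div_const 2).add ((((h 1).pow 2).const_mul m).div_const 2)).congr_deriv ?_
  simp only [Nat.reduceAdd, Nat.cast_ofNat, Nat.add_one_sub_one, pow_one]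
  ring

theorem T_pde2 : HasDerivAt (fun t => D 2 (T m t φ) x)
    (D 4 (T m τ φ) x / 2 + m * (D 2 (T m τ φ) x ^ 2 + D 1 (T m τ φ) x * D 3 (T m τ φ) x)) τ := by
  have h := fun n => PFlow_hasDerivAt (T_smooth hm hφ τ) n x
  refine PFlow_step hm hφ x 1
    (G := fun p => D 3 (T m p.1 φ) p.2 / 2 + m * (D 1 (T m p.1 φ) p.2 * D 2 (T m p.1 φ) p.2))
    (fun t y ht => T_pde1 hm hφ ht y) hτ ?_
  refine (((h 3).div_const 2).add (((h 1).mul (h 2)).const_mul m)).congr_deriv ?_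
  simp only [Nat.reduceAdd]
  ring

theorem T_pde3 : HasDerivAt (fun t => D 3 (T m t φ) x)
    (D 5 (T m τ φ) x / 2 + m * (3 * D 2 (T m τ φ) x * D 3 (T m τ φ) x +
      D 1 (T m τ φ) x * D 4 (T m τ φ) x)) τ := by
  have h := fun n => PFlow_hasDerivAt (T_smooth hm hφ τ) n x
  refine PFlow_step hm hφ x 2
    (G := fun p => D 4 (T m p.1 φ) p.2 / 2 + m * (D 2 (T m p.1 φ) p.2 ^ 2 +
      D 1 (T m p.1 φ) p.2 * D 3 (T m p.1 φ) p.2))
    (fun t y ht => T_pde2 hm hφ ht y) hτ ?_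
  refine (((h 4).div_const 2).add ((((h 2).pow 2).add ((h 1).mul (h 3))).const_mul m)).congr_deriv ?_
  simp only [Nat.reduceAdd, Nat.cast_ofNat, Nat.add_one_sub_one, pow_one]
  ring

theorem T_pde4 : HasDerivAt (fun t => D 4 (T m t φ) x)
    (D 6 (T m τ φ) x / 2 + m * (3 * D 3 (T m τ φ) x ^ 2 + 4 * D 2 (T m τ φ) x * D 4 (T m τ φ) x +
      D 1 (T m τ φ) x * D 5 (T m τ φ) x)) τ := by
  have h := fun n => PFlow_hasDerivAt (T_smooth hm hφ τ) n x
  refine PFlow_step hm hφ x 3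
    (G := fun p => D 5 (T m p.1 φ) p.2 / 2 + m * (3 * D 2 (T m p.1 φ) p.2 * D 3 (T m p.1 φ) p.2 +
      D 1 (T m p.1 φ) p.2 * D 4 (T m p.1 φ) p.2))
    (fun t y ht => T_pde3 hm hφ ht y) hτ ?_
  refine (((h 5).div_const 2).add (((((h 2).const_mul 3).mul (h 3)).add
    ((h 1).mul (h 4))).const_mul m)).congr_deriv ?_
  simp only [Nat.reduceAdd]
  ring

theorem T_pde5 : HasDerivAt (fun t => D 5 (T m t φ) x)
    (D 7 (T m τ φ) x / 2 + m * (10 * D 3 (T m τ φ) x * D 4 (T m τ φ) x +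
      5 * D 2 (T m τ φ) x * D 5 (T m τ φ) x + D 1 (T m τ φ) x * D 6 (T m τ φ) x)) τ := by
  have h := fun n => PFlow_hasDerivAt (T_smooth hm hφ τ) n x
  refine PFlow_step hm hφ x 4
    (G := fun p => D 6 (T m p.1 φ) p.2 / 2 + m * (3 * D 3 (T m p.1 φ) p.2 ^ 2 +
      4 * D 2 (T m p.1 φ) p.2 * D 4 (T m p.1 φ) p.2 + D 1 (T m p.1 φ) p.2 * D 5 (T m p.1 φ) p.2))
    (fun t y ht => T_pde4 hm hφ ht y) hτ ?_
  refine (((h 6).div_const 2).add ((((((h 3).pow 2).const_mul 3).add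
    (((h 2).const_mul 4).mul (h 4))).add ((h 1).mul (h 5))).const_mul m)).congr_deriv ?_
  simp only [Nat.reduceAdd, Nat.cast_ofNat, Nat.add_one_sub_one, pow_one]
  ring

end pde

end Crest.Agent.R339
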