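import Crest.Agent.R339.PFlow

/-! # Row 339: the forward class `Good` -/

set_option autoImplicit false

namespace Crest.Agent.R339

open MeasureTheory ProbabilityTheory Real Set Filter Topology

theorem pg_D {f f1 f2 : ℝ → ℝ} (h1 : ∀ x, HasDerivAt f (f1 x) x)
    (h2 : ∀ x, HasDerivAt f1 (f2 x) x) : D 1 f = f1 ∧ D 2 f = f2 := by
  have e1 : deriv f = f1 := funext fun x => (h1 x).deriv
  have e2 : deriv f1 = f2 := funext fun x => (h2 x).deriv
  refine ⟨by rw [D, iteratedDeriv_one, e1], ?_⟩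
  rw [D, iteratedDeriv_succ, iteratedDeriv_one, e1, e2]

theorem pg_mk {f f1 f2 : ℝ → ℝ} (h1 : ∀ x, HasDerivAt f (f1 x) x)
    (h2 : ∀ x, HasDerivAt f1 (f2 x) x) (hc : Continuous f2) (even : ∀ x, f (-x) = f x)
    (nonneg : ∀ x, 0 ≤ f x) (anti : ∀ x, 0 ≤ x → f1 x ≤ 0)
    (conv : ∀ x, 0 ≤ x → f1 x ≤ x * f2 x)
    (decay : ∀ c : ℝ, ∃ C, ∀ x, |f x| ≤ C * exp (-(c * |x|)) ∧ |f1 x| ≤ C * exp (-(c * |x|)) ∧
      |f2 x| ≤ C * exp (-(c * |x|))) : Good f := by
  obtain ⟨e1, e2⟩ := pg_D h1 h2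
  have d1 : deriv f = f1 := funext fun x => (h1 x).deriv
  have d2 : deriv f1 = f2 := funext fun x => (h2 x).deriv
  refine ⟨?_, even, nonneg, by rw [e1]; exact anti, by rw [e1, e2]; exact conv,
    by rw [e1, e2]; exact decay⟩
  rw [show (2 : WithTop ℕ∞) = 1 + 1 from rfl, contDiff_succ_iff_deriv]
  refine ⟨fun x => (h1 x).differentiableAt, by simp, ?_⟩
  rw [d1, contDiff_one_iff_deriv]
  exact ⟨fun x => (h2 x).differentiableAt, by rw [d2]; exact hc⟩

theorem Good.pg_d1 {h : ℝ → ℝ} (hh : Good h) (x : ℝ) : HasDerivAt h (D 1 h x) x := by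
  rw [D, iteratedDeriv_one]
  exact (hh.smooth.differentiable (by norm_num) x).hasDerivAt

theorem Good.pg_d2 {h : ℝ → ℝ} (hh : Good h) (x : ℝ) : HasDerivAt (D 1 h) (D 2 h x) x := by
  rw [show D 2 h = deriv (D 1 h) from iteratedDeriv_succ]
  exact (hh.smooth.differentiable_iteratedDeriv 1 (by norm_num) x).hasDerivAt

theorem Good.pg_c2 {h : ℝ → ℝ} (hh : Good h) : Continuous (D 2 h) :=
  hh.smooth.continuous_iteratedDeriv 2 (by norm_num)

theorem pg_odd {f f1 : ℝ → ℝ} (h1 : ∀ x, HasDerivAt f (f1 x) x) (even : ∀ x, f (-x) = f x)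
    (x : ℝ) : f1 (-x) = -f1 x := by
  have a : HasDerivAt (fun y => f (-y)) (f1 (-x) * (-1)) x :=
    (h1 (-x)).comp x (hasDerivAt_neg x)
  have b : (fun y => f (-y)) = f := funext even
  rw [b] at a
  have := a.unique (h1 x)
  linarith

theorem pg_even {f f1 : ℝ → ℝ} (h1 : ∀ x, HasDerivAt f (f1 x) x) (odd : ∀ x, f (-x) = -f x)
    (x : ℝ) : f1 (-x) = f1 x := by
  have a : HasDerivAt (fun y => f (-y)) (f1 (-x) * (-1)) x :=
    (h1 (-x)).comp x (hasDerivAt_neg x)
  have b : (fun y => f (-y)) = fun y => -f y := funext odd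
  rw [b] at a
  have := a.unique (h1 x).neg
  linarith

theorem good_gauss {τ : ℝ} (hτ : 0 < τ) {c : ℝ} (hc : 0 ≤ c) :
    Good fun x => c * exp (-(x ^ 2 / (2 * τ))) := by
  have hE : ∀ x : ℝ, HasDerivAt (fun x : ℝ => exp (-(x ^ 2 / (2 * τ))))
      (-(x / τ) * exp (-(x ^ 2 / (2 * τ)))) x := by
    intro x
    refine (((hasDerivAt_pow 2 x).div_const (2 * τ)).fun_neg).exp.congr_deriv ?_
    field_simp
    ring
  refine pg_mk (f1 := fun x => c * (-(x / τ) * exp (-(x ^ 2 / (2 * τ)))))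
    (f2 := fun x => c * ((x ^ 2 / τ ^ 2 - 1 / τ) * exp (-(x ^ 2 / (2 * τ)))))
    (fun x => (hE x).const_mul c) (fun x => ?_) (by fun_prop) (fun x => by simp)
    (fun x => by positivity) (fun x hx => ?_) (fun x hx => ?_) (fun d => ?_)
  · refine (((((hasDerivAt_id' x).div_const τ).fun_neg).fun_mul (hE x)).const_mul c).congr_deriv ?_
    field_simp
    ring
  · have : 0 ≤ c * (x / τ * exp (-(x ^ 2 / (2 * τ)))) := by positivity
    linarith
  · have : 0 ≤ c * (x ^ 3 / τ ^ 2 * exp (-(x ^ 2 / (2 * τ)))) := by positivity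
    have e : x * (c * ((x ^ 2 / τ ^ 2 - 1 / τ) * exp (-(x ^ 2 / (2 * τ))))) =
        c * (x ^ 3 / τ ^ 2 * exp (-(x ^ 2 / (2 * τ)))) +
          c * (-(x / τ) * exp (-(x ^ 2 / (2 * τ)))) := by ring
    rw [e]
    linarith
  · refine ⟨c * (1 + 1 / τ + 1 / τ ^ 2) * exp ((d + 2) ^ 2 * τ / 2), fun x => ?_⟩
    have hx := abs_nonneg x
    have k0 : exp (-(x ^ 2 / (2 * τ))) * exp (2 * |x|) ≤
        exp ((d + 2) ^ 2 * τ / 2) * exp (-(d * |x|)) := by
      rw [← exp_add, ← exp_add, exp_le_exp, ← sq_abs x]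
      have : 0 ≤ (|x| - (d + 2) * τ) ^ 2 / (2 * τ) := by positivity
      have e : (|x| - (d + 2) * τ) ^ 2 / (2 * τ) =
          |x| ^ 2 / (2 * τ) - (d + 2) * |x| + (d + 2) ^ 2 * τ / 2 := by
        field_simp
        ring
      linarith
    have k1 : |x| ≤ exp |x| := by linarith [add_one_le_exp |x|]
    have k2 : 1 ≤ exp |x| := one_le_exp hx
    have k3 : exp (2 * |x|) = exp |x| * exp |x| := by rw [← exp_add]; ring_nf
    have a0 : 1 ≤ exp (2 * |x|) := one_le_exp (by positivity)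
    have a1 : |x| ≤ exp (2 * |x|) := by rw [k3]; nlinarith
    have a2 : x ^ 2 ≤ exp (2 * |x|) := by rw [k3, ← sq_abs x]; nlinarith
    have key : ∀ r : ℝ, |r| ≤ (1 + 1 / τ + 1 / τ ^ 2) * exp (2 * |x|) →
        |c * (r * exp (-(x ^ 2 / (2 * τ))))| ≤
          c * (1 + 1 / τ + 1 / τ ^ 2) * exp ((d + 2) ^ 2 * τ / 2) * exp (-(d * |x|)) := by
      intro r hr
      rw [abs_mul, abs_mul, abs_of_nonneg hc, abs_of_pos (exp_pos _)]
      calc c * (|r| * exp (-(x ^ 2 / (2 * τ))))
          ≤ c * ((1 + 1 / τ + 1 / τ ^ 2) * exp (2 * |x|) * exp (-(x ^ 2 / (2 * τ)))) := by gcongr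
        _ = c * (1 + 1 / τ + 1 / τ ^ 2) * (exp (-(x ^ 2 / (2 * τ))) * exp (2 * |x|)) := by ring
        _ ≤ c * (1 + 1 / τ + 1 / τ ^ 2) * (exp ((d + 2) ^ 2 * τ / 2) * exp (-(d * |x|))) := by
          gcongr
        _ = _ := by ring
    have t1 : 0 < 1 / τ := by positivity
    have t2 : 0 < 1 / τ ^ 2 := by positivity
    refine ⟨?_, key _ ?_, key _ ?_⟩
    · have := key 1 (by rw [abs_one]; nlinarith)
      rwa [one_mul] at this
    · rw [abs_neg, abs_div, abs_of_pos hτ, div_eq_mul_one_div]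
      nlinarith
    · refine (abs_sub _ _).trans ?_
      rw [abs_of_nonneg (by positivity), abs_of_pos t1, div_eq_mul_one_div (x ^ 2)]
      nlinarith

/-! ### Gaussian averages -/

theorem pg_int_exp (a : ℝ) : Integrable (fun z : ℝ => exp (a * |z|)) γ1 := by
  refine ((integrable_exp_mul_gaussianReal (μ := 0) (v := 1) a).add
    (integrable_exp_mul_gaussianReal (μ := 0) (v := 1) (-a))).mono' (by fun_prop)
    (Eventually.of_forall fun z => ?_)
  rw [Real.norm_eq_abs, abs_of_pos (exp_pos _), Pi.add_apply]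
  rcases abs_cases z with ⟨h, _⟩ | ⟨h, _⟩
  · rw [h]; linarith [exp_pos (-a * z)]
  · rw [h, mul_neg, neg_mul]; linarith [exp_pos (a * z)]

theorem pg_int {f : ℝ → ℝ} (hf : Continuous f) {C a : ℝ} (hb : ∀ z, |f z| ≤ C * exp (a * |z|)) :
    Integrable f γ1 :=
  ((pg_int_exp a).const_mul C).mono' hf.aestronglyMeasurable (Eventually.of_forall hb)

theorem pg_neg (f : ℝ → ℝ) : ∫ z, f (-z) ∂γ1 = ∫ z, f z ∂γ1 := by
  have h : γ1.map (MeasurableEquiv.neg ℝ) = γ1 := by
    have := gaussianReal_map_neg (μ := 0) (v := 1)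
    rw [neg_zero] at this
    exact this
  conv_rhs => rw [← h, integral_map_equiv]
  rfl

theorem pg_sym {F : ℝ → ℝ} (h : ∀ y, 0 ≤ F y + F (-y)) : 0 ≤ ∫ y, F y := by
  by_cases hF : Integrable F
  · have e : ∫ y, (F y + F (-y)) = 2 * ∫ y, F y := by
      rw [integral_add hF hF.comp_neg, integral_neg_eq_self F]
      ring
    have : 0 ≤ ∫ y, (F y + F (-y)) := integral_nonneg h
    linarith
  · rw [integral_undef hF]

/-- Gaussian averages of odd functions that are nonnegative on the right. -/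
theorem pg_odd_pos {B : ℝ → ℝ} (odd : ∀ y, B (-y) = -B y) (pos : ∀ y, 0 ≤ y → 0 ≤ B y)
    {s x : ℝ} (hs : 0 < s) (hx : 0 ≤ x) : 0 ≤ ∫ z, B (x + s * z) ∂γ1 := by
  rw [integral_gaussianReal_eq_integral_smul one_ne_zero,
    ← integral_sub_right_eq_self _ (x / s)]
  refine pg_sym fun y => ?_
  have e1 : x + s * (y - x / s) = s * y := by field_simp; ring
  have e2 : x + s * (-y - x / s) = -(s * y) := by field_simp; ring
  have ha : 0 ≤ x / s := by positivity
  simp only [e1, e2, odd, smul_eq_mul, gaussianPDFReal, NNReal.coe_one, mul_one, sub_zero]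
  have hk : 0 ≤ (√(2 * π))⁻¹ := by positivity
  rcases le_total 0 y with hy | hy
  · have h1 : 0 ≤ B (s * y) := pos _ (by positivity)
    have h2 : exp (-(-y - x / s) ^ 2 / 2) ≤ exp (-(y - x / s) ^ 2 / 2) := by
      rw [exp_le_exp]
      nlinarith [mul_nonneg hy ha]
    nlinarith [mul_nonneg (mul_nonneg hk h1) (sub_nonneg.2 h2)]
  · have h1 : 0 ≤ -B (s * y) := by
      rw [← odd]
      exact pos _ (by nlinarith)
    have h2 : exp (-(y - x / s) ^ 2 / 2) ≤ exp (-(-y - x / s) ^ 2 / 2) := by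
      rw [exp_le_exp]
      nlinarith [mul_nonneg (neg_nonneg.2 hy) ha]
    nlinarith [mul_nonneg (mul_nonneg hk h1) (sub_nonneg.2 h2)]

/-- Differentiation of a weighted Gaussian average. -/
theorem pg_deriv {f f' w : ℝ → ℝ} (hf : ∀ y, HasDerivAt f (f' y) y) (hc : Continuous f')
    {C : ℝ} (b0 : ∀ y, |f y| ≤ C) (b1 : ∀ y, |f' y| ≤ C) (hw : Continuous w)
    (bw : ∀ z, |w z| ≤ exp (1 * |z|)) (s x : ℝ) :
    HasDerivAt (fun x => ∫ z, w z * f (x + s * z) ∂γ1) (∫ z, w z * f' (x + s * z) ∂γ1) x := by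
  have hfc : Continuous f := continuous_iff_continuousAt.2 fun y => (hf y).continuousAt
  have hC : 0 ≤ C := (abs_nonneg _).trans (b0 0)
  refine (hasDerivAt_integral_of_dominated_loc_of_deriv_le (μ := γ1) (s := univ)
    (F := fun x z => w z * f (x + s * z)) (F' := fun x z => w z * f' (x + s * z))
    (bound := fun z => C * exp (1 * |z|)) univ_mem
    (Eventually.of_forall fun x => Continuous.aestronglyMeasurable (by fun_prop))
    (pg_int (C := C) (a := 1) (by fun_prop) fun z => ?_)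
    (Continuous.aestronglyMeasurable (by fun_prop))
    (Eventually.of_forall fun z x _ => ?_) ((pg_int_exp 1).const_mul C)
    (Eventually.of_forall fun z x _ => ?_)).2
  · rw [abs_mul, mul_comm]
    exact mul_le_mul (b0 _) (bw z) (abs_nonneg _) hC
  · rw [Real.norm_eq_abs, abs_mul, mul_comm]
    exact mul_le_mul (b1 _) (bw z) (abs_nonneg _) hC
  · have := ((hf (x + s * z)).comp x ((hasDerivAt_id x).add_const (s * z))).const_mul (w z)
    simpa using this

theorem pg_decay {f : ℝ → ℝ} {C c : ℝ} (hb : ∀ y, |f y| ≤ C * exp (-(c * |y|))) (s x : ℝ) :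
    |∫ z, f (x + s * z) ∂γ1| ≤ (C * ∫ z, exp (|c| * |s| * |z|) ∂γ1) * exp (-(c * |x|)) := by
  have hC : 0 ≤ C := by
    have := (abs_nonneg _).trans (hb 0)
    simpa using this
  rw [← Real.norm_eq_abs, ← integral_const_mul, ← integral_mul_const]
  refine norm_integral_le_of_norm_le
    (((pg_int_exp (|c| * |s|)).const_mul C).mul_const _) (Eventually.of_forall fun z => ?_)
  rw [Real.norm_eq_abs, mul_assoc, ← exp_add]
  refine (hb _).trans (mul_le_mul_of_nonneg_left (exp_le_exp.2 ?_) hC)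
  have h1 : |(|x| - |x + s * z|)| ≤ |s| * |z| := by
    refine (abs_abs_sub_abs_le_abs_sub _ _).trans (le_of_eq ?_)
    rw [← abs_mul, ← abs_neg]
    ring_nf
  have h2 : c * (|x| - |x + s * z|) ≤ |c| * (|s| * |z|) := by
    refine (le_abs_self _).trans ?_
    rw [abs_mul]
    exact mul_le_mul_of_nonneg_left h1 (abs_nonneg c)
  nlinarith

theorem Good.heat {h : ℝ → ℝ} (hh : Good h) {τ : ℝ} (hτ : 0 ≤ τ) :
    Good fun x => ∫ z, h (x + √τ * z) ∂γ1 := by
  rcases hτ.eq_or_lt with rfl | hτ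
  · simpa using hh
  obtain ⟨s, hs, hsτ⟩ : ∃ s, 0 < s ∧ √τ = s := ⟨_, sqrt_pos.2 hτ, rfl⟩
  rw [hsτ]
  obtain ⟨C, hC⟩ := hh.decay 0
  simp only [zero_mul, neg_zero, exp_zero, mul_one] at hC
  have hC0 : 0 ≤ C := (abs_nonneg _).trans (hC 0).1
  have c2 := hh.pg_c2
  have c1 : Continuous (D 1 h) := continuous_iff_continuousAt.2 fun y => (hh.pg_d2 y).continuousAt
  have o1 := pg_odd hh.pg_d1 hh.even
  have o2 := pg_even hh.pg_d2 o1
  have w1 : ∀ z : ℝ, |(1 : ℝ)| ≤ exp (1 * |z|) := fun z => by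
    rw [abs_one]; exact one_le_exp (by positivity)
  have wz : ∀ z : ℝ, |z| ≤ exp (1 * |z|) := fun z => by
    rw [one_mul]; linarith [add_one_le_exp |z|]
  have g1 : ∀ x, HasDerivAt (fun x => ∫ z, h (x + s * z) ∂γ1) (∫ z, D 1 h (x + s * z) ∂γ1) x := by
    intro x
    simpa using pg_deriv hh.pg_d1 c1 (fun y => (hC y).1) (fun y => (hC y).2.1)
      continuous_const w1 s x
  have g2 : ∀ x, HasDerivAt (fun x => ∫ z, D 1 h (x + s * z) ∂γ1)
      (∫ z, D 2 h (x + s * z) ∂γ1) x := by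
    intro x
    simpa using pg_deriv hh.pg_d2 c2 (fun y => (hC y).2.1) (fun y => (hC y).2.2)
      continuous_const w1 s x
  have st : ∀ x, ∫ z, D 2 h (x + s * z) ∂γ1 = s⁻¹ * ∫ z, z * D 1 h (x + s * z) ∂γ1 := by
    intro x
    have := stein (f := fun z => D 1 h (x + s * z)) (f' := fun z => s * D 2 h (x + s * z))
      (fun z => by
        have := (hh.pg_d2 (x + s * z)).comp z (((hasDerivAt_id' z).const_mul s).const_add x)
        exact this.congr_deriv (by ring)) (by fun_prop) (C := C + s * C) (c := 0) (fun z => by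
        rw [zero_mul, exp_zero, mul_one, abs_mul, abs_of_pos hs]
        have h1 := (hC (x + s * z)).2.1
        have h2 := mul_le_mul_of_nonneg_left (hC (x + s * z)).2.2 hs.le
        have h3 : 0 ≤ s * C := by positivity
        constructor <;> linarith)
    rw [this, integral_const_mul]
    field_simp
  have g3 : ∀ x, HasDerivAt (fun x => ∫ z, D 2 h (x + s * z) ∂γ1)
      (s⁻¹ * ∫ z, z * D 2 h (x + s * z) ∂γ1) x := by
    intro x
    rw [funext st]
    exact (pg_deriv hh.pg_d2 c2 (fun y => (hC y).2.1) (fun y => (hC y).2.2)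
      continuous_id wz s x).const_mul _
  refine pg_mk g1 g2 (continuous_iff_continuousAt.2 fun y => (g3 y).continuousAt) (fun x => ?_)
    (fun x => integral_nonneg fun z => hh.nonneg _) (fun x hx => ?_) (fun x hx => ?_) (fun c => ?_)
  · rw [← pg_neg]
    congr 1
    funext z
    rw [← hh.even]
    ring_nf
  · have := pg_odd_pos (B := fun y => -D 1 h y) (fun y => by rw [o1])
      (fun y hy => neg_nonneg.2 (hh.anti y hy)) hs hx
    rw [integral_neg] at this
    linarith
  · set G1 : ℝ → ℝ := fun x => ∫ z, D 1 h (x + s * z) ∂γ1 with hG1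
    set G2 : ℝ → ℝ := fun x => ∫ z, D 2 h (x + s * z) ∂γ1 with hG2
    set G3 : ℝ → ℝ := fun x => ∫ z, z * D 2 h (x + s * z) ∂γ1 with hG3
    have hB : ∀ x, 0 ≤ x → 0 ≤ x * G2 x - G1 x + s * G3 x := by
      intro x hx
      have := pg_odd_pos (B := fun y => y * D 2 h y - D 1 h y)
        (fun y => by rw [o1, o2]; ring) (fun y hy => sub_nonneg.2 (hh.conv y hy)) hs hx
      have i1 : Integrable (fun z => D 1 h (x + s * z)) γ1 :=
        pg_int (C := C) (a := 0) (by fun_prop) fun z => by simpa using (hC _).2.1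
      have i2 : Integrable (fun z => D 2 h (x + s * z)) γ1 :=
        pg_int (C := C) (a := 0) (by fun_prop) fun z => by simpa using (hC _).2.2
      have i3 : Integrable (fun z => z * D 2 h (x + s * z)) γ1 :=
        pg_int (C := C) (a := 1) (by fun_prop) fun z => by
          rw [abs_mul, mul_comm]
          exact mul_le_mul (hC _).2.2 (wz z) (abs_nonneg _) hC0
      have e : ∫ z, ((x + s * z) * D 2 h (x + s * z) - D 1 h (x + s * z)) ∂γ1 =
          x * G2 x - G1 x + s * G3 x := by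
        rw [hG1, hG2, hG3]
        simp only
        have i4 : Integrable (fun z => x * D 2 h (x + s * z) - D 1 h (x + s * z)) γ1 :=
          (i2.const_mul x).sub i1
        rw [← integral_const_mul, ← integral_const_mul, ← integral_sub (i2.const_mul x) i1,
          ← integral_add i4 (i3.const_mul s)]
        congr 1
        funext z
        ring
      rwa [e] at this
    have hd : ∀ x, HasDerivAt (fun x => exp (x ^ 2 / (2 * s ^ 2)) * (x * G2 x - G1 x))
        (exp (x ^ 2 / (2 * s ^ 2)) * (x / s ^ 2) * (x * G2 x - G1 x + s * G3 x)) x := by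
      intro x
      refine ((((hasDerivAt_pow 2 x).div_const (2 * s ^ 2)).exp).fun_mul
        (((hasDerivAt_id' x).fun_mul (g3 x)).fun_sub (g2 x))).congr_deriv ?_
      change _ * _ * _ + _ * (1 * G2 x + x * (s⁻¹ * G3 x) - G2 x) = _
      field_simp
      ring
    have hm : MonotoneOn (fun x => exp (x ^ 2 / (2 * s ^ 2)) * (x * G2 x - G1 x)) (Ici 0) := by
      refine monotoneOn_of_deriv_nonneg (convex_Ici 0)
        (fun y _ => (hd y).continuousAt.continuousWithinAt)
        (fun y _ => (hd y).differentiableAt.differentiableWithinAt) fun y hy => ?_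
      rw [interior_Ici] at hy
      have hy' : 0 ≤ y := le_of_lt hy
      rw [(hd y).deriv]
      exact mul_nonneg (by positivity) (hB y hy')
    have z0 : G1 0 = 0 := by
      have : G1 0 = -G1 0 := by
        rw [hG1]
        simp only
        rw [← integral_neg, ← pg_neg]
        congr 1
        funext z
        rw [← o1]
        ring_nf
      linarith
    have := hm (mem_Ici.2 le_rfl) (mem_Ici.2 hx) hx
    simp only [z0, zero_mul, sub_zero, mul_zero] at this
    exact sub_nonneg.1 ((mul_nonneg_iff_of_pos_left (exp_pos _)).1 this)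
  · obtain ⟨K, hK⟩ := hh.decay c
    exact ⟨K * ∫ z, exp (|c| * |s| * |z|) ∂γ1, fun x =>
      ⟨pg_decay (fun y => (hK y).1) s x, pg_decay (fun y => (hK y).2.1) s x,
        pg_decay (fun y => (hK y).2.2) s x⟩⟩

theorem Good.mul_exp {h φ : ℝ → ℝ} (hh : Good h) (hφ : Reg φ) (h3 : ∀ x, 0 ≤ x → D 3 φ x ≤ 0)
    {c : ℝ} (hc : 0 ≤ c) : Good fun x => h x * exp (-(c * φ x)) := by
  have p1 : ∀ x, HasDerivAt φ (D 1 φ x) x := fun x => by
    simpa using hφ.hasDerivAt 0 x
  have p2 : ∀ x, HasDerivAt (D 1 φ) (D 2 φ x) x := hφ.hasDerivAt 1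
  have p3 : ∀ x, HasDerivAt (D 2 φ) (D 3 φ x) x := hφ.hasDerivAt 2
  have hE : ∀ x, HasDerivAt (fun x => exp (-(c * φ x)))
      (-(c * D 1 φ x) * exp (-(c * φ x))) x := by
    intro x
    exact (((p1 x).const_mul c).fun_neg).exp.congr_deriv (mul_comm _ _)
  have u0 : D 1 φ 0 = 0 := by
    have := pg_odd p1 hφ.even 0
    rw [neg_zero] at this
    linarith
  have hu : ∀ x, 0 ≤ x → 0 ≤ D 1 φ x := by
    intro x hx
    have hm : Monotone (D 1 φ) := monotone_of_deriv_nonneg (fun y => (p2 y).differentiableAt)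
      fun y => by rw [(p2 y).deriv]; exact (hφ.pos y).le
    rw [← u0]
    exact hm hx
  have hv : ∀ x, 0 ≤ x → 0 ≤ D 1 φ x - x * D 2 φ x := by
    intro x hx
    have hd : ∀ y, HasDerivAt (fun y => D 1 φ y - y * D 2 φ y) (-(y * D 3 φ y)) y := by
      intro y
      exact ((p2 y).fun_sub ((hasDerivAt_id' y).fun_mul (p3 y))).congr_deriv (by ring)
    have hm : MonotoneOn (fun y => D 1 φ y - y * D 2 φ y) (Ici 0) := by
      refine monotoneOn_of_deriv_nonneg (convex_Ici 0)
        (fun y _ => (hd y).continuousAt.continuousWithinAt)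
        (fun y _ => (hd y).differentiableAt.differentiableWithinAt) fun y hy => ?_
      rw [interior_Ici] at hy
      have hy' : 0 ≤ y := le_of_lt hy
      rw [(hd y).deriv]
      nlinarith [h3 y hy']
    have := hm (mem_Ici.2 le_rfl) (mem_Ici.2 hx) hx
    simpa [u0] using this
  have c0 : Continuous h := hh.smooth.continuous
  have c1 : Continuous (D 1 h) := continuous_iff_continuousAt.2 fun y => (hh.pg_d2 y).continuousAt
  have c2 := hh.pg_c2
  have q0 : Continuous φ := hφ.smooth.continuous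
  have q1 : Continuous (D 1 φ) := continuous_iff_continuousAt.2 fun y => (p2 y).continuousAt
  have q2 : Continuous (D 2 φ) := continuous_iff_continuousAt.2 fun y => (p3 y).continuousAt
  refine pg_mk (f1 := fun x => (D 1 h x - c * D 1 φ x * h x) * exp (-(c * φ x)))
    (f2 := fun x => (D 2 h x - 2 * c * D 1 φ x * D 1 h x +
      (c ^ 2 * D 1 φ x ^ 2 - c * D 2 φ x) * h x) * exp (-(c * φ x)))
    (fun x => ?_) (fun x => ?_) (by fun_prop) (fun x => by rw [hh.even, hφ.even])
    (fun x => mul_nonneg (hh.nonneg x) (exp_pos _).le) (fun x hx => ?_) (fun x hx => ?_)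
    (fun d => ?_)
  · exact ((hh.pg_d1 x).fun_mul (hE x)).congr_deriv (by ring)
  · exact (((hh.pg_d2 x).fun_sub (((p2 x).const_mul c).fun_mul (hh.pg_d1 x))).fun_mul
      (hE x)).congr_deriv (by ring)
  · refine mul_nonpos_of_nonpos_of_nonneg ?_ (exp_pos _).le
    have := mul_nonneg (mul_nonneg hc (hu x hx)) (hh.nonneg x)
    linarith [hh.anti x hx]
  · rw [← mul_assoc]
    refine mul_le_mul_of_nonneg_right ?_ (exp_pos _).le
    have a1 := hh.conv x hx
    have a2 : 0 ≤ x * (c * D 1 φ x) * (-D 1 h x) :=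
      mul_nonneg (mul_nonneg hx (mul_nonneg hc (hu x hx))) (neg_nonneg.2 (hh.anti x hx))
    have a3 : 0 ≤ x * (c * D 1 φ x) ^ 2 * h x :=
      mul_nonneg (mul_nonneg hx (sq_nonneg _)) (hh.nonneg x)
    have a4 : 0 ≤ c * (D 1 φ x - x * D 2 φ x) * h x :=
      mul_nonneg (mul_nonneg hc (hv x hx)) (hh.nonneg x)
    nlinarith
  · obtain ⟨K, hK⟩ := hh.decay (d + c)
    obtain ⟨W, hW⟩ := hφ.bdd 2 (by norm_num)
    have hW0 : 0 ≤ W := (abs_nonneg _).trans (hW 0)
    have hK0 : 0 ≤ K := by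
      have := (abs_nonneg _).trans (hK 0).1
      simpa using this
    refine ⟨(1 + 2 * c + c ^ 2 + c * W) * K * exp (c * |φ 0|), fun x => ?_⟩
    have k0 : exp (-((d + c) * |x|)) * exp (-(c * φ x)) ≤
        exp (c * |φ 0|) * exp (-(d * |x|)) := by
      rw [← exp_add, ← exp_add, exp_le_exp]
      have h1 := hφ.abs_le x
      have h2 := neg_abs_le (φ x)
      nlinarith [mul_nonneg hc (show 0 ≤ φ x + (|φ 0| + |x|) by linarith)]
    have key : ∀ r : ℝ, |r| ≤ (1 + 2 * c + c ^ 2 + c * W) * (K * exp (-((d + c) * |x|))) →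
        |r * exp (-(c * φ x))| ≤
          (1 + 2 * c + c ^ 2 + c * W) * K * exp (c * |φ 0|) * exp (-(d * |x|)) := by
      intro r hr
      rw [abs_mul, abs_of_pos (exp_pos _)]
      calc |r| * exp (-(c * φ x))
          ≤ (1 + 2 * c + c ^ 2 + c * W) * (K * exp (-((d + c) * |x|))) * exp (-(c * φ x)) := by
            gcongr
        _ = (1 + 2 * c + c ^ 2 + c * W) * K * (exp (-((d + c) * |x|)) * exp (-(c * φ x))) := by
            ring
        _ ≤ (1 + 2 * c + c ^ 2 + c * W) * K * (exp (c * |φ 0|) * exp (-(d * |x|))) := by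
            gcongr
        _ = _ := by ring
    obtain ⟨b0, b1, b2⟩ := hK x
    obtain ⟨M, hM, hM0⟩ : ∃ M, K * exp (-((d + c) * |x|)) = M ∧ 0 ≤ M := ⟨_, rfl, by positivity⟩
    rw [hM] at b0 b1 b2 key
    have hu1 := hφ.d1 x
    have m1 : |c * D 1 φ x * h x| ≤ c * M := by
      rw [abs_mul, abs_mul, abs_of_nonneg hc]
      calc c * |D 1 φ x| * |h x| ≤ c * 1 * M := by gcongr
        _ = _ := by ring
    have m2 : |2 * c * D 1 φ x * D 1 h x| ≤ 2 * c * M := by
      rw [abs_mul, abs_mul, abs_of_nonneg (by positivity : 0 ≤ 2 * c)]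
      calc 2 * c * |D 1 φ x| * |D 1 h x| ≤ 2 * c * 1 * M := by gcongr
        _ = _ := by ring
    have m3 : |(c ^ 2 * D 1 φ x ^ 2 - c * D 2 φ x) * h x| ≤ (c ^ 2 + c * W) * M := by
      rw [abs_mul]
      refine mul_le_mul ((abs_sub _ _).trans (add_le_add ?_ ?_)) b0 (abs_nonneg _) (by positivity)
      · rw [abs_mul, abs_pow, abs_pow, abs_of_nonneg hc]
        calc c ^ 2 * |D 1 φ x| ^ 2 ≤ c ^ 2 * 1 ^ 2 := by gcongr
          _ = _ := by ring
      · rw [abs_mul, abs_of_nonneg hc]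
        exact mul_le_mul_of_nonneg_left (hW x) hc
    have n1 : 0 ≤ c * M := by positivity
    have n2 : 0 ≤ c ^ 2 * M := by positivity
    have n3 : 0 ≤ c * W * M := by positivity
    refine ⟨key _ ?_, key _ ?_, key _ ?_⟩
    · nlinarith
    · refine (abs_sub _ _).trans ?_
      nlinarith
    · refine (abs_add_le _ _).trans ?_
      have := abs_sub (D 2 h x) (2 * c * D 1 φ x * D 1 h x)
      nlinarith

end Crest.Agent.R339
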