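import Crest.Agent.R339.PGuerraAux2

/-! # Row 339: the two ends of Guerra's interpolation -/

set_option autoImplicit false

namespace Crest.Agent.R339.PG

open MeasureTheory ProbabilityTheory Real Finset
open Crest.Agent.R164 Crest.MathPhysics.SpinGlass

variable {n L : ℕ}

lemma int_spin (ex : Expo (L + 1)) (l : ℕ) (f : (Fin n → Bool) → ℝ) :
    ∫ x, f x.1 ∂(lev n ex).μ l = (∑ σ, f σ) / 2 ^ n := by
  show ∫ x, f x.1 ∂(unif (Fin n → Bool)).prod (R164.gam (Io n)) = _
  rw [integral_fun_fst, unif, integral_unifOn]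
  simp

lemma int_field (ex : Expo (L + 1)) (l : ℕ) (f : Fin n → ℝ → ℝ) :
    ∫ x, ∏ i, f i (x.2 (.inr i)) ∂(lev n ex).μ l = ∏ i, ∫ z, f i z ∂γ1 := by
  show ∫ x, (fun g : Io n → ℝ => ∏ i, f i (g (.inr i))) x.2
    ∂(unif (Fin n → Bool)).prod (R164.gam (Io n)) = _
  have h := integral_fintype_prod_eq_prod (E := fun _ : Io n => ℝ) (μ := fun _ => γ1)
    (Sum.elim (fun _ _ => (1 : ℝ)) f)
  simp only [Fintype.prod_sum_type, Sum.elim_inl, Sum.elim_inr, Finset.prod_const_one, one_mul,
    integral_const, probReal_univ, smul_eq_mul, mul_one] at h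
  rw [integral_fun_snd fun g : Io n → ℝ => ∏ i, f i (g (.inr i)), probReal_univ, one_smul, ← h]
  rfl

lemma sp_upd (i : Fin n) (ω : Cfg (L + 1) (Om n)) (x : Om n) :
    sp i (upd ω L x) = spinSign (x.1 i) := by
  simp [sp, atl, upd]

/-- the field felt by the spin `i` after `l` levels -/
noncomputable def fld (l : ℕ) (i : Fin n) (ω : Cfg (L + 1) (Om n)) : ℝ :=
  √(1 / L) * ∑ e ∈ range l, gl e (.inr i : Io n) ω

lemma fld_upd (l : ℕ) (i : Fin n) (ω : Cfg (L + 1) (Om n)) (x : Om n) :
    fld l i (upd ω l x) = fld l i ω := by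
  unfold fld
  congr 1
  exact Finset.sum_congr rfl fun e he => (dep_gl e _).upd (Finset.mem_range.1 he) ω x

lemma fld_succ {l : ℕ} (hl : l < L + 1) (i : Fin n) (ω : Cfg (L + 1) (Om n)) (x : Om n) :
    fld (l + 1) i (upd ω l x) = fld l i ω + √(1 / L) * x.2 (.inr i) := by
  rw [← fld_upd l i ω x, fld, Finset.sum_range_succ, GA.gl_upd hl, mul_add]
  rfl

lemma HH_left (β : ℝ) (ω : Cfg (L + 1) (Om n)) :
    HH 0 (β * √(1 / L)) ω = ∑ i, β * fld L i ω * sp i ω := by
  simp only [HH, Fintype.sum_sum_type, am, Sum.elim_inl, zero_mul, Finset.sum_const_zero, zero_add,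
    Sum.elim_inr, Fintype.sum_prod_type, lv, co, cc, Sum.map_inr, fld]
  rw [Finset.sum_comm]
  refine Finset.sum_congr rfl fun i _ => ?_
  rw [Fin.sum_univ_eq_sum_range (fun e => β * √(1 / L) * gl e (.inr i : Io n) ω * sp i ω) L,
    ← Finset.sum_mul, ← Finset.mul_sum, mul_assoc β]

lemma X_top (ex : Expo (L + 1)) {H : Cfg (L + 1) (Om n) → ℝ} (ω : Cfg (L + 1) (Om n))
    {f : (Fin n → Bool) → ℝ} (h : ∀ x, H (upd ω L x) = f x.1) :
    (lev n ex).X L H ω = log ((∑ σ, exp (f σ)) / 2 ^ n) := by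
  have h1 : (lev n ex).ζ L = 1 := ex.top L le_rfl
  rw [Lev.X_of_lt _ (Nat.lt_succ_self L), Lev.X_of_ge _ le_rfl, Lev.T, h1]
  simp only [h, one_mul, inv_one]
  rw [int_spin ex L fun σ => exp (f σ)]

lemma X_left (ex : Expo (L + 1)) {β : ℝ} (hβ : 0 < β) {g : ℕ → ℝ} (hζ : ∀ l < L, ex.ζ l = g l / β)
    (hH : (lev n ex).Lin (HH 0 (β * √(1 / L)))) (k : ℕ) : ∀ l, l + k = L → ∀ ω,
      (lev n ex).X l (HH 0 (β * √(1 / L))) ω = ∑ i, (β * Phi β L g l (fld l i ω) - log 2) := by
  induction k with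
  | zero =>
    intro l hl ω
    obtain rfl : l = L := hl
    rw [X_top ex ω (f := fun σ => ∑ i, β * fld l i ω * spinSign (σ i)) fun x => by
      simp only [HH_left, fld_upd, sp_upd], Phi_of_ge β g le_rfl]
    have e1 : ∑ σ : Fin n → Bool, exp (∑ i, β * fld l i ω * spinSign (σ i)) =
        ∏ i, (2 * cosh (β * fld l i ω)) := by
      simp only [exp_sum]
      rw [← Fintype.piFinset_univ, ← Finset.prod_univ_sum (fun _ => univ)
        fun i b => exp (β * fld l i ω * spinSign b)]
      refine Finset.prod_congr rfl fun i _ => ?_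
      simp [spinSign, cosh_eq]
      ring
    have hp : ∀ i, 2 * cosh (β * fld l i ω) ≠ 0 := fun i => (mul_pos two_pos (cosh_pos _)).ne'
    rw [e1, log_div (Finset.prod_ne_zero_iff.2 fun i _ => hp i) (by positivity),
      log_prod fun i _ => hp i, log_pow, Finset.sum_sub_distrib]
    simp [term, hβ.ne']
  | succ k ih =>
    intro l hl ω
    have hl' : l < L := by omega
    have h1 := Lev.ineq_exp_X hH (hl'.trans (Nat.lt_succ_self L)) ω
    have hz : (lev n ex).ζ l = g l / β := hζ l hl'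
    have hz0 : 0 < g l / β := hz ▸ ex.pos l
    have hg : 0 < g l := (div_pos_iff_of_pos_right hβ).1 hz0
    have e1 : ∀ t : ℝ, exp (g l / β * (β * t - log 2)) = exp (-(g l / β * log 2)) * exp (g l * t) := by
      intro t
      rw [← exp_add]
      congr 1
      field_simp
      ring
    simp only [ih (l + 1) (by omega), fld_succ (hl'.trans (Nat.lt_succ_self L)), Finset.mul_sum,
      exp_sum, hz, e1] at h1
    rw [int_field ex l fun i z => exp (-(g l / β * log 2)) *
      exp (g l * Phi β L g (l + 1) (fld l i ω + √(1 / L) * z))] at h1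
    simp only [integral_const_mul] at h1
    have hp := Finset.prod_ne_zero_iff.1 (h1 ▸ (exp_pos _).ne')
    have h2 := congrArg log h1
    rw [log_exp, log_prod hp] at h2
    refine mul_left_cancel₀ hz0.ne' ?_
    rw [h2, Finset.mul_sum]
    refine Finset.sum_congr rfl fun i hi => ?_
    rw [log_mul (exp_pos _).ne' (right_ne_zero_of_mul (hp i hi)), log_exp, Phi_of_lt β g hl', T]
    field_simp
    ring

lemma X0_left (ex : Expo (L + 1)) {β : ℝ} (hβ : 0 < β) {g : ℕ → ℝ} (hζ : ∀ l < L, ex.ζ l = g l / β)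
    (hH : (lev n ex).Lin (HH 0 (β * √(1 / L)))) :
    (lev n ex).X0 (HH 0 (β * √(1 / L))) = n * (β * Phi β L g 0 0 - log 2) := by
  rw [Lev.X0, X_left ex hβ hζ hH L 0 (zero_add L)]
  simp [fld, mul_sub]

/-- the couplings -/
def cpl (ω : Cfg (L + 1) (Om n)) (i k : Fin n) : ℝ := gl 0 (.inl (i, k) : Io n) ω

lemma HH_right (β : ℝ) (hL : 1 ≤ L) (ω : Cfg (L + 1) (Om n)) (x : Om n) :
    HH (β * (1 / √n)) 0 (upd ω L x) = β * pairEnergy n (cpl ω) x.1 := by
  simp only [HH, Fintype.sum_sum_type, am, Sum.elim_inl, zero_mul, Finset.sum_const_zero, zero_add,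
    Sum.elim_inr, Fintype.sum_prod_type, lv, co, cc, Sum.map_inl, id, add_zero, pairEnergy,
    Finset.mul_sum, sp_upd, cpl, (dep_gl 0 _).upd hL ω x]
  refine Finset.sum_congr rfl fun i _ => Finset.sum_congr rfl fun k _ => ?_
  split_ifs <;> ring

lemma meas_pair (σ : Fin n → Bool) : Measurable fun J => pairEnergy n J σ := by
  unfold pairEnergy
  refine (Finset.measurable_sum _ fun i _ => Finset.measurable_sum _ fun k _ => ?_).const_mul _
  split_ifs <;> fun_prop

lemma meas_max : Measurable (maxPairEnergy n) := by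
  have h := Finset.measurable_sup' (Finset.univ_nonempty (α := Fin n → Bool))
    (f := fun σ J => pairEnergy n J σ) fun σ _ => meas_pair σ
  convert h using 1
  funext J
  rw [Finset.sup'_apply]
  rfl

lemma abs_max_le (J : Fin n → Fin n → ℝ) :
    |maxPairEnergy n J| ≤ 1 / √n * ∑ i, ∑ k, |J i k| := by
  obtain ⟨σ, -, h⟩ := Finset.exists_mem_eq_sup' Finset.univ_nonempty (pairEnergy n J)
  rw [maxPairEnergy, h, pairEnergy, abs_mul, abs_of_nonneg (by positivity)]
  refine mul_le_mul_of_nonneg_left ((Finset.abs_sum_le_sum_abs _ _).trans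
    (Finset.sum_le_sum fun i _ => (Finset.abs_sum_le_sum_abs _ _).trans
      (Finset.sum_le_sum fun k _ => ?_))) (by positivity)
  have h1 : ∀ b, |spinSign b| = 1 := fun b => by cases b <;> simp [spinSign]
  split_ifs
  · simp [abs_mul, h1]
  · simp

lemma mp_cpl : MeasurePreserving (fun x : Om n => fun i k => x.2 (.inl (i, k)))
    ((unif (Fin n → Bool)).prod (R164.gam (Io n))) (gaussianCouplings n) := by
  have h1 : MeasurePreserving (MeasurableEquiv.curry (Fin n) (Fin n) ℝ) (R164.gam (Fin n × Fin n))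
      (gaussianCouplings n) := by
    refine ⟨MeasurableEquiv.measurable _, ?_⟩
    have h := Measure.infinitePi_map_curry (ι := Fin n) (κ := Fin n) fun _ _ => gaussianReal 0 1
    simp only [Measure.infinitePi_eq_pi] at h
    exact h
  exact h1.comp ((gam_comp (ι := Io n) Sum.inl_injective).comp measurePreserving_snd)

lemma X0_right (ex : Expo (L + 1)) (hL : 1 ≤ L) {β : ℝ}
    (hH : (lev n ex).Lin (HH (β * (1 / √n)) 0)) :
    β * (∫ J, maxPairEnergy n J ∂gaussianCouplings n) - n * log 2 ≤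
      (lev n ex).X0 (HH (β * (1 / √n)) 0) := by
  have mc : Measurable (cpl : Cfg (L + 1) (Om n) → _) :=
    measurable_pi_lambda _ fun i => measurable_pi_lambda _ fun k => (lin_gl (ex := ex)
      (α := fun _ => unif (Fin n → Bool)) (hα := fun _ => inferInstance) 0 _).1
  have hG : (lev n ex).Lin fun ω => β * maxPairEnergy n (cpl ω) := by
    refine Lev.Lin.const_mul β (Lev.Lin.of_le (meas_max.comp mc)
      ((Lev.Lin.sum univ fun i _ => Lev.Lin.sum univ fun k _ =>
        (lin_gl 0 (.inl (i, k) : Io n)).abs).const_mul (1 / √n)) fun ω => ?_)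
    exact (abs_max_le _).trans (le_abs_self _)
  have hd : Dep 1 fun ω : Cfg (L + 1) (Om n) => β * maxPairEnergy n (cpl ω) := fun ω ω' h => by
    have h1 : cpl ω = cpl ω' := funext fun i => funext fun k => dep_gl 0 _ ω ω' h
    simp only [h1]
  have h1 := integral_le_X0 (Nat.succ_pos L) hG hd
  have e1 : ∀ x, cpl (upd (lev n ex).pt 0 x) = fun i k => x.2 (.inl (i, k)) := fun x =>
    funext fun i => funext fun k => GA.gl_upd (Nat.succ_pos L) _ _ _
  simp only [e1, integral_const_mul] at h1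
  rw [show (lev n ex).μ 0 = (unif (Fin n → Bool)).prod (R164.gam (Io n)) from rfl,
    NI.integral_mp mp_cpl meas_max] at h1
  have h2 := Lev.X_le_of_level (L := lev n ex) (L' := lev n ex) rfl (m := L) (fun _ _ => rfl) hG.1
    hH.int (c := -(n * log 2)) (fun ω => by
      rw [X_top ex ω (H := HH (β * (1 / √n)) 0) (f := fun σ => β * pairEnergy n (cpl ω) σ)
        (HH_right β hL ω), Lev.X_of_lt _ (Nat.lt_succ_self L), Lev.X_of_ge _ le_rfl,
        Lev.T_of_indep fun x => hd.upd hL ω x]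
      obtain ⟨σ, -, h⟩ := Finset.exists_mem_eq_sup' Finset.univ_nonempty (pairEnergy n (cpl ω))
      have h3 : exp (β * pairEnergy n (cpl ω) σ) ≤ ∑ σ, exp (β * pairEnergy n (cpl ω) σ) :=
        Finset.single_le_sum (f := fun σ => exp (β * pairEnergy n (cpl ω) σ))
          (fun σ _ => (exp_pos _).le) (Finset.mem_univ σ)
      have h4 := log_le_log (exp_pos _) h3
      rw [log_exp] at h4
      rw [maxPairEnergy, h, log_div ((exp_pos _).trans_le h3).ne' (by positivity), log_pow]
      linarith) 0 (Nat.zero_le L) (lev n ex).pt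
  exact le_trans (add_le_add_left h1 _) h2

end Crest.Agent.R339.PG
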