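import Crest.Agent.R339.PDefs
import Crest.Agent.R164.NestGauss
import Crest.Agent.R164.NestIneq
import Crest.Prelude.Def_SpinGlass
import Crest.Agent.R339.PGuerraAux3

/-! # Row 339: Guerra's replica symmetry breaking bound -/

set_option autoImplicit false

namespace Crest.Agent.R339

open MeasureTheory ProbabilityTheory Real Set Filter Topology

open Crest.MathPhysics.SpinGlass

/-- the exponents `g l / β`, then `1` -/
noncomputable def PG.expo {β γ₀ : ℝ} (hγ : 0 < γ₀) (L : ℕ) {g : ℕ → ℝ} (hg : Adm β γ₀ g) :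
    R164.Expo (L + 1) where
  ζ l := if l < L then g l / β else 1
  pos l := by
    split_ifs
    · exact div_pos (hγ.trans_le (hg.lo l)) (hγ.trans_le ((hg.lo l).trans (hg.hi l)))
    · exact one_pos
  mono l l' h := by
    have hβ : 0 < β := hγ.trans_le ((hg.lo l).trans (hg.hi l))
    dsimp only
    split_ifs with h1 h2 h2
    · exact div_le_div_of_nonneg_right (hg.mono h) hβ.le
    · exact (div_le_one hβ).2 (hg.hi l)
    · omega
    · exact le_rfl
  top l h := if_neg (by omega)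

theorem guerra {β γ₀ : ℝ} (hγ : 0 < γ₀) {L : ℕ} (hL : 1 ≤ L) {g : ℕ → ℝ} (hg : Adm β γ₀ g) {n : ℕ}
    (hn : 1 ≤ n) : (∫ J, maxPairEnergy n J ∂gaussianCouplings n) / n ≤ Par β L g := by
  have hβ : 0 < β := hγ.trans_le ((hg.lo 0).trans (hg.hi 0))
  have hn' : (0 : ℝ) < n := by exact_mod_cast hn
  have hL' : (0 : ℝ) < L := by exact_mod_cast hL
  have hζ : ∀ l < L, (PG.expo hγ L hg).ζ l = g l / β := fun l hl => if_pos hl
  obtain ⟨l0, l1, h1⟩ := PG.interp (n := n) (PG.expo hγ L hg) hn hL β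
  have h2 := PG.X0_right _ hL l1
  rw [PG.X0_left _ hβ hζ l0] at h1
  have h3 := PG.abel (PG.expo hγ L hg).ζ L
  have e0 : ∑ e ∈ Finset.range L, (PG.expo hγ L hg).ζ e * (2 * (e : ℝ) + 1) =
      ∑ e ∈ Finset.range L, g e / β * (2 * (e : ℝ) + 1) :=
    Finset.sum_congr rfl fun e he => by rw [hζ e (Finset.mem_range.1 he)]
  rw [(PG.expo hγ L hg).top L le_rfl, e0] at h3
  have h4 : ∑ e ∈ Finset.range L, (PG.expo hγ L hg).Δ e * (((e : ℝ) + 1) / L) ^ 2 =
      1 - 4 / β * ∑ l ∈ Finset.range L, g l * ((2 * l + 1) / (4 * (L : ℝ) ^ 2)) := by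
    have e1 : ∑ e ∈ Finset.range L, (PG.expo hγ L hg).Δ e * (((e : ℝ) + 1) / L) ^ 2 =
        (∑ e ∈ Finset.range L, ((PG.expo hγ L hg).ζ (e + 1) - (PG.expo hγ L hg).ζ e) *
          ((e : ℝ) + 1) ^ 2) / (L : ℝ) ^ 2 := by
      rw [Finset.sum_div]
      exact Finset.sum_congr rfl fun e _ => by rw [div_pow, mul_div_assoc, R164.Expo.Δ]
    rw [e1, h3, sub_div, one_mul, div_self (by positivity), Finset.sum_div, Finset.mul_sum]
    congr 1
    exact Finset.sum_congr rfl fun e _ => by field_simp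
  rw [h4] at h1
  rw [Par, div_le_iff₀ hn']
  refine le_of_mul_le_mul_left ?_ hβ
  set S := ∑ l ∈ Finset.range L, g l * ((2 * l + 1) / (4 * (L : ℝ) ^ 2))
  have e2 : β ^ 2 * n / 4 * (1 - (1 - 4 / β * S)) = β * n * S := by
    field_simp
    ring
  rw [e2] at h1
  linarith

end Crest.Agent.R339
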