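import Crest.Agent.R164.NestGauss
import Crest.Agent.R164.NestIneq

/-! # Row 339: general lemmas for Guerra's bound -/

set_option autoImplicit false

namespace Crest.Agent.R339.PG

open MeasureTheory ProbabilityTheory Real Finset
open Crest.Agent.R164

/-- sum of a symmetric function over ordered pairs -/
lemma sum_sym {n : ℕ} (F : Fin n → Fin n → ℝ) (h : ∀ i k, F i k = F k i) :
    ∑ i, ∑ k, F i k = 2 * (∑ i, ∑ k, if i < k then F i k else 0) + ∑ i, F i i := by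
  have h1 : ∀ i k, F i k = (if i < k then F i k else 0) + (if k < i then F k i else 0) +
      if i = k then F i i else 0 := by
    intro i k
    rcases lt_trichotomy i k with hik | rfl | hik
    · simp [hik, hik.not_gt, hik.ne]
    · simp
    · simp [hik, hik.not_gt, hik.ne', h i k]
  rw [Finset.sum_congr rfl fun i _ => Finset.sum_congr rfl fun k _ => h1 i k]
  simp only [Finset.sum_add_distrib, Finset.sum_ite_eq, Finset.mem_univ, if_true]
  rw [Finset.sum_comm (f := fun i k => if k < i then F k i else 0)]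
  ring

lemma sum_Ico_swap (L : ℕ) (f : ℕ → ℝ) :
    ∑ l : Fin L, ∑ e ∈ Ico (l : ℕ) L, f e = ∑ e ∈ range L, ((e : ℝ) + 1) * f e := by
  rw [Fin.sum_univ_eq_sum_range (fun l => ∑ e ∈ Ico l L, f e) L, range_eq_Ico,
    Finset.sum_Ico_Ico_comm]
  refine Finset.sum_congr rfl fun e _ => ?_
  simp

lemma abel (ζ : ℕ → ℝ) (m : ℕ) : ∑ e ∈ range m, (ζ (e + 1) - ζ e) * ((e : ℝ) + 1) ^ 2 =
    ζ m * (m : ℝ) ^ 2 - ∑ e ∈ range m, ζ e * (2 * e + 1) := by
  induction m with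
  | zero => simp
  | succ m ih =>
    rw [Finset.sum_range_succ, Finset.sum_range_succ, ih]
    push_cast
    ring

section two

variable {K : ℕ} {Ω : Type} [MeasurableSpace Ω] {L : Lev K Ω} {H : Cfg K Ω → ℝ} {κ : Type}
  [Fintype κ] {y : κ → Cfg K Ω → ℝ}

lemma two_pt (hH : L.Lin H) (hy : ∀ i, L.Nice (y i)) (l : ℕ) (ω : Cfg K Ω) (t : ℝ) :
    2 * t * ∑ i, L.E l H (y i) ω ^ 2 - t ^ 2 ≤
      ∑ i, ∑ k, L.E l H (fun ω => y i ω * y k ω) ω ^ 2 := by
  set m : κ → ℝ := fun i => L.E l H (y i) ω with hm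
  set M : κ → κ → ℝ := fun i k => L.E l H (fun ω => y i ω * y k ω) ω with hM
  have n1 : ∀ i, L.Nice fun ω => m i * y i ω := fun i => (hy i).const_mul _
  have n2 : ∀ i k, L.Nice fun ω => m i * m k * (y i ω * y k ω) := fun i k =>
    ((hy i).mul (hy k)).const_mul _
  have h1 := Lev.sq_E_le hH (Lev.Nice.sum univ fun i _ => n1 i) l ω
  have e1 : L.E l H (fun ω => ∑ i, m i * y i ω) ω = ∑ i, m i ^ 2 := by
    rw [Lev.E_sum hH univ fun i _ => n1 i]
    simp only [Lev.E_const_mul, sq, hm]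
  have e2 : L.E l H (fun ω => (∑ i, m i * y i ω) ^ 2) ω = ∑ i, ∑ k, m i * m k * M i k := by
    have e3 : (fun ω => (∑ i, m i * y i ω) ^ 2) =
        fun ω => ∑ i, ∑ k, m i * m k * (y i ω * y k ω) := by
      funext ω
      rw [sq, Finset.sum_mul_sum]
      exact Finset.sum_congr rfl fun i _ => Finset.sum_congr rfl fun k _ => by ring
    rw [e3, Lev.E_sum hH univ fun i _ => Lev.Nice.sum univ fun k _ => n2 i k]
    refine Finset.sum_congr rfl fun i _ => ?_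
    rw [Lev.E_sum hH univ fun k _ => n2 i k]
    simp only [Lev.E_const_mul, hM]
  rw [e1, e2] at h1
  have h2 : 0 ≤ ∑ i, ∑ k, (M i k - m i * m k) ^ 2 :=
    Finset.sum_nonneg fun i _ => Finset.sum_nonneg fun k _ => sq_nonneg _
  have e4 : ∑ i, ∑ k, (M i k - m i * m k) ^ 2 =
      ∑ i, ∑ k, M i k ^ 2 - 2 * (∑ i, ∑ k, m i * m k * M i k) + (∑ i, m i ^ 2) ^ 2 := by
    rw [sq (∑ i, m i ^ 2), Finset.sum_mul_sum]
    simp only [Finset.mul_sum, ← Finset.sum_sub_distrib, ← Finset.sum_add_distrib]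
    exact Finset.sum_congr rfl fun i _ => Finset.sum_congr rfl fun k _ => by ring
  show 2 * t * ∑ i, m i ^ 2 - t ^ 2 ≤ ∑ i, ∑ k, M i k ^ 2
  nlinarith [sq_nonneg (∑ i, m i ^ 2 - t)]

lemma two_E0 (hH : L.Lin H) (hy : ∀ i, L.Nice (y i)) (l : ℕ) (t : ℝ) :
    2 * t * ∑ i, L.E0 H (fun ω => L.E l H (y i) ω ^ 2) - t ^ 2 ≤
      ∑ i, ∑ k, L.E0 H (fun ω => L.E l H (fun ω => y i ω * y k ω) ω ^ 2) := by
  have n1 : ∀ i, L.Nice fun ω => L.E l H (y i) ω ^ 2 := fun i => ((hy i).E hH l).pow 2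
  have n2 : ∀ i k, L.Nice fun ω => L.E l H (fun ω => y i ω * y k ω) ω ^ 2 := fun i k =>
    (((hy i).mul (hy k)).E hH l).pow 2
  have n3 := (Lev.Nice.sum univ fun i _ => n1 i).const_mul (2 * t)
  have h1 := Lev.E_mono hH (n3.sub (Lev.nice_const (t ^ 2)))
    (Lev.Nice.sum univ fun i _ => Lev.Nice.sum univ fun k _ => n2 i k)
    (fun ω => two_pt hH hy l ω t) 0 L.pt
  rw [Lev.E_sub hH n3 (Lev.nice_const _), Lev.E_const hH, Lev.E_const_mul,
    Lev.E_sum hH univ fun i _ => n1 i,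
    Lev.E_sum hH univ fun i _ => Lev.Nice.sum univ fun k _ => n2 i k,
    Finset.sum_congr rfl fun i _ => Lev.E_sum hH univ (fun k _ => n2 i k) 0 L.pt] at h1
  exact h1

lemma X_zero_fun (l : ℕ) (ω : Cfg K Ω) : L.X l (fun _ => 0) ω = 0 := by
  induction l using down_ind K generalizing ω with
  | h0 l hl => rw [Lev.X_of_ge _ hl]
  | h1 l hl ih =>
    rw [Lev.X_of_lt _ hl, Lev.T_of_indep fun x => by rw [ih, ih], ih]

/-- Jensen for a function of the first level only -/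
lemma integral_le_X0 (hK : 0 < K) {G : Cfg K Ω → ℝ} (hG : L.Lin G) (hd : Dep 1 G) :
    ∫ x, G (upd L.pt 0 x) ∂L.μ 0 ≤ L.X0 G := by
  have h1 := Lev.X0_add_ge (Lev.lin_const (L := L) 0) hG
  simp only [zero_add, Lev.X0_const] at h1
  refine le_of_eq_of_le ?_ h1
  rw [Lev.E0, Lev.E_of_lt _ hK]
  simp only [X_zero_fun, zero_add, Lev.E_dep (Lev.lin_const 0) hd, sub_zero, mul_zero, exp_zero,
    one_mul]

end two

section amplitude

variable {K : ℕ} {ex : Expo K} {Z ι : Type} [MeasurableSpace Z] [Fintype ι] [DecidableEq ι]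
  {α : ℕ → Measure Z} {hα : ∀ l, IsProbabilityMeasure (α l)}
variable {J : Type} (t : Finset J) (lv : J → ℕ) (co : J → ι) {H₀ : Cfg K (Z × (ι → ℝ)) → ℝ}
  {c : J → Cfg K (Z × (ι → ℝ)) → ℝ}

/-- derivative of the value along a path of amplitudes -/
lemma hasDerivAt_amp (hlv : ∀ j ∈ t, lv j < K)
    (hinj : ∀ j ∈ t, ∀ j' ∈ t, lv j = lv j' → co j = co j' → j = j')
    (hH : (gLev ex ι α hα).Lin H₀)
    (hc : ∀ j ∈ t, Measurable (c j)) {C : ℝ} (hC : ∀ j ∈ t, ∀ ω, |c j ω| ≤ C)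
    (hinv : ∀ j ∈ t, ∀ θ ω, H₀ (shift (lv j) (co j) θ ω) = H₀ ω ∧
      ∀ j' ∈ t, c j' (shift (lv j) (co j) θ ω) = c j' ω) {a a' : J → ℝ → ℝ}
    (ha : ∀ j θ, HasDerivAt (a j) (a' j θ) θ) {R : ℝ} (hR : ∀ j θ, |a j θ| ≤ R ∧ |a' j θ| ≤ R)
    (θ : ℝ) {H : ℝ → Cfg K (Z × (ι → ℝ)) → ℝ}
    (hdef : ∀ θ, H θ = fun ω => H₀ ω + ∑ j ∈ t, a j θ * gl (lv j) (co j) ω * c j ω) :
    (gLev ex ι α hα).Lin (H θ) ∧ HasDerivAt (fun θ => (gLev ex ι α hα).X0 (H θ))
      (∑ j ∈ t, a' j θ * (a j θ * ((gLev ex ι α hα).E0 (H θ) (fun ω => c j ω ^ 2) -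
        ∑ e ∈ Ico (lv j) (K - 1), ex.Δ e * (gLev ex ι α hα).E0 (H θ) fun ω =>
          (gLev ex ι α hα).E (e + 1) (H θ) (c j) ω ^ 2))) θ := by
  have lk : ∀ j ∈ t, (gLev ex ι α hα).Lin (fun ω => gl (lv j) (co j) ω * c j ω) := fun j hj =>
    (lin_gl _ _).mul_bdd (hc j hj) C (hC j hj)
  have nc : ∀ j ∈ t, (gLev ex ι α hα).Nice (c j) := fun j hj =>
    Lev.nice_of_bdd (hc j hj) C (hC j hj)
  have hF := Lev.lfam_comb (s := Set.univ) t hH lk (fun j _ θ _ => ha j θ) fun j _ θ _ => hR j θ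
  have e : ∀ θ, H θ = fun ω => H₀ ω + ∑ j ∈ t, a j θ * (gl (lv j) (co j) ω * c j ω) := by
    intro θ
    simp only [hdef, mul_assoc]
  have hl : (gLev ex ι α hα).Lin (H θ) := by
    rw [e]
    exact hF.lin' (Set.mem_univ θ)
  refine ⟨hl, ?_⟩
  have h1 := hF.hasDerivAt_X0 isOpen_univ (Set.mem_univ θ)
  simp only [← e] at h1
  convert h1 using 1
  rw [Lev.E0, Lev.E_sum hl t fun j hj => (lk j hj).nice.const_mul (a' j θ)]
  refine Finset.sum_congr rfl fun j hj => ?_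
  have h2 := hasDL_amp t lv co hlv hinj hH hc hC hinv (fun j => a j θ) hj
  rw [← hdef] at h2
  rw [Lev.E_const_mul, ← E0_gl_mul (hlv j hj) (co j) h2 (nc j hj)
    fun θ ω => (hinv j hj θ ω).2 j hj]
  rfl

end amplitude

end Crest.Agent.R339.PG
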