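import Crest.Agent.R339.PGuerraAux1
import Crest.Agent.R339.PDefs
import Crest.Prelude.Def_SpinGlass

/-! # Row 339: the interpolating system of Guerra's bound -/

set_option autoImplicit false

namespace Crest.Agent.R339.PG

open MeasureTheory ProbabilityTheory Real Finset
open Crest.Agent.R164 Crest.MathPhysics.SpinGlass

/-- Gaussian coordinates of one level -/
abbrev Io (n : ℕ) : Type := (Fin n × Fin n) ⊕ Fin n
/-- the level space -/
abbrev Om (n : ℕ) : Type := (Fin n → Bool) × (Io n → ℝ)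
/-- the Gaussian fields in the Hamiltonian -/
abbrev Jx (n L : ℕ) : Type := (Fin n × Fin n) ⊕ (Fin L × Fin n)

variable {n L : ℕ}

/-- the scheme -/
noncomputable abbrev lev (n : ℕ) (ex : Expo (L + 1)) : Lev (L + 1) (Om n) :=
  gLev ex (Io n) (fun _ => unif (Fin n → Bool)) fun _ => inferInstance

/-- the spins -/
def sp (i : Fin n) (ω : Cfg (L + 1) (Om n)) : ℝ := atl ω L fun x => spinSign (x.1 i)
def lv : Jx n L → ℕ := Sum.elim (fun _ => 0) fun p => p.1
def co : Jx n L → Io n := Sum.map id Prod.snd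
def cc : Jx n L → Cfg (L + 1) (Om n) → ℝ :=
  Sum.elim (fun p ω => if p.1 < p.2 then sp p.1 ω * sp p.2 ω else 0) fun p => sp p.2
def am (A B : ℝ) : Jx n L → ℝ := Sum.elim (fun _ => A) fun _ => B
/-- the Hamiltonian -/
noncomputable def HH (A B : ℝ) (ω : Cfg (L + 1) (Om n)) : ℝ :=
  0 + ∑ j, am A B j * gl (lv j) (co j) ω * cc j ω

lemma spinSign_sq (b : Bool) : spinSign b ^ 2 = 1 := by cases b <;> simp [spinSign]

lemma sp_sq (i : Fin n) (ω : Cfg (L + 1) (Om n)) : sp i ω ^ 2 = 1 := by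
  simp [sp, atl, spinSign_sq]

lemma abs_sp (i : Fin n) (ω : Cfg (L + 1) (Om n)) : |sp i ω| = 1 := by
  have h := sp_sq i ω
  rw [← sq_abs] at h
  nlinarith [abs_nonneg (sp i ω)]

lemma meas_sp (i : Fin n) : Measurable (sp i : Cfg (L + 1) (Om n) → ℝ) :=
  measurable_atl L ((measurable_of_countable fun σ : Fin n → Bool => spinSign (σ i)).comp
    measurable_fst)

lemma sp_shift (l : ℕ) (j : Io n) (θ : ℝ) (i : Fin n) (ω : Cfg (L + 1) (Om n)) :
    sp i (shift l j θ ω) = sp i ω :=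
  atl_fst_shift l L j θ (fun σ : Fin n → Bool => spinSign (σ i)) ω

lemma nice_sp (ex : Expo (L + 1)) (i : Fin n) : (lev n ex).Nice (sp i) :=
  Lev.nice_of_bdd (meas_sp i) 1 fun ω => (abs_sp i ω).le

lemma meas_cc (j : Jx n L) : Measurable (cc j) := by
  rcases j with p | p
  · show Measurable fun ω => if p.1 < p.2 then sp p.1 ω * sp p.2 ω else 0
    split_ifs
    · exact (meas_sp _).mul (meas_sp _)
    · exact measurable_const
  · exact meas_sp _

lemma abs_cc (j : Jx n L) (ω : Cfg (L + 1) (Om n)) : |cc j ω| ≤ 1 := by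
  rcases j with p | p
  · show |if p.1 < p.2 then sp p.1 ω * sp p.2 ω else 0| ≤ 1
    split_ifs
    · rw [abs_mul, abs_sp, abs_sp, one_mul]
    · simp
  · exact (abs_sp _ _).le

lemma cc_shift (l : ℕ) (i : Io n) (θ : ℝ) (j : Jx n L) (ω : Cfg (L + 1) (Om n)) :
    cc j (shift l i θ ω) = cc j ω := by
  rcases j with p | p
  · show (if p.1 < p.2 then sp p.1 _ * sp p.2 _ else 0) = if p.1 < p.2 then sp p.1 ω * sp p.2 ω else 0
    rw [sp_shift, sp_shift]
  · exact sp_shift _ _ _ _ _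

lemma lv_lt (j : Jx n L) : lv j < L + 1 := by
  rcases j with p | p
  · exact Nat.succ_pos L
  · exact p.1.2.trans (Nat.lt_succ_self L)

lemma lv_co_inj (j j' : Jx n L) (h1 : lv j = lv j') (h2 : co j = co j') : j = j' := by
  rcases j with p | p <;> rcases j' with p' | p'
  · simpa [co] using h2
  · simp [co] at h2
  · simp [co] at h2
  · simp only [co, Sum.map_inr, Sum.inr.injEq] at h2
    simp only [lv, Sum.elim_inr] at h1
    exact congrArg _ (Prod.ext (Fin.ext h1) h2)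

/-- The sign of the derivative. -/
lemma deriv_bound (ex : Expo (L + 1)) (hn : 1 ≤ n) (hL : 1 ≤ L) {H : Cfg (L + 1) (Om n) → ℝ}
    (hH : (lev n ex).Lin H) {u : ℝ} (hu : 0 ≤ u) {a a' : Jx n L → ℝ}
    (h1 : ∀ p, a' (.inl p) * a (.inl p) = u / n) (h2 : ∀ p, a' (.inr p) * a (.inr p) = -(u / L)) :
    ∑ j, a' j * (a j * ((lev n ex).E0 H (fun ω => cc j ω ^ 2) -
      ∑ e ∈ Ico (lv j) (L + 1 - 1), ex.Δ e * (lev n ex).E0 H fun ω =>
        (lev n ex).E (e + 1) H (cc j) ω ^ 2)) ≤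
      -(u * n / 2 * (1 - ∑ e ∈ range L, ex.Δ e * (((e : ℝ) + 1) / L) ^ 2)) := by
  have hn' : (0 : ℝ) < n := by exact_mod_cast hn
  have hL' : (0 : ℝ) < L := by exact_mod_cast hL
  have one : (lev n ex).E0 H (fun _ => 1) = 1 := Lev.E_const hH 0 1 _
  have zero : (lev n ex).E0 H (fun _ => 0) = 0 := Lev.E_const hH 0 0 _
  set A : ℕ → Fin n → Fin n → ℝ := fun e i k => (lev n ex).E0 H fun ω =>
    (lev n ex).E (e + 1) H (fun ω => sp i ω * sp k ω) ω ^ 2 with hA
  set B : ℕ → Fin n → ℝ := fun e i => (lev n ex).E0 H fun ω =>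
    (lev n ex).E (e + 1) H (sp i) ω ^ 2 with hB
  set F : Fin n → Fin n → ℝ := fun i k => 1 - ∑ e ∈ range L, ex.Δ e * A e i k with hF
  have s1 : ∀ p : Fin n × Fin n, (lev n ex).E0 H (fun ω => cc (.inl p : Jx n L) ω ^ 2) -
      ∑ e ∈ Ico (lv (.inl p : Jx n L)) (L + 1 - 1), ex.Δ e * (lev n ex).E0 H (fun ω =>
        (lev n ex).E (e + 1) H (cc (.inl p)) ω ^ 2) = if p.1 < p.2 then F p.1 p.2 else 0 := by
    intro p
    have e0 : Ico (lv (.inl p : Jx n L)) (L + 1 - 1) = range L := by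
      rw [range_eq_Ico]
      rfl
    rw [e0]
    by_cases hp : p.1 < p.2
    · have e1 : cc (.inl p : Jx n L) = fun ω => sp p.1 ω * sp p.2 ω := funext fun ω => if_pos hp
      rw [e1, if_pos hp]
      simp only [mul_pow, sp_sq, one_mul, one, hF, hA]
    · have e1 : cc (.inl p : Jx n L) = fun _ => 0 := funext fun ω => if_neg hp
      rw [e1, if_neg hp]
      simp [Lev.E_const hH, zero]
  have s2 : ∀ p : Fin L × Fin n, (lev n ex).E0 H (fun ω => cc (.inr p : Jx n L) ω ^ 2) -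
      ∑ e ∈ Ico (lv (.inr p : Jx n L)) (L + 1 - 1), ex.Δ e * (lev n ex).E0 H (fun ω =>
        (lev n ex).E (e + 1) H (cc (.inr p)) ω ^ 2) =
      1 - ∑ e ∈ Ico (p.1 : ℕ) L, ex.Δ e * B e p.2 := by
    intro p
    have e1 : cc (.inr p : Jx n L) = sp p.2 := rfl
    rw [e1]
    simp only [sp_sq, one]
    rfl
  rw [Fintype.sum_sum_type]
  simp only [← mul_assoc, h1, h2, s1, s2]
  rw [← Finset.mul_sum, ← Finset.mul_sum, Fintype.sum_prod_type, Fintype.sum_prod_type]
  have t1 : 2 * (∑ i, ∑ k, if i < k then F i k else 0) ≤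
      (n : ℝ) ^ 2 - ∑ e ∈ range L, ex.Δ e * ∑ i, ∑ k, A e i k := by
    have h3 := sum_sym F fun i k => by simp only [hF, hA, mul_comm (sp i _)]
    have h4 : 0 ≤ ∑ i, F i i := by
      refine Finset.sum_nonneg fun i _ => ?_
      have h5 : ∀ e, A e i i = 1 := fun e => by
        simp only [hA, ← sq, sp_sq, Lev.E_const hH, one_pow, one]
      have h6 := Lev.sum_Δ ex (Nat.zero_le L)
      simp only [hF, h5, mul_one, range_eq_Ico, h6]
      linarith [ex.le_one L, ex.pos 0]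
    have h5 : ∑ i, ∑ k, F i k = (n : ℝ) ^ 2 - ∑ e ∈ range L, ex.Δ e * ∑ i, ∑ k, A e i k := by
      simp only [hF, Finset.sum_sub_distrib, Finset.sum_const, Finset.card_univ, Fintype.card_fin,
        nsmul_eq_mul, mul_one, Finset.mul_sum, sq]
      congr 1
      rw [Finset.sum_congr rfl fun i _ => Finset.sum_comm, Finset.sum_comm]
    linarith
  have t2 : ∑ l : Fin L, ∑ i, (1 - ∑ e ∈ Ico (l : ℕ) L, ex.Δ e * B e i) =
      L * n - ∑ e ∈ range L, ((e : ℝ) + 1) * (ex.Δ e * ∑ i, B e i) := by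
    rw [← sum_Ico_swap]
    simp only [Finset.sum_sub_distrib, Finset.sum_const, Finset.card_univ, Fintype.card_fin,
      nsmul_eq_mul, mul_one, Finset.mul_sum]
    congr 1
    exact Finset.sum_congr rfl fun l _ => Finset.sum_comm
  have t3 : ∑ e ∈ range L, (2 * (n / L) * (((e : ℝ) + 1) * (ex.Δ e * ∑ i, B e i)) -
      (n : ℝ) ^ 2 * (ex.Δ e * (((e : ℝ) + 1) / L) ^ 2)) ≤
      ∑ e ∈ range L, ex.Δ e * ∑ i, ∑ k, A e i k := by
    refine Finset.sum_le_sum fun e _ => ?_
    have h3 := mul_le_mul_of_nonneg_left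
      (two_E0 hH (nice_sp ex) (e + 1) (n * (((e : ℝ) + 1) / L))) (ex.Δ_nonneg e)
    refine le_of_eq_of_le ?_ h3
    simp only [hB]
    ring
  rw [Finset.sum_sub_distrib, ← Finset.mul_sum, ← Finset.mul_sum] at t3
  rw [t2]
  set S1 := ∑ i, ∑ k, if i < k then F i k else 0
  set S2 := ∑ e ∈ range L, ((e : ℝ) + 1) * (ex.Δ e * ∑ i, B e i)
  set S3 := ∑ e ∈ range L, ex.Δ e * (((e : ℝ) + 1) / L) ^ 2
  have t4 : 2 * S1 ≤ (n : ℝ) ^ 2 - 2 * (n / L) * S2 + (n : ℝ) ^ 2 * S3 := by linarith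
  have t5 := mul_le_mul_of_nonneg_left t4 (show 0 ≤ u / (2 * n) by positivity)
  have e1 : u / (2 * n) * (2 * S1) = u / n * S1 := by field_simp
  have e2 : u / (2 * n) * ((n : ℝ) ^ 2 - 2 * (n / L) * S2 + (n : ℝ) ^ 2 * S3) +
      -(u / L) * (L * n - S2) = -(u * n / 2 * (1 - S3)) := by
    field_simp
    ring
  linarith

/-- The interpolation inequality. -/
lemma interp (ex : Expo (L + 1)) (hn : 1 ≤ n) (hL : 1 ≤ L) (β : ℝ) :
    (lev n ex).Lin (HH 0 (β * √(1 / L))) ∧ (lev n ex).Lin (HH (β * (1 / √n)) 0) ∧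
    (lev n ex).X0 (HH (β * (1 / √n)) 0) ≤ (lev n ex).X0 (HH 0 (β * √(1 / L))) -
      β ^ 2 * n / 4 * (1 - ∑ e ∈ range L, ex.Δ e * (((e : ℝ) + 1) / L) ^ 2) := by
  have hn' : (0 : ℝ) < n := by exact_mod_cast hn
  have hL' : (0 : ℝ) < L := by exact_mod_cast hL
  set A := β * (1 / √(n : ℝ)) with hA
  set B := β * √(1 / (L : ℝ)) with hB
  set c := 1 - ∑ e ∈ range L, ex.Δ e * (((e : ℝ) + 1) / L) ^ 2 with hc
  have hA2 : A ^ 2 = β ^ 2 / n := by
    rw [hA, mul_pow, div_pow, Real.sq_sqrt hn'.le]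
    ring
  have hB2 : B ^ 2 = β ^ 2 / L := by
    rw [hB, mul_pow, Real.sq_sqrt (by positivity)]
    ring
  have key := fun θ => hasDerivAt_amp (ex := ex) (α := fun _ => unif (Fin n → Bool))
    (hα := fun _ => inferInstance) (H₀ := fun _ => 0) univ (lv : Jx n L → ℕ) co
    (fun j _ => lv_lt j) (fun j _ j' _ => lv_co_inj j j') (Lev.lin_const 0) (fun j _ => meas_cc j)
    (fun j _ => abs_cc j) (fun j _ θ ω => ⟨rfl, fun j' _ => cc_shift _ _ _ _ _⟩)
    (a := fun j θ => am (A * sin θ) (B * cos θ) j) (a' := fun j θ => am (A * cos θ) (B * -sin θ) j)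
    (by
      rintro (p | p) θ
      · exact (hasDerivAt_sin θ).const_mul A
      · exact (hasDerivAt_cos θ).const_mul B) (R := |A| + |B|)
    (by
      have h1 : ∀ x y : ℝ, |y| ≤ 1 → |x * y| ≤ |x| := fun x y h => by
        rw [abs_mul]
        exact mul_le_of_le_one_right (abs_nonneg x) h
      rintro (p | p) θ
      · exact ⟨(h1 A _ (abs_sin_le_one θ)).trans (le_add_of_nonneg_right (abs_nonneg B)),
          (h1 A _ (abs_cos_le_one θ)).trans (le_add_of_nonneg_right (abs_nonneg B))⟩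
      · exact ⟨(h1 B _ (abs_cos_le_one θ)).trans (le_add_of_nonneg_left (abs_nonneg A)),
          (h1 B _ ((abs_neg _).trans_le (abs_sin_le_one θ))).trans
            (le_add_of_nonneg_left (abs_nonneg A))⟩)
    θ (H := fun θ => HH (A * sin θ) (B * cos θ)) fun θ => rfl
  have l0 := (key 0).1
  have l1 := (key (π / 2)).1
  simp only [sin_zero, cos_zero, sin_pi_div_two, cos_pi_div_two, mul_zero, mul_one] at l0 l1
  refine ⟨l0, l1, ?_⟩
  have hd := fun θ => (key θ).2.add (((hasDerivAt_sin θ).pow 2).const_mul (β ^ 2 * n / 4 * c))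
  have hanti := antitoneOn_of_deriv_nonpos (convex_Icc 0 (π / 2))
    (fun θ _ => (hd θ).continuousAt.continuousWithinAt)
    (fun θ _ => (hd θ).differentiableAt.differentiableWithinAt) (fun θ hθ => by
      rw [interior_Icc] at hθ
      rw [(hd θ).deriv]
      have hs : 0 ≤ sin θ := sin_nonneg_of_nonneg_of_le_pi hθ.1.le (by linarith [hθ.2, pi_pos])
      have hco : 0 ≤ cos θ := cos_nonneg_of_neg_pi_div_two_le_of_le (by linarith [hθ.1, pi_pos]) hθ.2.le
      have h3 := deriv_bound ex hn hL (key θ).1 (u := β ^ 2 * (sin θ * cos θ)) (by positivity)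
        (a := am (A * sin θ) (B * cos θ)) (a' := am (A * cos θ) (B * -sin θ))
        (fun p => by
          show A * cos θ * (A * sin θ) = _
          linear_combination sin θ * cos θ * hA2)
        (fun p => by
          show B * -sin θ * (B * cos θ) = _
          linear_combination (-(sin θ * cos θ)) * hB2)
      refine (add_le_add_left h3 _).trans_eq ?_
      rw [← hc]
      push_cast
      ring)
  have h4 := hanti (Set.left_mem_Icc.2 (by positivity)) (Set.right_mem_Icc.2 (by positivity))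
    (by positivity)
  simp only [Pi.add_apply, Pi.pow_apply, sin_zero, cos_zero, sin_pi_div_two, cos_pi_div_two, mul_zero,
    mul_one, one_pow, zero_pow two_ne_zero, add_zero] at h4
  linarith

end Crest.Agent.R339.PG
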