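import Crest.Agent.R339.PDefs

/-! # Row 339: the heat semigroup on smooth functions of exponential growth -/

set_option autoImplicit false

namespace Crest.Agent.R339

open MeasureTheory ProbabilityTheory Real Set Filter Topology

/-- Smooth, with all derivatives of (common) exponential growth. -/
structure ExpG (c : ℝ) (V : ℝ → ℝ) : Prop where
  smooth : ContDiff ℝ (⊤ : ℕ∞) V
  bound : ∀ n, ∃ C, ∀ x, |D n V x| ≤ C * exp (c * |x|)

/-- The heat tower `a n τ x = E V^{(n)}(x + √τ Z)`. -/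
noncomputable def heat (V : ℝ → ℝ) (n : ℕ) (τ x : ℝ) : ℝ := ∫ z, D n V (x + √τ * z) ∂γ1

lemma PHeat.int_exp_abs (a : ℝ) : Integrable (fun z : ℝ => exp (a * |z|)) γ1 := by
  refine ((integrable_exp_mul_gaussianReal (μ := 0) (v := 1) a).add
    (integrable_exp_mul_gaussianReal (μ := 0) (v := 1) (-a))).mono' (by fun_prop)
    (ae_of_all _ fun z => ?_)
  rw [Real.norm_eq_abs, abs_of_pos (exp_pos _)]
  simp only [Pi.add_apply]
  rcases abs_cases z with h | h
  · rw [h.1]; linarith [exp_pos (-a * z)]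
  · rw [h.1, show a * -z = -a * z by ring]; linarith [exp_pos (a * z)]

lemma PHeat.int_of_bound {f : ℝ → ℝ} (hf : AEStronglyMeasurable f γ1) {C c : ℝ}
    (hb : ∀ z, |f z| ≤ C * exp (c * |z|)) : Integrable f γ1 :=
  ((PHeat.int_exp_abs c).const_mul C).mono' hf (ae_of_all _ fun z => hb z)

lemma PHeat.const_nonneg {f : ℝ → ℝ} {C c : ℝ} (hb : ∀ z, |f z| ≤ C * exp (c * |z|)) : 0 ≤ C := by
  have := hb 0
  simp only [abs_zero, mul_zero, exp_zero, mul_one] at this
  exact (abs_nonneg _).trans this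

lemma PHeat.mul_bound {f : ℝ → ℝ} {C c : ℝ} (hb : ∀ z, |f z| ≤ C * exp (c * |z|)) (z : ℝ) :
    |z * f z| ≤ C * exp ((c + 1) * |z|) := by
  have hC := PHeat.const_nonneg hb
  have h1 : |z| ≤ exp |z| := by linarith [add_one_le_exp |z|]
  rw [abs_mul, add_mul, one_mul, exp_add]
  calc |z| * |f z| ≤ exp |z| * (C * exp (c * |z|)) :=
        mul_le_mul h1 (hb z) (abs_nonneg _) (exp_pos _).le
    _ = C * (exp (c * |z|) * exp |z|) := by ring

lemma PHeat.integrable_iff (f : ℝ → ℝ) :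
    Integrable f γ1 ↔ Integrable (fun x => f x * gaussianPDFReal 0 1 x) := by
  unfold γ1
  rw [gaussianReal_of_var_ne_zero _ one_ne_zero,
    integrable_withDensity_iff (measurable_gaussianPDF _ _)
      (ae_of_all _ fun _ => gaussianPDF_lt_top)]
  simp only [toReal_gaussianPDF]

lemma PHeat.hasDerivAt_pdf (x : ℝ) :
    HasDerivAt (gaussianPDFReal 0 1) (-x * gaussianPDFReal 0 1 x) x := by
  have h : gaussianPDFReal 0 1 = fun x => (√(2 * π))⁻¹ * exp (-x ^ 2 / 2) := by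
    funext x
    simp [gaussianPDFReal]
  rw [h]
  have h1 : HasDerivAt (fun x : ℝ => -x ^ 2 / 2) (-x) x := by
    have := ((hasDerivAt_pow 2 x).neg).div_const 2
    refine this.congr_deriv ?_
    simp only [Nat.cast_ofNat, Nat.add_one_sub_one, pow_one]; ring
  have h2 := (h1.exp).const_mul (√(2 * π))⁻¹
  refine h2.congr_deriv ?_
  ring

lemma PHeat.stein1 {G G' : ℝ → ℝ} (hG : ∀ s, HasDerivAt G (G' s) s)
    (h0 : Integrable G γ1) (h1 : Integrable G' γ1) (h2 : Integrable (fun s => s * G s) γ1) :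
    ∫ s, s * G s ∂γ1 = ∫ s, G' s ∂γ1 := by
  rw [PHeat.integrable_iff] at h0 h1 h2
  have h := integral_mul_deriv_eq_deriv_mul_of_integrable (u := G) (u' := G')
    (v := gaussianPDFReal 0 1) (v' := fun x => -x * gaussianPDFReal 0 1 x)
    (fun x _ => hG x) (fun x _ => PHeat.hasDerivAt_pdf x)
    (h2.neg.congr (ae_of_all _ fun x => by simp only [Pi.neg_apply, Pi.mul_apply]; ring)) h1 h0
  unfold γ1
  rw [integral_gaussianReal_eq_integral_smul one_ne_zero,
    integral_gaussianReal_eq_integral_smul one_ne_zero]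
  have h3 : ∫ x, G x * (-x * gaussianPDFReal 0 1 x) = -∫ x, gaussianPDFReal 0 1 x • (x * G x) := by
    rw [← integral_neg]
    refine integral_congr_ae (ae_of_all _ fun x => ?_)
    simp only [smul_eq_mul]; ring
  rw [h3, neg_inj] at h
  rw [h]
  refine integral_congr_ae (ae_of_all _ fun x => ?_)
  simp only [smul_eq_mul]; ring

/-- Gaussian integration by parts. -/
theorem stein {f f' : ℝ → ℝ} (hf : ∀ z, HasDerivAt f (f' z) z) (hc : Continuous f') {C c : ℝ}
    (hb : ∀ z, |f z| ≤ C * exp (c * |z|) ∧ |f' z| ≤ C * exp (c * |z|)) :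
    ∫ z, z * f z ∂γ1 = ∫ z, f' z ∂γ1 := by
  have hfc : Continuous f := continuous_iff_continuousAt.2 fun z => (hf z).continuousAt
  exact PHeat.stein1 hf (PHeat.int_of_bound hfc.aestronglyMeasurable fun z => (hb z).1)
    (PHeat.int_of_bound hc.aestronglyMeasurable fun z => (hb z).2)
    (PHeat.int_of_bound (continuous_id.mul hfc).aestronglyMeasurable
      (PHeat.mul_bound fun z => (hb z).1))

lemma PHeat.D_cont {c : ℝ} {V : ℝ → ℝ} (hV : ExpG c V) (n : ℕ) : Continuous (D n V) :=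
  hV.smooth.continuous_iteratedDeriv n (by exact_mod_cast le_top)

lemma PHeat.D_hasDerivAt {c : ℝ} {V : ℝ → ℝ} (hV : ExpG c V) (n : ℕ) (x : ℝ) :
    HasDerivAt (D n V) (D (n + 1) V x) x := by
  have h : Differentiable ℝ (D n V) :=
    hV.smooth.differentiable_iteratedDeriv n (by exact_mod_cast ENat.natCast_lt_top n)
  have := (h x).hasDerivAt
  rwa [← congrFun iteratedDeriv_succ x] at this

/-- The exponential bound along a Gaussian line, locally uniformly in the parameters. -/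
lemma PHeat.line_bound {f : ℝ → ℝ} {C c : ℝ} (hb : ∀ z, |f z| ≤ C * exp (c * |z|)) {a b x σ : ℝ}
    (hx : |x| ≤ a) (hσ : |σ| ≤ b) (z : ℝ) :
    |f (x + σ * z)| ≤ C * exp (|c| * a) * exp (|c| * b * |z|) := by
  have hC := PHeat.const_nonneg hb
  refine (hb _).trans ?_
  rw [mul_assoc C, ← exp_add]
  refine mul_le_mul_of_nonneg_left (exp_le_exp.2 ?_) hC
  have h1 : |x + σ * z| ≤ a + b * |z| := by
    refine (abs_add_le _ _).trans (add_le_add hx ?_)
    rw [abs_mul]
    exact mul_le_mul_of_nonneg_right hσ (abs_nonneg _)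
  calc c * |x + σ * z| ≤ |c| * |x + σ * z| :=
        mul_le_mul_of_nonneg_right (le_abs_self c) (abs_nonneg _)
    _ ≤ |c| * (a + b * |z|) := mul_le_mul_of_nonneg_left h1 (abs_nonneg _)
    _ = |c| * a + |c| * b * |z| := by ring

lemma PHeat.int_line {c : ℝ} {V : ℝ → ℝ} (hV : ExpG c V) (n : ℕ) (σ x : ℝ) :
    Integrable (fun z => D n V (x + σ * z)) γ1 := by
  obtain ⟨C, hC⟩ := hV.bound n
  have := PHeat.D_cont hV n
  exact PHeat.int_of_bound (by fun_prop) (PHeat.line_bound hC (le_refl |x|) (le_refl |σ|))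

lemma PHeat.int_line_mul {c : ℝ} {V : ℝ → ℝ} (hV : ExpG c V) (n : ℕ) (σ x : ℝ) :
    Integrable (fun z => z * D n V (x + σ * z)) γ1 := by
  obtain ⟨C, hC⟩ := hV.bound n
  have := PHeat.D_cont hV n
  exact PHeat.int_of_bound (by fun_prop)
    (PHeat.mul_bound (PHeat.line_bound hC (le_refl |x|) (le_refl |σ|)))

lemma PHeat.stein_line {c : ℝ} {V : ℝ → ℝ} (hV : ExpG c V) (n : ℕ) (σ x : ℝ) :
    ∫ z, z * D n V (x + σ * z) ∂γ1 = σ * ∫ z, D (n + 1) V (x + σ * z) ∂γ1 := by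
  rw [← integral_const_mul]
  refine PHeat.stein1 (G := fun z => D n V (x + σ * z)) (fun z => ?_) (PHeat.int_line hV n σ x)
    ((PHeat.int_line hV (n + 1) σ x).const_mul σ) (PHeat.int_line_mul hV n σ x)
  have h1 : HasDerivAt (fun z : ℝ => x + σ * z) σ z := by
    simpa using ((hasDerivAt_id z).const_mul σ).const_add x
  have h2 := (PHeat.D_hasDerivAt hV n (x + σ * z)).comp z h1
  refine HasDerivAt.congr_deriv h2 ?_
  ring

/-- The tower in the variables `(σ, x)`, `σ = √τ`. -/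
noncomputable def PHeat.G (V : ℝ → ℝ) (n : ℕ) (p : ℝ × ℝ) : ℝ := ∫ z, D n V (p.2 + p.1 * z) ∂γ1

lemma PHeat.G_fderiv {c : ℝ} {V : ℝ → ℝ} (hV : ExpG c V) (n : ℕ) (p : ℝ × ℝ) :
    HasFDerivAt (PHeat.G V n)
      ((p.1 * PHeat.G V (n + 2) p) • ContinuousLinearMap.fst ℝ ℝ ℝ +
        PHeat.G V (n + 1) p • ContinuousLinearMap.snd ℝ ℝ ℝ) p := by
  obtain ⟨C, hC⟩ := hV.bound (n + 1)
  have hC0 := PHeat.const_nonneg hC
  have c0 := PHeat.D_cont hV n
  have c1 := PHeat.D_cont hV (n + 1)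
  have key := hasFDerivAt_integral_of_dominated_of_fderiv_le (𝕜 := ℝ) (μ := γ1)
    (F := fun (q : ℝ × ℝ) (z : ℝ) => D n V (q.2 + q.1 * z))
    (F' := fun (q : ℝ × ℝ) (z : ℝ) =>
      (z * D (n + 1) V (q.2 + q.1 * z)) • ContinuousLinearMap.fst ℝ ℝ ℝ +
        D (n + 1) V (q.2 + q.1 * z) • ContinuousLinearMap.snd ℝ ℝ ℝ)
    (x₀ := p) (s := Metric.ball p 1)
    (bound := fun z => C * exp (|c| * (|p.2| + 1)) * exp ((|c| * (|p.1| + 1) + 1) * |z|) +
      C * exp (|c| * (|p.2| + 1)) * exp (|c| * (|p.1| + 1) * |z|))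
    (Metric.ball_mem_nhds p one_pos)
    (Eventually.of_forall fun q => (by fun_prop : Continuous fun z : ℝ =>
      D n V (q.2 + q.1 * z)).aestronglyMeasurable)
    (PHeat.int_line hV n p.1 p.2)
    (Continuous.aestronglyMeasurable (by fun_prop))
    (ae_of_all _ fun z q hq => ?_)
    (((PHeat.int_exp_abs _).const_mul _).add ((PHeat.int_exp_abs _).const_mul _))
    (ae_of_all _ fun z q _ => ?_)
  · rw [integral_add ((PHeat.int_line_mul hV (n + 1) p.1 p.2).smul_const _)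
      ((PHeat.int_line hV (n + 1) p.1 p.2).smul_const _), integral_smul_const,
      integral_smul_const, PHeat.stein_line hV (n + 1)] at key
    exact key
  · have hq' : ‖q - p‖ < 1 := by rwa [← dist_eq_norm, ← Metric.mem_ball]
    have h1 : |q.1| ≤ |p.1| + 1 := by
      have : |q.1 - p.1| ≤ ‖q - p‖ := norm_fst_le (q - p)
      have := abs_sub_abs_le_abs_sub q.1 p.1
      linarith
    have h2 : |q.2| ≤ |p.2| + 1 := by
      have : |q.2 - p.2| ≤ ‖q - p‖ := norm_snd_le (q - p)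
      have := abs_sub_abs_le_abs_sub q.2 p.2
      linarith
    have b1 := PHeat.line_bound hC h2 h1
    have b2 := PHeat.mul_bound b1 z
    refine (norm_add_le _ _).trans (add_le_add ?_ ?_)
    · rw [norm_smul, Real.norm_eq_abs]
      exact (mul_le_of_le_one_right (abs_nonneg _) (ContinuousLinearMap.norm_fst_le _ _ _)).trans b2
    · rw [norm_smul, Real.norm_eq_abs]
      exact (mul_le_of_le_one_right (abs_nonneg _) (ContinuousLinearMap.norm_snd_le _ _ _)).trans
        (b1 z)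
  · have h1 : HasFDerivAt (fun q : ℝ × ℝ => q.2 + q.1 * z)
        (ContinuousLinearMap.snd ℝ ℝ ℝ + z • ContinuousLinearMap.fst ℝ ℝ ℝ) q :=
      hasFDerivAt_snd.add (hasFDerivAt_fst.mul_const z)
    have h2 := (PHeat.D_hasDerivAt hV n (q.2 + q.1 * z)).comp_hasFDerivAt q h1
    refine HasFDerivAt.congr_fderiv h2 ?_
    ext <;> simp [mul_comm]

lemma PHeat.heat_eq (V : ℝ → ℝ) (n : ℕ) (τ x : ℝ) : heat V n τ x = PHeat.G V n (√τ, x) := rfl

theorem heat_integrable {c : ℝ} {V : ℝ → ℝ} (hV : ExpG c V) (n : ℕ) (τ x : ℝ) :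
    Integrable (fun z => D n V (x + √τ * z)) γ1 := PHeat.int_line hV n _ x

theorem heat_deriv_x {c : ℝ} {V : ℝ → ℝ} (hV : ExpG c V) (n : ℕ) (τ x : ℝ) :
    HasDerivAt (heat V n τ) (heat V (n + 1) τ x) x := by
  have h1 : HasDerivAt (fun y : ℝ => ((√τ, y) : ℝ × ℝ)) ((0, 1) : ℝ × ℝ) x :=
    (hasDerivAt_const x √τ).prodMk (hasDerivAt_id x)
  have h2 := (PHeat.G_fderiv hV n (√τ, x)).comp_hasDerivAt x h1
  refine HasDerivAt.congr_deriv h2 ?_
  simp [PHeat.heat_eq]

theorem heat_cont {c : ℝ} {V : ℝ → ℝ} (hV : ExpG c V) (n : ℕ) :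
    Continuous fun p : ℝ × ℝ => heat V n p.1 p.2 := by
  have h : Continuous (PHeat.G V n) :=
    continuous_iff_continuousAt.2 fun p => (PHeat.G_fderiv hV n p).continuousAt
  exact h.comp (by fun_prop : Continuous fun p : ℝ × ℝ => ((√p.1, p.2) : ℝ × ℝ))

theorem heat_fderiv {c : ℝ} {V : ℝ → ℝ} (hV : ExpG c V) (n : ℕ) {τ : ℝ} (hτ : 0 < τ) (x : ℝ) :
    HasFDerivAt (fun p : ℝ × ℝ => heat V n p.1 p.2)
      ((heat V (n + 2) τ x / 2) • ContinuousLinearMap.fst ℝ ℝ ℝ +
        heat V (n + 1) τ x • ContinuousLinearMap.snd ℝ ℝ ℝ) (τ, x) := by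
  have hs : 0 < √τ := sqrt_pos.2 hτ
  have h0 : HasFDerivAt (fun p : ℝ × ℝ => √p.1)
      ((1 / (2 * √τ)) • ContinuousLinearMap.fst ℝ ℝ ℝ) (τ, x) :=
    (hasDerivAt_sqrt hτ.ne').comp_hasFDerivAt (τ, x) hasFDerivAt_fst
  have h1 := h0.prodMk (hasFDerivAt_snd (𝕜 := ℝ) (p := ((τ, x) : ℝ × ℝ)))
  have h2 := HasFDerivAt.comp ((τ, x) : ℝ × ℝ) (f := fun p : ℝ × ℝ => ((√p.1, p.2) : ℝ × ℝ))
    (PHeat.G_fderiv hV n (√τ, x)) h1
  refine HasFDerivAt.congr_fderiv h2 ?_
  ext
  · simp [PHeat.heat_eq]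
    field_simp
  · simp [PHeat.heat_eq]

theorem heat_contDiffOn {c : ℝ} {V : ℝ → ℝ} (hV : ExpG c V) (n : ℕ) :
    ContDiffOn ℝ (⊤ : ℕ∞) (fun p : ℝ × ℝ => heat V n p.1 p.2) (Ioi 0 ×ˢ univ) := by
  have ho : IsOpen (Ioi (0 : ℝ) ×ˢ (univ : Set ℝ)) := isOpen_Ioi.prod isOpen_univ
  have key : ∀ k : ℕ, ∀ n,
      ContDiffOn ℝ k (fun p : ℝ × ℝ => heat V n p.1 p.2) (Ioi 0 ×ˢ univ) := by
    intro k
    induction k with
    | zero => intro n; simpa using (heat_cont hV n).continuousOn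
    | succ k ih =>
      intro n
      rw [Nat.cast_succ, contDiffOn_succ_iff_fderiv_of_isOpen ho]
      refine ⟨fun p hp => ?_, by simp, ?_⟩
      · exact (heat_fderiv hV n hp.1 p.2).differentiableAt.differentiableWithinAt
      · refine ContDiffOn.congr (f := fun p : ℝ × ℝ =>
          (heat V (n + 2) p.1 p.2 / 2) • ContinuousLinearMap.fst ℝ ℝ ℝ +
            heat V (n + 1) p.1 p.2 • ContinuousLinearMap.snd ℝ ℝ ℝ) ?_ fun p hp => ?_
        · exact (((ih (n + 2)).div_const 2).smul contDiffOn_const).add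
            ((ih (n + 1)).smul contDiffOn_const)
        · exact (heat_fderiv hV n hp.1 p.2).fderiv
  exact contDiffOn_infty.2 fun k => key k n

lemma PHeat.map_sqrt {s : ℝ} (hs : 0 ≤ s) :
    γ1.map (fun z => √s * z) = gaussianReal 0 (⟨s, hs⟩ : NNReal) := by
  unfold γ1
  rw [gaussianReal_map_const_mul]
  congr 1
  · simp
  · ext
    simp [sq_sqrt hs]
    rfl

/-- Sum of two independent Gaussian steps. -/
theorem gauss_two {f : ℝ → ℝ} (hf : Measurable f) {C c : ℝ} (hb : ∀ z, |f z| ≤ C * exp (c * |z|))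
    {s t : ℝ} (hs : 0 ≤ s) (ht : 0 ≤ t) (x : ℝ) :
    ∫ z, ∫ z', f (x + √s * z + √t * z') ∂γ1 ∂γ1 = ∫ z, f (x + √(s + t) * z) ∂γ1 := by
  have hmap : (γ1.prod γ1).map (fun p : ℝ × ℝ => √s * p.1 + √t * p.2) =
      γ1.map (fun z => √(s + t) * z) := by
    have h1 : (γ1.prod γ1).map (fun p : ℝ × ℝ => √s * p.1 + √t * p.2) =
        (γ1.map (fun z => √s * z)) ∗ (γ1.map (fun z => √t * z)) := by
      unfold Measure.conv
      rw [Measure.map_prod_map _ _ (by fun_prop) (by fun_prop),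
        Measure.map_map (by fun_prop) (by fun_prop)]
      rfl
    rw [h1, PHeat.map_sqrt hs, PHeat.map_sqrt ht, gaussianReal_conv_gaussianReal,
      PHeat.map_sqrt (add_nonneg hs ht)]
    congr 1
    simp
  have hm : Measurable fun y => f (x + y) := hf.comp (by fun_prop)
  have hi : Integrable (fun z => f (x + √(s + t) * z)) γ1 :=
    PHeat.int_of_bound (hf.comp (by fun_prop)).aestronglyMeasurable
      (PHeat.line_bound hb (le_refl |x|) (le_refl |√(s + t)|))
  have hi1 : Integrable (fun y => f (x + y)) (γ1.map (fun z => √(s + t) * z)) :=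
    (integrable_map_measure hm.aestronglyMeasurable (by fun_prop)).2 hi
  have hi2 : Integrable (fun p : ℝ × ℝ => f (x + (√s * p.1 + √t * p.2))) (γ1.prod γ1) := by
    rw [← hmap] at hi1
    exact (integrable_map_measure hm.aestronglyMeasurable (by fun_prop)).1 hi1
  calc ∫ z, ∫ z', f (x + √s * z + √t * z') ∂γ1 ∂γ1
      = ∫ p : ℝ × ℝ, f (x + (√s * p.1 + √t * p.2)) ∂(γ1.prod γ1) := by
        rw [integral_prod _ hi2]
        simp only [add_assoc]
    _ = ∫ y, f (x + y) ∂((γ1.prod γ1).map (fun p : ℝ × ℝ => √s * p.1 + √t * p.2)) := by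
        rw [integral_map (by fun_prop) hm.aestronglyMeasurable]
    _ = ∫ z, f (x + √(s + t) * z) ∂γ1 := by
        rw [hmap, integral_map (by fun_prop) hm.aestronglyMeasurable]

end Crest.Agent.R339
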