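import Crest.Agent.R339.PReg
import Crest.Agent.R339.PMax

/-! # Row 339: the backward invariants -/

set_option autoImplicit false

namespace Crest.Agent.R339

open MeasureTheory ProbabilityTheory Real Set Filter Topology

variable {m : ℝ} {φ : ℝ → ℝ}

/-- normalised derivatives -/
noncomputable def PInv_r (n : ℕ) (φ : ℝ → ℝ) (x : ℝ) : ℝ := D n φ x / D 2 φ x

/-- `k''` -/
noncomputable def PInv_k2 (m : ℝ) (φ : ℝ → ℝ) (x : ℝ) : ℝ :=
  3 * (PInv_r 4 φ x * PInv_r 4 φ x) + 4 * (PInv_r 3 φ x * PInv_r 5 φ x) - PInv_r 6 φ x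
    - 12 * (PInv_r 3 φ x * PInv_r 3 φ x * PInv_r 4 φ x)
    + 6 * (PInv_r 3 φ x * PInv_r 3 φ x * PInv_r 3 φ x * PInv_r 3 φ x)
    - 2 * m * (D 2 φ x * PInv_r 4 φ x)

/-- `k'''` -/
noncomputable def PInv_k3 (m : ℝ) (φ : ℝ → ℝ) (x : ℝ) : ℝ :=
  10 * PInv_r 4 φ x * PInv_r 5 φ x - 30 * PInv_r 3 φ x * PInv_r 4 φ x ^ 2
    - 20 * PInv_r 3 φ x ^ 2 * PInv_r 5 φ x + 5 * PInv_r 3 φ x * PInv_r 6 φ x - PInv_r 7 φ x
    + 60 * PInv_r 3 φ x ^ 3 * PInv_r 4 φ x - 24 * PInv_r 3 φ x ^ 5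
    - 2 * m * (D 2 φ x * PInv_r 5 φ x)

theorem PInv_mul (hφ : Reg φ) (n : ℕ) (x : ℝ) : D n φ x = D 2 φ x * PInv_r n φ x := by
  rw [PInv_r, mul_div_cancel₀ _ (hφ.pos x).ne']

theorem PInv_r_dx (hφ : Reg φ) (n : ℕ) (x : ℝ) :
    HasDerivAt (PInv_r n φ) (PInv_r (n + 1) φ x - PInv_r n φ x * PInv_r 3 φ x) x := by
  have h0 := (hφ.pos x).ne'
  refine ((hφ.hasDerivAt n x).div (hφ.hasDerivAt 2 x) h0).congr_deriv ?_
  simp only [PInv_r]
  field_simp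

theorem PInv_w_dx (hφ : Reg φ) (x : ℝ) : HasDerivAt (D 2 φ) (D 2 φ x * PInv_r 3 φ x) x :=
  (hφ.hasDerivAt 2 x).congr_deriv (PInv_mul hφ 3 x)

theorem PInv_yy (φ : ℝ → ℝ) (x : ℝ) : yy φ x = -PInv_r 3 φ x := rfl

theorem PInv_kk (hφ : Reg φ) (m x : ℝ) :
    kk m φ x = PInv_r 3 φ x * PInv_r 3 φ x - PInv_r 4 φ x - 2 * m * D 2 φ x := by
  have h0 := (hφ.pos x).ne'
  simp only [kk, PInv_r]
  field_simp

theorem PInv_kk' (hφ : Reg φ) (m x : ℝ) :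
    kk' m φ x = 3 * (PInv_r 3 φ x * PInv_r 4 φ x) - PInv_r 5 φ x
      - 2 * (PInv_r 3 φ x * PInv_r 3 φ x * PInv_r 3 φ x) - 2 * m * (D 2 φ x * PInv_r 3 φ x) := by
  have h0 := (hφ.pos x).ne'
  simp only [kk', PInv_r]
  field_simp

theorem PInv_dK {P R w : ℝ → ℝ} {P' R' w' t : ℝ} (m : ℝ) (hP : HasDerivAt P P' t)
    (hR : HasDerivAt R R' t) (hw : HasDerivAt w w' t) :
    HasDerivAt (fun s => P s * P s - R s - 2 * m * w s) (2 * P t * P' - R' - 2 * m * w') t := by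
  refine (((hP.mul hP).sub hR).sub (hw.const_mul (2 * m))).congr_deriv ?_
  ring

theorem PInv_dJ {P R Q w : ℝ → ℝ} {P' R' Q' w' t : ℝ} (m : ℝ) (hP : HasDerivAt P P' t)
    (hR : HasDerivAt R R' t) (hQ : HasDerivAt Q Q' t) (hw : HasDerivAt w w' t) :
    HasDerivAt (fun s => 3 * (P s * R s) - Q s - 2 * (P s * P s * P s) - 2 * m * (w s * P s))
      (3 * (P' * R t + P t * R') - Q' - 6 * P t ^ 2 * P' - 2 * m * (w' * P t + w t * P')) t := by
  refine (((((hP.mul hR).const_mul 3).sub hQ).sub (((hP.mul hP).mul hP).const_mul 2)).sub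
    ((hw.mul hP).const_mul (2 * m))).congr_deriv ?_
  simp only [Pi.mul_apply]
  ring

theorem Reg.hasDerivAt_yy (hφ : Reg φ) (m x : ℝ) :
    HasDerivAt (yy φ) (kk m φ x + 2 * m * D 2 φ x) x := by
  refine (PInv_r_dx hφ 3 x).neg.congr_deriv ?_
  rw [PInv_kk hφ]
  ring

theorem Reg.hasDerivAt_kk (hφ : Reg φ) (m x : ℝ) : HasDerivAt (kk m φ) (kk' m φ x) x := by
  rw [funext (PInv_kk hφ m), PInv_kk' hφ]
  refine (PInv_dK m (PInv_r_dx hφ 3 x) (PInv_r_dx hφ 4 x) (PInv_w_dx hφ x)).congr_deriv ?_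
  ring

theorem PInv_dk' (hφ : Reg φ) (m x : ℝ) : HasDerivAt (kk' m φ) (PInv_k2 m φ x) x := by
  rw [funext (PInv_kk' hφ m), PInv_k2]
  refine (PInv_dJ m (PInv_r_dx hφ 3 x) (PInv_r_dx hφ 4 x) (PInv_r_dx hφ 5 x)
    (PInv_w_dx hφ x)).congr_deriv ?_
  ring

theorem PInv_dk2 (hφ : Reg φ) (m x : ℝ) : HasDerivAt (PInv_k2 m φ) (PInv_k3 m φ x) x := by
  have hP := PInv_r_dx hφ 3 x
  have hR := PInv_r_dx hφ 4 x
  have hQ := PInv_r_dx hφ 5 x
  have hS := PInv_r_dx hφ 6 x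
  have hw := PInv_w_dx hφ x
  refine (((((((hR.mul hR).const_mul 3).add ((hP.mul hQ).const_mul 4)).sub hS).sub
    (((hP.mul hP).mul hR).const_mul 12)).add ((((hP.mul hP).mul hP).mul hP).const_mul 6)).sub
    ((hw.mul hR).const_mul (2 * m))).congr_deriv ?_
  simp only [Pi.mul_apply, PInv_k3]
  ring

theorem PInv_odd (hφ : Reg φ) : PInv_r 3 φ 0 = 0 ∧ PInv_r 5 φ 0 = 0 := by
  have h3 := hφ.D_neg 3 0
  have h5 := hφ.D_neg 5 0
  rw [neg_zero] at h3 h5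
  have e3 : D 3 φ 0 = 0 := by linarith
  have e5 : D 5 φ 0 = 0 := by linarith
  simp only [PInv_r, e3, e5, zero_div, and_self]

theorem yy_nonneg (hm : 0 ≤ m) (hφ : Reg φ) (hk : ∀ x, 0 ≤ kk m φ x) {x : ℝ} (hx : 0 ≤ x) :
    0 ≤ yy φ x := by
  have h1 : Monotone (yy φ) := monotone_of_hasDerivAt_nonneg (fun x => hφ.hasDerivAt_yy m x)
    fun x => add_nonneg (hk x) (mul_nonneg (mul_nonneg zero_le_two hm) (hφ.pos x).le)
  have h2 := h1 hx
  rwa [PInv_yy, (PInv_odd hφ).1, neg_zero] at h2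

theorem Inv.jump {m₁ m₂ : ℝ} (h0 : 0 ≤ m₁) (h12 : m₁ ≤ m₂) (hφ : Reg φ) (h : Inv m₂ φ) :
    Inv m₁ φ := by
  refine ⟨fun x => ?_, fun x hx => ?_⟩
  · have h1 := h.k_nonneg x
    have h2 := mul_nonneg (sub_nonneg.2 h12) (hφ.pos x).le
    rw [PInv_kk hφ] at h1 ⊢
    linarith
  · have h1 := h.k'_le x hx
    have h2 := mul_nonneg (mul_nonneg (sub_nonneg.2 h12) (hφ.pos x).le)
      (yy_nonneg (h0.trans h12) hφ h.k_nonneg hx)
    rw [PInv_kk hφ, PInv_kk' hφ, PInv_yy] at h1 ⊢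
    rw [PInv_yy] at h2
    linarith

section pde
variable (hm : 0 < m) (hφ : Reg φ) {τ : ℝ} (hτ : 0 < τ) (x : ℝ)
include hm hφ hτ

theorem PInv_w_dt : HasDerivAt (fun t => D 2 (T m t φ) x)
    (D 2 (T m τ φ) x * (PInv_r 4 (T m τ φ) x / 2 + m * D 2 (T m τ φ) x +
      m * D 1 (T m τ φ) x * PInv_r 3 (T m τ φ) x)) τ := by
  refine (T_pde2 hm hφ hτ x).congr_deriv ?_
  rw [PInv_mul (hφ.T hm τ) 4, PInv_mul (hφ.T hm τ) 3]
  ring

theorem PInv_r_dt {n : ℕ} {a : ℝ}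
    (h : HasDerivAt (fun t => D n (T m t φ) x) (D 2 (T m τ φ) x * a) τ) :
    HasDerivAt (fun t => PInv_r n (T m t φ) x)
      (a - PInv_r n (T m τ φ) x * (PInv_r 4 (T m τ φ) x / 2 + m * D 2 (T m τ φ) x +
        m * D 1 (T m τ φ) x * PInv_r 3 (T m τ φ) x)) τ := by
  have h0 := (T_pos hm hφ τ x).ne'
  refine (h.div (PInv_w_dt hm hφ hτ x) h0).congr_deriv ?_
  rw [PInv_mul (hφ.T hm τ) n]
  field_simp

theorem PInv_dt :
    HasDerivAt (fun t => yy (T m t φ) x)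
      ((kk' m (T m τ φ) x - 2 * m * D 2 (T m τ φ) x * yy (T m τ φ) x) / 2 +
        (m * D 1 (T m τ φ) x - yy (T m τ φ) x) * (kk m (T m τ φ) x + 2 * m * D 2 (T m τ φ) x) +
        2 * m * D 2 (T m τ φ) x * yy (T m τ φ) x) τ ∧
    HasDerivAt (fun t => kk m (T m t φ) x)
      (PInv_k2 m (T m τ φ) x / 2 + (m * D 1 (T m τ φ) x - yy (T m τ φ) x) * kk' m (T m τ φ) x -
        (m * D 2 (T m τ φ) x + kk m (T m τ φ) x) * kk m (T m τ φ) x) τ ∧
    HasDerivAt (fun t => kk' m (T m t φ) x)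
      (PInv_k3 m (T m τ φ) x / 2 +
        (m * D 1 (T m τ φ) x - yy (T m τ φ) x) * PInv_k2 m (T m τ φ) x -
        (2 * (m * D 2 (T m τ φ) x) + 3 * kk m (T m τ φ) x) * kk' m (T m τ φ) x +
        m * D 2 (T m τ φ) x * yy (T m τ φ) x * kk m (T m τ φ) x) τ := by
  have hψ := hφ.T hm τ
  have hw := PInv_w_dt hm hφ hτ x
  have hP := PInv_r_dt hm hφ hτ x (n := 3) (a := PInv_r 5 (T m τ φ) x / 2 +
    m * (3 * D 2 (T m τ φ) x * PInv_r 3 (T m τ φ) x + D 1 (T m τ φ) x * PInv_r 4 (T m τ φ) x))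
    ((T_pde3 hm hφ hτ x).congr_deriv (by
      rw [PInv_mul hψ 5, PInv_mul hψ 4, PInv_mul hψ 3]
      ring))
  have hR := PInv_r_dt hm hφ hτ x (n := 4) (a := PInv_r 6 (T m τ φ) x / 2 +
    m * (3 * D 2 (T m τ φ) x * PInv_r 3 (T m τ φ) x ^ 2 + 4 * D 2 (T m τ φ) x * PInv_r 4 (T m τ φ) x +
      D 1 (T m τ φ) x * PInv_r 5 (T m τ φ) x))
    ((T_pde4 hm hφ hτ x).congr_deriv (by
      rw [PInv_mul hψ 6, PInv_mul hψ 5, PInv_mul hψ 4, PInv_mul hψ 3]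
      ring))
  have hQ := PInv_r_dt hm hφ hτ x (n := 5) (a := PInv_r 7 (T m τ φ) x / 2 +
    m * (10 * D 2 (T m τ φ) x * PInv_r 3 (T m τ φ) x * PInv_r 4 (T m τ φ) x +
      5 * D 2 (T m τ φ) x * PInv_r 5 (T m τ φ) x + D 1 (T m τ φ) x * PInv_r 6 (T m τ φ) x))
    ((T_pde5 hm hφ hτ x).congr_deriv (by
      rw [PInv_mul hψ 7, PInv_mul hψ 6, PInv_mul hψ 5, PInv_mul hψ 4, PInv_mul hψ 3]
      ring))
  refine ⟨hP.neg.congr_deriv ?_, ?_, ?_⟩
  · rw [PInv_kk hψ, PInv_kk' hψ, PInv_yy]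
    ring
  · rw [show (fun t => kk m (T m t φ) x) = _ from funext fun t => PInv_kk (hφ.T hm t) m x]
    refine (PInv_dK m hP hR hw).congr_deriv ?_
    rw [PInv_kk hψ, PInv_kk' hψ, PInv_yy, PInv_k2]
    ring
  · rw [show (fun t => kk' m (T m t φ) x) = _ from funext fun t => PInv_kk' (hφ.T hm t) m x]
    refine (PInv_dJ m hP hR hQ hw).congr_deriv ?_
    rw [PInv_kk hψ, PInv_kk' hψ, PInv_yy, PInv_k2, PInv_k3]
    ring

end pde

theorem PInv_cont (hm : 0 < m) (hφ : Reg φ) :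
    (Continuous fun p : ℝ × ℝ => yy (T m p.1 φ) p.2) ∧
    (Continuous fun p : ℝ × ℝ => kk m (T m p.1 φ) p.2) ∧
    Continuous fun p : ℝ × ℝ => kk' m (T m p.1 φ) p.2 := by
  have hw := T_cont hm hφ 2
  have hr : ∀ n, Continuous fun p : ℝ × ℝ => PInv_r n (T m p.1 φ) p.2 := fun n =>
    (T_cont hm hφ n).div hw fun p => (T_pos hm hφ p.1 p.2).ne'
  have h3 := hr 3
  have h4 := hr 4
  have h5 := hr 5
  refine ⟨h3.neg, ?_, ?_⟩
  · rw [show (fun p : ℝ × ℝ => kk m (T m p.1 φ) p.2) = _ from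
      funext fun p => PInv_kk (hφ.T hm p.1) m p.2]
    exact ((h3.mul h3).sub h4).sub (continuous_const.mul hw)
  · rw [show (fun p : ℝ × ℝ => kk' m (T m p.1 φ) p.2) = _ from
      funext fun p => PInv_kk' (hφ.T hm p.1) m p.2]
    exact (((continuous_const.mul (h3.mul h4)).sub h5).sub
      (continuous_const.mul ((h3.mul h3).mul h3))).sub (continuous_const.mul (hw.mul h3))

theorem PInv_bdd (hm : 0 < m) (hφ : Reg φ) : ∃ M, ∀ t x, |yy (T m t φ) x| ≤ M ∧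
    |kk m (T m t φ) x| ≤ M ∧ |kk' m (T m t φ) x| ≤ M := by
  obtain ⟨C, hC⟩ := T_ratio hm hφ
  obtain ⟨B, hB⟩ := T_bdd hm hφ 2 one_le_two
  refine ⟨C + (C * C + C + 2 * m * B) + (3 * (C * C) + C + 2 * (C * C * C) + 2 * m * (B * C)),
    fun t x => ?_⟩
  have hw := T_pos hm hφ t x
  have hr : ∀ n, |D n (T m t φ) x| ≤ C * D 2 (T m t φ) x → |PInv_r n (T m t φ) x| ≤ C :=
    fun n h => by rwa [PInv_r, abs_div, abs_of_pos hw, div_le_iff₀ hw]
  have h3 := hr 3 (hC t x).1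
  have h4 := hr 4 (hC t x).2.1
  have h5 := hr 5 (hC t x).2.2
  have h2 := hB t x
  rw [PInv_kk (hφ.T hm t), PInv_kk' (hφ.T hm t), PInv_yy, abs_neg]
  set P := PInv_r 3 (T m t φ) x
  set R := PInv_r 4 (T m t φ) x
  set Q := PInv_r 5 (T m t φ) x
  set w := D 2 (T m t φ) x
  have C0 : 0 ≤ C := (abs_nonneg _).trans h3
  have B0 : 0 ≤ B := (abs_nonneg _).trans h2
  have a1 : |P * P| ≤ C * C := by rw [abs_mul]; gcongr
  have a2 : |P * R| ≤ C * C := by rw [abs_mul]; gcongr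
  have a3 : |P * P * P| ≤ C * C * C := by rw [abs_mul]; gcongr
  have a4 : |2 * m * w| ≤ 2 * m * B := by
    rw [abs_mul, abs_of_pos (by positivity : 0 < 2 * m)]; gcongr
  have a5 : |2 * m * (w * P)| ≤ 2 * m * (B * C) := by
    rw [abs_mul, abs_mul w, abs_of_pos (by positivity : 0 < 2 * m)]; gcongr
  have b1 : 0 ≤ C * C := by positivity
  have b2 : 0 ≤ C * C * C := by positivity
  have b3 : 0 ≤ 2 * m * B := by positivity
  have b4 : 0 ≤ 2 * m * (B * C) := by positivity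
  rw [abs_le] at a1 a2 a3 a4 a5 h4 h5
  refine ⟨by linarith, abs_le.2 ⟨?_, ?_⟩, abs_le.2 ⟨?_, ?_⟩⟩ <;>
    linarith [a1.1, a1.2, a2.1, a2.2, a3.1, a3.2, a4.1, a4.2, a5.1, a5.2, h4.1, h4.2, h5.1, h5.2]

theorem PInv_drift (hm : 0 < m) {u y M v : ℝ} (hu : |u| ≤ 1) (hy : |y| ≤ M) :
    (m * u - y) * v ≤ (m + M) * |v| := by
  refine (le_abs_self _).trans ?_
  rw [abs_mul]
  refine mul_le_mul_of_nonneg_right ((abs_sub _ _).trans ?_) (abs_nonneg _)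
  rw [abs_mul, abs_of_pos hm]
  nlinarith

theorem PInv_k_nonneg (hm : 0 < m) (hφ : Reg φ) (h : Inv m φ) {τ : ℝ} (hτ : 0 ≤ τ) (x : ℝ) :
    0 ≤ kk m (T m τ φ) x := by
  obtain ⟨M, hM⟩ := PInv_bdd hm hφ
  have key := max_principle (T₀ := τ) (A := m + M) (C := M) (M := M)
    (fun t x => -kk m (T m t φ) x) (PInv_cont hm hφ).2.1.neg.continuousOn
    (fun t _ x => (neg_le_abs _).trans (hM t x).2.1)
    (fun x => by rw [T_zero hm]; exact neg_nonpos.2 (h.k_nonneg x))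
    (fun t ht x hx => by
      have hψ := hφ.T hm t
      refine ⟨_, _, fun y => -kk' m (T m t φ) y, (PInv_dt hm hφ ht.1 x).2.1.neg,
        Eventually.of_forall fun y => (hψ.hasDerivAt_kk m y).neg, (PInv_dk' hψ m x).neg, ?_⟩
      have h1 := PInv_drift hm (v := -kk' m (T m t φ) x) (hψ.d1 x) (hM t x).1
      have h2 := (neg_le_abs _).trans (hM t x).2.1
      have h3 := mul_pos hm (hψ.pos x)
      have h4 := mul_le_mul_of_nonneg_right
        (show -(m * D 2 (T m t φ) x + kk m (T m t φ) x) ≤ M by linarith) hx.le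
      linarith)
    τ ⟨hτ, le_rfl⟩ x
  linarith

/-- `G = k' - k y / 2` and its derivatives -/
noncomputable def PInv_G (m : ℝ) (φ : ℝ → ℝ) (x : ℝ) : ℝ := kk' m φ x - kk m φ x * yy φ x / 2
noncomputable def PInv_G1 (m : ℝ) (φ : ℝ → ℝ) (x : ℝ) : ℝ :=
  PInv_k2 m φ x - (kk' m φ x * yy φ x + kk m φ x * (kk m φ x + 2 * m * D 2 φ x)) / 2
noncomputable def PInv_G2 (m : ℝ) (φ : ℝ → ℝ) (x : ℝ) : ℝ :=
  PInv_k3 m φ x - (PInv_k2 m φ x * yy φ x + 2 * kk' m φ x * (kk m φ x + 2 * m * D 2 φ x) +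
    kk m φ x * (kk' m φ x - 2 * m * D 2 φ x * yy φ x)) / 2

theorem PInv_dG (hφ : Reg φ) (m x : ℝ) : HasDerivAt (PInv_G m φ) (PInv_G1 m φ x) x :=
  (PInv_dk' hφ m x).sub (((hφ.hasDerivAt_kk m x).mul (hφ.hasDerivAt_yy m x)).div_const 2)

theorem PInv_dG1 (hφ : Reg φ) (m x : ℝ) : HasDerivAt (PInv_G1 m φ) (PInv_G2 m φ x) x := by
  refine ((PInv_dk2 hφ m x).sub ((((PInv_dk' hφ m x).mul (hφ.hasDerivAt_yy m x)).add
    ((hφ.hasDerivAt_kk m x).mul ((hφ.hasDerivAt_kk m x).add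
      ((PInv_w_dx hφ x).const_mul (2 * m))))).div_const 2)).congr_deriv ?_
  simp only [Pi.add_apply, PInv_G2, PInv_yy]
  ring

theorem PInv_G_dt (hm : 0 < m) (hφ : Reg φ) (h : Inv m φ) {M : ℝ} {τ : ℝ} (hτ : 0 < τ) {x : ℝ}
    (hx : 0 ≤ x) (hM : |yy (T m τ φ) x| ≤ M) (hG : 0 < PInv_G m (T m τ φ) x) :
    ∃ ft, HasDerivAt (fun t => PInv_G m (T m t φ) x) ft τ ∧
      ft ≤ PInv_G2 m (T m τ φ) x / 2 + (m + M) * |PInv_G1 m (T m τ φ) x| := by
  have hψ := hφ.T hm τ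
  obtain ⟨d1, d2, d3⟩ := PInv_dt hm hφ hτ x
  refine ⟨_, d3.sub ((d2.mul d1).div_const 2), ?_⟩
  have h1 := PInv_drift hm (v := PInv_G1 m (T m τ φ) x) (hψ.d1 x) hM
  have hk := PInv_k_nonneg hm hφ h hτ.le
  have h2 := yy_nonneg hm.le hψ hk hx
  have h3 := mul_pos hm (hψ.pos x)
  have h4 := mul_nonneg (show 0 ≤ m * D 2 (T m τ φ) x + 5 / 2 * kk m (T m τ φ) x by
    linarith [hk x]) hG.le
  have h5 := mul_nonneg (mul_self_nonneg (kk m (T m τ φ) x)) h2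
  refine le_trans ?_ (add_le_add le_rfl h1)
  simp only [PInv_G, PInv_G1, PInv_G2] at h4 ⊢
  linarith

theorem Inv.T (hm : 0 < m) (hφ : Reg φ) (h : Inv m φ) {τ : ℝ} (hτ : 0 ≤ τ) : Inv m (T m τ φ) := by
  refine ⟨PInv_k_nonneg hm hφ h hτ, fun x hx => ?_⟩
  obtain ⟨M, hM⟩ := PInv_bdd hm hφ
  obtain ⟨c1, c2, c3⟩ := PInv_cont hm hφ
  have c4 : Continuous fun p : ℝ × ℝ => PInv_G m (R339.T m p.1 φ) p.2 :=
    c3.sub ((c2.mul c1).div_const 2)
  have key := max_principle (T₀ := τ) (A := m + M) (C := 0) (M := M + M * M / 2)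
    (fun t x => PInv_G m (R339.T m t φ) |x|)
    (c4.comp (continuous_fst.prodMk continuous_snd.abs)).continuousOn
    (fun t _ x => by
      obtain ⟨a1, a2, a3⟩ := hM t |x|
      have a4 : |kk m (R339.T m t φ) (|x|) * yy (R339.T m t φ) (|x|)| ≤ M * M := by
        rw [abs_mul]
        exact mul_le_mul a2 a1 (abs_nonneg _) ((abs_nonneg _).trans a1)
      have a5 := (abs_le.1 a3).2
      have a6 := (abs_le.1 a4).1
      simp only [PInv_G]
      linarith)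
    (fun x => by
      rw [T_zero hm]
      exact sub_nonpos.2 (h.k'_le _ (abs_nonneg x)))
    (fun t ht x hx => by
      have hψ := hφ.T hm t
      obtain ⟨ft, f1, f2⟩ := PInv_G_dt hm hφ h ht.1 (abs_nonneg x) (hM t |x|).1 hx
      rcases lt_trichotomy x 0 with h0 | h0 | h0
      · refine ⟨ft, PInv_G2 m (R339.T m t φ) (-x), fun y => -PInv_G1 m (R339.T m t φ) (-y), f1,
          ?_, ?_, ?_⟩
        · filter_upwards [Iio_mem_nhds h0] with y hy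
          have e := (PInv_dG hψ m (-y)).comp y (hasDerivAt_neg y)
          refine (e.congr_deriv (by ring)).congr_of_eventuallyEq ?_
          filter_upwards [Iio_mem_nhds hy] with z hz
          rw [Function.comp_apply, abs_of_neg hz]
        · have e := ((PInv_dG1 hψ m (-x)).comp x (hasDerivAt_neg x)).neg
          exact e.congr_deriv (by ring)
        · rw [abs_of_neg h0] at f2
          rw [abs_neg, zero_mul, add_zero]
          exact f2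
      · subst h0
        exfalso
        rw [abs_zero, PInv_G, PInv_kk' hψ, PInv_yy, (PInv_odd hψ).1, (PInv_odd hψ).2] at hx
        simp at hx
      · refine ⟨ft, PInv_G2 m (R339.T m t φ) x, PInv_G1 m (R339.T m t φ), f1, ?_,
          PInv_dG1 hψ m x, ?_⟩
        · filter_upwards [Ioi_mem_nhds h0] with y hy
          refine (PInv_dG hψ m y).congr_of_eventuallyEq ?_
          filter_upwards [Ioi_mem_nhds hy] with z hz
          rw [abs_of_pos hz]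
        · rw [abs_of_pos h0] at f2
          rw [zero_mul, add_zero]
          exact f2)
    τ ⟨hτ, le_rfl⟩ x
  rw [abs_of_nonneg hx] at key
  exact sub_nonpos.1 key

theorem Psi_inv {β γ₀ : ℝ} (hγ : 0 < γ₀) {L : ℕ} {g : ℕ → ℝ} (hg : Adm β γ₀ g) (l : ℕ) {τ : ℝ}
    (hτ : τ ≤ 1 / L) : Inv (g l) (Psi β L g l τ) := by
  have h0 : ∀ l, 0 < g l := fun l => hγ.trans_le (hg.lo l)
  have hβ : 0 < β := (h0 0).trans_le (hg.hi 0)
  have key : ∀ n l, L ≤ l + 1 + n → Inv (g l) (Phi β L g (l + 1)) := by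
    intro n
    induction n with
    | zero =>
      intro l hl
      rw [Phi_of_ge β g hl]
      exact term_inv hβ (hg.hi l)
    | succ n ih =>
      intro l hl
      rcases Nat.lt_or_ge (l + 1) L with h | h
      · refine Inv.jump (h0 l).le (hg.mono (Nat.le_succ l)) (Phi_reg hβ L h0 _) ?_
        rw [Phi_of_lt β g h]
        exact Inv.T (h0 _) (Phi_reg hβ L h0 _) (ih (l + 1) (by omega)) (by positivity)
      · rw [Phi_of_ge β g h]
        exact term_inv hβ (hg.hi l)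
  exact Inv.T (h0 l) (Phi_reg hβ L h0 _) (key L l (by omega)) (sub_nonneg.2 hτ)

end Crest.Agent.R339
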