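import Crest.Agent.R339.PHeat

/-! # Row 339: space-time functions of exponential growth and the Itô formula for a Gaussian step -/

set_option autoImplicit false

namespace Crest.Agent.R339

open MeasureTheory ProbabilityTheory Real Set Filter Topology

namespace PIto

/-- continuous, of exponential growth in space uniformly on `[0, d]` -/
structure EG (d : ℝ) (W : ℝ × ℝ → ℝ) : Prop where
  cont : Continuous W
  bd : ∃ C c : ℝ, 0 ≤ C ∧ 0 ≤ c ∧ ∀ p : ℝ × ℝ, p.1 ∈ Icc 0 d → |W p| ≤ C * exp (c * |p.2|)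

variable {d : ℝ}

theorem EG.const (d k : ℝ) : EG d fun _ => k :=
  ⟨continuous_const, |k|, 0, abs_nonneg _, le_rfl, fun p _ => by simp⟩

theorem EG.snd (d : ℝ) : EG d fun p => p.2 :=
  ⟨continuous_snd, 1, 1, zero_le_one, zero_le_one, fun p _ => by
    rw [one_mul, one_mul]
    linarith [add_one_le_exp |p.2|]⟩

theorem EG.of_bdd {W : ℝ × ℝ → ℝ} (h : Continuous W) {C : ℝ} (hC : ∀ p, |W p| ≤ C) : EG d W :=
  ⟨h, C, 0, (abs_nonneg _).trans (hC 0), le_rfl, fun p _ => by simpa using hC p⟩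

theorem EG.mul {a b : ℝ × ℝ → ℝ} (ha : EG d a) (hb : EG d b) : EG d fun p => a p * b p := by
  obtain ⟨C, c, hC, hc, h⟩ := ha.bd
  obtain ⟨C', c', hC', hc', h'⟩ := hb.bd
  refine ⟨ha.cont.mul hb.cont, C * C', c + c', by positivity, by positivity, fun p hp => ?_⟩
  rw [abs_mul, add_mul, exp_add, mul_mul_mul_comm]
  exact mul_le_mul (h p hp) (h' p hp) (abs_nonneg _) (by positivity)

theorem EG.add {a b : ℝ × ℝ → ℝ} (ha : EG d a) (hb : EG d b) : EG d fun p => a p + b p := by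
  obtain ⟨C, c, hC, hc, h⟩ := ha.bd
  obtain ⟨C', c', hC', hc', h'⟩ := hb.bd
  refine ⟨ha.cont.add hb.cont, C + C', c + c', by positivity, by positivity, fun p hp => ?_⟩
  have h1 : exp (c * |p.2|) ≤ exp ((c + c') * |p.2|) :=
    exp_le_exp.2 (mul_le_mul_of_nonneg_right (by linarith) (abs_nonneg _))
  have h2 : exp (c' * |p.2|) ≤ exp ((c + c') * |p.2|) :=
    exp_le_exp.2 (mul_le_mul_of_nonneg_right (by linarith) (abs_nonneg _))
  have h3 := mul_le_mul_of_nonneg_left h1 hC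
  have h4 := mul_le_mul_of_nonneg_left h2 hC'
  have h5 := abs_add_le (a p) (b p)
  have h6 := h p hp
  have h7 := h' p hp
  rw [add_mul]
  linarith

theorem EG.const_mul {a : ℝ × ℝ → ℝ} (k : ℝ) (ha : EG d a) : EG d fun p => k * a p :=
  (EG.const d k).mul ha

theorem EG.neg {a : ℝ × ℝ → ℝ} (ha : EG d a) : EG d fun p => -a p := by
  simpa using ha.const_mul (-1)

theorem EG.div_const {a : ℝ × ℝ → ℝ} (ha : EG d a) (k : ℝ) : EG d fun p => a p / k := by
  simpa [div_eq_mul_inv] using ha.mul (EG.const d k⁻¹)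

theorem EG.exp_of {a : ℝ × ℝ → ℝ} (ha : Continuous a) {K k : ℝ} (hk : 0 ≤ k)
    (h : ∀ p : ℝ × ℝ, p.1 ∈ Icc 0 d → a p ≤ K + k * |p.2|) : EG d fun p => exp (a p) :=
  ⟨continuous_exp.comp ha, exp K, k, (exp_pos _).le, hk, fun p hp => by
    rw [abs_of_pos (exp_pos _), ← exp_add]
    exact exp_le_exp.2 (h p hp)⟩

theorem EG.slice {W : ℝ × ℝ → ℝ} (h : EG d W) {τ : ℝ} (hτ : τ ∈ Icc 0 d) :
    Measurable (fun x => W (τ, x)) ∧ ∃ C c : ℝ, ∀ x, |W (τ, x)| ≤ C * exp (c * |x|) := by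
  obtain ⟨C, c, -, -, hb⟩ := h.bd
  exact ⟨(h.cont.comp (Continuous.prodMk_right τ)).measurable, C, c, fun x => hb (τ, x) hτ⟩

theorem EG.integrable {W : ℝ × ℝ → ℝ} (h : EG d W) {τ : ℝ} (hτ : τ ∈ Icc 0 d) {ν : Measure ℝ}
    (hν : ∀ c : ℝ, Integrable (fun x => exp (c * |x|)) ν) : Integrable (fun x => W (τ, x)) ν := by
  obtain ⟨h1, C, c, h2⟩ := h.slice hτ
  exact ((hν c).const_mul C).mono' h1.aestronglyMeasurable (Eventually.of_forall h2)

theorem gauss_exp (c : ℝ) : Integrable (fun z => exp (c * |z|)) γ1 :=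
  integrable_exp_mul_abs (X := id) (integrable_exp_mul_gaussianReal c)
    (integrable_exp_mul_gaussianReal (-c))

/-- the dominating function -/
theorem EG.dom {W e : ℝ × ℝ → ℝ} (h : EG d W) (he : EG d e) (hd : 0 ≤ d) {ν : Measure ℝ} [SFinite ν]
    (hν : ∀ c : ℝ, Integrable (fun x => exp (c * |x|)) ν) :
    ∃ B : ℝ × ℝ → ℝ, Integrable B (ν.prod γ1) ∧ ∀ τ ∈ Icc 0 d, ∀ q : ℝ × ℝ,
      |e (0, q.1) * W (τ, q.1 + √τ * q.2)| ≤ B q ∧
        |q.2 * (e (0, q.1) * W (τ, q.1 + √τ * q.2))| ≤ B q := by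
  obtain ⟨C, c, hC, hc, hb⟩ := h.bd
  obtain ⟨C', c', hC', hc', hb'⟩ := he.bd
  refine ⟨fun q => (C' * C * exp ((c' + c) * |q.1|)) * exp ((c * √d + 1) * |q.2|),
    ((hν _).const_mul _).mul_prod (gauss_exp _), fun τ hτ q => ?_⟩
  have h1 : |q.1 + √τ * q.2| ≤ |q.1| + √d * |q.2| := by
    refine (abs_add_le _ _).trans ?_
    rw [abs_mul, abs_of_nonneg (sqrt_nonneg _)]
    have := mul_le_mul_of_nonneg_right (sqrt_le_sqrt hτ.2) (abs_nonneg q.2)
    linarith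
  have h2 : |e (0, q.1) * W (τ, q.1 + √τ * q.2)| ≤
      (C' * C * exp ((c' + c) * |q.1|)) * exp (c * √d * |q.2|) := by
    have h3 := hb (τ, q.1 + √τ * q.2) hτ
    have h4 := hb' (0, q.1) ⟨le_rfl, hd⟩
    have h5 : exp (c * |q.1 + √τ * q.2|) ≤ exp (c * (|q.1| + √d * |q.2|)) :=
      exp_le_exp.2 (mul_le_mul_of_nonneg_left h1 hc)
    rw [abs_mul]
    refine (mul_le_mul h4 (h3.trans (mul_le_mul_of_nonneg_left h5 hC)) (abs_nonneg _)
      (by positivity)).trans (le_of_eq ?_)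
    rw [mul_add, add_mul, exp_add, exp_add, mul_assoc c]
    ring
  have h6 : (1 : ℝ) ≤ exp |q.2| := one_le_exp (abs_nonneg _)
  have h7 : |q.2| ≤ exp |q.2| := by linarith [add_one_le_exp |q.2|]
  have h8 : (C' * C * exp ((c' + c) * |q.1|)) * exp ((c * √d + 1) * |q.2|) =
      exp |q.2| * ((C' * C * exp ((c' + c) * |q.1|)) * exp (c * √d * |q.2|)) := by
    rw [add_mul (c * √d), one_mul, exp_add]
    ring
  show _ ≤ (C' * C * exp ((c' + c) * |q.1|)) * exp ((c * √d + 1) * |q.2|) ∧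
    _ ≤ (C' * C * exp ((c' + c) * |q.1|)) * exp ((c * √d + 1) * |q.2|)
  rw [h8]
  constructor
  · exact h2.trans (le_mul_of_one_le_left (by positivity) h6)
  · rw [abs_mul]
    exact mul_le_mul h7 h2 (abs_nonneg _) (exp_pos _).le

theorem cont_shift {W e : ℝ × ℝ → ℝ} (h : Continuous W) (he : Continuous e) (τ : ℝ) :
    Continuous fun q : ℝ × ℝ => e (0, q.1) * W (τ, q.1 + √τ * q.2) := by
  fun_prop

theorem EG.int_prod {W e : ℝ × ℝ → ℝ} (h : EG d W) (he : EG d e) {ν : Measure ℝ} [SFinite ν]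
    (hν : ∀ c : ℝ, Integrable (fun x => exp (c * |x|)) ν) {τ : ℝ} (hτ : τ ∈ Icc 0 d) :
    Integrable (fun q : ℝ × ℝ => e (0, q.1) * W (τ, q.1 + √τ * q.2)) (ν.prod γ1) ∧
      Integrable (fun q : ℝ × ℝ => q.2 * (e (0, q.1) * W (τ, q.1 + √τ * q.2))) (ν.prod γ1) := by
  obtain ⟨B, hB, hb⟩ := h.dom he (hτ.1.trans hτ.2) hν
  have hc := cont_shift h.cont he.cont τ
  exact ⟨hB.mono' hc.aestronglyMeasurable (Eventually.of_forall fun q => (hb τ hτ q).1),
    hB.mono' (continuous_snd.mul hc).aestronglyMeasurable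
      (Eventually.of_forall fun q => (hb τ hτ q).2)⟩

/-- space-time functions with their derivatives -/
structure ST (d : ℝ) (W Wt Wx Wxx : ℝ × ℝ → ℝ) : Prop where
  e0 : EG d W
  et : EG d Wt
  e1 : EG d Wx
  e2 : EG d Wxx
  fd : ∀ p : ℝ × ℝ, p.1 ∈ Ioo 0 d → HasFDerivAt W
    (Wt p • ContinuousLinearMap.fst ℝ ℝ ℝ + Wx p • ContinuousLinearMap.snd ℝ ℝ ℝ) p
  dxx : ∀ p : ℝ × ℝ, p.1 ∈ Ioo 0 d → HasDerivAt (fun x => Wx (p.1, x)) (Wxx p) p.2

theorem ST.curve {W Wt Wx Wxx : ℝ × ℝ → ℝ} (h : ST d W Wt Wx Wxx) {a b : ℝ → ℝ} {a' b' s : ℝ}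
    (ha : HasDerivAt a a' s) (hb : HasDerivAt b b' s) (hs : a s ∈ Ioo 0 d) :
    HasDerivAt (fun s => W (a s, b s)) (Wt (a s, b s) * a' + Wx (a s, b s) * b') s := by
  exact ((h.fd (a s, b s) hs).comp_hasDerivAt s (ha.prodMk hb)).congr_deriv (by simp)

theorem ST.dx {W Wt Wx Wxx : ℝ × ℝ → ℝ} (h : ST d W Wt Wx Wxx) (p : ℝ × ℝ) (hp : p.1 ∈ Ioo 0 d) :
    HasDerivAt (fun x => W (p.1, x)) (Wx p) p.2 := by
  exact (h.curve (hasDerivAt_const p.2 p.1) (hasDerivAt_id' p.2) hp).congr_deriv (by simp)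

theorem ST.mul {a a0 a1 a2 b b0 b1 b2 : ℝ × ℝ → ℝ} (ha : ST d a a0 a1 a2) (hb : ST d b b0 b1 b2) :
    ST d (fun p => a p * b p) (fun p => a p * b0 p + b p * a0 p) (fun p => a p * b1 p + b p * a1 p)
      (fun p => a p * b2 p + 2 * (a1 p * b1 p) + b p * a2 p) := by
  refine ⟨ha.e0.mul hb.e0, (ha.e0.mul hb.et).add (hb.e0.mul ha.et),
    (ha.e0.mul hb.e1).add (hb.e0.mul ha.e1),
    ((ha.e0.mul hb.e2).add ((ha.e1.mul hb.e1).const_mul 2)).add (hb.e0.mul ha.e2),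
    fun p hp => ?_, fun p hp => ?_⟩
  · refine ((ha.fd p hp).mul (hb.fd p hp)).congr_fderiv ?_
    ext <;> simp
  · refine (((ha.dx p hp).mul (hb.dxx p hp)).add ((hb.dx p hp).mul (ha.dxx p hp))).congr_deriv ?_
    simp only [Prod.mk.eta]
    ring

theorem ST.add {a a0 a1 a2 b b0 b1 b2 : ℝ × ℝ → ℝ} (ha : ST d a a0 a1 a2) (hb : ST d b b0 b1 b2) :
    ST d (fun p => a p + b p) (fun p => a0 p + b0 p) (fun p => a1 p + b1 p)
      (fun p => a2 p + b2 p) := by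
  refine ⟨ha.e0.add hb.e0, ha.et.add hb.et, ha.e1.add hb.e1, ha.e2.add hb.e2,
    fun p hp => ?_, fun p hp => (ha.dxx p hp).add (hb.dxx p hp)⟩
  refine ((ha.fd p hp).add (hb.fd p hp)).congr_fderiv ?_
  ext <;> simp

theorem ST.const_mul {a a0 a1 a2 : ℝ × ℝ → ℝ} (k : ℝ) (ha : ST d a a0 a1 a2) :
    ST d (fun p => k * a p) (fun p => k * a0 p) (fun p => k * a1 p) (fun p => k * a2 p) := by
  refine ⟨ha.e0.const_mul k, ha.et.const_mul k, ha.e1.const_mul k, ha.e2.const_mul k,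
    fun p hp => ?_, fun p hp => (ha.dxx p hp).const_mul k⟩
  refine ((ha.fd p hp).const_mul k).congr_fderiv ?_
  ext <;> simp

theorem ST.snd (d : ℝ) : ST d (fun p => p.2) (fun _ => 0) (fun _ => 1) (fun _ => 0) := by
  refine ⟨EG.snd d, EG.const d 0, EG.const d 1, EG.const d 0, fun p _ => ?_,
    fun p _ => hasDerivAt_const _ _⟩
  exact hasFDerivAt_snd.congr_fderiv (by simp)

theorem ST.exp {a a0 a1 a2 : ℝ × ℝ → ℝ} (ha : ST d a a0 a1 a2) (he : EG d fun p => exp (a p)) :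
    ST d (fun p => exp (a p)) (fun p => exp (a p) * a0 p) (fun p => exp (a p) * a1 p)
      (fun p => exp (a p) * (a1 p * a1 p + a2 p)) := by
  refine ⟨he, he.mul ha.et, he.mul ha.e1, he.mul ((ha.e1.mul ha.e1).add ha.e2),
    fun p hp => ?_, fun p hp => ?_⟩
  · refine (ha.fd p hp).exp.congr_fderiv ?_
    ext <;> simp
  · refine ((ha.dx p hp).exp.mul (ha.dxx p hp)).congr_deriv ?_
    simp only [Prod.mk.eta]
    ring

theorem fderiv_of_partial {W : ℝ × ℝ → ℝ} {p : ℝ × ℝ} (h : DifferentiableAt ℝ W p) {a b : ℝ}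
    (ha : HasDerivAt (fun t => W (t, p.2)) a p.1) (hb : HasDerivAt (fun x => W (p.1, x)) b p.2) :
    HasFDerivAt W (a • ContinuousLinearMap.fst ℝ ℝ ℝ + b • ContinuousLinearMap.snd ℝ ℝ ℝ) p := by
  have h0 : HasFDerivAt W (fderiv ℝ W p) (p.1, p.2) := h.hasFDerivAt
  have h1 := (h0.comp_hasDerivAt p.1 ((hasDerivAt_id' p.1).prodMk (hasDerivAt_const p.1 p.2))).unique
    ha
  have h2 := (h0.comp_hasDerivAt p.2 ((hasDerivAt_const p.2 p.1).prodMk (hasDerivAt_id' p.2))).unique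
    hb
  refine h.hasFDerivAt.congr_fderiv ?_
  ext <;> simp [h1, h2]

/-- Itô's formula for one Gaussian step -/
theorem ST.ito {W Wt Wx Wxx e : ℝ × ℝ → ℝ} (h : ST d W Wt Wx Wxx) (he : EG d e) (hd : 0 ≤ d)
    {ν : Measure ℝ} [SFinite ν] (hν : ∀ c : ℝ, Integrable (fun x => Real.exp (c * |x|)) ν) :
    DerOn d (fun τ => ∫ x, ∫ z, e (0, x) * W (τ, x + √τ * z) ∂γ1 ∂ν)
      (fun τ => ∫ x, ∫ z, e (0, x) * (Wt (τ, x + √τ * z) + Wxx (τ, x + √τ * z) / 2) ∂γ1 ∂ν) := by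
  have e1 : ∀ τ ∈ Icc 0 d, ∫ x, ∫ z, e (0, x) * W (τ, x + √τ * z) ∂γ1 ∂ν =
      ∫ q : ℝ × ℝ, e (0, q.1) * W (τ, q.1 + √τ * q.2) ∂ν.prod γ1 := fun τ hτ =>
    (integral_prod _ (h.e0.int_prod he hν hτ).1).symm
  have c0 := h.e0.cont
  have ce := he.cont
  constructor
  · refine ContinuousOn.congr ?_ e1
    obtain ⟨B, hB, hb⟩ := h.e0.dom he hd hν
    refine continuousOn_of_dominated (fun τ _ => (cont_shift c0 ce τ).aestronglyMeasurable)
      (fun τ hτ => Eventually.of_forall fun q => (hb τ hτ q).1) hB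
      (Eventually.of_forall fun q => Continuous.continuousOn ?_)
    fun_prop
  intro τ hτ
  have hτ' : τ ∈ Icc 0 d := Ioo_subset_Icc_self hτ
  have hs : 0 < √τ := sqrt_pos.2 hτ.1
  obtain ⟨Bt, hBt, hbt⟩ := h.et.dom he hd hν
  obtain ⟨Bx, hBx, hbx⟩ := h.e1.dom he hd hν
  have hsub : Ioo (τ / 2) d ⊆ Ioo 0 d := Ioo_subset_Ioo_left (by linarith [hτ.1])
  have key := hasDerivAt_integral_of_dominated_loc_of_deriv_le (μ := ν.prod γ1) (x₀ := τ)
    (s := Ioo (τ / 2) d) (F := fun t q => e (0, q.1) * W (t, q.1 + √t * q.2))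
    (F' := fun t q => e (0, q.1) * Wt (t, q.1 + √t * q.2) +
      1 / (2 * √t) * (q.2 * (e (0, q.1) * Wx (t, q.1 + √t * q.2))))
    (bound := fun q => Bt q + 1 / (2 * √(τ / 2)) * Bx q)
    (Ioo_mem_nhds (by linarith [hτ.1]) hτ.2)
    (Eventually.of_forall fun t => (cont_shift c0 ce t).aestronglyMeasurable)
    (h.e0.int_prod he hν hτ').1
    ((h.et.int_prod he hν hτ').1.add ((h.e1.int_prod he hν hτ').2.const_mul _)).1
    (Eventually.of_forall fun q t ht => by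
      have h1 := (hbt t (Ioo_subset_Icc_self (hsub ht)) q).1
      have h2 := (hbx t (Ioo_subset_Icc_self (hsub ht)) q).2
      have h3 : 0 < √(τ / 2) := sqrt_pos.2 (by linarith [hτ.1])
      have h4 : √(τ / 2) ≤ √t := sqrt_le_sqrt ht.1.le
      have h5 : 1 / (2 * √t) ≤ 1 / (2 * √(τ / 2)) :=
        one_div_le_one_div_of_le (by positivity) (by linarith)
      refine (abs_add_le _ _).trans (add_le_add h1 ?_)
      rw [abs_mul, abs_of_nonneg (by positivity)]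
      exact mul_le_mul h5 h2 (abs_nonneg _) (by positivity))
    (hBt.add (hBx.const_mul _))
    (Eventually.of_forall fun q t ht => by
      have h1 := (h.curve (hasDerivAt_id' t)
        (((hasDerivAt_sqrt (hsub ht).1.ne').mul_const q.2).const_add q.1) (hsub ht)).const_mul
        (e (0, q.1))
      refine h1.congr_deriv ?_
      ring)
  have e2 : ∫ q : ℝ × ℝ, (e (0, q.1) * Wt (τ, q.1 + √τ * q.2) +
      1 / (2 * √τ) * (q.2 * (e (0, q.1) * Wx (τ, q.1 + √τ * q.2)))) ∂ν.prod γ1 =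
      ∫ x, ∫ z, e (0, x) * (Wt (τ, x + √τ * z) + Wxx (τ, x + √τ * z) / 2) ∂γ1 ∂ν := by
    have i1 := (h.et.int_prod he hν hτ').1
    have i2 := (h.e1.int_prod he hν hτ').2
    have i3 := (h.e2.int_prod he hν hτ').1
    have i4 := ((h.et.add (h.e2.div_const 2)).int_prod he hν hτ').1
    have e3 : ∫ q : ℝ × ℝ, q.2 * (e (0, q.1) * Wx (τ, q.1 + √τ * q.2)) ∂ν.prod γ1 =
        √τ * ∫ q : ℝ × ℝ, e (0, q.1) * Wxx (τ, q.1 + √τ * q.2) ∂ν.prod γ1 := by
      rw [integral_prod _ i2, integral_prod _ i3, ← integral_const_mul]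
      refine integral_congr_ae (Eventually.of_forall fun x => ?_)
      have g1 : EG d fun p : ℝ × ℝ => e (0, x) * Wx p := h.e1.const_mul _
      have g2 : EG d fun p : ℝ × ℝ => √τ * (e (0, x) * Wxx p) := (h.e2.const_mul _).const_mul _
      obtain ⟨C, c, hC, hc, hb⟩ := g1.bd
      obtain ⟨C', c', hC', hc', hb'⟩ := g2.bd
      have h1 : ∀ z, |x + √τ * z| ≤ |x| + √τ * |z| := fun z => by
        refine (abs_add_le _ _).trans ?_
        rw [abs_mul, abs_of_pos hs]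
      have h2 : ∀ {K k : ℝ}, 0 ≤ K → K ≤ C + C' → 0 ≤ k → k ≤ c + c' → ∀ z,
          K * Real.exp (k * |x + √τ * z|) ≤
            (C + C') * Real.exp ((c + c') * |x|) * Real.exp ((c + c') * √τ * |z|) := by
        intro K k _ hK hk hk' z
        rw [mul_assoc, ← exp_add, mul_assoc, ← mul_add]
        exact mul_le_mul hK (exp_le_exp.2 (mul_le_mul hk' (h1 z) (abs_nonneg _) (by positivity)))
          (exp_pos _).le (by positivity)
      show ∫ z, z * (e (0, x) * Wx (τ, x + √τ * z)) ∂γ1 =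
        √τ * ∫ z, e (0, x) * Wxx (τ, x + √τ * z) ∂γ1
      rw [← integral_const_mul]
      refine stein (f := fun z => e (0, x) * Wx (τ, x + √τ * z)) (fun z => ?_) ?_
        (C := (C + C') * Real.exp ((c + c') * |x|)) (c := (c + c') * √τ) fun z => ⟨?_, ?_⟩
      · have h3 := ((h.dxx (τ, x + √τ * z) hτ).comp z
          (((hasDerivAt_id' z).const_mul √τ).const_add x)).const_mul (e (0, x))
        refine h3.congr_deriv ?_
        ring
      · have := h.e2.cont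
        fun_prop
      · exact (hb (τ, x + √τ * z) hτ').trans (h2 hC (by linarith) hc (by linarith) z)
      · exact (hb' (τ, x + √τ * z) hτ').trans (h2 hC' (by linarith) hc' (by linarith) z)
    rw [integral_add i1 (i2.const_mul _), integral_const_mul, e3, ← integral_prod _ i4,
      ← mul_assoc, ← integral_const_mul, ← integral_add i1 (i3.const_mul _)]
    refine integral_congr_ae (Eventually.of_forall fun q => ?_)
    have := hs.ne'
    show _ = e (0, q.1) * (Wt (τ, q.1 + √τ * q.2) + Wxx (τ, q.1 + √τ * q.2) / 2)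
    field_simp
  refine (key.2.congr_deriv e2).congr_of_eventuallyEq ?_
  filter_upwards [Ioo_mem_nhds hτ.1 hτ.2] with t ht
  exact e1 t (Ioo_subset_Icc_self ht)

end PIto

end Crest.Agent.R339
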