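import Crest.Agent.R339.PLaw
import Crest.Agent.R339.PItoAux1

/-! # Row 339: time derivatives along the tilted chain -/

set_option autoImplicit false

namespace Crest.Agent.R339

open MeasureTheory ProbabilityTheory Real Set Filter Topology

namespace PIto

/-- the time reversed flow -/
noncomputable def P (m d : ℝ) (φ : ℝ → ℝ) (n : ℕ) (p : ℝ × ℝ) : ℝ := D n (T m (d - p.1) φ) p.2

section flow
variable {m d : ℝ} {φ : ℝ → ℝ} (hm : 0 < m) (hφ : Reg φ)
include hm hφ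

theorem P_cont (n : ℕ) : Continuous (P m d φ n) :=
  (T_cont hm hφ n).comp ((continuous_const.sub continuous_fst).prodMk continuous_snd)

theorem P0_le : ∃ K, ∀ p : ℝ × ℝ, p.1 ∈ Icc 0 d → |P m d φ 0 p| ≤ K + |p.2| := by
  refine ⟨|φ 0| + (√d + m * d / 2 + log 2 / m), fun p hp => ?_⟩
  have h1 := T_sub_le hm hφ (sub_nonneg.2 hp.2) p.2
  have h2 := hφ.abs_le p.2
  have h3 : √(d - p.1) ≤ √d := sqrt_le_sqrt (by linarith [hp.1])
  have h4 : m * (d - p.1) ≤ m * d := mul_le_mul_of_nonneg_left (by linarith [hp.1]) hm.le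
  have h5 := abs_sub_abs_le_abs_sub (T m (d - p.1) φ p.2) (φ p.2)
  rw [P, D, iteratedDeriv_zero]
  linarith

theorem P_EG (n : ℕ) : EG d (P m d φ n) := by
  rcases Nat.eq_zero_or_pos n with rfl | hn
  · obtain ⟨K, hK⟩ := P0_le (d := d) hm hφ
    refine ⟨P_cont hm hφ 0, |K| + 1, 1, by positivity, zero_le_one, fun p hp => ?_⟩
    have h1 := hK p hp
    have h2 := add_one_le_exp |p.2|
    have h3 := le_abs_self K
    have h4 := mul_le_mul_of_nonneg_left (one_le_exp (abs_nonneg p.2)) (abs_nonneg K)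
    rw [one_mul]
    linarith
  · obtain ⟨C, hC⟩ := T_bdd hm hφ n hn
    exact EG.of_bdd (P_cont hm hφ n) fun p => hC _ _

theorem P_ST (n : ℕ) {R : ℝ × ℝ → ℝ} (hR : EG d R) (h : ∀ p : ℝ × ℝ, 0 < d - p.1 →
    HasDerivAt (fun t => D n (T m t φ) p.2) (R p) (d - p.1)) :
    ST d (P m d φ n) (fun p => -R p) (P m d φ (n + 1)) (P m d φ (n + 2)) := by
  have hx : ∀ (k : ℕ) (p : ℝ × ℝ),
      HasDerivAt (fun x => P m d φ k (p.1, x)) (P m d φ (k + 1) p) p.2 := fun k p => by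
    have := (hφ.T hm (d - p.1)).hasDerivAt k p.2
    simp only [P]
    exact this
  refine ⟨P_EG hm hφ n, hR.neg, P_EG hm hφ _, P_EG hm hφ _, fun p hp => ?_,
    fun p _ => hx (n + 1) p⟩
  have h0 : 0 < d - p.1 := sub_pos.2 hp.2
  refine fderiv_of_partial ?_ ?_ (hx n p)
  · have h1 : DifferentiableAt ℝ (fun p : ℝ × ℝ => D n (T m p.1 φ) p.2) (d - p.1, p.2) :=
      ((T_contDiffOn hm hφ n).contDiffAt ((isOpen_Ioi.prod isOpen_univ).mem_nhds
        (mk_mem_prod h0 (mem_univ _)))).differentiableAt (by simp)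
    have h2 : DifferentiableAt ℝ (fun p : ℝ × ℝ => (d - p.1, p.2)) p := by fun_prop
    exact h1.comp p h2
  · exact ((h p h0).comp p.1 ((hasDerivAt_id' p.1).const_sub d)).congr_deriv (by ring)

theorem ST0 : ST d (P m d φ 0) (fun p => -(P m d φ 2 p / 2 + m * P m d φ 1 p ^ 2 / 2))
    (P m d φ 1) (P m d φ 2) := by
  refine P_ST hm hφ 0 ?_ fun p hp => ?_
  · simp only [sq]
    exact ((P_EG hm hφ 2).div_const 2).add
      ((((P_EG hm hφ 1).mul (P_EG hm hφ 1)).const_mul m).div_const 2)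
  · simp only [D, iteratedDeriv_zero]
    exact T_pde0 hm hφ hp p.2

theorem ST1 : ST d (P m d φ 1) (fun p => -(P m d φ 3 p / 2 + m * (P m d φ 1 p * P m d φ 2 p)))
    (P m d φ 2) (P m d φ 3) :=
  P_ST hm hφ 1 (((P_EG hm hφ 3).div_const 2).add
    (((P_EG hm hφ 1).mul (P_EG hm hφ 2)).const_mul m)) fun p hp => T_pde1 hm hφ hp p.2

theorem ST2 : ST d (P m d φ 2)
    (fun p => -(P m d φ 4 p / 2 + m * (P m d φ 2 p ^ 2 + P m d φ 1 p * P m d φ 3 p)))
    (P m d φ 3) (P m d φ 4) := by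
  refine P_ST hm hφ 2 ?_ fun p hp => T_pde2 hm hφ hp p.2
  simp only [sq]
  exact ((P_EG hm hφ 4).div_const 2).add
    ((((P_EG hm hφ 2).mul (P_EG hm hφ 2)).add ((P_EG hm hφ 1).mul (P_EG hm hφ 3))).const_mul m)

theorem ST3 : ST d (P m d φ 3)
    (fun p => -(P m d φ 5 p / 2 + m * (3 * P m d φ 2 p * P m d φ 3 p + P m d φ 1 p * P m d φ 4 p)))
    (P m d φ 4) (P m d φ 5) :=
  P_ST hm hφ 3 (((P_EG hm hφ 5).div_const 2).add
    (((((P_EG hm hφ 2).const_mul 3).mul (P_EG hm hφ 3)).add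
      ((P_EG hm hφ 1).mul (P_EG hm hφ 4))).const_mul m)) fun p hp => T_pde3 hm hφ hp p.2

theorem expP_EG : EG d fun p => exp (m * P m d φ 0 p) := by
  obtain ⟨K, hK⟩ := P0_le (d := d) hm hφ
  refine EG.exp_of (K := m * K) (continuous_const.mul (P_cont hm hφ 0)) hm.le fun p hp => ?_
  rw [← mul_add]
  exact mul_le_mul_of_nonneg_left ((le_abs_self _).trans (hK p hp)) hm.le

theorem expN_EG : EG d fun p => exp (-(m * φ p.2)) := by
  refine EG.exp_of (K := m * |φ 0|)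
    (continuous_const.mul (hφ.smooth.continuous.comp continuous_snd)).neg hm.le fun p _ => ?_
  rw [← mul_add, ← mul_neg]
  exact mul_le_mul_of_nonneg_left ((neg_le_abs _).trans (hφ.abs_le _)) hm.le

end flow

theorem DerOn.congr {d : ℝ} {f f' h h' : ℝ → ℝ} (a : DerOn d f f') (e : ∀ τ ∈ Icc 0 d, h τ = f τ)
    (e' : ∀ τ ∈ Ioo 0 d, f' τ = h' τ) : DerOn d h h' := by
  refine ⟨a.1.congr e, fun τ hτ => ((a.2 τ hτ).congr_deriv (e' τ hτ)).congr_of_eventuallyEq ?_⟩
  filter_upwards [Ioo_mem_nhds hτ.1 hτ.2] with t ht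
  exact e t (Ioo_subset_Icc_self ht)

variable {β : ℝ} {L : ℕ} {g : ℕ → ℝ} {l : ℕ}

/-- derivatives of the solution -/
noncomputable abbrev U (β : ℝ) (L : ℕ) (g : ℕ → ℝ) (l n : ℕ) : ℝ × ℝ → ℝ :=
  P (g l) (1 / L) (Phi β L g (l + 1)) n

theorem gen (hβ : 0 < β) (hg : ∀ l, 0 < g l) (hl : l < L) {ψ ψt ψx ψxx : ℝ × ℝ → ℝ}
    (h : ST (1 / L) ψ ψt ψx ψxx) {R : ℝ × ℝ → ℝ} (hR : EG (1 / L) R)
    (e : ∀ p, ψt p + ψxx p / 2 + g l * U β L g l 1 p * ψx p = R p) :
    DerOn (1 / L) (fun τ => ∫ x, ψ (τ, x) ∂law β L g l τ)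
      (fun τ => ∫ x, R (τ, x) ∂law β L g l τ) := by
  obtain ⟨hp, hν⟩ := rho_prob hβ hg hl.le
  have r0 := Phi_reg hβ L hg l
  have r1 := Phi_reg hβ L hg (l + 1)
  have key : ∀ {f : ℝ × ℝ → ℝ}, EG (1 / L) f → ∀ τ ∈ Icc (0 : ℝ) (1 / L),
      ∫ x, f (τ, x) ∂law β L g l τ = ∫ x, ∫ z, exp (-(g l * Phi β L g l x)) *
        (exp (g l * U β L g l 0 (τ, x + √τ * z)) * f (τ, x + √τ * z)) ∂γ1 ∂rho β L g l := by
    intro f hf τ hτ
    obtain ⟨h1, C, c, h2⟩ := hf.slice hτ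
    rw [law, integral_step (Psi_reg hβ L hg l τ) r0 hν h1 h2]
    congr 1
    funext x
    congr 1
    funext z
    rw [← mul_assoc, ← exp_add]
    simp only [U, P, D, iteratedDeriv_zero, Psi]
    congr 2
    ring
  have hV := ((ST0 (d := 1 / L) (hg l) r1).const_mul (g l)).exp (expP_EG (hg l) r1)
  have a := (hV.mul h).ito (expN_EG (hg l) r0) (by positivity) hν
  refine DerOn.congr a (fun τ hτ => key h.e0 τ hτ) fun τ hτ => ?_
  rw [key hR τ (Ioo_subset_Icc_self hτ)]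
  congr 1
  funext x
  congr 1
  funext z
  rw [← e]
  ring

end PIto

open PIto

variable {β : ℝ} {L : ℕ} {g : ℕ → ℝ} {l : ℕ}

section
variable (hβ : 0 < β) (hg : ∀ l, 0 < g l) (hl : l < L)
include hβ hg hl

theorem ito_F0 : DerOn (1 / L) (F0 β L g l) (F1 β L g l) := by
  have r := Phi_reg hβ L hg (l + 1)
  have a := gen hβ hg hl ((ST1 (hg l) r).mul (ST1 (hg l) r))
    ((P_EG (hg l) r 2).mul (P_EG (hg l) r 2)) fun p => by ring
  refine DerOn.congr a (fun τ _ => ?_) fun τ _ => ?_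
  · simp only [F0, sq]
    rfl
  · simp only [F1, sq]
    rfl

theorem ito_F1 : DerOn (1 / L) (F1 β L g l) (F2 β L g l) := by
  have r := Phi_reg hβ L hg (l + 1)
  have e := fun n => P_EG (d := 1 / L) (hg l) r n
  have a := gen hβ hg hl ((ST2 (hg l) r).mul (ST2 (hg l) r))
    (((e 3).mul (e 3)).add ((((e 2).mul (e 2)).mul (e 2)).const_mul (-(2 * g l)))) fun p => by ring
  refine DerOn.congr a (fun τ _ => ?_) fun τ _ => ?_
  · simp only [F1, sq]
    rfl
  · rw [F2]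
    congr 1
    funext x
    simp only [P, Psi]
    ring

theorem ito_F2 : DerOn (1 / L) (F2 β L g l) (F3 β L g l) := by
  have r := Phi_reg hβ L hg (l + 1)
  have e := fun n => P_EG (d := 1 / L) (hg l) r n
  have a := gen hβ hg hl (((ST3 (hg l) r).mul (ST3 (hg l) r)).add
    ((((ST2 (hg l) r).mul (ST2 (hg l) r)).mul (ST2 (hg l) r)).const_mul (-(2 * g l))))
    ((((e 4).mul (e 4)).add (((e 2).mul ((e 3).mul (e 3))).const_mul (-(12 * g l)))).add
      ((((e 2).mul (e 2)).mul ((e 2).mul (e 2))).const_mul (6 * g l ^ 2))) fun p => by ring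
  refine DerOn.congr a (fun τ _ => ?_) fun τ _ => ?_
  · rw [F2]
    congr 1
    funext x
    simp only [P, Psi]
    ring
  · rw [F3]
    congr 1
    funext x
    simp only [P, Psi, QQ]
    ring

theorem ito_EA : DerOn (1 / L) (EA β L g l) fun τ => g l * F0 β L g l τ / 2 := by
  have r := Phi_reg hβ L hg (l + 1)
  have e := fun n => P_EG (d := 1 / L) (hg l) r n
  have a := gen hβ hg hl (ST0 (hg l) r) (((e 1).mul (e 1)).const_mul (g l / 2)) fun p => by ring
  refine DerOn.congr a (fun τ _ => ?_) fun τ _ => ?_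
  · simp only [EA, P, D, iteratedDeriv_zero, Psi]
  · rw [integral_const_mul, F0, div_mul_eq_mul_div]
    simp only [sq]
    rfl

theorem ito_EB : DerOn (1 / L) (EB β L g l) fun τ => g l * F0 β L g l τ + EW β L g l τ := by
  have r := Phi_reg hβ L hg (l + 1)
  have e := fun n => P_EG (d := 1 / L) (hg l) r n
  have a := gen hβ hg hl ((ST.snd _).mul (ST1 (hg l) r))
    ((((e 1).mul (e 1)).const_mul (g l)).add (e 2)) fun p => by ring
  refine DerOn.congr a (fun τ _ => rfl) fun τ hτ => ?_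
  have hτ' := Ioo_subset_Icc_self hτ
  have hν := (law_prob hβ hg hl hτ').2
  rw [integral_add ((((e 1).mul (e 1)).const_mul (g l)).integrable hτ' hν) ((e 2).integrable hτ' hν),
    integral_const_mul, F0]
  simp only [sq]
  rfl

theorem ito_EW : DerOn (1 / L) (EW β L g l) fun τ => -(g l * F1 β L g l τ) := by
  have r := Phi_reg hβ L hg (l + 1)
  have e := fun n => P_EG (d := 1 / L) (hg l) r n
  have a := gen hβ hg hl (ST2 (hg l) r) (((e 2).mul (e 2)).const_mul (-g l)) fun p => by ring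
  refine DerOn.congr a (fun τ _ => rfl) fun τ _ => ?_
  rw [integral_const_mul, F1, neg_mul]
  simp only [sq]
  rfl

theorem ito_EM : DerOn (1 / L) (EM β L g l) fun τ => 1 + 2 * g l * EB β L g l τ := by
  have r := Phi_reg hβ L hg (l + 1)
  have e := fun n => P_EG (d := 1 / L) (hg l) r n
  have a := gen hβ hg hl ((ST.snd _).mul (ST.snd _))
    ((EG.const _ 1).add (((EG.snd _).mul (e 1)).const_mul (2 * g l))) fun p => by ring
  refine DerOn.congr a (fun τ _ => ?_) fun τ hτ => ?_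
  · simp only [EM, sq]
  have hτ' := Ioo_subset_Icc_self hτ
  obtain ⟨hp, hν⟩ := law_prob hβ hg hl hτ'
  rw [integral_add (integrable_const _)
    ((((EG.snd _).mul (e 1)).const_mul (2 * g l)).integrable hτ' hν), integral_const_mul]
  simp only [integral_const, probReal_univ, smul_eq_mul, one_mul]
  rfl

end

end Crest.Agent.R339
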