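import Crest.Agent.R339.PIto

/-! # Row 339: the minimiser of the finite-step functional and its first order conditions -/

set_option autoImplicit false

namespace Crest.Agent.R339

open MeasureTheory ProbabilityTheory Real Set Filter Topology

variable {β γ₀ : ℝ} {L : ℕ} {g : ℕ → ℝ}

lemma PKKT_int_exp (c : ℝ) : Integrable (fun z => exp (c * |z|)) γ1 :=
  integrable_exp_mul_abs (X := fun z : ℝ => z) (integrable_exp_mul_gaussianReal c)
    (integrable_exp_mul_gaussianReal (-c))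

lemma PKKT_intw (K c A s : ℝ) : Integrable (fun z => K * exp (c * (A + s * |z|))) γ1 := by
  have h := (PKKT_int_exp (c * s)).const_mul (K * exp (c * A))
  refine h.congr (Eventually.of_forall fun z => ?_)
  simp only [mul_add, exp_add]
  ring_nf

lemma PKKT_lip {φ : ℝ → ℝ} (hφ : Reg φ) (x y : ℝ) : |φ y - φ x| ≤ |y - x| := by
  have hd : ∀ t, HasDerivAt φ (D 1 φ t) t := fun t => by
    have := hφ.hasDerivAt 0 t
    simpa [D, iteratedDeriv_zero] using this
  have := Convex.norm_image_sub_le_of_norm_hasDerivWithin_le (𝕜 := ℝ) (s := univ) (C := 1)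
    (f := φ) (f' := D 1 φ) (x := x) (y := y) (fun t _ => (hd t).hasDerivWithinAt)
    (fun t _ => by simpa using hφ.d1 t) convex_univ (mem_univ _) (mem_univ _)
  simpa using this

lemma PKKT_abs_shift {φ : ℝ → ℝ} (hφ : Reg φ) {C : ℝ} (h0 : |φ 0| ≤ C) (τ x z : ℝ) :
    |φ (x + √τ * z)| ≤ C + |x| + √τ * |z| := by
  have h1 := hφ.abs_le (x + √τ * z)
  have h2 : |x + √τ * z| ≤ |x| + √τ * |z| := by
    have := abs_add_le x (√τ * z)
    rwa [abs_mul, abs_of_nonneg (sqrt_nonneg τ)] at this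
  linarith

lemma PKKT_Tle {m a b τ : ℝ} {φ : ℝ → ℝ} (ha : 0 < a) (ham : a ≤ m) (hmb : m ≤ b) (hτ : 0 ≤ τ)
    (hφ : Reg φ) (x : ℝ) : |T m τ φ x - φ x| ≤ √τ + b * τ / 2 + log 2 / a := by
  have h1 := T_sub_le (ha.trans_le ham) hφ hτ x
  have h2 : m * τ ≤ b * τ := mul_le_mul_of_nonneg_right hmb hτ
  have h3 : log 2 / m ≤ log 2 / a :=
    div_le_div_of_nonneg_left (log_nonneg one_le_two) ha ham
  linarith

/-- `exp (m u) |u| ≤ exp ((b+1) w)`. -/
lemma PKKT_exp_le {m b u w : ℝ} (hm : 0 ≤ m) (hmb : m ≤ b) (hu : |u| ≤ w) :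
    exp (m * u) ≤ exp (b * w) ∧ |u| ≤ exp w ∧ 1 ≤ exp w ∧
      exp (b * w) * exp w = exp ((b + 1) * w) := by
  have hw : 0 ≤ w := (abs_nonneg u).trans hu
  refine ⟨exp_le_exp.2 ?_, ?_, one_le_exp hw, ?_⟩
  · have h1 : m * u ≤ m * w := mul_le_mul_of_nonneg_left ((le_abs_self u).trans hu) hm
    have h2 : m * w ≤ b * w := mul_le_mul_of_nonneg_right hmb hw
    linarith
  · have := add_one_le_exp w
    linarith
  · rw [← exp_add]; ring_nf

/-- Tilted mean of the increment. -/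
noncomputable def PKKT_A (m τ : ℝ) (φ : ℝ → ℝ) (x : ℝ) : ℝ :=
  ∫ z, exp (m * (φ (x + √τ * z) - T m τ φ x)) * (φ (x + √τ * z) - T m τ φ x) ∂γ1

/-- Tilted mean of a function. -/
noncomputable def PKKT_B (m τ : ℝ) (φ f : ℝ → ℝ) (x : ℝ) : ℝ :=
  ∫ z, exp (m * (φ (x + √τ * z) - T m τ φ x)) * f (x + √τ * z) ∂γ1

lemma PKKT_B_meas {m τ : ℝ} {φ f : ℝ → ℝ} (hm : 0 < m) (hφ : Reg φ) (hf : Measurable f) :
    Measurable (PKKT_B m τ φ f) := by
  have h1 : Measurable φ := hφ.smooth.continuous.measurable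
  have h2 : Measurable (T m τ φ) := (hφ.T hm τ).smooth.continuous.measurable
  have h3 : Measurable fun p : ℝ × ℝ =>
      exp (m * (φ (p.1 + √τ * p.2) - T m τ φ p.1)) * f (p.1 + √τ * p.2) := by
    fun_prop
  exact (h3.stronglyMeasurable.integral_prod_right' (ν := γ1)).measurable

lemma PKKT_A_meas {m τ : ℝ} {φ : ℝ → ℝ} (hm : 0 < m) (hφ : Reg φ) :
    Measurable (PKKT_A m τ φ) := by
  have h1 : Measurable φ := hφ.smooth.continuous.measurable
  have h2 : Measurable (T m τ φ) := (hφ.T hm τ).smooth.continuous.measurable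
  have h3 : Measurable fun p : ℝ × ℝ =>
      exp (m * (φ (p.1 + √τ * p.2) - T m τ φ p.1)) * (φ (p.1 + √τ * p.2) - T m τ φ p.1) := by
    fun_prop
  exact (h3.stronglyMeasurable.integral_prod_right' (ν := γ1)).measurable

lemma PKKT_B_le {m τ C : ℝ} {φ f : ℝ → ℝ} (hm : 0 < m) (hφ : Reg φ) (hf : ∀ x, |f x| ≤ C)
    (x : ℝ) : |PKKT_B m τ φ f x| ≤ C := by
  have h1 := T_norm hm hφ τ x
  have h2 : Integrable (fun z => exp (m * (φ (x + √τ * z) - T m τ φ x))) γ1 :=
    Integrable.of_integral_ne_zero (by rw [h1]; exact one_ne_zero)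
  have h3 := norm_integral_le_of_norm_le (μ := γ1)
    (f := fun z => exp (m * (φ (x + √τ * z) - T m τ φ x)) * f (x + √τ * z)) (h2.mul_const C)
    (Eventually.of_forall fun z => by
      rw [Real.norm_eq_abs, abs_mul, abs_of_pos (exp_pos _)]
      exact mul_le_mul_of_nonneg_left (hf _) (exp_pos _).le)
  rw [integral_mul_const, h1, one_mul] at h3
  exact h3

lemma PKKT_A_le {a b τ : ℝ} (ha : 0 < a) (hτ : 0 ≤ τ) : ∃ K, ∀ m φ, a ≤ m → m ≤ b → Reg φ →
    ∀ x, |PKKT_A m τ φ x| ≤ K := by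
  refine ⟨∫ z, 1 * exp ((b + 1) * ((√τ + b * τ / 2 + log 2 / a) + √τ * |z|)) ∂γ1,
    fun m φ ham hmb hφ x => ?_⟩
  rw [← Real.norm_eq_abs]
  refine norm_integral_le_of_norm_le (PKKT_intw _ _ _ _) (Eventually.of_forall fun z => ?_)
  have h1 := PKKT_Tle ha ham hmb hτ hφ x
  have h2 := PKKT_lip hφ x (x + √τ * z)
  rw [add_sub_cancel_left, abs_mul, abs_of_nonneg (sqrt_nonneg τ)] at h2
  have h3 : |φ (x + √τ * z) - T m τ φ x| ≤ (√τ + b * τ / 2 + log 2 / a) + √τ * |z| := by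
    have := abs_sub_le (φ (x + √τ * z)) (φ x) (T m τ φ x)
    rw [abs_sub_comm (φ x)] at this
    linarith
  obtain ⟨e1, e2, -, e4⟩ := PKKT_exp_le (ha.trans_le ham).le hmb h3
  rw [Real.norm_eq_abs, abs_mul, abs_of_pos (exp_pos _), one_mul, ← e4]
  exact mul_le_mul e1 e2 (abs_nonneg _) (exp_pos _).le

lemma PKKT_step {I : Set ℝ} (hI : IsOpen I) {φ ψ : ℝ → ℝ → ℝ} {m0 d a b τ C : ℝ} (ha : 0 < a)
    (hm : ∀ ε ∈ I, a ≤ m0 + ε * d ∧ m0 + ε * d ≤ b)
    (hreg : ∀ ε ∈ I, Reg (φ ε)) (h0 : ∀ ε ∈ I, |φ ε 0| ≤ C)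
    (hder : ∀ ε ∈ I, ∀ x, HasDerivAt (fun e => φ e x) (ψ ε x) ε)
    (hb : ∀ ε ∈ I, ∀ x, |ψ ε x| ≤ C) (hmeas : ∀ ε ∈ I, Measurable (ψ ε)) {ε : ℝ} (hε : ε ∈ I)
    (x : ℝ) : HasDerivAt (fun e => T (m0 + e * d) τ (φ e) x)
      (d / (m0 + ε * d) * PKKT_A (m0 + ε * d) τ (φ ε) x +
        PKKT_B (m0 + ε * d) τ (φ ε) (ψ ε) x) ε := by
  have hC : 0 ≤ C := (abs_nonneg _).trans (h0 ε hε)
  have hcφ : ∀ e ∈ I, Measurable (φ e) := fun e he => (hreg e he).smooth.continuous.measurable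
  have hw : ∀ e ∈ I, ∀ z, |φ e (x + √τ * z)| ≤ C + |x| + √τ * |z| := fun e he z =>
    PKKT_abs_shift (hreg e he) (h0 e he) τ x z
  have hE := fun e he z => PKKT_exp_le (ha.trans_le (hm e he).1).le (hm e he).2 (hw e he z)
  have hmpos : 0 < m0 + ε * d := ha.trans_le (hm ε hε).1
  have hm1 := hcφ ε hε
  have hm2 := hmeas ε hε
  -- integrability
  have iZ : Integrable (fun z => exp ((m0 + ε * d) * φ ε (x + √τ * z))) γ1 := by
    refine (PKKT_intw 1 b (C + |x|) √τ).mono' (Measurable.aestronglyMeasurable (by fun_prop))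
      (Eventually.of_forall fun z => ?_)
    rw [Real.norm_eq_abs, abs_of_pos (exp_pos _), one_mul]
    exact (hE ε hε z).1
  have iP : Integrable (fun z => exp ((m0 + ε * d) * φ ε (x + √τ * z)) * φ ε (x + √τ * z)) γ1 := by
    refine (PKKT_intw 1 (b + 1) (C + |x|) √τ).mono'
      (Measurable.aestronglyMeasurable (by fun_prop)) (Eventually.of_forall fun z => ?_)
    obtain ⟨e1, e2, -, e4⟩ := hE ε hε z
    rw [Real.norm_eq_abs, abs_mul, abs_of_pos (exp_pos _), one_mul, ← e4]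
    exact mul_le_mul e1 e2 (abs_nonneg _) (exp_pos _).le
  have iQ : Integrable (fun z => exp ((m0 + ε * d) * φ ε (x + √τ * z)) * ψ ε (x + √τ * z)) γ1 := by
    refine (iZ.mul_const C).mono' (Measurable.aestronglyMeasurable (by fun_prop))
      (Eventually.of_forall fun z => ?_)
    rw [Real.norm_eq_abs, abs_mul, abs_of_pos (exp_pos _)]
    exact mul_le_mul_of_nonneg_left (hb ε hε _) (exp_pos _).le
  have hZ := (hasDerivAt_integral_of_dominated_loc_of_deriv_le (μ := γ1)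
    (F := fun e z => exp ((m0 + e * d) * φ e (x + √τ * z)))
    (F' := fun e z => exp ((m0 + e * d) * φ e (x + √τ * z)) *
      (d * φ e (x + √τ * z) + (m0 + e * d) * ψ e (x + √τ * z)))
    (bound := fun z => (|d| + b * C) * exp ((b + 1) * ((C + |x|) + √τ * |z|)))
    (hI.mem_nhds hε) ?_ iZ (Measurable.aestronglyMeasurable (by fun_prop)) ?_
    (PKKT_intw _ _ _ _) ?_).2
  · set m := m0 + ε * d with hmdef
    set Z := ∫ z, exp (m * φ ε (x + √τ * z)) ∂γ1 with hZdef
    set P := ∫ z, exp (m * φ ε (x + √τ * z)) * φ ε (x + √τ * z) ∂γ1 with hPdef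
    set Q := ∫ z, exp (m * φ ε (x + √τ * z)) * ψ ε (x + √τ * z) ∂γ1 with hQdef
    have hZpos : 0 < Z := integral_exp_pos iZ
    have hZ' : ∫ z, exp (m * φ ε (x + √τ * z)) *
        (d * φ ε (x + √τ * z) + m * ψ ε (x + √τ * z)) ∂γ1 = d * P + m * Q := by
      rw [hPdef, hQdef, ← integral_const_mul, ← integral_const_mul,
        ← integral_add (iP.const_mul d) (iQ.const_mul m)]
      congr 1; funext z; ring
    have hT : T m τ (φ ε) x = m⁻¹ * log Z := rfl
    have hexp : ∀ u, exp (m * (u - T m τ (φ ε) x)) = exp (m * u) * Z⁻¹ := fun u => by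
      rw [hT, mul_sub, mul_inv_cancel_left₀ hmpos.ne', exp_sub, exp_log hZpos, div_eq_mul_inv]
    have hA : PKKT_A m τ (φ ε) x = P * Z⁻¹ - m⁻¹ * log Z := by
      have : PKKT_A m τ (φ ε) x = ∫ z, (exp (m * φ ε (x + √τ * z)) * φ ε (x + √τ * z) * Z⁻¹ -
          exp (m * φ ε (x + √τ * z)) * (Z⁻¹ * (m⁻¹ * log Z))) ∂γ1 := by
        unfold PKKT_A
        congr 1; funext z; rw [hexp, hT]; ring
      rw [this, integral_sub (iP.mul_const _) (iZ.mul_const _), integral_mul_const,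
        integral_mul_const, ← hZdef, ← hPdef, mul_inv_cancel_left₀ hZpos.ne']
    have hB : PKKT_B m τ (φ ε) (ψ ε) x = Q * Z⁻¹ := by
      rw [hQdef, ← integral_mul_const]
      unfold PKKT_B
      congr 1; funext z; rw [hexp]; ring
    have hmd : HasDerivAt (fun e => m0 + e * d) d ε := by
      simpa using ((hasDerivAt_id ε).mul_const d).const_add m0
    have h := (hmd.inv hmpos.ne').mul (hZ.log hZpos.ne')
    rw [hZ'] at h
    refine HasDerivAt.congr_deriv (f := fun e => T (m0 + e * d) τ (φ e) x) h ?_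
    rw [hA, hB]
    change -d / m ^ 2 * log Z + m⁻¹ * ((d * P + m * Q) / Z) = _
    field_simp
    ring
  · filter_upwards [hI.mem_nhds hε] with e he
    have := hcφ e he
    exact Measurable.aestronglyMeasurable (by fun_prop)
  · refine Eventually.of_forall fun z e he => ?_
    obtain ⟨e1, e2, e3, e4⟩ := hE e he z
    have hme : 0 < m0 + e * d := ha.trans_le (hm e he).1
    have hb0 : 0 ≤ b := hme.le.trans (hm e he).2
    have h1 : |d * φ e (x + √τ * z) + (m0 + e * d) * ψ e (x + √τ * z)| ≤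
        (|d| + b * C) * exp (C + |x| + √τ * |z|) := by
      refine (abs_add_le _ _).trans ?_
      rw [abs_mul, abs_mul, abs_of_pos hme, add_mul |d|]
      refine add_le_add (mul_le_mul_of_nonneg_left e2 (abs_nonneg _)) ?_
      refine (mul_le_mul (hm e he).2 (hb e he _) (abs_nonneg _) hb0).trans ?_
      exact le_mul_of_one_le_right (mul_nonneg hb0 hC) e3
    rw [Real.norm_eq_abs, abs_mul, abs_of_pos (exp_pos _), ← e4]
    refine (mul_le_mul e1 h1 (abs_nonneg _) (exp_pos _).le).trans (le_of_eq ?_)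
    ring
  · refine Eventually.of_forall fun z e he => ?_
    have hmd : HasDerivAt (fun e => m0 + e * d) d e := by
      simpa using ((hasDerivAt_id e).mul_const d).const_add m0
    exact (hmd.mul (hder e he (x + √τ * z))).exp

lemma PKKT_ind {P : ℕ → Prop} (hL : P L) (hstep : ∀ l, l < L → P (l + 1) → P l) :
    ∀ l, l ≤ L → P l := fun _ hl =>
  Nat.decreasingInduction (motive := fun l _ => P l) (fun k hk h => hstep k hk h) hL hl

lemma PKKT_congr {g' : ℕ → ℝ} (h : ∀ l, l < L → g l = g' l) (l : ℕ) (hl : l ≤ L) :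
    Phi β L g l = Phi β L g' l := by
  refine PKKT_ind (P := fun l => Phi β L g l = Phi β L g' l) ?_ (fun l hl ih => ?_) l hl
  · rw [Phi_of_ge β g le_rfl, Phi_of_ge β g' le_rfl]
  · rw [Phi_of_lt β g hl, Phi_of_lt β g' hl, ih, h l hl]

lemma PKKT_Par_congr {g' : ℕ → ℝ} (h : ∀ l, l < L → g l = g' l) : Par β L g = Par β L g' := by
  unfold Par
  rw [PKKT_congr h 0 (Nat.zero_le _)]
  congr 1
  exact Finset.sum_congr rfl fun l hl => by rw [h l (Finset.mem_range.1 hl)]

lemma PKKT_reg_exp {φ : ℝ → ℝ} (hφ : Reg φ) (x : ℝ) : |φ x| ≤ (|φ 0| + 1) * exp (1 * |x|) := by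
  have h1 := hφ.abs_le x
  have h2 := add_one_le_exp |x|
  have h3 : 1 ≤ exp |x| := one_le_exp (abs_nonneg x)
  have h4 := abs_nonneg (φ 0)
  rw [one_mul]
  nlinarith

/-- The integral identity for one step. -/
lemma PKKT_int_step (hβ : 0 < β) (hg : ∀ l, 0 < g l) {l : ℕ} (hl : l < L) (d : ℝ) {f : ℝ → ℝ}
    (hf : Measurable f) {C : ℝ} (hfC : ∀ x, |f x| ≤ C) :
    ∫ x, (d / g l * PKKT_A (g l) (1 / L) (Phi β L g (l + 1)) x +
      PKKT_B (g l) (1 / L) (Phi β L g (l + 1)) f x) ∂rho β L g l =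
      d * ((EA β L g l (1 / L) - EA β L g l 0) / g l) + ∫ x, f x ∂rho β L g (l + 1) := by
  obtain ⟨hprob, hexp⟩ := rho_prob (L := L) hβ hg hl.le
  have hr1 := Phi_reg hβ L hg (l + 1)
  have hr0 := Phi_reg hβ L hg l
  have hτ : (0 : ℝ) ≤ 1 / L := by positivity
  have hT := Phi_of_lt β g hl
  obtain ⟨K, hK⟩ := PKKT_A_le (b := g l) (hg l) hτ
  have iA : Integrable (PKKT_A (g l) (1 / L) (Phi β L g (l + 1))) (rho β L g l) :=
    Integrable.of_bound (PKKT_A_meas (hg l) hr1).aestronglyMeasurable K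
      (Eventually.of_forall fun x => hK _ _ le_rfl le_rfl hr1 x)
  have iB : Integrable (PKKT_B (g l) (1 / L) (Phi β L g (l + 1)) f) (rho β L g l) :=
    Integrable.of_bound (PKKT_B_meas (hg l) hr1 hf).aestronglyMeasurable C
      (Eventually.of_forall fun x => PKKT_B_le (hg l) hr1 hfC x)
  have i0 : Integrable (Phi β L g l) (rho β L g l) :=
    ((hexp 1).const_mul (|Phi β L g l 0| + 1)).mono'
      hr0.smooth.continuous.aestronglyMeasurable (Eventually.of_forall fun x => PKKT_reg_exp hr0 x)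
  have e1 : ∫ x, f x ∂rho β L g (l + 1) =
      ∫ x, PKKT_B (g l) (1 / L) (Phi β L g (l + 1)) f x ∂rho β L g l := by
    rw [rho, integral_step hr1 hr0 hexp hf (C := C) (c := 0) (fun x => by simpa using hfC x)]
    simp only [PKKT_B, ← hT]
  have e2 : EA β L g l 0 = ∫ x, Phi β L g l x ∂rho β L g l := by
    rw [EA, Psi_zero β g hl, law_zero hβ hg hl]
  have e3 : EA β L g l (1 / L) = ∫ x, (PKKT_A (g l) (1 / L) (Phi β L g (l + 1)) x +
      Phi β L g l x) ∂rho β L g l := by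
    rw [EA, Psi_end β L hg, law_end hg, rho, integral_step hr1 hr0 hexp
      hr1.smooth.continuous.measurable (PKKT_reg_exp hr1)]
    congr 1; funext x
    have h1 := T_norm (hg l) hr1 (1 / L) x
    rw [← hT] at h1
    have h2 : Integrable (fun z => exp (g l * (Phi β L g (l + 1) (x + √(1 / L) * z) -
        Phi β L g l x))) γ1 := Integrable.of_integral_ne_zero (by rw [h1]; exact one_ne_zero)
    have hm1 : Measurable (Phi β L g (l + 1)) := hr1.smooth.continuous.measurable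
    have h3 : Integrable (fun z => exp (g l * (Phi β L g (l + 1) (x + √(1 / L) * z) -
        Phi β L g l x)) * (Phi β L g (l + 1) (x + √(1 / L) * z) - Phi β L g l x)) γ1 := by
      refine (PKKT_intw 1 (g l + 1) (|Phi β L g (l + 1) 0| + |x| + |Phi β L g l x|)
        √(1 / L)).mono' (Measurable.aestronglyMeasurable (by fun_prop))
        (Eventually.of_forall fun z => ?_)
      have h4 := PKKT_abs_shift hr1 le_rfl (1 / L) x z
      have h5 : |Phi β L g (l + 1) (x + √(1 / L) * z) - Phi β L g l x| ≤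
          |Phi β L g (l + 1) 0| + |x| + |Phi β L g l x| + √(1 / L) * |z| := by
        have := abs_sub (Phi β L g (l + 1) (x + √(1 / L) * z)) (Phi β L g l x)
        linarith
      obtain ⟨e1, e2, -, e4⟩ := PKKT_exp_le (hg l).le le_rfl h5
      rw [Real.norm_eq_abs, abs_mul, abs_of_pos (exp_pos _), one_mul, ← e4]
      exact mul_le_mul e1 e2 (abs_nonneg _) (exp_pos _).le
    have h6 := integral_add h3 (h2.mul_const (Phi β L g l x))
    rw [integral_mul_const, h1, one_mul] at h6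
    simp only [PKKT_A, ← hT]
    rw [← h6]
    congr 1; funext z; ring
  rw [integral_add (iA.const_mul _) iB, integral_const_mul, e1, e2, e3, integral_add iA i0]
  ring

lemma PKKT_deriv (hβ : 0 < β) (hg : ∀ l, 0 < g l) (d : ℕ → ℝ) (hd : ∀ l, L ≤ l → d l = 0) :
    HasDerivAt (fun ε : ℝ => Phi β L (fun l => g l + ε * d l) 0 0)
      (∑ l ∈ Finset.range L, d l * ((EA β L g l (1 / L) - EA β L g l 0) / g l)) 0 := by
  have hev : ∀ᶠ ε in 𝓝 (0 : ℝ), ∀ l ∈ Finset.range L,
      g l / 2 ≤ g l + ε * d l ∧ g l + ε * d l ≤ 2 * g l := by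
    refine (Finset.range L).eventually_all.2 fun l _ => ?_
    have hc : Tendsto (fun ε : ℝ => g l + ε * d l) (𝓝 0) (𝓝 (g l)) := by
      have : Continuous fun ε : ℝ => g l + ε * d l := by fun_prop
      simpa using this.tendsto 0
    exact (hc.eventually_const_le (by linarith [hg l])).and
      (hc.eventually_le_const (by linarith [hg l]))
  obtain ⟨I, hIp, hI, hI0⟩ := eventually_nhds_iff.1 hev
  have hpos : ∀ ε ∈ I, ∀ l, 0 < g l + ε * d l := fun ε hε l => by
    rcases lt_or_ge l L with h | h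
    · linarith [(hIp ε hε l (Finset.mem_range.2 h)).1, hg l]
    · rw [hd l h]; simpa using hg l
  have hτ : (0 : ℝ) ≤ 1 / L := by positivity
  have hG0 : (fun l => g l + (0 : ℝ) * d l) = g := by funext l; simp
  have key := PKKT_ind (L := L) (P := fun l => ∃ (ψ : ℝ → ℝ → ℝ) (C : ℝ),
    (∀ ε ∈ I, |Phi β L (fun l => g l + ε * d l) l 0| ≤ C) ∧
    (∀ ε ∈ I, ∀ x, HasDerivAt (fun e => Phi β L (fun l => g l + e * d l) l x) (ψ ε x) ε) ∧
    (∀ ε ∈ I, ∀ x, |ψ ε x| ≤ C) ∧ (∀ ε ∈ I, Measurable (ψ ε)) ∧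
    ∫ x, ψ 0 x ∂rho β L g l =
      ∑ k ∈ Finset.Ico l L, d k * ((EA β L g k (1 / L) - EA β L g k 0) / g k)) ?_ ?_ 0
      (Nat.zero_le _)
  · obtain ⟨ψ, C, -, h2, -, -, h5⟩ := key
    rw [rho, integral_dirac, ← Finset.range_eq_Ico] at h5
    rw [← h5]
    exact h2 0 hI0 0
  · refine ⟨fun _ _ => 0, |term β 0|, fun ε _ => ?_, fun ε _ x => ?_, fun ε _ x => by simp,
      fun ε _ => measurable_const, by simp⟩
    · rw [Phi_of_ge β _ le_rfl]
    · simp only [Phi_of_ge β _ le_rfl]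
      exact hasDerivAt_const _ _
  · rintro l hl ⟨ψ, C, h1, h2, h3, h4, h5⟩
    have hreg : ∀ ε ∈ I, Reg (Phi β L (fun l => g l + ε * d l) (l + 1)) := fun ε hε =>
      Phi_reg hβ L (hpos ε hε) (l + 1)
    have ha : 0 < g l / 2 := by linarith [hg l]
    have hm := fun ε hε => hIp ε hε l (Finset.mem_range.2 hl)
    obtain ⟨K, hK⟩ := PKKT_A_le (b := 2 * g l) ha hτ
    refine ⟨fun ε x => d l / (g l + ε * d l) *
        PKKT_A (g l + ε * d l) (1 / L) (Phi β L (fun l => g l + ε * d l) (l + 1)) x +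
        PKKT_B (g l + ε * d l) (1 / L) (Phi β L (fun l => g l + ε * d l) (l + 1)) (ψ ε) x,
      max (C + (√(1 / L) + 2 * g l * (1 / L) / 2 + log 2 / (g l / 2)))
        (|d l| / (g l / 2) * K + C), fun ε hε => ?_, fun ε hε x => ?_, fun ε hε x => ?_,
      fun ε hε => ?_, ?_⟩
    · refine le_max_of_le_left ?_
      rw [Phi_of_lt β _ hl]
      have e1 := PKKT_Tle ha (hm ε hε).1 (hm ε hε).2 hτ (hreg ε hε) 0
      have e2 := h1 ε hε
      have e3 := abs_sub_abs_le_abs_sub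
        (T (g l + ε * d l) (1 / L) (Phi β L (fun l => g l + ε * d l) (l + 1)) 0)
        (Phi β L (fun l => g l + ε * d l) (l + 1) 0)
      linarith
    · simp only [Phi_of_lt β _ hl]
      exact PKKT_step (φ := fun ε => Phi β L (fun l => g l + ε * d l) (l + 1)) hI ha hm hreg h1
        h2 h3 h4 hε x
    · refine le_max_of_le_right ((abs_add_le _ _).trans (add_le_add ?_
        (PKKT_B_le (hpos ε hε l) (hreg ε hε) (h3 ε hε) x)))
      rw [abs_mul, abs_div, abs_of_pos (hpos ε hε l)]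
      exact mul_le_mul (div_le_div_of_nonneg_left (abs_nonneg _) ha (hm ε hε).1)
        (hK _ _ (hm ε hε).1 (hm ε hε).2 (hreg ε hε) x) (abs_nonneg _) (by positivity)
    · exact ((PKKT_A_meas (hpos ε hε l) (hreg ε hε)).const_mul _).add
        (PKKT_B_meas (hpos ε hε l) (hreg ε hε) (h4 ε hε))
    · simp only [zero_mul, add_zero]
      rw [PKKT_int_step hβ hg hl (d l) (h4 0 hI0) (h3 0 hI0), h5,
        Finset.sum_eq_sum_Ico_succ_bot hl]

theorem hasDerivAt_Phi0 (hβ : 0 < β) (hg : ∀ l, 0 < g l) (d : ℕ → ℝ) :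
    HasDerivAt (fun ε : ℝ => Phi β L (fun l => g l + ε * d l) 0 0)
      (∑ l ∈ Finset.range L, d l * ((EA β L g l (1 / L) - EA β L g l 0) / g l)) 0 := by
  have h := PKKT_deriv (L := L) hβ hg (fun l => if l < L then d l else 0)
    (fun l hl => by simp [not_lt.2 hl])
  have e1 : (fun ε : ℝ => Phi β L (fun l => g l + ε * d l) 0 0) =
      fun ε : ℝ => Phi β L (fun l => g l + ε * (if l < L then d l else 0)) 0 0 := by
    funext ε
    rw [PKKT_congr (g' := fun l => g l + ε * (if l < L then d l else 0))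
      (fun l hl => by simp [hl]) 0 (Nat.zero_le _)]
  rw [e1]
  refine h.congr_deriv (Finset.sum_congr rfl fun l hl => ?_)
  simp [Finset.mem_range.1 hl]

lemma PKKT_cont (hγ : 0 < γ₀) (hβ : γ₀ ≤ β) (L : ℕ) :
    ContinuousOn (fun g => Phi β L g 0 0) {g | Adm β γ₀ g} := by
  have hβ0 : 0 < β := hγ.trans_le hβ
  have hτ : (0 : ℝ) ≤ 1 / L := by positivity
  have hpos : ∀ g, Adm β γ₀ g → ∀ l, 0 < g l := fun g hg l => hγ.trans_le (hg.lo l)
  have key := PKKT_ind (L := L) (P := fun l => (∃ C, ∀ g, Adm β γ₀ g → |Phi β L g l 0| ≤ C) ∧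
    ∀ x, ContinuousOn (fun g => Phi β L g l x) {g | Adm β γ₀ g}) ?_ ?_ 0 (Nat.zero_le _)
  · exact key.2 0
  · simp only [Phi_of_ge β _ le_rfl]
    exact ⟨⟨_, fun _ _ => le_rfl⟩, fun x => continuousOn_const⟩
  · rintro l hl ⟨⟨C, hC⟩, ih⟩
    have hreg : ∀ g, Adm β γ₀ g → Reg (Phi β L g (l + 1)) := fun g hg =>
      Phi_reg hβ0 L (hpos g hg) (l + 1)
    refine ⟨⟨C + (√(1 / L) + β * (1 / L) / 2 + log 2 / γ₀), fun g hg => ?_⟩, fun x => ?_⟩
    · rw [Phi_of_lt β _ hl]
      have e1 := PKKT_Tle hγ (hg.lo l) (hg.hi l) hτ (hreg g hg) 0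
      have e2 := hC g hg
      have e3 := abs_sub_abs_le_abs_sub (T (g l) (1 / L) (Phi β L g (l + 1)) 0)
        (Phi β L g (l + 1) 0)
      linarith
    · simp only [Phi_of_lt β _ hl, T]
      have hmeas : ∀ g, Adm β γ₀ g → AEStronglyMeasurable
          (fun z => exp (g l * Phi β L g (l + 1) (x + √(1 / L) * z))) γ1 := fun g hg => by
        have := (hreg g hg).smooth.continuous.measurable
        exact Measurable.aestronglyMeasurable (by fun_prop)
      have hbd : ∀ g, Adm β γ₀ g → ∀ᵐ z ∂γ1,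
          ‖exp (g l * Phi β L g (l + 1) (x + √(1 / L) * z))‖ ≤
            1 * exp (β * (C + |x| + √(1 / L) * |z|)) := fun g hg =>
        Eventually.of_forall fun z => by
          rw [Real.norm_eq_abs, abs_of_pos (exp_pos _), one_mul]
          exact (PKKT_exp_le (hpos g hg l).le (hg.hi l)
            (PKKT_abs_shift (hreg g hg) (hC g hg) (1 / L) x z)).1
      have hcl : ContinuousOn (fun g : ℕ → ℝ => g l) {g | Adm β γ₀ g} :=
        (continuous_apply l).continuousOn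
      refine (hcl.inv₀ fun g hg => (hpos g hg l).ne').mul (ContinuousOn.log ?_ fun g hg => ?_)
      · exact continuousOn_of_dominated hmeas hbd (PKKT_intw _ _ _ _)
          (Eventually.of_forall fun z => (hcl.mul (ih _)).rexp)
      · exact (integral_exp_pos ((PKKT_intw _ _ _ _).mono' (hmeas g hg) (hbd g hg))).ne'

theorem exists_min (hγ : 0 < γ₀) (hβ : γ₀ ≤ β) (L : ℕ) :
    ∃ g, Adm β γ₀ g ∧ ∀ g', Adm β γ₀ g' → Par β L g ≤ Par β L g' := by
  have hS : {g | Adm β γ₀ g} = Icc (fun _ => γ₀) (fun _ => β) ∩ {g : ℕ → ℝ | Monotone g} := by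
    ext g
    exact ⟨fun h => ⟨⟨h.lo, h.hi⟩, h.mono⟩, fun h => ⟨h.1.1, h.1.2, h.2⟩⟩
  have hK : IsCompact {g | Adm β γ₀ g} := by
    rw [hS]
    exact isCompact_Icc.inter_right isClosed_monotone
  have hne : {g | Adm β γ₀ g}.Nonempty :=
    ⟨fun _ => β, fun _ => hβ, fun _ => le_rfl, monotone_const⟩
  have hc : ContinuousOn (Par β L) {g | Adm β γ₀ g} := by
    refine (PKKT_cont hγ hβ L).sub (Continuous.continuousOn ?_)
    fun_prop
  obtain ⟨g, hg, hmin⟩ := hK.exists_isMinOn hne hc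
  exact ⟨g, hg, fun g' hg' => hmin hg'⟩

lemma PKKT_coef (hβ : 0 < β) (hg : ∀ l, 0 < g l) {l : ℕ} (hl : l < L) :
    (EA β L g l (1 / L) - EA β L g l 0) / g l - (2 * l + 1) / (4 * (L : ℝ) ^ 2) =
      (∫ τ in (0 : ℝ)..(1 / L), ff β L g l τ) / 2 := by
  have hτ : (0 : ℝ) ≤ 1 / L := by positivity
  have hL : (0 : ℝ) < L := by exact_mod_cast (Nat.zero_le l).trans_lt hl
  have iF : IntervalIntegrable (F0 β L g l) volume 0 (1 / L) :=
    (ito_F0 hβ hg hl).1.intervalIntegrable_of_Icc hτ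
  have h1 := intervalIntegral.integral_eq_sub_of_hasDerivAt_of_le hτ (ito_EA hβ hg hl).1
    (ito_EA hβ hg hl).2 ((iF.const_mul (g l)).div_const 2)
  rw [intervalIntegral.integral_div, intervalIntegral.integral_const_mul] at h1
  have h2 : ∫ τ in (0 : ℝ)..(1 / L), ((l : ℝ) / L + τ) = (2 * l + 1) / (2 * (L : ℝ) ^ 2) := by
    rw [intervalIntegral.integral_add (by simp) (by simp)]
    simp only [intervalIntegral.integral_const, integral_id, smul_eq_mul]
    field_simp
    ring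
  have h3 : ∫ τ in (0 : ℝ)..(1 / L), ff β L g l τ =
      (∫ τ in (0 : ℝ)..(1 / L), F0 β L g l τ) - (2 * l + 1) / (2 * (L : ℝ) ^ 2) := by
    rw [← h2, ← intervalIntegral.integral_sub iF
      (Continuous.intervalIntegrable (by fun_prop) _ _)]
    rfl
  rw [← h1, h3]
  have := (hg l).ne'
  field_simp
  ring

lemma PKKT_dir (hγ : 0 < γ₀) (hg : Adm β γ₀ g)
    (hmin : ∀ g', Adm β γ₀ g' → Par β L g ≤ Par β L g') (d : ℕ → ℝ) {ε₀ : ℝ} (hε₀ : 0 < ε₀)
    (hd : ∀ ε, 0 < ε → ε < ε₀ → ∃ g', Adm β γ₀ g' ∧ ∀ l, l < L → g' l = g l + ε * d l) :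
    0 ≤ ∑ l ∈ Finset.range L, d l * ∫ τ in (0 : ℝ)..(1 / L), ff β L g l τ := by
  have hpos : ∀ l, 0 < g l := fun l => hγ.trans_le (hg.lo l)
  have hβ : 0 < β := (hpos 0).trans_le (hg.hi 0)
  have h1 := hasDerivAt_Phi0 (L := L) hβ hpos d
  have h2 : HasDerivAt (fun ε : ℝ => ∑ l ∈ Finset.range L,
      (g l + ε * d l) * ((2 * l + 1) / (4 * (L : ℝ) ^ 2)))
      (∑ l ∈ Finset.range L, d l * ((2 * l + 1) / (4 * (L : ℝ) ^ 2))) 0 := by
    refine HasDerivAt.fun_sum fun l _ => HasDerivAt.mul_const ?_ _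
    simpa using ((hasDerivAt_id (0 : ℝ)).mul_const (d l)).const_add (g l)
  have h3 : HasDerivAt (fun ε : ℝ => Par β L fun l => g l + ε * d l)
      ((∑ l ∈ Finset.range L, d l * ∫ τ in (0 : ℝ)..(1 / L), ff β L g l τ) / 2) 0 := by
    refine HasDerivAt.congr_deriv (f := fun ε : ℝ => Par β L fun l => g l + ε * d l)
      (h1.sub h2) ?_
    rw [← Finset.sum_sub_distrib, Finset.sum_div]
    refine Finset.sum_congr rfl fun l hl => ?_
    rw [← mul_sub, PKKT_coef hβ hpos (Finset.mem_range.1 hl), mul_div_assoc]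
  have h4 := ge_of_tendsto (b := 0) h3.tendsto_slope_zero_right (by
    filter_upwards [Ioo_mem_nhdsGT hε₀] with ε hε
    obtain ⟨g', hg', hgg⟩ := hd ε hε.1 hε.2
    have e1 := hmin g' hg'
    rw [PKKT_Par_congr (g := g') (g' := fun l => g l + ε * d l) hgg] at e1
    simp only [zero_add, zero_mul, add_zero, smul_eq_mul]
    exact mul_nonneg (inv_nonneg.2 hε.1.le) (sub_nonneg.2 e1))
  linarith

lemma PKKT_sum_ind (c : ℕ → ℝ) (s : ℝ) {i j : ℕ} (hij : i ≤ j) (hj : j ≤ L) :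
    ∑ l ∈ Finset.range L, (if i ≤ l ∧ l < j then s else 0) * c l =
      s * (∑ l ∈ Finset.Ico i L, c l - ∑ l ∈ Finset.Ico j L, c l) := by
  rw [← Finset.sum_Ico_consecutive c hij hj, add_sub_cancel_right, Finset.mul_sum]
  simp only [ite_mul, zero_mul]
  rw [← Finset.sum_filter]
  refine Finset.sum_congr ?_ fun _ _ => rfl
  ext l
  simp only [Finset.mem_filter, Finset.mem_range, Finset.mem_Ico]
  omega

theorem kkt (hγ : 0 < γ₀) (hL : 1 ≤ L) (hg : Adm β γ₀ g)
    (hmin : ∀ g', Adm β γ₀ g' → Par β L g ≤ Par β L g') {i : ℕ} (hi : Supp β γ₀ L g i) {j : ℕ}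
    (hj : j ≤ L) : GG β L g i ≤ GG β L g j := by
  have hiL : i ≤ L := by rcases hi with h | h | h <;> omega
  rcases lt_trichotomy j i with hji | rfl | hij
  · -- raise `g` on `[j, i)`
    obtain ⟨G, hG, hGg, hGi⟩ : ∃ G, Adm β γ₀ G ∧ (∀ l, l < L → G l = g l) ∧ G (i - 1) < G i := by
      rcases hi with h | h | h
      · omega
      · exact ⟨g, hg, fun _ _ => rfl, h.2.2⟩
      · refine ⟨fun l => if l < L then g l else β, ⟨fun l => ?_, fun l => ?_, fun a b hab => ?_⟩,
          fun l hl => by simp [hl], ?_⟩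
        · split_ifs
          · exact hg.lo l
          · exact (hg.lo l).trans (hg.hi l)
        · split_ifs
          · exact hg.hi l
          · exact le_rfl
        · split_ifs with h1 h2 h2
          · exact hg.mono hab
          · exact hg.hi a
          · omega
          · exact le_rfl
        · have h1 : L - 1 < L := by omega
          simpa [h.1, h1] using h.2
    have h := PKKT_dir hγ hg hmin (fun l => if j ≤ l ∧ l < i then 1 else 0) (sub_pos.2 hGi)
      fun ε h0 h1 => ⟨fun l => G l + ε * (if j ≤ l ∧ l < i then 1 else 0),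
        ⟨fun l => ?_, fun l => ?_, fun a b hab => ?_⟩, fun l hl => by simp only [hGg l hl]⟩
    · rw [PKKT_sum_ind _ 1 hji.le hiL] at h
      unfold GG
      linarith
    · have := hG.lo l
      split_ifs <;> linarith
    · have := hG.hi l
      split_ifs with h2
      · have e1 : G l ≤ G (i - 1) := hG.mono (by omega)
        have e2 := hG.hi i
        linarith
      · linarith
    · have e0 := hG.mono hab
      split_ifs with h2 h3 h3
      · linarith
      · have e1 : G a ≤ G (i - 1) := hG.mono (by omega)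
        have e2 : G i ≤ G b := hG.mono (by omega)
        linarith
      · linarith
      · linarith
  · exact le_rfl
  · -- lower `g` on `[i, j)`
    obtain ⟨u, hu, hu1, hu2⟩ : ∃ u, u < g i ∧ γ₀ ≤ u ∧ ∀ a, a < i → g a ≤ u := by
      rcases hi with h | h | h
      · exact ⟨γ₀, by rw [h.1]; exact h.2, le_rfl, fun a ha => by omega⟩
      · exact ⟨g (i - 1), h.2.2, hg.lo _, fun a ha => hg.mono (by omega)⟩
      · omega
    have h := PKKT_dir hγ hg hmin (fun l => if i ≤ l ∧ l < j then -1 else 0) (sub_pos.2 hu)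
      fun ε h0 h1 => ⟨fun l => g l + ε * (if i ≤ l ∧ l < j then -1 else 0),
        ⟨fun l => ?_, fun l => ?_, fun a b hab => ?_⟩, fun l _ => rfl⟩
    · rw [PKKT_sum_ind _ (-1) hij.le hj] at h
      unfold GG
      linarith
    · have := hg.lo l
      split_ifs with h2
      · have e1 : g i ≤ g l := hg.mono h2.1
        linarith
      · linarith
    · have := hg.hi l
      split_ifs <;> linarith
    · have e0 := hg.mono hab
      split_ifs with h2 h3 h3
      · linarith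
      · linarith
      · have e1 : g a ≤ u := hu2 a (by omega)
        have e2 : g i ≤ g b := hg.mono h3.1
        linarith
      · linarith

end Crest.Agent.R339
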