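import Crest.Agent.R339.PGood
import Crest.Agent.R339.PInv

/-! # Row 339: the law of the tilted chain -/

set_option autoImplicit false

namespace Crest.Agent.R339

open MeasureTheory ProbabilityTheory Real Set Filter Topology

variable {β : ℝ} {L : ℕ} {g : ℕ → ℝ}

theorem PLaw_gexp (c : ℝ) : Integrable (fun z => exp (c * |z|)) γ1 :=
  integrable_exp_mul_abs (X := fun z : ℝ => z) (integrable_exp_mul_gaussianReal c)
    (integrable_exp_mul_gaussianReal (-c))

theorem PLaw_int {m τ : ℝ} {ψ φ : ℝ → ℝ} (hψ : Reg ψ) (hφ : Reg φ) {ν : Measure ℝ}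
    [IsFiniteMeasure ν] (hν : ∀ c : ℝ, Integrable (fun x => exp (c * |x|)) ν) {f : ℝ → ℝ}
    (hf : Measurable f) {C c : ℝ} (hb : ∀ x, |f x| ≤ C * exp (c * |x|)) :
    Integrable (fun p : ℝ × ℝ => exp (m * (ψ (p.1 + √τ * p.2) - φ p.1)) * f (p.1 + √τ * p.2))
      (ν.prod γ1) := by
  have mψ := hψ.smooth.continuous.measurable
  have mφ := hφ.smooth.continuous.measurable
  have hC : 0 ≤ C := by
    have := (abs_nonneg _).trans (hb 0)
    simpa using this
  refine (((hν (2 * |m| + |c|)).mul_prod (PLaw_gexp ((|m| + |c|) * √τ))).const_mul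
    (C * exp (|m| * (|ψ 0| + |φ 0|)))).mono' (Measurable.aestronglyMeasurable (by fun_prop))
    (ae_of_all _ fun p => ?_)
  obtain ⟨x, z⟩ := p
  have h1 : |x + √τ * z| ≤ |x| + √τ * |z| := by
    refine (abs_add_le _ _).trans ?_
    rw [abs_mul, abs_of_nonneg (sqrt_nonneg τ)]
  have h2 := hψ.abs_le (x + √τ * z)
  have h3 := hφ.abs_le x
  have h4 : m * (ψ (x + √τ * z) - φ x) ≤ |m| * (|ψ 0| + |φ 0| + 2 * |x| + √τ * |z|) := by
    refine (le_abs_self _).trans ?_
    rw [abs_mul]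
    exact mul_le_mul_of_nonneg_left ((abs_sub _ _).trans (by linarith)) (abs_nonneg m)
  have h5 : c * |x + √τ * z| ≤ |c| * (|x| + √τ * |z|) :=
    mul_le_mul (le_abs_self c) h1 (abs_nonneg _) (abs_nonneg c)
  simp only [norm_mul, Real.norm_eq_abs, abs_exp]
  calc _ ≤ exp (|m| * (|ψ 0| + |φ 0| + 2 * |x| + √τ * |z|)) * (C * exp (|c| * (|x| + √τ * |z|))) :=
        mul_le_mul (exp_le_exp.2 h4) ((hb _).trans
          (mul_le_mul_of_nonneg_left (exp_le_exp.2 h5) hC)) (abs_nonneg _) (exp_pos _).le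
    _ = _ := by
        rw [mul_left_comm, mul_assoc C, ← exp_add, ← exp_add, ← exp_add]
        congr 2
        ring

theorem PLaw_lint {m τ : ℝ} {ψ φ : ℝ → ℝ} (mψ : Measurable ψ) (mφ : Measurable φ) (ν : Measure ℝ)
    {F : ℝ → ENNReal} (hF : Measurable F) :
    ∫⁻ x, F x ∂step m τ ψ φ ν = ∫⁻ x, ∫⁻ z,
      ENNReal.ofReal (exp (m * (ψ (x + √τ * z) - φ x))) * F (x + √τ * z) ∂γ1 ∂ν := by
  rw [step, lintegral_map hF (by fun_prop),
    lintegral_withDensity_eq_lintegral_mul _ (by fun_prop) (by fun_prop),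
    lintegral_prod _ (Measurable.aemeasurable (by fun_prop))]
  rfl

/-- Integration against one step. -/
theorem integral_step {m τ : ℝ} {ψ φ : ℝ → ℝ} (hψ : Reg ψ) (hφ : Reg φ) {ν : Measure ℝ}
    [IsFiniteMeasure ν] (hν : ∀ c : ℝ, Integrable (fun x => exp (c * |x|)) ν) {f : ℝ → ℝ}
    (hf : Measurable f) {C c : ℝ} (hb : ∀ x, |f x| ≤ C * exp (c * |x|)) :
    ∫ x, f x ∂step m τ ψ φ ν =
      ∫ x, ∫ z, exp (m * (ψ (x + √τ * z) - φ x)) * f (x + √τ * z) ∂γ1 ∂ν := by
  have mψ := hψ.smooth.continuous.measurable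
  have mφ := hφ.smooth.continuous.measurable
  rw [step, integral_map (Measurable.aemeasurable (by fun_prop)) hf.aestronglyMeasurable,
    integral_withDensity_eq_integral_toReal_smul (by fun_prop)
      (ae_of_all _ fun _ => ENNReal.ofReal_lt_top)]
  simp only [ENNReal.toReal_ofReal (exp_pos _).le, smul_eq_mul]
  exact integral_prod _ (PLaw_int hψ hφ hν hf hb)

theorem PLaw_prob {m τ : ℝ} {ψ : ℝ → ℝ} (hm : 0 < m) (hψ : Reg ψ) {ν : Measure ℝ}
    (hν : IsProbabilityMeasure ν ∧ ∀ c : ℝ, Integrable (fun x => exp (c * |x|)) ν) :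
    IsProbabilityMeasure (step m τ ψ (T m τ ψ) ν) ∧
      ∀ c : ℝ, Integrable (fun x => exp (c * |x|)) (step m τ ψ (T m τ ψ) ν) := by
  obtain ⟨hp, hν⟩ := hν
  have hφ := hψ.T hm τ
  have mψ := hψ.smooth.continuous.measurable
  have mφ := hφ.smooth.continuous.measurable
  refine ⟨⟨?_⟩, fun c => ?_⟩
  · rw [← lintegral_one, PLaw_lint mψ mφ ν measurable_const]
    have : ∀ x, ∫⁻ z, ENNReal.ofReal (exp (m * (ψ (x + √τ * z) - T m τ ψ x))) * 1 ∂γ1 = 1 := by
      intro x
      have h1 := T_norm hm hψ τ x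
      simp only [mul_one]
      rw [← ofReal_integral_eq_lintegral_ofReal (.of_integral_ne_zero (h1 ▸ one_ne_zero))
        (ae_of_all _ fun z => (exp_pos _).le), h1, ENNReal.ofReal_one]
    simp only [this, lintegral_one, measure_univ]
  · have h1 := PLaw_int (m := m) (τ := τ) hψ hφ hν (f := fun x => exp (c * |x|)) (by fun_prop)
      (C := 1) (c := c) fun x => by rw [abs_exp, one_mul]
    rw [step, integrable_map_measure (Measurable.aestronglyMeasurable (by fun_prop))
      (Measurable.aemeasurable (by fun_prop)), integrable_withDensity_iff_integrable_smul'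
      (by fun_prop) (ae_of_all _ fun _ => ENNReal.ofReal_lt_top)]
    refine h1.congr (ae_of_all _ fun p => ?_)
    simp only [ENNReal.toReal_ofReal (exp_pos _).le, smul_eq_mul, Function.comp]

theorem PLaw_Phi (hβ : 0 < β) (hg : ∀ l, 0 < g l) {l : ℕ} (hl : l < L) {τ : ℝ}
    (hτ : τ ∈ Icc (0 : ℝ) (1 / L)) : Phi β L g l = T (g l) τ (Psi β L g l τ) := by
  rw [Psi, T_add (hg l) (Phi_reg hβ L hg _) hτ.1 (sub_nonneg.2 hτ.2), add_sub_cancel,
    Phi_of_lt β g hl]

theorem rho_prob (hβ : 0 < β) (hg : ∀ l, 0 < g l) {l : ℕ} (hl : l ≤ L) :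
    IsProbabilityMeasure (rho β L g l) ∧
      ∀ c : ℝ, Integrable (fun x => exp (c * |x|)) (rho β L g l) := by
  induction l with
  | zero =>
    rw [rho]
    exact ⟨inferInstance, fun c => integrable_dirac enorm_lt_top⟩
  | succ l ih =>
    rw [rho, Phi_of_lt β g (Nat.lt_of_succ_le hl)]
    exact PLaw_prob (hg l) (Phi_reg hβ L hg _) (ih (Nat.le_of_succ_le hl))

theorem law_prob (hβ : 0 < β) (hg : ∀ l, 0 < g l) {l : ℕ} (hl : l < L) {τ : ℝ}
    (hτ : τ ∈ Icc (0 : ℝ) (1 / L)) : IsProbabilityMeasure (law β L g l τ) ∧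
      ∀ c : ℝ, Integrable (fun x => exp (c * |x|)) (law β L g l τ) := by
  rw [law, PLaw_Phi hβ hg hl hτ]
  exact PLaw_prob (hg l) (Psi_reg hβ L hg l τ) (rho_prob hβ hg hl.le)

theorem law_zero (hβ : 0 < β) (hg : ∀ l, 0 < g l) {l : ℕ} (hl : l < L) :
    law β L g l 0 = rho β L g l := by
  have mφ := (Phi_reg hβ L hg l).smooth.continuous.measurable
  refine Measure.ext_of_lintegral _ fun F hF => ?_
  rw [law, Psi_zero β g hl, PLaw_lint mφ mφ _ hF]
  simp

theorem law_end (hg : ∀ l, 0 < g l) (l : ℕ) : law β L g l (1 / L) = rho β L g (l + 1) := by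
  rw [law, Psi_end β L hg, rho]

/-- the first step -/
theorem PLaw_first {m τ : ℝ} (hτ : 0 < τ) {ψ φ : ℝ → ℝ} (mψ : Measurable ψ) (mφ : Measurable φ) :
    step m τ ψ φ (Measure.dirac 0) = volume.withDensity fun x => ENNReal.ofReal
      ((√(2 * π * τ))⁻¹ * exp (-(m * φ 0)) * exp (-(x ^ 2 / (2 * τ))) * exp (m * ψ x)) := by
  refine Measure.ext_of_lintegral _ fun F hF => ?_
  have hv : (NNReal.mk (√τ ^ 2) (sq_nonneg _) * 1 : NNReal) ≠ 0 := by
    rw [mul_one, ← NNReal.coe_ne_zero]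
    exact pow_ne_zero 2 (sqrt_pos.2 hτ).ne'
  have h1 := lintegral_map (μ := γ1) (g := fun z => √τ * z)
    (f := fun y => ENNReal.ofReal (exp (m * (ψ y - φ 0))) * F y) (by fun_prop) (by fun_prop)
  rw [PLaw_lint mψ mφ _ hF, lintegral_dirac]
  simp only [zero_add]
  rw [← h1, gaussianReal_map_const_mul, gaussianReal_of_var_ne_zero _ hv,
    lintegral_withDensity_eq_lintegral_mul _ (measurable_gaussianPDF _ _) (by fun_prop),
    lintegral_withDensity_eq_lintegral_mul _ (by fun_prop) hF]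
  refine lintegral_congr fun y => ?_
  simp only [Pi.mul_apply, gaussianPDF]
  rw [← mul_assoc, ← ENNReal.ofReal_mul (gaussianPDFReal_nonneg _ _ _)]
  congr 2
  simp only [gaussianPDFReal, mul_one, NNReal.coe_mk, sq_sqrt hτ.le, mul_zero, sub_zero, neg_div]
  rw [mul_sub, sub_eq_add_neg, exp_add]
  ring

/-- the later steps -/
theorem PLaw_next {m τ : ℝ} {ψ φ h : ℝ → ℝ} (mψ : Measurable ψ) (mφ : Measurable φ) (hh : Good h) :
    step m τ ψ φ (volume.withDensity fun x => ENNReal.ofReal (h x * exp (m * φ x))) =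
      volume.withDensity fun x =>
        ENNReal.ofReal ((∫ z, h (x + √τ * z) ∂γ1) * exp (m * ψ x)) := by
  have ch := hh.smooth.continuous
  have mh := ch.measurable
  have mH : Measurable fun x => ∫ z, h (x + √τ * z) ∂γ1 :=
    (StronglyMeasurable.integral_prod_right (f := fun x z => h (x + √τ * z))
      (Measurable.stronglyMeasurable (by fun_prop))).measurable
  refine Measure.ext_of_lintegral _ fun F hF => ?_
  rw [PLaw_lint mψ mφ _ hF, lintegral_withDensity_eq_lintegral_mul _ (by fun_prop) hF,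
    lintegral_withDensity_eq_lintegral_mul _ (by fun_prop)
      (Measurable.lintegral_prod_right (by fun_prop))]
  have e1 : ∀ x, ENNReal.ofReal (h x * exp (m * φ x)) *
      ∫⁻ z, ENNReal.ofReal (exp (m * (ψ (x + √τ * z) - φ x))) * F (x + √τ * z) ∂γ1 =
      ∫⁻ z, ENNReal.ofReal (h x) * (ENNReal.ofReal (exp (m * ψ (x + √τ * z))) *
        F (x + √τ * z)) ∂γ1 := by
    intro x
    rw [← lintegral_const_mul _ (by fun_prop)]
    refine lintegral_congr fun z => ?_
    rw [← mul_assoc, ← mul_assoc, ← ENNReal.ofReal_mul (mul_nonneg (hh.nonneg x) (exp_pos _).le),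
      ← ENNReal.ofReal_mul (hh.nonneg x), mul_assoc, ← exp_add]
    congr 4
    ring
  have e2 : ∀ z, ∫⁻ x, ENNReal.ofReal (h x) * (ENNReal.ofReal (exp (m * ψ (x + √τ * z))) *
        F (x + √τ * z)) = ∫⁻ y, ENNReal.ofReal (h (y + √τ * -z)) *
        (ENNReal.ofReal (exp (m * ψ y)) * F y) := by
    intro z
    rw [← lintegral_add_right_eq_self _ (√τ * -z)]
    simp only [mul_neg, neg_add_cancel_right]
  have e3 : ∀ y, ∫⁻ z, ENNReal.ofReal (h (y + √τ * -z)) ∂γ1 =
      ENNReal.ofReal (∫ z, h (y + √τ * z) ∂γ1) := by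
    intro y
    obtain ⟨C, hC⟩ := hh.decay 0
    have h1 := lintegral_map (μ := γ1) (g := fun z : ℝ => -z)
      (f := fun z => ENNReal.ofReal (h (y + √τ * z))) (by fun_prop) (by fun_prop)
    rw [← h1, gaussianReal_map_neg, neg_zero, ofReal_integral_eq_lintegral_ofReal
      ((integrable_const C).mono' (Measurable.aestronglyMeasurable (by fun_prop))
        (ae_of_all _ fun z => by simpa using (hC _).1)) (ae_of_all _ fun z => hh.nonneg _)]
  simp only [Pi.mul_apply, e1]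
  rw [lintegral_lintegral_swap (Measurable.aemeasurable (by fun_prop))]
  simp only [e2]
  rw [lintegral_lintegral_swap (Measurable.aemeasurable (by fun_prop))]
  refine lintegral_congr fun y => ?_
  rw [lintegral_mul_const _ (by fun_prop), e3, ← mul_assoc,
    ENNReal.ofReal_mul (integral_nonneg fun z => hh.nonneg _)]

/-- The law has density `h e^{mΦ}` with `h` in the forward class. -/
theorem law_good {γ₀ : ℝ} (hγ : 0 < γ₀) (hg : Adm β γ₀ g) {l : ℕ} (hl : l < L) {τ : ℝ}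
    (hτ : τ ∈ Ioc (0 : ℝ) (1 / L)) : ∃ h, Good h ∧ law β L g l τ =
      volume.withDensity fun x => ENNReal.ofReal (h x * exp (g l * Psi β L g l τ x)) := by
  have hg0 : ∀ l, 0 < g l := fun l => hγ.trans_le (hg.lo l)
  have hβ : 0 < β := (hg0 0).trans_le (hg.hi 0)
  have mΦ : ∀ l, Measurable (Phi β L g l) := fun l =>
    (Phi_reg hβ L hg0 l).smooth.continuous.measurable
  have mΨ : ∀ l τ, Measurable (Psi β L g l τ) := fun l τ =>
    (Psi_reg hβ L hg0 l τ).smooth.continuous.measurable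
  induction l generalizing τ with
  | zero =>
    refine ⟨_, good_gauss hτ.1 (c := (√(2 * π * τ))⁻¹ * exp (-(g 0 * Phi β L g 0 0)))
      (by positivity), ?_⟩
    rw [law, rho, PLaw_first hτ.1 (mΨ _ _) (mΦ _)]
  | succ l ih =>
    obtain ⟨h, hh, e⟩ := ih (Nat.lt_of_succ_lt hl) ⟨hτ.1.trans_le hτ.2, le_rfl⟩
    rw [law_end hg0, Psi_end β L hg0] at e
    have hφ := Phi_reg hβ L hg0 (l + 1)
    have inv := Psi_inv (L := L) hγ hg l le_rfl
    rw [Psi_end β L hg0] at inv
    have h3 : ∀ x, 0 ≤ x → D 3 (Phi β L g (l + 1)) x ≤ 0 := fun x hx => by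
      have h1 := yy_nonneg (hg0 l).le hφ inv.k_nonneg hx
      rw [yy, neg_nonneg, div_le_iff₀ (hφ.pos x), zero_mul] at h1
      exact h1
    have h4 := hh.mul_exp hφ h3 (sub_nonneg.2 (hg.mono (Nat.le_succ l)))
    refine ⟨_, h4.heat hτ.1.le, ?_⟩
    rw [law, e, ← PLaw_next (mΨ _ _) (mΦ (l + 1)) h4]
    congr 3
    funext x
    rw [mul_assoc, ← exp_add]
    congr 3
    ring

end Crest.Agent.R339
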