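import Crest.Agent.R339.PDefs

/-! # Row 339: from the first order conditions and convexity on plateaus to `F' ≈ 1` -/

set_option autoImplicit false

namespace Crest.Agent.R339

open MeasureTheory ProbabilityTheory Real Set Filter Topology

theorem PReal_up {d k : ℝ} {f f' : ℝ → ℝ} (h : DerOn d f f') (hk : ∀ τ ∈ Ioo (0 : ℝ) d, f' τ ≤ k)
    {x y : ℝ} (hx : x ∈ Icc (0 : ℝ) d) (hy : y ∈ Icc (0 : ℝ) d) (hxy : x ≤ y) :
    f y - f x ≤ k * (y - x) := by
  refine (convex_Icc (0 : ℝ) d).image_sub_le_mul_sub_of_deriv_le h.1 ?_ ?_ x hx y hy hxy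
  · rw [interior_Icc]
    exact fun t ht => (h.2 t ht).differentiableAt.differentiableWithinAt
  · rw [interior_Icc]
    intro t ht
    rw [(h.2 t ht).deriv]
    exact hk t ht

theorem PReal_lo {d k : ℝ} {f f' : ℝ → ℝ} (h : DerOn d f f') (hk : ∀ τ ∈ Ioo (0 : ℝ) d, k ≤ f' τ)
    {x y : ℝ} (hx : x ∈ Icc (0 : ℝ) d) (hy : y ∈ Icc (0 : ℝ) d) (hxy : x ≤ y) :
    k * (y - x) ≤ f y - f x := by
  refine (convex_Icc (0 : ℝ) d).mul_sub_le_image_sub_of_le_deriv h.1 ?_ ?_ x hx y hy hxy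
  · rw [interior_Icc]
    exact fun t ht => (h.2 t ht).differentiableAt.differentiableWithinAt
  · rw [interior_Icc]
    intro t ht
    rw [(h.2 t ht).deriv]
    exact hk t ht

theorem PReal_osc {d C : ℝ} {f f' : ℝ → ℝ} (h : DerOn d f f') (hC : 0 ≤ C)
    (hk : ∀ τ ∈ Icc (0 : ℝ) d, |f' τ| ≤ C) {x y : ℝ} (hx : x ∈ Icc (0 : ℝ) d)
    (hy : y ∈ Icc (0 : ℝ) d) : f y ≤ f x + C * d := by
  rcases le_total x y with hxy | hxy
  · have h1 := PReal_up h (k := C) (fun τ hτ => (abs_le.1 (hk τ (Ioo_subset_Icc_self hτ))).2)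
      hx hy hxy
    have h2 : C * (y - x) ≤ C * d := mul_le_mul_of_nonneg_left (by linarith [hx.1, hy.2]) hC
    linarith
  · have h1 := PReal_lo h (k := -C) (fun τ hτ => (abs_le.1 (hk τ (Ioo_subset_Icc_self hτ))).1)
      hy hx hxy
    have h2 : C * (x - y) ≤ C * d := mul_le_mul_of_nonneg_left (by linarith [hy.1, hx.2]) hC
    linarith

theorem PReal_lin (d a k : ℝ) : ∫ τ in (0 : ℝ)..d, (a + k * τ) = a * d + k * d ^ 2 / 2 := by
  have hk : IntervalIntegrable (fun τ : ℝ => k * τ) volume 0 d :=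
    (by fun_prop : Continuous fun τ : ℝ => k * τ).intervalIntegrable _ _
  rw [intervalIntegral.integral_add (by simp) hk,
    intervalIntegral.integral_const_mul, integral_id, intervalIntegral.integral_const]
  simp only [smul_eq_mul]
  ring

theorem PReal_ilo {d a k : ℝ} (hd : 0 ≤ d) {f : ℝ → ℝ} (h : ContinuousOn f (Icc 0 d))
    (hk : ∀ τ ∈ Icc (0 : ℝ) d, a + k * τ ≤ f τ) :
    a * d + k * d ^ 2 / 2 ≤ ∫ τ in (0 : ℝ)..d, f τ := by
  rw [← PReal_lin]
  refine intervalIntegral.integral_mono_on hd ?_ (h.intervalIntegrable_of_Icc hd) hk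
  exact (continuous_const.add (continuous_const.mul continuous_id')).intervalIntegrable _ _

theorem PReal_iup {d a k : ℝ} (hd : 0 ≤ d) {f : ℝ → ℝ} (h : ContinuousOn f (Icc 0 d))
    (hk : ∀ τ ∈ Icc (0 : ℝ) d, f τ ≤ a + k * τ) :
    ∫ τ in (0 : ℝ)..d, f τ ≤ a * d + k * d ^ 2 / 2 := by
  rw [← PReal_lin]
  refine intervalIntegral.integral_mono_on hd (h.intervalIntegrable_of_Icc hd) ?_ hk
  exact (continuous_const.add (continuous_const.mul continuous_id')).intervalIntegrable _ _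

/-- lower bound of the integral over the step to the right of a grid point -/
theorem PReal_right {d C : ℝ} (hd : 0 < d) (hC : 0 ≤ C) {f f' f'' : ℝ → ℝ} (h0 : DerOn d f f')
    (h1 : DerOn d f' f'') (b2 : ∀ τ ∈ Icc (0 : ℝ) d, |f'' τ| ≤ C) :
    f 0 * d + (f' 0 - C * d) * d ^ 2 / 2 ≤ ∫ τ in (0 : ℝ)..d, f τ := by
  have z : (0 : ℝ) ∈ Icc (0 : ℝ) d := ⟨le_rfl, hd.le⟩
  refine PReal_ilo hd.le h0.1 fun τ hτ => ?_
  have h := PReal_lo h0 (k := f' 0 - C * d) (fun t ht => by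
    have := PReal_osc h1 hC b2 (Ioo_subset_Icc_self ht) z
    linarith) z hτ hτ.1
  linarith

/-- upper bound of the integral over the step to the left of a grid point -/
theorem PReal_left {d C : ℝ} (hd : 0 < d) (hC : 0 ≤ C) {f f' f'' : ℝ → ℝ} (h0 : DerOn d f f')
    (h1 : DerOn d f' f'') (b2 : ∀ τ ∈ Icc (0 : ℝ) d, |f'' τ| ≤ C) :
    ∫ τ in (0 : ℝ)..d, f τ ≤ f d * d - (f' d - C * d) * d ^ 2 / 2 := by
  have z : d ∈ Icc (0 : ℝ) d := ⟨hd.le, le_rfl⟩
  have h := PReal_iup (a := f d - (f' d - C * d) * d) (k := f' d - C * d) hd.le h0.1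
    fun τ hτ => by
      have h := PReal_lo h0 (k := f' d - C * d) (fun t ht => by
        have := PReal_osc h1 hC b2 (Ioo_subset_Icc_self ht) z
        linarith) hτ z hτ.2
      linarith
  linarith

theorem PReal_abs {d e : ℝ} (hd : 0 ≤ d) (he : 0 ≤ e) {f f' f'' : ℝ → ℝ} (h0 : DerOn d f f')
    (h1 : DerOn d f' f'') (hk : ∀ τ ∈ Icc (0 : ℝ) d, f' τ ≤ e) :
    ∫ τ in (0 : ℝ)..d, |f' τ| ≤ 2 * e * d - (f d - f 0) := by
  have hi : IntervalIntegrable f' volume 0 d := h1.1.intervalIntegrable_of_Icc hd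
  have e1 := intervalIntegral.integral_eq_sub_of_hasDerivAt_of_le hd h0.1 h0.2 hi
  have e2 : ∫ τ in (0 : ℝ)..d, (2 * e - f' τ) = 2 * e * d - (f d - f 0) := by
    rw [intervalIntegral.integral_sub (by simp) hi, e1, intervalIntegral.integral_const]
    simp only [smul_eq_mul]
    ring
  rw [← e2]
  refine intervalIntegral.integral_mono_on hd hi.abs (IntervalIntegrable.sub (by simp) hi)
    fun τ hτ => ?_
  have := hk τ hτ
  rw [abs_le]
  constructor <;> linarith

theorem real_kkt {L : ℕ} (hL : 1 ≤ L) {β γ₀ C η c : ℝ} {g : ℕ → ℝ} (hg : Adm β γ₀ g) (hγ : γ₀ < β)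
    (hη : 0 ≤ η) (f f' f'' f''' : ℕ → ℝ → ℝ)
    (h0 : ∀ l < L, DerOn (1 / L) (f l) (f' l)) (h1 : ∀ l < L, DerOn (1 / L) (f' l) (f'' l))
    (h2 : ∀ l < L, DerOn (1 / L) (f'' l) (f''' l))
    (h3 : ∀ l < L, ∀ τ ∈ Ioo (0 : ℝ) (1 / L), 0 ≤ f''' l τ)
    (m0 : ∀ l, l + 1 < L → f l (1 / L) = f (l + 1) 0)
    (m1 : ∀ l, l + 1 < L → f' l (1 / L) = f' (l + 1) 0)
    (m2 : ∀ l, l + 1 < L → g l = g (l + 1) → f'' l (1 / L) = f'' (l + 1) 0)
    (b1 : ∀ l < L, ∀ τ ∈ Icc (0 : ℝ) (1 / L), |f' l τ| ≤ C)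
    (b2 : ∀ l < L, ∀ τ ∈ Icc (0 : ℝ) (1 / L), |f'' l τ| ≤ C)
    (hf0 : f 0 0 = 0) (hη0 : g 0 = γ₀ → -η ≤ f'' 0 0) (hend : f (L - 1) (1 / L) ≤ -c)
    (hc : C * (1 / L) < c)
    (hk : ∀ i, Supp β γ₀ L g i → ∀ j ≤ L, ∑ l ∈ Finset.Ico i L, ∫ τ in (0 : ℝ)..(1 / L), f l τ ≤
      ∑ l ∈ Finset.Ico j L, ∫ τ in (0 : ℝ)..(1 / L), f l τ) :
    ∃ j < L, g j = β ∧
      (∀ l < j, ∀ τ ∈ Icc (0 : ℝ) (1 / L), |f l τ| ≤ 10 * (C * (1 / L) + η)) ∧
      |f j 0| ≤ 10 * (C * (1 / L) + η) ∧ f' j 0 ≤ 10 * (C * (1 / L) + η) ∧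
      ∑ l ∈ Finset.range j, ∫ τ in (0 : ℝ)..(1 / L), |f' l τ| ≤ 10 * (C * (1 / L) + η) := by
  classical
  have hL0 : (0 : ℝ) < L := by exact_mod_cast hL
  obtain ⟨d, hdd⟩ : ∃ d : ℝ, d = 1 / L := ⟨_, rfl⟩
  rw [← hdd] at h0 h1 h2 h3 m0 m1 m2 b1 b2 hend hc hk ⊢
  have hd : 0 < d := by rw [hdd]; positivity
  have hLd : (L : ℝ) * d = 1 := by rw [hdd]; field_simp
  have z0 : (0 : ℝ) ∈ Icc (0 : ℝ) d := ⟨le_rfl, hd.le⟩
  have zd : d ∈ Icc (0 : ℝ) d := ⟨hd.le, le_rfl⟩
  have hC : 0 ≤ C := (abs_nonneg _).trans (b1 0 (by omega) 0 z0)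
  have hCd : 0 ≤ C * d := mul_nonneg hC hd.le
  -- the integrals next to a support point
  have hR : ∀ i < L, Supp β γ₀ L g i → ∫ τ in (0 : ℝ)..d, f i τ ≤ 0 := by
    intro i hi hs
    have h := hk i hs (i + 1) (by omega)
    rw [Finset.sum_eq_sum_Ico_succ_bot hi] at h
    linarith
  have hLf : ∀ i < L, Supp β γ₀ L g (i + 1) → 0 ≤ ∫ τ in (0 : ℝ)..d, f i τ := by
    intro i hi hs
    have h := hk (i + 1) hs i (by omega)
    rw [Finset.sum_eq_sum_Ico_succ_bot hi] at h
    linarith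
  have iup : ∀ i < L, ∫ τ in (0 : ℝ)..d, f i τ ≤ (f i d + C * d) * d := by
    intro i hi
    have h := PReal_iup (a := f i d + C * d) (k := 0) hd.le (h0 i hi).1 fun τ hτ => by
      have := PReal_osc (h0 i hi) hC (b1 i hi) zd hτ
      linarith
    linarith
  have ilo : ∀ i < L, (f i 0 - C * d) * d ≤ ∫ τ in (0 : ℝ)..d, f i τ := by
    intro i hi
    have h := PReal_ilo (a := f i 0 - C * d) (k := 0) hd.le (h0 i hi).1 fun τ hτ => by
      have := PReal_osc (h0 i hi) hC (b1 i hi) hτ z0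
      linarith
    linarith
  -- the top value is reached
  have htop : g (L - 1) = β := by
    by_contra hne
    have hs : Supp β γ₀ L g (L - 1 + 1) :=
      Or.inr (Or.inr ⟨by omega, lt_of_le_of_ne (hg.hi _) hne⟩)
    have e1 := hLf (L - 1) (by omega) hs
    have e2 := iup (L - 1) (by omega)
    have e3 : (f (L - 1) d + C * d) * d < 0 := mul_neg_of_neg_of_pos (by linarith) hd
    linarith
  have hex : ∃ l, g l = β := ⟨_, htop⟩
  obtain ⟨j, hj, hjmin⟩ : ∃ j, g j = β ∧ ∀ l < j, g l ≠ β :=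
    ⟨Nat.find hex, Nat.find_spec hex, fun l hl => Nat.find_min hex hl⟩
  have hjL : j < L := by
    by_contra hcon
    exact hjmin (L - 1) (by omega) htop
  -- estimates at support points
  have hS0 : γ₀ < g 0 → f' 0 0 ≤ C * d := by
    intro h
    have e1 := hR 0 (by omega) (Or.inl ⟨rfl, h⟩)
    have e2 := PReal_right hd hC (h0 0 (by omega)) (h1 0 (by omega)) (b2 0 (by omega))
    rw [hf0] at e2
    by_contra hcon
    have : 0 < (f' 0 0 - C * d) * d ^ 2 := mul_pos (by linarith) (by positivity)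
    linarith
  have hS : ∀ i, i + 1 < L → g i < g (i + 1) →
      f' (i + 1) 0 ≤ C * d ∧ -(C * d) ≤ f (i + 1) 0 ∧ f (i + 1) 0 ≤ C * d := by
    intro i hi h
    have hs : Supp β γ₀ L g (i + 1) := Or.inr (Or.inl ⟨by omega, hi, by simpa using h⟩)
    have e1 := hR (i + 1) hi hs
    have e2 := hLf i (by omega) hs
    have e3 := PReal_right hd hC (h0 _ hi) (h1 _ hi) (b2 _ hi)
    have e4 := PReal_left hd hC (h0 i (by omega)) (h1 i (by omega)) (b2 i (by omega))
    have e5 := iup i (by omega)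
    have e6 := ilo (i + 1) hi
    rw [m0 i hi] at e4 e5
    rw [m1 i hi] at e4
    refine ⟨?_, ?_, ?_⟩
    · by_contra hcon
      have : 0 < (f' (i + 1) 0 - C * d) * d ^ 2 := mul_pos (by linarith) (by positivity)
      linarith
    · by_contra hcon
      have : (f (i + 1) 0 + C * d) * d < 0 := mul_neg_of_neg_of_pos (by linarith) hd
      linarith
    · by_contra hcon
      have : 0 < (f (i + 1) 0 - C * d) * d := mul_pos (by linarith) hd
      linarith
  have hJ : f' j 0 ≤ C * d ∧ -(C * d) ≤ f j 0 ∧ f j 0 ≤ C * d := by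
    rcases j with _ | i
    · refine ⟨hS0 (by rw [hj]; exact hγ), ?_, ?_⟩ <;> rw [hf0] <;> linarith
    · exact hS i hjL (by rw [hj]; exact lt_of_le_of_ne (hg.hi _) (hjmin i (by omega)))
  -- monotonicity of `f''` on every step
  have hmono : ∀ l < L, ∀ x ∈ Icc (0 : ℝ) d, ∀ y ∈ Icc (0 : ℝ) d, x ≤ y → f'' l x ≤ f'' l y := by
    intro l hl x hx y hy hxy
    have := PReal_lo (h2 l hl) (k := 0) (h3 l hl) hx hy hxy
    linarith
  have hA : ∀ l < L, f' l 0 ≤ C * d ∨ -η ≤ f'' l 0 := by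
    intro l
    induction l with
    | zero =>
      intro _
      rcases (hg.lo 0).lt_or_eq with h | h
      · exact Or.inl (hS0 h)
      · exact Or.inr (hη0 h.symm)
    | succ i ih =>
      intro hi
      have hi' : i < L := by omega
      rcases (hg.mono (Nat.le_succ i)).lt_or_eq with h | h
      · exact Or.inl (hS i hi h).1
      · by_cases hc2 : -η ≤ f'' (i + 1) 0
        · exact Or.inr hc2
        · left
          rw [← m2 i hi h] at hc2
          have e1 : f' i 0 ≤ C * d := by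
            rcases ih hi' with e | e
            · exact e
            · exact absurd (e.trans (hmono i hi' 0 z0 d zd hd.le)) hc2
          have e2 := PReal_up (h1 i hi') (k := 0) (fun τ hτ => by
            have := hmono i hi' τ (Ioo_subset_Icc_self hτ) d zd hτ.2.le
            linarith) z0 zd hd.le
          rw [← m1 i hi]
          linarith
  have hB : ∀ k l : ℕ, l + k = j → f' l 0 ≤ C * d + η * (k * d) := by
    intro k
    induction k with
    | zero =>
      intro l hl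
      have : l = j := by omega
      rw [this]
      simpa using hJ.1
    | succ k ih =>
      intro l hl
      have hl' : l < L := by omega
      have p1 : 0 ≤ η * ((k + 1 : ℕ) * d) := by positivity
      rcases hA l hl' with e | e
      · linarith
      · have e1 := ih (l + 1) (by omega)
        have e2 := PReal_lo (h1 l hl') (k := -η) (fun τ hτ =>
          e.trans (hmono l hl' 0 z0 τ (Ioo_subset_Icc_self hτ) hτ.1.le)) z0 zd hd.le
        rw [m1 l (by omega)] at e2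
        push_cast
        nlinarith
  have hkd : ∀ k : ℕ, k ≤ j → (k : ℝ) * d ≤ 1 := by
    intro k hk'
    have : (k : ℝ) ≤ L := by exact_mod_cast (by omega : k ≤ L)
    rw [← hLd]
    exact mul_le_mul_of_nonneg_right this hd.le
  obtain ⟨e, he⟩ : ∃ e : ℝ, e = 2 * (C * d) + η := ⟨_, rfl⟩
  have he0 : 0 ≤ e := by rw [he]; positivity
  have hE : ∀ l < j, ∀ τ ∈ Icc (0 : ℝ) d, f' l τ ≤ e := by
    intro l hl τ hτ
    have e1 := hB (j - l) l (by omega)
    have e2 := PReal_osc (h1 l (by omega)) hC (b2 l (by omega)) z0 hτ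
    have e3 : η * ((j - l : ℕ) * d) ≤ η * 1 :=
      mul_le_mul_of_nonneg_left (hkd _ (by omega)) hη
    linarith
  have hstep : ∀ l < j, f (l + 1) 0 ≤ f l 0 + e * d := by
    intro l hl
    have e1 := PReal_up (h0 l (by omega)) (k := e)
      (fun τ hτ => hE l hl τ (Ioo_subset_Icc_self hτ)) z0 zd hd.le
    rw [m0 l (by omega)] at e1
    linarith
  have hup : ∀ l : ℕ, l ≤ j → f l 0 ≤ e * (l * d) := by
    intro l
    induction l with
    | zero => intro _; simp [hf0]
    | succ l ih =>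
      intro hl
      have e1 := ih (by omega)
      have e2 := hstep l (by omega)
      push_cast
      nlinarith
  have hlo : ∀ k l : ℕ, l + k = j → -(C * d) - e * (k * d) ≤ f l 0 := by
    intro k
    induction k with
    | zero =>
      intro l hl
      have : l = j := by omega
      rw [this]
      simpa using hJ.2.1
    | succ k ih =>
      intro l hl
      have e1 := ih (l + 1) (by omega)
      have e2 := hstep l (by omega)
      push_cast
      nlinarith
  have hsum : ∀ n : ℕ, n ≤ j → ∑ l ∈ Finset.range n, ∫ τ in (0 : ℝ)..d, |f' l τ| ≤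
      2 * e * (n * d) - f n 0 := by
    intro n
    induction n with
    | zero => intro _; simp [hf0]
    | succ n ih =>
      intro hn
      have e1 := ih (by omega)
      have e2 := PReal_abs hd.le he0 (h0 n (by omega)) (h1 n (by omega)) (hE n (by omega))
      rw [m0 n (by omega)] at e2
      rw [Finset.sum_range_succ]
      push_cast
      nlinarith
  refine ⟨j, hjL, hj, fun l hl τ hτ => ?_, ?_, by linarith [hJ.1], ?_⟩
  · have e1 := hup l hl.le
    have e2 := hlo (j - l) l (by omega)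
    have e3 : e * (l * d) ≤ e * 1 := mul_le_mul_of_nonneg_left (hkd _ hl.le) he0
    have e4 : e * ((j - l : ℕ) * d) ≤ e * 1 := mul_le_mul_of_nonneg_left (hkd _ (by omega)) he0
    have e5 := PReal_osc (h0 l (by omega)) hC (b1 l (by omega)) z0 hτ
    have e6 := PReal_osc (h0 l (by omega)) hC (b1 l (by omega)) hτ z0
    rw [abs_le]
    constructor <;> linarith
  · rw [abs_le]
    constructor <;> linarith [hJ.2.1, hJ.2.2]
  · have e1 := hsum j le_rfl
    have e3 : e * (j * d) ≤ e * 1 := mul_le_mul_of_nonneg_left (hkd _ le_rfl) he0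
    linarith [hJ.2.1]

end Crest.Agent.R339
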