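import Crest.Agent.R339.PIto
import Crest.Agent.R339.PUnif

/-! # Row 339: value of the functional at a point with `F ≈ s` -/

set_option autoImplicit false

namespace Crest.Agent.R339

open MeasureTheory ProbabilityTheory Real Set Filter Topology

variable {β γ₀ : ℝ} {L : ℕ} {g : ℕ → ℝ}

theorem PVal_int {ν : Measure ℝ} (hν : ∀ c : ℝ, Integrable (fun x => exp (c * |x|)) ν) {f : ℝ → ℝ}
    (hf : Continuous f) (C : ℝ) (h : ∀ x, |f x| ≤ C * (1 + |x| + |x| ^ 2 / 2)) : Integrable f ν := by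
  have hC : 0 ≤ C := by simpa using (abs_nonneg _).trans (h 0)
  refine ((hν 1).const_mul C).mono' hf.aestronglyMeasurable (ae_of_all _ fun x => (h x).trans ?_)
  rw [one_mul]
  exact mul_le_mul_of_nonneg_left (quadratic_le_exp_of_nonneg (abs_nonneg x)) hC

theorem PVal_int_sq {ν : Measure ℝ} (hν : ∀ c : ℝ, Integrable (fun x => exp (c * |x|)) ν) :
    Integrable (fun x : ℝ => x ^ 2) ν :=
  PVal_int hν (by fun_prop) 2 fun x => by
    rw [abs_pow]
    linarith [abs_nonneg x]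

theorem PVal_cont_tanh (β : ℝ) : Continuous fun x => tanh (β * x) := by
  simp only [tanh_eq_sinh_div_cosh]
  exact Continuous.div (by fun_prop) (by fun_prop) fun x => (cosh_pos _).ne'

theorem PVal_int_bdd {ν : Measure ℝ} [IsFiniteMeasure ν] {f : ℝ → ℝ} (hf : Continuous f) (C : ℝ)
    (h : ∀ x, |f x| ≤ C) : Integrable f ν :=
  (integrable_const C).mono' hf.aestronglyMeasurable (ae_of_all _ h)

theorem PVal_int_tanh {ν : Measure ℝ} [IsFiniteMeasure ν] (β : ℝ) :
    Integrable (fun x => tanh (β * x) ^ 2) ν :=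
  PVal_int_bdd ((PVal_cont_tanh β).pow 2) 1 fun x => by
    rw [abs_of_nonneg (sq_nonneg _)]
    exact (tanh_sq_lt_one _).le

theorem PVal_EM_step (hγ : 0 < γ₀) (hg : Adm β γ₀ g) {l : ℕ} (hl : l < L) :
    (∫ x, x ^ 2 ∂rho β L g (l + 1)) + 1 ≤
      ((∫ x, x ^ 2 ∂rho β L g l) + 1) * exp ((β + 1) * (1 / L)) := by
  have g0 : ∀ l, 0 < g l := fun l => hγ.trans_le (hg.lo l)
  have hβ : 0 < β := (g0 0).trans_le (hg.hi 0)
  obtain ⟨hc, hd⟩ := ito_EM hβ g0 hl
  have hδ : (0 : ℝ) ≤ 1 / L := by positivity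
  have hd' : ∀ τ ∈ Ioo (0 : ℝ) (1 / L),
      HasDerivAt (fun τ => (EM β L g l τ + 1) * exp (-((β + 1) * τ)))
        ((1 + 2 * g l * EB β L g l τ) * exp (-((β + 1) * τ)) +
          (EM β L g l τ + 1) * (exp (-((β + 1) * τ)) * -((β + 1) * 1))) τ := fun τ hτ =>
    ((hd τ hτ).add_const 1).mul ((hasDerivAt_id τ).const_mul (β + 1)).neg.exp
  have ha : AntitoneOn (fun τ => (EM β L g l τ + 1) * exp (-((β + 1) * τ))) (Icc 0 (1 / L)) := by
    refine antitoneOn_of_deriv_nonpos (convex_Icc _ _)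
      ((hc.add continuousOn_const).mul (by fun_prop)) ?_ ?_
    · rw [interior_Icc]
      exact fun τ hτ => (hd' τ hτ).differentiableAt.differentiableWithinAt
    · rw [interior_Icc]
      intro τ hτ
      rw [(hd' τ hτ).deriv]
      obtain ⟨_, hν⟩ := law_prob hβ g0 hl (Ioo_subset_Icc_self hτ)
      have h0 : 0 ≤ EM β L g l τ := integral_nonneg fun x => sq_nonneg x
      have h1 : ‖EB β L g l τ‖ ≤ ∫ x, (x ^ 2 + 1) / 2 ∂law β L g l τ := by
        refine norm_integral_le_of_norm_le (((PVal_int_sq hν).add (integrable_const 1)).div_const 2)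
          (ae_of_all _ fun x => ?_)
        have h2 := (Psi_reg hβ L g0 l τ).d1 x
        rw [Real.norm_eq_abs, abs_mul, ← sq_abs x]
        nlinarith [abs_nonneg x, sq_nonneg (|x| - 1)]
      rw [integral_div, integral_add (PVal_int_sq hν) (integrable_const 1), integral_const,
        probReal_univ, one_smul] at h1
      have h2 : 2 * EB β L g l τ ≤ EM β L g l τ + 1 := by
        have h3 := le_abs_self (EB β L g l τ)
        have h4 : |EB β L g l τ| ≤ (EM β L g l τ + 1) / 2 := h1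
        linarith
      have h3 : g l * (2 * EB β L g l τ) ≤ β * (EM β L g l τ + 1) :=
        (mul_le_mul_of_nonneg_left h2 (g0 l).le).trans
          (mul_le_mul_of_nonneg_right (hg.hi l) (by linarith))
      have h4 := mul_le_mul_of_nonneg_right
        (show 1 + 2 * g l * EB β L g l τ ≤ (EM β L g l τ + 1) * (β + 1) by linarith)
        (exp_pos (-((β + 1) * τ))).le
      linarith
  have h := ha (left_mem_Icc.2 hδ) (right_mem_Icc.2 hδ) hδ
  have e0 : EM β L g l 0 = ∫ x, x ^ 2 ∂rho β L g l := by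
    rw [← law_zero hβ g0 hl]
    rfl
  have e1 : EM β L g l (1 / L) = ∫ x, x ^ 2 ∂rho β L g (l + 1) := by
    rw [← law_end g0 l]
    rfl
  simp only [e0, e1, mul_zero, neg_zero, exp_zero, mul_one] at h
  rwa [exp_neg, mul_inv_le_iff₀ (exp_pos _)] at h

theorem PVal_EM (hγ : 0 < γ₀) (hg : Adm β γ₀ g) {l : ℕ} (hl : l ≤ L) :
    (∫ x, x ^ 2 ∂rho β L g l) + 1 ≤ exp ((β + 1) * (l / L)) := by
  induction l with
  | zero =>
    change (∫ x, x ^ 2 ∂Measure.dirac (0 : ℝ)) + 1 ≤ _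
    simp
  | succ l ih =>
    refine (PVal_EM_step hγ hg hl).trans ?_
    rw [Nat.cast_succ, add_div, mul_add, exp_add]
    exact mul_le_mul_of_nonneg_right (ih (Nat.le_of_succ_le hl)) (exp_pos _).le

theorem PVal_tanh (β : ℝ) {M : ℝ} (hM : 0 < M) (x : ℝ) :
    tanh (β * x) ^ 2 ≤ 1 - 1 / cosh (β * √(2 * M)) ^ 2 +
      1 / cosh (β * √(2 * M)) ^ 2 / (2 * M) * x ^ 2 := by
  have hc : 0 < 1 / cosh (β * √(2 * M)) ^ 2 := by
    have := cosh_pos (β * √(2 * M))
    positivity
  rcases le_total |x| √(2 * M) with h | h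
  · have h1 : cosh (β * x) ≤ cosh (β * √(2 * M)) := by
      rw [cosh_le_cosh, abs_mul, abs_mul, abs_of_nonneg (sqrt_nonneg _)]
      exact mul_le_mul_of_nonneg_left h (abs_nonneg _)
    have h2 : tanh (β * x) ^ 2 = 1 - 1 / cosh (β * x) ^ 2 := by
      have h3 := (cosh_pos (β * x)).ne'
      rw [tanh_eq_sinh_div_cosh, div_pow, sinh_sq]
      field_simp
    have h3 : 1 / cosh (β * √(2 * M)) ^ 2 ≤ 1 / cosh (β * x) ^ 2 :=
      one_div_le_one_div_of_le (pow_pos (cosh_pos _) 2) (pow_le_pow_left₀ (cosh_pos _).le h1 2)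
    have h4 : 0 ≤ 1 / cosh (β * √(2 * M)) ^ 2 / (2 * M) * x ^ 2 := by positivity
    linarith
  · have h1 : 2 * M ≤ x ^ 2 := by
      rw [← sq_abs x]
      exact (sqrt_le_left (abs_nonneg x)).1 h
    have h2 := mul_le_mul_of_nonneg_left h1
      (show 0 ≤ 1 / cosh (β * √(2 * M)) ^ 2 / (2 * M) by positivity)
    rw [div_mul_cancel₀ _ (by positivity : 2 * M ≠ 0)] at h2
    linarith [tanh_sq_lt_one (β * x)]

/-- `E tanh²(β X_1)` stays away from one, uniformly. -/
theorem F0_end {β : ℝ} (hβ : 0 < β) : ∃ c, 0 < c ∧ ∀ γ₀, 0 < γ₀ → ∀ (L : ℕ) (g : ℕ → ℝ), 1 ≤ L →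
    Adm β γ₀ g → ff β L g (L - 1) (1 / L) ≤ -c := by
  set M := exp (β + 1) with hM
  have M0 : 0 < M := exp_pos _
  set c := 1 / cosh (β * √(2 * M)) ^ 2 with hc
  have c0 : 0 < c := by
    have := cosh_pos (β * √(2 * M))
    positivity
  refine ⟨c / 2, by positivity, fun γ₀ hγ L g hL hg => ?_⟩
  have g0 : ∀ l, 0 < g l := fun l => hγ.trans_le (hg.lo l)
  have L0 : (L : ℝ) ≠ 0 := by positivity
  obtain ⟨_, hν⟩ := rho_prob hβ g0 (le_refl L)
  have h1 := PVal_EM hγ hg (le_refl L)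
  rw [div_self L0, mul_one] at h1
  have e : F0 β L g (L - 1) (1 / L) = ∫ x, tanh (β * x) ^ 2 ∂rho β L g L := by
    change ∫ x, D 1 (Psi β L g (L - 1) (1 / L)) x ^ 2 ∂law β L g (L - 1) (1 / L) = _
    rw [law_end g0, Psi_end β L g0, Nat.sub_add_cancel hL, Phi_of_ge β g le_rfl]
    simp only [term_D1 hβ]
  have h2 : ∫ x, tanh (β * x) ^ 2 ∂rho β L g L ≤
      ∫ x, (1 - c + c / (2 * M) * x ^ 2) ∂rho β L g L :=
    integral_mono (PVal_int_tanh β) ((integrable_const _).add ((PVal_int_sq hν).const_mul _))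
      (PVal_tanh β M0)
  rw [integral_add (integrable_const _) ((PVal_int_sq hν).const_mul _), integral_const_mul,
    integral_const, probReal_univ, one_smul] at h2
  have h3 : c / (2 * M) * ∫ x, x ^ 2 ∂rho β L g L ≤ c / (2 * M) * M :=
    mul_le_mul_of_nonneg_left (by linarith) (by positivity)
  have h4 : c / (2 * M) * M = c / 2 := by field_simp
  have h5 : ((L - 1 : ℕ) : ℝ) / L + 1 / L = 1 := by
    rw [Nat.cast_sub hL, ← add_div, Nat.cast_one, sub_add_cancel, div_self L0]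
  change F0 β L g (L - 1) (1 / L) - (((L - 1 : ℕ) : ℝ) / L + 1 / L) ≤ _
  linarith

theorem PVal_Phi (hγ : 0 < γ₀) (hg : Adm β γ₀ g) {j : ℕ} (hj : j < L) (hgj : g j = β) :
    Phi β L g j = fun x => term β x + β * (1 - j / L) / 2 := by
  have hβ : 0 < β := (hγ.trans_le (hg.lo 0)).trans_le (hg.hi 0)
  have L0 : (L : ℝ) ≠ 0 := Nat.cast_ne_zero.2 (by omega)
  have h : ∀ k, k ≤ L - j → PhiN β L g k = fun x => term β x + β * (k / L) / 2 := by
    intro k
    induction k with
    | zero =>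
      intro _
      change term β = _
      simp
    | succ k ih =>
      intro hk
      change T (g (L - (k + 1))) (1 / L) (PhiN β L g k) = _
      rw [ih (by omega), le_antisymm (hg.hi _) (hgj ▸ hg.mono (show j ≤ L - (k + 1) by omega)),
        T_term hβ (by positivity)]
      funext x
      push_cast
      ring
  refine (h _ le_rfl).trans ?_
  rw [Nat.cast_sub hj.le, sub_div, div_self L0]

theorem PVal_D1 (hβ : 0 < β) (c x : ℝ) : D 1 (fun x => term β x + c) x = tanh (β * x) := by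
  rw [← term_D1 hβ]
  simp only [D, iteratedDeriv_one, deriv_add_const]

theorem PVal_D2 (hβ : 0 < β) (c x : ℝ) :
    D 2 (fun x => term β x + c) x = β * (1 - tanh (β * x) ^ 2) := by
  rw [← term_D2 hβ]
  have h : D 1 (fun x => term β x + c) = D 1 (term β) :=
    funext fun x => (PVal_D1 hβ c x).trans (term_D1 hβ x).symm
  exact congrFun ((iteratedDeriv_succ.trans (congrArg deriv h)).trans iteratedDeriv_succ.symm) x

/-- `E (Φ - X u)` at a grid point -/
noncomputable def PVal_H (β : ℝ) (L : ℕ) (g : ℕ → ℝ) (l : ℕ) : ℝ :=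
  (∫ x, Phi β L g l x ∂rho β L g l) - ∫ x, x * D 1 (Phi β L g l) x ∂rho β L g l

theorem PVal_H_step (hγ : 0 < γ₀) (hg : Adm β γ₀ g) {l : ℕ} (hl : l < L) {e : ℝ} (he : 0 ≤ e)
    (hf : ∀ τ ∈ Icc (0 : ℝ) (1 / L), |ff β L g l τ| ≤ e) :
    PVal_H β L g l ≤ PVal_H β L g (l + 1) + (∫ τ in (0 : ℝ)..(1 / L), EW β L g l τ) +
      g l * ((2 * l + 1) / (4 * (L : ℝ) ^ 2)) + β * e / 2 * (1 / L) := by
  have g0 : ∀ l, 0 < g l := fun l => hγ.trans_le (hg.lo l)
  have hβ : 0 < β := (g0 0).trans_le (hg.hi 0)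
  have hδ : (0 : ℝ) ≤ 1 / L := by positivity
  have L0 : (L : ℝ) ≠ 0 := Nat.cast_ne_zero.2 (by omega)
  have iF : IntervalIntegrable (F0 β L g l) volume 0 (1 / L) :=
    (ito_F0 hβ g0 hl).1.intervalIntegrable_of_Icc hδ
  have iW : IntervalIntegrable (EW β L g l) volume 0 (1 / L) :=
    (ito_EW hβ g0 hl).1.intervalIntegrable_of_Icc hδ
  have e1 := intervalIntegral.integral_eq_sub_of_hasDerivAt_of_le hδ (ito_EA hβ g0 hl).1
    (ito_EA hβ g0 hl).2 ((iF.const_mul (g l)).div_const 2)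
  have e2 := intervalIntegral.integral_eq_sub_of_hasDerivAt_of_le hδ (ito_EB hβ g0 hl).1
    (ito_EB hβ g0 hl).2 ((iF.const_mul (g l)).add iW)
  rw [intervalIntegral.integral_div, intervalIntegral.integral_const_mul] at e1
  rw [intervalIntegral.integral_add (iF.const_mul (g l)) iW,
    intervalIntegral.integral_const_mul] at e2
  have e3 : PVal_H β L g l = EA β L g l 0 - EB β L g l 0 := by
    rw [PVal_H, ← law_zero hβ g0 hl, ← Psi_zero β g hl]
    rfl
  have e4 : PVal_H β L g (l + 1) = EA β L g l (1 / L) - EB β L g l (1 / L) := by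
    rw [PVal_H, ← law_end g0 l, ← Psi_end β L g0 l]
    rfl
  have h1 : ∫ τ in (0 : ℝ)..(1 / L), F0 β L g l τ ≤ ∫ τ in (0 : ℝ)..(1 / L), (l / L + e + τ) := by
    refine intervalIntegral.integral_mono_on hδ iF (Continuous.intervalIntegrable (by fun_prop) _ _)
      fun τ hτ => ?_
    have h2 : F0 β L g l τ - (l / L + τ) ≤ e := (le_abs_self _).trans (hf τ hτ)
    linarith
  rw [intervalIntegral.integral_add (Continuous.intervalIntegrable (by fun_prop) _ _)
    (Continuous.intervalIntegrable (by fun_prop) _ _), integral_id,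
    intervalIntegral.integral_const, smul_eq_mul] at h1
  have h2 : (1 / L - 0) * (l / L + e) + ((1 / L) ^ 2 - 0 ^ 2) / 2 =
      2 * ((2 * l + 1) / (4 * (L : ℝ) ^ 2)) + e * (1 / L) := by
    field_simp
    ring
  rw [h2] at h1
  have h3 := mul_le_mul_of_nonneg_left h1 (g0 l).le
  have h4 := mul_le_mul_of_nonneg_right (hg.hi l) (mul_nonneg he hδ)
  linarith

theorem PVal_sum (L : ℕ) (j : ℕ) :
    ∑ l ∈ Finset.range j, (2 * ((l : ℕ) : ℝ) + 1) / (4 * (L : ℝ) ^ 2) = ((j : ℝ) / L) ^ 2 / 4 := by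
  induction j with
  | zero => simp
  | succ j ih =>
    rw [Finset.sum_range_succ, ih]
    push_cast
    ring

theorem Par_le (hγ : 0 < γ₀) (hg : Adm β γ₀ g) {j : ℕ} (hj : j < L) (hgj : g j = β) {e : ℝ}
    (he : 0 ≤ e) (hf : ∀ l < j, ∀ τ ∈ Icc (0 : ℝ) (1 / L), |ff β L g l τ| ≤ e) :
    Par β L g ≤ ∑ l ∈ Finset.range j, (∫ τ in (0 : ℝ)..(1 / L), EW β L g l τ) + log 2 / β +
      β * (1 - j / L) ^ 2 / 4 + β * e / 2 := by
  have g0 : ∀ l, 0 < g l := fun l => hγ.trans_le (hg.lo l)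
  have hβ : 0 < β := (g0 0).trans_le (hg.hi 0)
  have L0 : (0 : ℝ) < L := Nat.cast_pos.2 (by omega)
  have h1 : ∀ i, i ≤ j → Phi β L g 0 0 ≤ PVal_H β L g i +
      ∑ l ∈ Finset.range i, (∫ τ in (0 : ℝ)..(1 / L), EW β L g l τ) +
      ∑ l ∈ Finset.range i, g l * ((2 * l + 1) / (4 * (L : ℝ) ^ 2)) + β * e / 2 * (i / L) := by
    intro i
    induction i with
    | zero =>
      intro _
      change _ ≤ (∫ x, Phi β L g 0 x ∂Measure.dirac 0) -
        (∫ x, x * D 1 (Phi β L g 0) x ∂Measure.dirac 0) + _ + _ + _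
      simp
    | succ i ih =>
      intro hi
      have h2 := PVal_H_step hγ hg (show i < L by omega) he (hf i hi)
      have h3 := ih (by omega)
      rw [Finset.sum_range_succ, Finset.sum_range_succ, Nat.cast_succ, add_div (i : ℝ)]
      linarith
  have h2 : PVal_H β L g j ≤ log 2 / β + β * (1 - j / L) / 2 := by
    obtain ⟨_, hν⟩ := rho_prob hβ g0 hj.le
    have i1 : Integrable (term β) (rho β L g j) :=
      PVal_int hν (term_reg hβ).smooth.continuous (|term β 0| + 1) fun x =>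
        ((term_reg hβ).abs_le x).trans (by
          nlinarith [abs_nonneg x, abs_nonneg (term β 0), sq_nonneg |x|,
            mul_nonneg (abs_nonneg (term β 0)) (abs_nonneg x),
            mul_nonneg (abs_nonneg (term β 0)) (sq_nonneg |x|)])
    have i2 : Integrable (fun x => x * tanh (β * x)) (rho β L g j) :=
      PVal_int hν (continuous_id.mul (PVal_cont_tanh β)) 1 fun x => by
        rw [abs_mul]
        nlinarith [abs_nonneg x, abs_tanh_lt_one (β * x), sq_nonneg |x|]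
    have h3 : ∫ x, (term β x - x * tanh (β * x)) ∂rho β L g j ≤ ∫ _, log 2 / β ∂rho β L g j :=
      integral_mono (i1.sub i2) (integrable_const _) (term_sub_le hβ)
    rw [integral_sub i1 i2, integral_const, probReal_univ, one_smul] at h3
    rw [PVal_H, PVal_Phi hγ hg hj hgj]
    simp only [PVal_D1 hβ]
    rw [integral_add i1 (integrable_const _), integral_const, probReal_univ, one_smul]
    linarith
  have h3 : ∑ l ∈ Finset.Ico j L, g l * ((2 * l + 1) / (4 * (L : ℝ) ^ 2)) =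
      β * (1 / 4 - (j / L) ^ 2 / 4) := by
    rw [Finset.sum_congr rfl fun l hl => by
      rw [le_antisymm (hg.hi l) (hgj ▸ hg.mono (Finset.mem_Ico.1 hl).1)], ← Finset.mul_sum,
      Finset.sum_Ico_eq_sub _ hj.le, PVal_sum, PVal_sum, div_self L0.ne', one_pow]
  have h4 : β * e / 2 * (j / L) ≤ β * e / 2 * 1 :=
    mul_le_mul_of_nonneg_left ((div_le_one L0).2 (Nat.cast_le.2 hj.le)) (by positivity)
  have h5 := h1 j le_rfl
  rw [Par, ← Finset.sum_range_add_sum_Ico _ hj.le, h3]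
  linarith

theorem one_sub_q_le (hγ : 0 < γ₀) (hg : Adm β γ₀ g) {j : ℕ} (hj : j < L) (hgj : g j = β) {e : ℝ}
    (h0 : |ff β L g j 0| ≤ e) (h1 : F1 β L g j 0 - 1 ≤ e) :
    1 - (j : ℝ) / L ≤ e + √(1 + e) / β := by
  have g0 : ∀ l, 0 < g l := fun l => hγ.trans_le (hg.lo l)
  have hβ : 0 < β := (g0 0).trans_le (hg.hi 0)
  have he : 0 ≤ e := (abs_nonneg _).trans h0
  obtain ⟨_, -⟩ := rho_prob hβ g0 hj.le
  have e0 : F0 β L g j 0 = ∫ x, tanh (β * x) ^ 2 ∂rho β L g j := by
    change ∫ x, D 1 (Psi β L g j 0) x ^ 2 ∂law β L g j 0 = _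
    rw [law_zero hβ g0 hj, Psi_zero β g hj, PVal_Phi hγ hg hj hgj]
    simp only [PVal_D1 hβ]
  have e1 : F1 β L g j 0 = ∫ x, (β * (1 - tanh (β * x) ^ 2)) ^ 2 ∂rho β L g j := by
    change ∫ x, D 2 (Psi β L g j 0) x ^ 2 ∂law β L g j 0 = _
    rw [law_zero hβ g0 hj, Psi_zero β g hj, PVal_Phi hγ hg hj hgj]
    simp only [PVal_D2 hβ]
  set r := √(1 + e) with hr
  have r0 : 0 < r := sqrt_pos.2 (by linarith)
  have r2 : r ^ 2 = 1 + e := sq_sqrt (by linarith)
  have i1 : Integrable (fun x => (β * (1 - tanh (β * x) ^ 2)) ^ 2) (rho β L g j) :=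
    PVal_int_bdd ((continuous_const.mul (continuous_const.sub ((PVal_cont_tanh β).pow 2))).pow 2)
      (β ^ 2) fun x => by
        have h2 := tanh_sq_lt_one (β * x)
        have h3 := sq_nonneg (tanh (β * x))
        rw [abs_of_nonneg (sq_nonneg _)]
        exact pow_le_pow_left₀ (mul_nonneg hβ.le (by linarith))
          (mul_le_of_le_one_right hβ.le (by linarith)) 2
  have h2 : ∫ x, 2 * r * β * (1 - tanh (β * x) ^ 2) ∂rho β L g j ≤
      ∫ x, ((β * (1 - tanh (β * x) ^ 2)) ^ 2 + r ^ 2) ∂rho β L g j :=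
    integral_mono (((integrable_const 1).sub (PVal_int_tanh β)).const_mul _)
      (i1.add (integrable_const _)) fun x => by
        have := sq_nonneg (β * (1 - tanh (β * x) ^ 2) - r)
        simp only
        linarith
  rw [integral_const_mul, integral_sub (integrable_const 1) (PVal_int_tanh β),
    integral_add i1 (integrable_const _), integral_const, integral_const, probReal_univ, one_smul,
    one_smul, ← e0, ← e1] at h2
  have h3 : 1 - F0 β L g j 0 ≤ r / β := by
    rw [le_div_iff₀ hβ]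
    refine le_of_mul_le_mul_left ?_ (show 0 < 2 * r by positivity)
    linarith
  have h4 : F0 β L g j 0 - (j / L + 0) ≤ e := (le_abs_self _).trans h0
  linarith

end Crest.Agent.R339
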