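import Crest.Agent.R339.PGuerra
import Crest.Agent.R339.PKKT
import Crest.Agent.R339.PReal
import Crest.Agent.R339.PVal
import Crest.Agent.R339.PEuler
import Crest.Agent.R339.PCert

/-! # Row 339: message passing reaches the ground state energy -/

set_option autoImplicit false

namespace Crest.Agent.R339

open MeasureTheory ProbabilityTheory Real Set Filter Topology

open Crest.MathPhysics.SpinGlass

namespace PMain

theorem abs_sub_le {δ M : ℝ} {f f' : ℝ → ℝ} (h : DerOn δ f f')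
    (hM : ∀ τ ∈ Icc (0 : ℝ) δ, |f' τ| ≤ M) {a b : ℝ} (ha : a ∈ Icc (0 : ℝ) δ)
    (hb : b ∈ Icc (0 : ℝ) δ) : |f a - f b| ≤ M * δ := by
  have hM0 : 0 ≤ M := (abs_nonneg _).trans (hM a ha)
  have hδ : 0 ≤ δ := ha.1.trans ha.2
  have key : ∀ a b : ℝ, a ∈ Icc (0 : ℝ) δ → b ∈ Icc (0 : ℝ) δ → a < b → |f b - f a| ≤ M * δ := by
    intro a b ha hb hab
    obtain ⟨c, hc, hc'⟩ := exists_hasDerivAt_eq_slope f f' hab
      (h.1.mono (Icc_subset_Icc ha.1 hb.2))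
      (fun x hx => h.2 x ⟨lt_of_le_of_lt ha.1 hx.1, lt_of_lt_of_le hx.2 hb.2⟩)
    have hba : 0 < b - a := sub_pos.2 hab
    have h1 : f b - f a = f' c * (b - a) := by rw [hc']; field_simp
    rw [h1, abs_mul, abs_of_pos hba]
    exact mul_le_mul (hM c ⟨ha.1.trans hc.1.le, hc.2.le.trans hb.2⟩) (by linarith [ha.1, hb.2])
      hba.le hM0
  rcases lt_trichotomy a b with hab | hab | hab
  · rw [abs_sub_comm]; exact key a b ha hb hab
  · rw [hab, sub_self, abs_zero]; positivity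
  · exact key b a hb ha hab

theorem abs_int_le {μ : Measure ℝ} [IsProbabilityMeasure μ] {f : ℝ → ℝ} {C : ℝ}
    (h : ∀ x, |f x| ≤ C) : |∫ x, f x ∂μ| ≤ C := by
  have := norm_integral_le_of_norm_le_const (μ := μ) (f := f) (C := C)
    (Eventually.of_forall fun x => by simpa using h x)
  simpa using this

theorem le_int {μ : Measure ℝ} [IsProbabilityMeasure μ] {f : ℝ → ℝ} {C c : ℝ} (hf : Continuous f)
    (h : ∀ x, |f x| ≤ C) (hc : ∀ x, c ≤ f x) : c ≤ ∫ x, f x ∂μ := by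
  have hi : Integrable f μ := Integrable.of_bound hf.aestronglyMeasurable C
    (Eventually.of_forall fun x => by simpa using h x)
  have := integral_mono (integrable_const c) hi hc
  simpa using this

theorem contD {φ : ℝ → ℝ} (hφ : Reg φ) (n : ℕ) : Continuous (D n φ) :=
  continuous_iff_continuousAt.2 fun x => (hφ.hasDerivAt n x).continuousAt

section
variable {β γ₀ : ℝ} {L : ℕ} {g : ℕ → ℝ} (hβ : 0 < β) (hγ : 0 < γ₀) (hg : Adm β γ₀ g)
include hβ hγ hg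

theorem gpos (l : ℕ) : 0 < g l := hγ.trans_le (hg.lo l)

theorem F1_mem {l : ℕ} (hl : l < L) {τ : ℝ} (hτ : τ ∈ Icc (0 : ℝ) (1 / L)) :
    0 ≤ F1 β L g l τ ∧ F1 β L g l τ ≤ β ^ 2 := by
  haveI := (law_prob hβ (gpos hβ hγ hg) hl hτ).1
  refine ⟨integral_nonneg fun x => sq_nonneg _, (le_abs_self _).trans (abs_int_le fun x => ?_)⟩
  have h1 := (Psi_reg hβ L (gpos hβ hγ hg) l τ).pos x
  have h2 := Psi_D2_le hγ (L := L) hg l τ x
  rw [abs_of_nonneg (sq_nonneg _)]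
  exact pow_le_pow_left₀ h1.le h2 2

theorem EW_mem {l : ℕ} (hl : l < L) {τ : ℝ} (hτ : τ ∈ Icc (0 : ℝ) (1 / L)) :
    0 ≤ EW β L g l τ ∧ EW β L g l τ ≤ β := by
  haveI := (law_prob hβ (gpos hβ hγ hg) hl hτ).1
  refine ⟨integral_nonneg fun x => ((Psi_reg hβ L (gpos hβ hγ hg) l τ).pos x).le,
    (le_abs_self _).trans (abs_int_le fun x => ?_)⟩
  rw [abs_of_pos ((Psi_reg hβ L (gpos hβ hγ hg) l τ).pos x)]
  exact Psi_D2_le hγ hg l τ x

theorem F2_pt {l : ℕ} {τ C₃ : ℝ} (h3 : ∀ x, |D 3 (Psi β L g l τ) x| ≤ C₃) (x : ℝ) :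
    |D 3 (Psi β L g l τ) x ^ 2 - 2 * g l * D 2 (Psi β L g l τ) x ^ 3| ≤ C₃ ^ 2 + 2 * β ^ 4 ∧
      -(2 * g l * β ^ 3) ≤ D 3 (Psi β L g l τ) x ^ 2 - 2 * g l * D 2 (Psi β L g l τ) x ^ 3 := by
  have h1 := (Psi_reg hβ L (gpos hβ hγ hg) l τ).pos x
  have h2 := Psi_D2_le hγ (L := L) hg l τ x
  have h4 : D 2 (Psi β L g l τ) x ^ 3 ≤ β ^ 3 := pow_le_pow_left₀ h1.le h2 3
  have h5 : 0 < D 2 (Psi β L g l τ) x ^ 3 := by positivity
  have h6 : D 3 (Psi β L g l τ) x ^ 2 ≤ C₃ ^ 2 := by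
    rw [← sq_abs]
    exact pow_le_pow_left₀ (abs_nonneg _) (h3 x) 2
  have h7 := gpos hβ hγ hg l
  have h8 := hg.hi l
  have h9 : g l * D 2 (Psi β L g l τ) x ^ 3 ≤ g l * β ^ 3 := mul_le_mul_of_nonneg_left h4 h7.le
  have h10 : g l * β ^ 3 ≤ β * β ^ 3 := mul_le_mul_of_nonneg_right h8 (by positivity)
  have h11 : 0 < g l * D 2 (Psi β L g l τ) x ^ 3 := by positivity
  have h12 := sq_nonneg (D 3 (Psi β L g l τ) x)
  have h13 := sq_nonneg C₃
  refine ⟨abs_le.2 ⟨?_, ?_⟩, ?_⟩ <;> nlinarith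

theorem F2_abs {l : ℕ} (hl : l < L) {τ C₃ : ℝ} (hτ : τ ∈ Icc (0 : ℝ) (1 / L))
    (h3 : ∀ x, |D 3 (Psi β L g l τ) x| ≤ C₃) : |F2 β L g l τ| ≤ C₃ ^ 2 + 2 * β ^ 4 := by
  haveI := (law_prob hβ (gpos hβ hγ hg) hl hτ).1
  exact abs_int_le fun x => (F2_pt hβ hγ hg h3 x).1

theorem F2_ge {l : ℕ} (hl : l < L) {τ C₃ : ℝ} (hτ : τ ∈ Icc (0 : ℝ) (1 / L))
    (h3 : ∀ x, |D 3 (Psi β L g l τ) x| ≤ C₃) : -(2 * g l * β ^ 3) ≤ F2 β L g l τ := by
  haveI := (law_prob hβ (gpos hβ hγ hg) hl hτ).1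
  have hr := Psi_reg hβ L (gpos hβ hγ hg) l τ
  have c2 := contD hr 2
  have c3 := contD hr 3
  exact le_int (by fun_prop) (fun x => (F2_pt hβ hγ hg h3 x).1) fun x => (F2_pt hβ hγ hg h3 x).2

theorem F3_nonneg {l : ℕ} (hl : l < L) {τ : ℝ} (hτ : τ ∈ Ioo (0 : ℝ) (1 / L)) :
    0 ≤ F3 β L g l τ := by
  obtain ⟨h, hh, he⟩ := law_good hγ hg hl ⟨hτ.1, hτ.2.le⟩
  have hr := Psi_reg hβ L (gpos hβ hγ hg) l τ
  have hc := cert_main (gpos hβ hγ hg l) hr (Psi_inv hγ hg l hτ.2.le) hh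
  have c0 : Continuous (Psi β L g l τ) := hr.smooth.continuous
  have c1 : Continuous h := hh.smooth.continuous
  have hm : Measurable fun x => ENNReal.ofReal (h x * exp (g l * Psi β L g l τ x)) :=
    ENNReal.measurable_ofReal.comp (by fun_prop : Continuous fun x =>
      h x * exp (g l * Psi β L g l τ x)).measurable
  rw [F3, he, integral_withDensity_eq_integral_toReal_smul hm
    (Eventually.of_forall fun x => ENNReal.ofReal_lt_top)]
  refine hc.trans_eq (integral_congr_ae (Eventually.of_forall fun x => ?_))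
  simp only [smul_eq_mul]
  rw [ENNReal.toReal_ofReal (mul_nonneg (hh.nonneg x) (exp_pos _).le)]

theorem ff_zero (hL : 1 ≤ L) : ff β L g 0 0 = 0 := by
  have hr := Phi_reg hβ L (gpos hβ hγ hg) 0
  have h1 : D 1 (Phi β L g 0) 0 = 0 := by
    have := hr.D_neg 1 0
    rw [neg_zero] at this
    linarith
  rw [ff, F0, law_zero hβ (gpos hβ hγ hg) hL, Psi_zero β g hL, rho, integral_dirac, h1]
  simp

/-- One block of the comparison between the Riemann sum and the integral. -/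
theorem block {l : ℕ} (hl : l < L) {C : ℝ}
    (hC : ∀ τ ∈ Icc (0 : ℝ) (1 / L), |F2 β L g l τ| ≤ C) :
    ∫ τ in (0 : ℝ)..(1 / L), EW β L g l τ ≤
      (1 / L : ℝ) * min 1 (F1 β L g l 0) * EW β L g l (1 / L) +
        β * (∫ τ in (0 : ℝ)..(1 / L), |F1 β L g l τ - 1|) + (β ^ 3 + β * C) * (1 / L) ^ 2 := by
  have hp := gpos hβ hγ hg
  set δ : ℝ := 1 / L with hδ
  have hδ0 : 0 ≤ δ := by positivity
  have m0 : (0 : ℝ) ∈ Icc (0 : ℝ) δ := ⟨le_rfl, hδ0⟩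
  have mδ : δ ∈ Icc (0 : ℝ) δ := ⟨hδ0, le_rfl⟩
  have dW := ito_EW hβ hp hl
  have dF := ito_F1 hβ hp hl
  have hW : ∀ τ ∈ Icc (0 : ℝ) δ, EW β L g l τ ≤ EW β L g l δ + β ^ 3 * δ := by
    intro τ hτ
    have := abs_sub_le (M := β ^ 3) dW (fun s hs => by
      obtain ⟨h1, h2⟩ := F1_mem hβ hγ hg hl hs
      rw [abs_neg, abs_of_nonneg (mul_nonneg (hp l).le h1)]
      calc g l * F1 β L g l s ≤ β * β ^ 2 := mul_le_mul (hg.hi l) h2 h1 hβ.le
        _ = β ^ 3 := by ring) hτ mδ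
    linarith [(abs_le.1 this).2]
  have hS : ∀ τ ∈ Icc (0 : ℝ) δ, |F1 β L g l 0 - 1| - C * δ ≤ |F1 β L g l τ - 1| := by
    intro τ hτ
    have h1 := abs_sub_le dF hC m0 hτ
    have h2 : |F1 β L g l 0 - 1| ≤ |F1 β L g l 0 - F1 β L g l τ| + |F1 β L g l τ - 1| :=
      _root_.abs_sub_le _ _ _
    linarith
  have iW : IntervalIntegrable (EW β L g l) volume 0 δ :=
    (dW.1.mono (by rw [uIcc_of_le hδ0])).intervalIntegrable
  have iF : IntervalIntegrable (fun τ => |F1 β L g l τ - 1|) volume 0 δ :=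
    ((dF.1.sub continuousOn_const).abs.mono (by rw [uIcc_of_le hδ0])).intervalIntegrable
  have h1 := intervalIntegral.integral_mono_on hδ0 iW intervalIntegrable_const hW
  have h2 := intervalIntegral.integral_mono_on hδ0 intervalIntegrable_const iF hS
  rw [intervalIntegral.integral_const, sub_zero, smul_eq_mul] at h1 h2
  obtain ⟨w0, w1⟩ := EW_mem hβ hγ hg hl mδ
  have h3 : 1 - |F1 β L g l 0 - 1| ≤ min 1 (F1 β L g l 0) :=
    le_min (by linarith [abs_nonneg (F1 β L g l 0 - 1)])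
      (by linarith [neg_abs_le (F1 β L g l 0 - 1)])
  have h4 : δ * (1 - |F1 β L g l 0 - 1|) * EW β L g l δ ≤
      δ * min 1 (F1 β L g l 0) * EW β L g l δ :=
    mul_le_mul_of_nonneg_right (mul_le_mul_of_nonneg_left h3 hδ0) w0
  have h5 : δ * |F1 β L g l 0 - 1| * EW β L g l δ ≤ δ * |F1 β L g l 0 - 1| * β :=
    mul_le_mul_of_nonneg_left w1 (mul_nonneg hδ0 (abs_nonneg _))
  have h6 := mul_le_mul_of_nonneg_left h2 hβ.le
  nlinarith

/-- The integral of `E w` is bounded by the Riemann sum of the Euler scheme. -/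
theorem sum_le {K : ℕ} (hK : K + 1 < L) {C e : ℝ} (hC0 : 0 ≤ C)
    (hC : ∀ l < L, ∀ τ ∈ Icc (0 : ℝ) (1 / L), |F2 β L g l τ| ≤ C)
    (he : ∑ l ∈ Finset.range (K + 1), ∫ τ in (0 : ℝ)..(1 / L), |F1 β L g l τ - 1| ≤ e) :
    ∑ l ∈ Finset.range (K + 1), ∫ τ in (0 : ℝ)..(1 / L), EW β L g l τ ≤
      ∑ a ∈ Finset.range K, (1 / L : ℝ) *
          min 1 (∫ x, D 2 (Phi β L g (a + 1)) x ^ 2 ∂rho β L g (a + 1)) *
          (∫ x, D 2 (Phi β L g (a + 2)) x ∂rho β L g (a + 2)) + β * e +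
        (β + β ^ 3 + β * C) * (1 / L) := by
  have hp := gpos hβ hγ hg
  have hL : (0 : ℝ) < L := by exact_mod_cast (by omega : 0 < L)
  have hδ0 : (0 : ℝ) ≤ 1 / L := by positivity
  have h0 : ∫ τ in (0 : ℝ)..(1 / L), EW β L g 0 τ ≤ 1 / L * β := by
    have iW : IntervalIntegrable (EW β L g 0) volume 0 (1 / L) :=
      ((ito_EW hβ hp (by omega : 0 < L)).1.mono (by rw [uIcc_of_le hδ0])).intervalIntegrable
    have h1 := intervalIntegral.integral_mono_on hδ0 iW intervalIntegrable_const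
      fun τ hτ => (EW_mem hβ hγ hg (by omega : 0 < L) hτ).2
    rwa [intervalIntegral.integral_const, sub_zero, smul_eq_mul] at h1
  have h1 : ∀ a ∈ Finset.range K, ∫ τ in (0 : ℝ)..(1 / L), EW β L g (a + 1) τ ≤
      (1 / L : ℝ) * min 1 (∫ x, D 2 (Phi β L g (a + 1)) x ^ 2 ∂rho β L g (a + 1)) *
          (∫ x, D 2 (Phi β L g (a + 2)) x ∂rho β L g (a + 2)) +
        β * (∫ τ in (0 : ℝ)..(1 / L), |F1 β L g (a + 1) τ - 1|) +
          (β ^ 3 + β * C) * (1 / L) ^ 2 := by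
    intro a ha
    have ha' : a + 1 < L := by have := Finset.mem_range.1 ha; omega
    have := block hβ hγ hg ha' (hC _ ha')
    rwa [F1, EW, law_zero hβ hp ha', Psi_zero β g ha', law_end hp, Psi_end β L hp] at this
  have h2 := Finset.sum_le_sum h1
  rw [Finset.sum_add_distrib, Finset.sum_add_distrib, ← Finset.mul_sum, Finset.sum_const,
    Finset.card_range, nsmul_eq_mul] at h2
  rw [Finset.sum_range_succ'] at he ⊢
  have h3 : 0 ≤ ∫ τ in (0 : ℝ)..(1 / L), |F1 β L g 0 τ - 1| :=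
    intervalIntegral.integral_nonneg hδ0 fun _ _ => abs_nonneg _
  have h4 : (K : ℝ) * (1 / L) ≤ 1 := by
    rw [mul_one_div, div_le_one hL]
    exact_mod_cast (by omega : K ≤ L)
  have h5 : (K : ℝ) * ((β ^ 3 + β * C) * (1 / L) ^ 2) ≤ (β ^ 3 + β * C) * (1 / L) := by
    have : 0 ≤ (β ^ 3 + β * C) * (1 / L) := by positivity
    nlinarith
  have h6 := mul_le_mul_of_nonneg_left
    (show ∑ l ∈ Finset.range K, ∫ τ in (0 : ℝ)..(1 / L), |F1 β L g (l + 1) τ - 1| ≤ e by linarith)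
    hβ.le
  linarith

end

theorem exists_L {A B ε : ℝ} (hε : 0 < ε) :
    ∀ᶠ L : ℕ in atTop, A * (1 / L) < ε ∧ B * √(1 / L) < ε := by
  have h1 : Tendsto (fun L : ℕ => (1 / L : ℝ)) atTop (𝓝 0) := tendsto_one_div_atTop_nhds_zero_nat
  have h2 : Tendsto (fun L : ℕ => A * (1 / L : ℝ)) atTop (𝓝 0) := by
    simpa using h1.const_mul A
  have h3 : Tendsto (fun L : ℕ => B * √(1 / L : ℝ)) atTop (𝓝 0) := by
    simpa using h1.sqrt.const_mul B
  exact (h2.eventually (gt_mem_nhds hε)).and (h3.eventually (gt_mem_nhds hε))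

end PMain

open PMain in
theorem amp_opt {ε : ℝ} (hε : 0 < ε) : ∃ (K : ℕ) (A : AMP K), ∀ n, 1 ≤ n →
    (∫ J, maxPairEnergy n J ∂gaussianCouplings n) / n ≤ A.value + ε := by
  obtain ⟨β, hβ4, hβε⟩ : ∃ β : ℝ, 4 ≤ β ∧ 6 / ε ≤ β := ⟨max 4 (6 / ε), le_max_left _ _,
    le_max_right _ _⟩
  have hβ : 0 < β := by linarith
  obtain ⟨C₃, -, hC₃⟩ := D3_unif hβ
  obtain ⟨c, hc, hend⟩ := F0_end hβ
  obtain ⟨CE, L₀, heu⟩ := euler hβ
  obtain ⟨C, hCdef⟩ : ∃ C : ℝ, C = C₃ ^ 2 + 2 * β ^ 4 + β ^ 2 + 1 := ⟨_, rfl⟩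
  have hC0 : 0 ≤ C := by rw [hCdef]; positivity
  obtain ⟨κ, hκ0, hκ1, hκ2⟩ : ∃ κ : ℝ, 0 < κ ∧ κ ≤ 1 / (2 * β) ∧ κ ≤ ε / (12 * β) :=
    ⟨min (1 / (2 * β)) (ε / (12 * β)), by positivity, min_le_left _ _, min_le_right _ _⟩
  obtain ⟨γ₀, hγ, hγ1, hγ2⟩ : ∃ γ₀ : ℝ, 0 < γ₀ ∧ γ₀ ≤ 1 ∧ γ₀ ≤ κ / (20 * β ^ 3) :=
    ⟨min 1 (κ / (20 * β ^ 3)), by positivity, min_le_left _ _, min_le_right _ _⟩
  obtain ⟨L, hL, hL0, ⟨hLc, -⟩, ⟨hLκ, -⟩, hLa, hLb⟩ := ((eventually_ge_atTop 1).and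
    ((eventually_ge_atTop L₀).and ((exists_L (A := C) (B := 0) hc).and
      ((exists_L (A := 10 * C) (B := 0) hκ0).and
        (exists_L (A := β + β ^ 3 + β * C) (B := CE) (by positivity : 0 < ε / 8)))))).exists
  have hLr : (0 : ℝ) < L := by exact_mod_cast hL
  have hδ0 : (0 : ℝ) ≤ 1 / L := by positivity
  obtain ⟨g, hg, hmin⟩ := exists_min hγ (by linarith : γ₀ ≤ β) L
  have hp := gpos hβ hγ hg
  have hF2 : ∀ l < L, ∀ τ ∈ Icc (0 : ℝ) (1 / L), |F2 β L g l τ| ≤ C := by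
    intro l hl τ hτ
    have := F2_abs hβ hγ hg hl hτ ((hC₃ γ₀ hγ L g hg).2 l hl τ hτ)
    rw [hCdef]
    nlinarith [sq_nonneg β]
  obtain ⟨j, hj, hgj, hf, hfj, hfj', hsum⟩ := real_kkt (C := C) (η := 2 * γ₀ * β ^ 3) (c := c) hL hg
    (by linarith) (by positivity) (ff β L g) (fun l τ => F1 β L g l τ - 1) (F2 β L g) (F3 β L g)
    (fun l hl => ⟨(ito_F0 hβ hp hl).1.sub (continuousOn_const.add continuousOn_id), fun τ hτ => by
      have := ((ito_F0 hβ hp hl).2 τ hτ).sub ((hasDerivAt_id τ).const_add ((l : ℝ) / L))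
      exact this⟩)
    (fun l hl => ⟨(ito_F1 hβ hp hl).1.sub continuousOn_const, fun τ hτ =>
      ((ito_F1 hβ hp hl).2 τ hτ).sub_const 1⟩)
    (fun l hl => ito_F2 hβ hp hl)
    (fun l hl τ hτ => F3_nonneg hβ hγ hg hl hτ)
    (fun l hl => by
      rw [ff, ff, F0, F0, law_end hp, Psi_end β L hp, law_zero hβ hp hl, Psi_zero β g hl]
      push_cast
      ring)
    (fun l hl => by
      rw [F1, F1, law_end hp, Psi_end β L hp, law_zero hβ hp hl, Psi_zero β g hl])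
    (fun l hl h => by
      rw [F2, F2, law_end hp, Psi_end β L hp, law_zero hβ hp hl, Psi_zero β g hl, h])
    (fun l hl τ hτ => by
      obtain ⟨h1, h2⟩ := F1_mem hβ hγ hg hl hτ
      rw [hCdef]
      refine abs_le.2 ⟨?_, ?_⟩ <;> nlinarith [sq_nonneg C₃, sq_nonneg β, pow_pos hβ 4])
    hF2 (ff_zero hβ hγ hg hL)
    (fun h => by
      have := F2_ge hβ hγ hg hL ⟨le_rfl, hδ0⟩ ((hC₃ γ₀ hγ L g hg).2 0 hL 0 ⟨le_rfl, hδ0⟩)
      rwa [h] at this)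
    (hend γ₀ hγ L g hL hg) hLc (fun i hi j hj => kkt hγ hL hg hmin hi hj)
  obtain ⟨e, he⟩ : ∃ e : ℝ, e = 10 * (C * (1 / L) + 2 * γ₀ * β ^ 3) := ⟨_, rfl⟩
  rw [← he] at hf hfj hfj' hsum
  have he0 : 0 ≤ e := by rw [he]; positivity
  have he1 : e ≤ 2 * κ := by
    rw [le_div_iff₀ (by positivity)] at hγ2
    rw [he]
    linarith
  have he2 : β * e ≤ 1 := by
    rw [le_div_iff₀ (by positivity)] at hκ1
    nlinarith
  have he3 : β * e ≤ ε / 6 := by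
    rw [le_div_iff₀ (by positivity)] at hκ2
    nlinarith
  have hq := one_sub_q_le hγ hg hj hgj hfj hfj'
  have hq0 : 0 ≤ 1 - (j : ℝ) / L := by
    rw [sub_nonneg, div_le_one hLr]
    exact_mod_cast hj.le
  have hq1 : 1 - (j : ℝ) / L ≤ 3 / β := by
    have h1 : √(1 + e) ≤ 2 := by
      rw [Real.sqrt_le_iff]
      exact ⟨by norm_num, by nlinarith⟩
    have h2 : √(1 + e) / β ≤ 2 / β := div_le_div_of_nonneg_right h1 hβ.le
    have h3 : e ≤ 1 / β := by rw [le_div_iff₀ hβ]; linarith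
    have h4 : 3 / β = 1 / β + 2 / β := by ring
    linarith
  obtain ⟨K, rfl⟩ : ∃ K, j = K + 1 := by
    refine Nat.exists_eq_succ_of_ne_zero ?_
    rintro rfl
    have h1 : 3 / β ≤ 3 / 4 := div_le_div_of_nonneg_left (by norm_num) (by norm_num) hβ4
    simp only [Nat.cast_zero, zero_div, sub_zero] at hq1
    linarith
  obtain ⟨A, hA⟩ := heu γ₀ hγ L g hL0 hg K hj.le
  refine ⟨K, A, fun n hn => (guerra hγ hL hg hn).trans ?_⟩
  have hP := Par_le hγ hg hj hgj he0 hf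
  have hS := sum_le hβ hγ hg hj hC0 hF2 hsum
  have h1 : β * (1 - ((K + 1 : ℕ) : ℝ) / L) ^ 2 / 4 ≤ 9 / 4 / β := by
    have h2 : (1 - ((K + 1 : ℕ) : ℝ) / L) ^ 2 ≤ (3 / β) ^ 2 := pow_le_pow_left₀ hq0 hq1 2
    have h3 : β * (3 / β) ^ 2 / 4 = 9 / 4 / β := by field_simp; norm_num
    have h4 := mul_le_mul_of_nonneg_left h2 hβ.le
    linarith
  have h2 : log 2 / β ≤ 3 / 4 / β :=
    div_le_div_of_nonneg_right (by linarith [Real.log_two_lt_d9]) hβ.le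
  have h3 : 3 / 4 / β + 9 / 4 / β ≤ ε / 2 := by
    rw [div_le_iff₀ hε] at hβε
    have : 3 / 4 / β + 9 / 4 / β = 3 / β := by ring
    rw [this, div_le_iff₀ hβ]
    linarith
  linarith

end Crest.Agent.R339
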