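import Crest.Agent.R339.PFlow

/-! # Row 339: the class `Reg` is preserved; the terminal condition -/

set_option autoImplicit false

namespace Crest.Agent.R339

open MeasureTheory ProbabilityTheory Real Set Filter Topology

variable {m : ℝ} {φ : ℝ → ℝ}

theorem PReg_D_succ {f g g' : ℝ → ℝ} {n : ℕ} (h : D n f = g) (hg : ∀ x, HasDerivAt g (g' x) x) :
    D (n + 1) f = g' := by
  funext x
  rw [D, iteratedDeriv_succ]
  change deriv (D n f) x = g' x
  rw [h]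
  exact (hg x).deriv

/-- Bell polynomials -/
def PReg_B2 (a b : ℝ) : ℝ := a ^ 2 + b
def PReg_B3 (a b c : ℝ) : ℝ := a ^ 3 + 3 * a * b + c
def PReg_B4 (a b c d : ℝ) : ℝ := a ^ 4 + 6 * a ^ 2 * b + 4 * a * c + 3 * b ^ 2 + d
def PReg_B5 (a b c d e : ℝ) : ℝ :=
  a ^ 5 + 10 * a ^ 3 * b + 10 * a ^ 2 * c + 15 * a * b ^ 2 + 5 * a * d + 10 * b * c + e

theorem PReg_bell_le {a b c d e K : ℝ} (hK : 1 ≤ K) (ha : |a| ≤ K) (hb0 : 0 < b) (hb : b ≤ K)
    (hc : |c| ≤ K * b) (hd : |d| ≤ K * b) (he : |e| ≤ K * b) :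
    |PReg_B3 a b c| ≤ 52 * K ^ 3 * PReg_B2 a b ∧ |PReg_B4 a b c d| ≤ 52 * K ^ 3 * PReg_B2 a b ∧
      |PReg_B5 a b c d e| ≤ 52 * K ^ 3 * PReg_B2 a b := by
  have K0 : 0 ≤ K := by linarith
  have k1 : K ≤ K ^ 3 := by simpa using pow_le_pow_right₀ hK (show 1 ≤ 3 by norm_num)
  have k2 : K ^ 2 ≤ K ^ 3 := pow_le_pow_right₀ hK (by norm_num)
  have A0 := abs_nonneg a
  have a1 : |a| ≤ K ^ 3 := ha.trans k1
  have a2 : |a| ^ 2 ≤ K ^ 2 := pow_le_pow_left₀ A0 ha 2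
  have a3 : |a| ^ 3 ≤ K ^ 3 := pow_le_pow_left₀ A0 ha 3
  have s0 : 0 ≤ K ^ 3 * a ^ 2 := by positivity
  have s1 : 0 ≤ K ^ 3 * b := by positivity
  -- monomials
  have m (i : ℕ) (h : |a| ^ i ≤ K ^ 3) : |a ^ (i + 2)| ≤ K ^ 3 * a ^ 2 := by
    rw [abs_pow, pow_add, sq_abs]
    exact mul_le_mul_of_nonneg_right h (sq_nonneg _)
  have n {x : ℝ} (hx : |x| ≤ K ^ 3) : |x * b| ≤ K ^ 3 * b := by
    rw [abs_mul, abs_of_pos hb0]
    exact mul_le_mul_of_nonneg_right hx hb0.le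
  have o {x y : ℝ} (hx : |x| ≤ K ^ 2) (hy : |y| ≤ K * b) : |x * y| ≤ K ^ 3 * b := by
    rw [abs_mul]
    calc |x| * |y| ≤ K ^ 2 * (K * b) := mul_le_mul hx hy (abs_nonneg _) (by positivity)
      _ = K ^ 3 * b := by ring
  have kk : K ≤ K ^ 2 := by nlinarith
  have m3 := abs_le.1 (show |a ^ 3| ≤ K ^ 3 * a ^ 2 from m 1 (by simpa using a1))
  have m4 := abs_le.1 (show |a ^ 4| ≤ K ^ 3 * a ^ 2 from m 2 (a2.trans k2))
  have m5 := abs_le.1 (show |a ^ 5| ≤ K ^ 3 * a ^ 2 from m 3 a3)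
  have n1 := abs_le.1 (n (x := a) a1)
  have n2 := abs_le.1 (n (x := a ^ 2) (by rw [abs_pow]; exact a2.trans k2))
  have n3 := abs_le.1 (n (x := a ^ 3) (by rw [abs_pow]; exact a3))
  have n4 := abs_le.1 (n (x := b) (by rw [abs_of_pos hb0]; exact hb.trans k1))
  have n5 := abs_le.1 (n (x := a * b) (by
    rw [abs_mul, abs_of_pos hb0]
    calc |a| * b ≤ K * K := mul_le_mul ha hb hb0.le K0
      _ ≤ K ^ 3 := by nlinarith))
  have one : |(1 : ℝ)| ≤ K ^ 2 := by rw [abs_one]; linarith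
  have o1 := abs_le.1 (o one hc)
  have o2 := abs_le.1 (o one hd)
  have o3 := abs_le.1 (o one he)
  have o4 := abs_le.1 (o (ha.trans kk) hc)
  have o5 := abs_le.1 (o (ha.trans kk) hd)
  have o6 := abs_le.1 (o (x := a ^ 2) (by rw [abs_pow]; exact a2) hc)
  have o7 := abs_le.1 (o (x := b) (by rw [abs_of_pos hb0]; exact hb.trans kk) hc)
  unfold PReg_B2 PReg_B3 PReg_B4 PReg_B5
  refine ⟨abs_le.2 ⟨?_, ?_⟩, abs_le.2 ⟨?_, ?_⟩, abs_le.2 ⟨?_, ?_⟩⟩ <;>
    linarith [m3.1, m3.2, m4.1, m4.2, m5.1, m5.2, n1.1, n1.2, n2.1, n2.2, n3.1, n3.2, n4.1, n4.2,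
      n5.1, n5.2, o1.1, o1.2, o2.1, o2.2, o3.1, o3.2, o4.1, o4.2, o5.1, o5.2, o6.1, o6.2, o7.1, o7.2]

/-- derivatives of `exp (m φ)` -/
theorem PReg_DV (hφ : Reg φ) (m : ℝ) :
    (D 1 (fun x => exp (m * φ x)) = fun x => exp (m * φ x) * (m * D 1 φ x)) ∧
    (D 2 (fun x => exp (m * φ x)) = fun x => exp (m * φ x) * PReg_B2 (m * D 1 φ x) (m * D 2 φ x)) ∧
    (D 3 (fun x => exp (m * φ x)) = fun x => exp (m * φ x) *
      PReg_B3 (m * D 1 φ x) (m * D 2 φ x) (m * D 3 φ x)) ∧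
    (D 4 (fun x => exp (m * φ x)) = fun x => exp (m * φ x) *
      PReg_B4 (m * D 1 φ x) (m * D 2 φ x) (m * D 3 φ x) (m * D 4 φ x)) ∧
    (D 5 (fun x => exp (m * φ x)) = fun x => exp (m * φ x) *
      PReg_B5 (m * D 1 φ x) (m * D 2 φ x) (m * D 3 φ x) (m * D 4 φ x) (m * D 5 φ x)) := by
  have hV : ∀ x, HasDerivAt (fun x => exp (m * φ x)) (exp (m * φ x) * (m * D 1 φ x)) x := fun x => by
    have h := hφ.hasDerivAt 0 x
    rw [D, iteratedDeriv_zero] at h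
    exact (h.const_mul m).exp
  have hy : ∀ n x, HasDerivAt (fun x => m * D n φ x) (m * D (n + 1) φ x) x := fun n x =>
    (hφ.hasDerivAt n x).const_mul m
  have h1 : D 1 (fun x => exp (m * φ x)) = fun x => exp (m * φ x) * (m * D 1 φ x) :=
    PReg_D_succ (n := 0) iteratedDeriv_zero hV
  have h2 : D 2 (fun x => exp (m * φ x)) =
      fun x => exp (m * φ x) * PReg_B2 (m * D 1 φ x) (m * D 2 φ x) :=
    PReg_D_succ h1 fun x => by
      refine ((hV x).fun_mul (hy 1 x)).congr_deriv ?_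
      unfold PReg_B2; ring
  have h3 : D 3 (fun x => exp (m * φ x)) = fun x => exp (m * φ x) *
      PReg_B3 (m * D 1 φ x) (m * D 2 φ x) (m * D 3 φ x) :=
    PReg_D_succ h2 fun x => by
      refine ((hV x).fun_mul (((hy 1 x).fun_pow 2).fun_add (hy 2 x))).congr_deriv ?_
      unfold PReg_B3; simp only [Nat.cast_ofNat]; ring
  have h4 : D 4 (fun x => exp (m * φ x)) = fun x => exp (m * φ x) *
      PReg_B4 (m * D 1 φ x) (m * D 2 φ x) (m * D 3 φ x) (m * D 4 φ x) :=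
    PReg_D_succ h3 fun x => by
      refine ((hV x).fun_mul ((((hy 1 x).fun_pow 3).fun_add
        (((hy 1 x).const_mul 3).fun_mul (hy 2 x))).fun_add (hy 3 x))).congr_deriv ?_
      unfold PReg_B4; simp only [Nat.cast_ofNat]; ring
  have h5 : D 5 (fun x => exp (m * φ x)) = fun x => exp (m * φ x) *
      PReg_B5 (m * D 1 φ x) (m * D 2 φ x) (m * D 3 φ x) (m * D 4 φ x) (m * D 5 φ x) :=
    PReg_D_succ h4 fun x => by
      refine ((hV x).fun_mul ((((((hy 1 x).fun_pow 4).fun_add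
        ((((hy 1 x).fun_pow 2).const_mul 6).fun_mul (hy 2 x))).fun_add
        (((hy 1 x).const_mul 4).fun_mul (hy 3 x))).fun_add
        (((hy 2 x).fun_pow 2).const_mul 3)).fun_add (hy 4 x))).congr_deriv ?_
      unfold PReg_B5; simp only [Nat.cast_ofNat]; ring
  exact ⟨h1, h2, h3, h4, h5⟩

/-- derivatives of `m⁻¹ log (a 0)` for a tower `a` -/
theorem PReg_Dlog {a : ℕ → ℝ → ℝ} (ha : ∀ n x, HasDerivAt (a n) (a (n + 1) x) x)
    (h0 : ∀ x, 0 < a 0 x) (c : ℝ) (b : ℕ → ℝ → ℝ) (hb : ∀ n, b n = fun x => a n x / a 0 x) :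
    (D 1 (fun x => c * log (a 0 x)) = fun x => c * b 1 x) ∧
    (D 2 (fun x => c * log (a 0 x)) = fun x => c * (b 2 x - b 1 x ^ 2)) ∧
    (D 3 (fun x => c * log (a 0 x)) = fun x => c * (b 3 x - 3 * b 1 x * b 2 x + 2 * b 1 x ^ 3)) ∧
    (D 4 (fun x => c * log (a 0 x)) = fun x => c * (b 4 x - 4 * b 1 x * b 3 x - 3 * b 2 x ^ 2 +
      12 * b 1 x ^ 2 * b 2 x - 6 * b 1 x ^ 4)) ∧
    (D 5 (fun x => c * log (a 0 x)) = fun x => c * (b 5 x - 5 * b 1 x * b 4 x - 10 * b 2 x * b 3 x +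
      20 * b 1 x ^ 2 * b 3 x + 30 * b 1 x * b 2 x ^ 2 - 60 * b 1 x ^ 3 * b 2 x + 24 * b 1 x ^ 5)) := by
  have hy : ∀ n x, HasDerivAt (b n) (b (n + 1) x - b n x * b 1 x) x := fun n x => by
    have h := (ha n x).fun_div (ha 0 x) (h0 x).ne'
    rw [hb n, hb (n + 1), hb 1]
    refine h.congr_deriv ?_
    have := (h0 x).ne'
    field_simp
  have h1 : D 1 (fun x => c * log (a 0 x)) = fun x => c * b 1 x :=
    PReg_D_succ (n := 0) iteratedDeriv_zero fun x => by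
      rw [hb 1]
      exact ((ha 0 x).log (h0 x).ne').const_mul c
  have h2 : D 2 (fun x => c * log (a 0 x)) = fun x => c * (b 2 x - b 1 x ^ 2) :=
    PReg_D_succ h1 fun x => by
      refine ((hy 1 x).const_mul c).congr_deriv ?_
      ring
  have h3 : D 3 (fun x => c * log (a 0 x)) =
      fun x => c * (b 3 x - 3 * b 1 x * b 2 x + 2 * b 1 x ^ 3) :=
    PReg_D_succ h2 fun x => by
      refine (((hy 2 x).fun_sub ((hy 1 x).fun_pow 2)).const_mul c).congr_deriv ?_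
      simp only [Nat.cast_ofNat]; ring
  have h4 : D 4 (fun x => c * log (a 0 x)) = fun x => c * (b 4 x - 4 * b 1 x * b 3 x -
      3 * b 2 x ^ 2 + 12 * b 1 x ^ 2 * b 2 x - 6 * b 1 x ^ 4) :=
    PReg_D_succ h3 fun x => by
      refine ((((hy 3 x).fun_sub (((hy 1 x).const_mul 3).fun_mul (hy 2 x))).fun_add
        (((hy 1 x).fun_pow 3).const_mul 2)).const_mul c).congr_deriv ?_
      simp only [Nat.cast_ofNat]; ring
  have h5 : D 5 (fun x => c * log (a 0 x)) = fun x => c * (b 5 x - 5 * b 1 x * b 4 x -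
      10 * b 2 x * b 3 x + 20 * b 1 x ^ 2 * b 3 x + 30 * b 1 x * b 2 x ^ 2 -
      60 * b 1 x ^ 3 * b 2 x + 24 * b 1 x ^ 5) :=
    PReg_D_succ h4 fun x => by
      refine ((((((hy 4 x).fun_sub (((hy 1 x).const_mul 4).fun_mul (hy 3 x))).fun_sub
        (((hy 2 x).fun_pow 2).const_mul 3)).fun_add
        ((((hy 1 x).fun_pow 2).const_mul 12).fun_mul (hy 2 x))).fun_sub
        (((hy 1 x).fun_pow 4).const_mul 6)).const_mul c).congr_deriv ?_
      simp only [Nat.cast_ofNat]; ring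
  exact ⟨h1, h2, h3, h4, h5⟩

theorem PReg_int6 {f : ℕ → ℝ → ℝ} (hf : ∀ n, Integrable (f n) γ1) (c0 c1 c2 c3 c4 c5 : ℝ) :
    Integrable (fun z => c0 * f 0 z + c1 * f 1 z + c2 * f 2 z + c3 * f 3 z + c4 * f 4 z +
      c5 * f 5 z) γ1 ∧
    ∫ z, (c0 * f 0 z + c1 * f 1 z + c2 * f 2 z + c3 * f 3 z + c4 * f 4 z + c5 * f 5 z) ∂γ1 =
      c0 * (∫ z, f 0 z ∂γ1) + c1 * (∫ z, f 1 z ∂γ1) + c2 * (∫ z, f 2 z ∂γ1) +
        c3 * (∫ z, f 3 z ∂γ1) + c4 * (∫ z, f 4 z ∂γ1) + c5 * ∫ z, f 5 z ∂γ1 := by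
  have i0 := (hf 0).const_mul c0
  have i1 : Integrable (fun z => c0 * f 0 z + c1 * f 1 z) γ1 := i0.add ((hf 1).const_mul c1)
  have i2 : Integrable (fun z => c0 * f 0 z + c1 * f 1 z + c2 * f 2 z) γ1 :=
    i1.add ((hf 2).const_mul c2)
  have i3 : Integrable (fun z => c0 * f 0 z + c1 * f 1 z + c2 * f 2 z + c3 * f 3 z) γ1 :=
    i2.add ((hf 3).const_mul c3)
  have i4 : Integrable (fun z => c0 * f 0 z + c1 * f 1 z + c2 * f 2 z + c3 * f 3 z + c4 * f 4 z) γ1 :=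
    i3.add ((hf 4).const_mul c4)
  refine ⟨i4.add ((hf 5).const_mul c5), ?_⟩
  rw [integral_add i4 ((hf 5).const_mul c5), integral_add i3 ((hf 4).const_mul c4),
    integral_add i2 ((hf 3).const_mul c3), integral_add i1 ((hf 2).const_mul c2),
    integral_add i0 ((hf 1).const_mul c1)]
  simp only [integral_const_mul]

theorem PReg_int_pos {f : ℝ → ℝ} (hf : Integrable f γ1) (h : ∀ z, 0 < f z) : 0 < ∫ z, f z ∂γ1 := by
  rw [integral_pos_iff_support_of_nonneg (fun z => (h z).le) hf]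
  have : Function.support f = univ := eq_univ_of_forall fun z => (h z).ne'
  rw [this, measure_univ]
  exact one_pos

/-- centred moments `c₂, …, c₅` of the tilted measure -/
theorem PReg_core (hm : 0 < m) (hφ : Reg φ) : ∃ K, 0 ≤ K ∧ ∀ τ x, ∃ c2 c3 c4 c5 : ℝ, 0 < c2 ∧
    |c3| ≤ K * c2 ∧ |c4| ≤ K * c2 ∧ |c5| ≤ K * c2 ∧ D 2 (T m τ φ) x = m⁻¹ * c2 ∧
      D 3 (T m τ φ) x = m⁻¹ * c3 ∧ D 4 (T m τ φ) x = m⁻¹ * (c4 - 3 * c2 ^ 2) ∧
      D 5 (T m τ φ) x = m⁻¹ * (c5 - 10 * c2 * c3) := by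
  obtain ⟨C, hC⟩ := hφ.ratio
  obtain ⟨M, hM⟩ := hφ.bdd 2 (by norm_num)
  obtain ⟨K, K1, K2, K3, K4⟩ : ∃ K : ℝ, 1 ≤ K ∧ 2 * m ≤ K ∧ m * M ≤ K ∧ C ≤ K :=
    ⟨max (max 1 (2 * m)) (max (m * M) C), le_max_of_le_left (le_max_left _ _),
      le_max_of_le_left (le_max_right _ _), le_max_of_le_right (le_max_left _ _),
      le_max_of_le_right (le_max_right _ _)⟩
  refine ⟨52 * K ^ 3, by positivity, fun τ x => ?_⟩
  have hV := hφ.expG m
  obtain ⟨v1, v2, v3, v4, v5⟩ := PReg_DV hφ m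
  have v0 : D 0 (fun x => exp (m * φ x)) = fun x => exp (m * φ x) := iteratedDeriv_zero
  have a0 : ∀ x, 0 < heat (fun x => exp (m * φ x)) 0 τ x := fun x =>
    PReg_int_pos (heat_integrable hV 0 τ x) fun z => by rw [v0]; exact exp_pos _
  have hT : T m τ φ = fun x => m⁻¹ * log (heat (fun x => exp (m * φ x)) 0 τ x) := by
    funext x
    rw [heat, v0]
    rfl
  obtain ⟨b, hb⟩ : ∃ b : ℕ → ℝ → ℝ, ∀ n, b n = fun x =>
      heat (fun x => exp (m * φ x)) n τ x / heat (fun x => exp (m * φ x)) 0 τ x := ⟨_, fun _ => rfl⟩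
  obtain ⟨d1, d2, d3, d4, d5⟩ := PReg_Dlog (a := fun n => heat (fun x => exp (m * φ x)) n τ)
    (fun n x => heat_deriv_x hV n τ x) a0 m⁻¹ b hb
  rw [← hT] at d1 d2 d3 d4 d5
  obtain ⟨μ, hμ⟩ : ∃ μ, μ = b 1 x := ⟨_, rfl⟩
  have μ1 : |μ| ≤ m := by
    have h := T_d1 hm hφ τ x
    rw [d1] at h
    simp only at h
    rw [abs_mul, abs_of_pos (inv_pos.2 hm), inv_mul_le_iff₀ hm, mul_one] at h
    rwa [hμ]
  obtain ⟨A, hA⟩ : ∃ A, A = heat (fun x => exp (m * φ x)) 0 τ x := ⟨_, rfl⟩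
  have A0 : 0 < A := hA ▸ a0 x
  have hf : ∀ n, Integrable (fun z => D n (fun x => exp (m * φ x)) (x + √τ * z)) γ1 := fun n =>
    heat_integrable hV n τ x
  have e0 : ∫ z, D 0 (fun x => exp (m * φ x)) (x + √τ * z) ∂γ1 = A := hA.symm
  have en : ∀ n, ∫ z, D n (fun x => exp (m * φ x)) (x + √τ * z) ∂γ1 = A * b n x := fun n => by
    rw [hb n, hA]
    simp only
    rw [mul_div_cancel₀ _ (a0 x).ne']
    rfl
  have key : ∀ (c0 c1 c2 c3 c4 c5 : ℝ) (F : ℝ → ℝ), (∀ y, exp (m * φ y) * F y =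
      c0 * exp (m * φ y) + c1 * (exp (m * φ y) * (m * D 1 φ y)) +
      c2 * (exp (m * φ y) * PReg_B2 (m * D 1 φ y) (m * D 2 φ y)) +
      c3 * (exp (m * φ y) * PReg_B3 (m * D 1 φ y) (m * D 2 φ y) (m * D 3 φ y)) +
      c4 * (exp (m * φ y) * PReg_B4 (m * D 1 φ y) (m * D 2 φ y) (m * D 3 φ y) (m * D 4 φ y)) +
      c5 * (exp (m * φ y) *
        PReg_B5 (m * D 1 φ y) (m * D 2 φ y) (m * D 3 φ y) (m * D 4 φ y) (m * D 5 φ y))) →
      Integrable (fun z => exp (m * φ (x + √τ * z)) * F (x + √τ * z)) γ1 ∧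
      ∫ z, exp (m * φ (x + √τ * z)) * F (x + √τ * z) ∂γ1 =
        A * (c0 + c1 * μ + c2 * b 2 x + c3 * b 3 x + c4 * b 4 x + c5 * b 5 x) := by
    intro c0 c1 c2 c3 c4 c5 F hF
    obtain ⟨i1, i2⟩ := PReg_int6 hf c0 c1 c2 c3 c4 c5
    rw [e0, en 1, en 2, en 3, en 4, en 5] at i2
    rw [v0, v1, v2, v3, v4, v5] at i1 i2
    simp only [hF]
    refine ⟨i1, i2.trans ?_⟩
    rw [hμ]; ring
  obtain ⟨i2, j2⟩ := key (μ ^ 2) (-2 * μ) 1 0 0 0
    (fun y => PReg_B2 (m * D 1 φ y - μ) (m * D 2 φ y)) (fun y => by unfold PReg_B2; ring)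
  obtain ⟨-, j3⟩ := key (-μ ^ 3) (3 * μ ^ 2) (-3 * μ) 1 0 0
    (fun y => PReg_B3 (m * D 1 φ y - μ) (m * D 2 φ y) (m * D 3 φ y))
    (fun y => by unfold PReg_B2 PReg_B3; ring)
  obtain ⟨-, j4⟩ := key (μ ^ 4) (-4 * μ ^ 3) (6 * μ ^ 2) (-4 * μ) 1 0
    (fun y => PReg_B4 (m * D 1 φ y - μ) (m * D 2 φ y) (m * D 3 φ y) (m * D 4 φ y))
    (fun y => by unfold PReg_B2 PReg_B3 PReg_B4; ring)
  obtain ⟨-, j5⟩ := key (-μ ^ 5) (5 * μ ^ 4) (-10 * μ ^ 3) (10 * μ ^ 2) (-5 * μ) 1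
    (fun y => PReg_B5 (m * D 1 φ y - μ) (m * D 2 φ y) (m * D 3 φ y) (m * D 4 φ y) (m * D 5 φ y))
    (fun y => by unfold PReg_B2 PReg_B3 PReg_B4 PReg_B5; ring)
  have pt : ∀ y, _ := fun y => PReg_bell_le (a := m * D 1 φ y - μ) (b := m * D 2 φ y)
    (c := m * D 3 φ y) (d := m * D 4 φ y) (e := m * D 5 φ y) K1
    (by
      have h1 : |m * D 1 φ y| ≤ m := by
        rw [abs_mul, abs_of_pos hm]
        exact mul_le_of_le_one_right hm.le (hφ.d1 y)
      exact (abs_sub _ _).trans (by linarith))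
    (mul_pos hm (hφ.pos y))
    ((mul_le_mul_of_nonneg_left ((le_abs_self _).trans (hM y)) hm.le).trans K3)
    (by
      rw [abs_mul, abs_of_pos hm, mul_left_comm]
      exact mul_le_mul_of_nonneg_left ((hC y).1.trans
        (mul_le_mul_of_nonneg_right K4 (hφ.pos y).le)) hm.le)
    (by
      rw [abs_mul, abs_of_pos hm, mul_left_comm]
      exact mul_le_mul_of_nonneg_left ((hC y).2.1.trans
        (mul_le_mul_of_nonneg_right K4 (hφ.pos y).le)) hm.le)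
    (by
      rw [abs_mul, abs_of_pos hm, mul_left_comm]
      exact mul_le_mul_of_nonneg_left ((hC y).2.2.trans
        (mul_le_mul_of_nonneg_right K4 (hφ.pos y).le)) hm.le)
  have cmp : ∀ (F : ℝ → ℝ) (c c2 : ℝ),
      (∀ y, |F y| ≤ 52 * K ^ 3 * PReg_B2 (m * D 1 φ y - μ) (m * D 2 φ y)) →
      ∫ z, exp (m * φ (x + √τ * z)) * F (x + √τ * z) ∂γ1 = A * c →
      ∫ z, exp (m * φ (x + √τ * z)) *
        PReg_B2 (m * D 1 φ (x + √τ * z) - μ) (m * D 2 φ (x + √τ * z)) ∂γ1 = A * c2 →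
      |c| ≤ 52 * K ^ 3 * c2 := by
    intro F c c2 hF h1 h2
    have h3 := norm_integral_le_of_norm_le (μ := γ1)
      (f := fun z => exp (m * φ (x + √τ * z)) * F (x + √τ * z)) (i2.const_mul (52 * K ^ 3))
      (Eventually.of_forall fun z => by
        rw [Real.norm_eq_abs, abs_mul, abs_of_pos (exp_pos _), mul_left_comm]
        exact mul_le_mul_of_nonneg_left (hF _) (exp_pos _).le)
    rw [integral_const_mul, h1, h2, Real.norm_eq_abs, abs_mul, abs_of_pos A0, mul_left_comm] at h3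
    exact le_of_mul_le_mul_left h3 A0
  refine ⟨_, _, _, _, ?_, cmp _ _ _ (fun y => (pt y).1) j3 j2, cmp _ _ _ (fun y => (pt y).2.1) j4 j2,
    cmp _ _ _ (fun y => (pt y).2.2) j5 j2, ?_, ?_, ?_, ?_⟩
  · have h := PReg_int_pos i2 fun z => mul_pos (exp_pos _) (by
      unfold PReg_B2
      exact add_pos_of_nonneg_of_pos (sq_nonneg _) (mul_pos hm (hφ.pos _)))
    rw [j2] at h
    exact (mul_pos_iff_of_pos_left A0).1 h
  · rw [d2, hμ]; ring
  · rw [d3, hμ]; ring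
  · rw [d4, hμ]; ring
  · rw [d5, hμ]; ring

theorem T_pos (hm : 0 < m) (hφ : Reg φ) (τ x : ℝ) : 0 < D 2 (T m τ φ) x := by
  obtain ⟨K, -, h⟩ := PReg_core hm hφ
  obtain ⟨c2, c3, c4, c5, h2, -, -, -, e2, -⟩ := h τ x
  rw [e2]
  positivity

/-- Two-replica estimate, uniform in `τ`. -/
theorem T_ratio (hm : 0 < m) (hφ : Reg φ) : ∃ C, ∀ τ x,
    |D 3 (T m τ φ) x| ≤ C * D 2 (T m τ φ) x ∧ |D 4 (T m τ φ) x| ≤ C * D 2 (T m τ φ) x ∧
      |D 5 (T m τ φ) x| ≤ C * D 2 (T m τ φ) x := by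
  obtain ⟨K, K0, h⟩ := PReg_core hm hφ
  obtain ⟨M, hM⟩ := T_bdd hm hφ 2 (by norm_num)
  have M0 : 0 ≤ M := (abs_nonneg _).trans (hM 0 0)
  refine ⟨K + 3 * (m * M) + 10 * (m * M) * K, fun τ x => ?_⟩
  obtain ⟨c2, c3, c4, c5, h2, h3, h4, h5, e2, e3, e4, e5⟩ := h τ x
  have hi : 0 < m⁻¹ := inv_pos.2 hm
  have b2 : c2 ≤ m * M := by
    have := (le_abs_self _).trans (hM τ x)
    rwa [e2, inv_mul_le_iff₀ hm] at this
  have s1 : c2 ^ 2 ≤ m * M * c2 := by nlinarith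
  have s2 : |c2 * c3| ≤ m * M * K * c2 := by
    rw [abs_mul, abs_of_pos h2, mul_assoc]
    exact mul_le_mul b2 h3 (abs_nonneg _) (by positivity)
  have s3 : 0 ≤ m * M * c2 := by positivity
  have s4 : 0 ≤ m * M * K * c2 := by positivity
  have s5 : 0 ≤ c2 ^ 2 := sq_nonneg _
  rw [e2, e3, e4, e5]
  simp only [abs_mul m⁻¹, abs_of_pos hi, mul_left_comm _ m⁻¹]
  have t3 := abs_le.1 h3
  have t4 := abs_le.1 h4
  have t5 := abs_le.1 h5
  have t6 := abs_le.1 s2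
  refine ⟨mul_le_mul_of_nonneg_left (abs_le.2 ⟨?_, ?_⟩) hi.le,
    mul_le_mul_of_nonneg_left (abs_le.2 ⟨?_, ?_⟩) hi.le,
    mul_le_mul_of_nonneg_left (abs_le.2 ⟨?_, ?_⟩) hi.le⟩ <;>
    linarith [t3.1, t3.2, t4.1, t4.2, t5.1, t5.2, t6.1, t6.2]

theorem Reg.T (hφ : Reg φ) (hm : 0 < m) (τ : ℝ) : Reg (T m τ φ) :=
  ⟨T_smooth hm hφ τ, T_even hm hφ τ, T_d1 hm hφ τ,
    fun n hn => (T_bdd hm hφ n hn).imp fun _ h => h τ, T_pos hm hφ τ,
    (T_ratio hm hφ).imp fun _ h => h τ⟩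

variable {β : ℝ}

theorem PReg_tanh (β x : ℝ) :
    HasDerivAt (fun x => tanh (β * x)) (β * (1 - tanh (β * x) ^ 2)) x := by
  have h0 : HasDerivAt (fun x => β * x) β x := by simpa using (hasDerivAt_id x).const_mul β
  have hc := (cosh_pos (β * x)).ne'
  have h := h0.sinh.fun_div h0.cosh hc
  simp only [tanh_eq_sinh_div_cosh]
  refine h.congr_deriv ?_
  field_simp

theorem PReg_term (hβ : 0 < β) (x : ℝ) : HasDerivAt (term β) (tanh (β * x)) x := by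
  have h0 : HasDerivAt (fun x => β * x) β x := by simpa using (hasDerivAt_id x).const_mul β
  have hc := (cosh_pos (β * x)).ne'
  have h := ((h0.cosh.const_mul 2).log (mul_ne_zero two_ne_zero hc)).const_mul β⁻¹
  refine h.congr_deriv ?_
  rw [tanh_eq_sinh_div_cosh]
  field_simp

theorem PReg_term_D (hβ : 0 < β) :
    (D 1 (term β) = fun x => tanh (β * x)) ∧
    (D 2 (term β) = fun x => β * (1 - tanh (β * x) ^ 2)) ∧
    (D 3 (term β) = fun x => -2 * β * tanh (β * x) * (β * (1 - tanh (β * x) ^ 2))) ∧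
    (D 4 (term β) = fun x => (4 * β ^ 2 * tanh (β * x) ^ 2 - 2 * β * (β * (1 - tanh (β * x) ^ 2))) *
      (β * (1 - tanh (β * x) ^ 2))) ∧
    (D 5 (term β) = fun x => (16 * β ^ 2 * tanh (β * x) * (β * (1 - tanh (β * x) ^ 2)) -
      8 * β ^ 3 * tanh (β * x) ^ 3) * (β * (1 - tanh (β * x) ^ 2))) := by
  have t := PReg_tanh β
  have w : ∀ x, HasDerivAt (fun x => β * (1 - tanh (β * x) ^ 2))
      (-2 * β * tanh (β * x) * (β * (1 - tanh (β * x) ^ 2))) x := fun x => by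
    refine ((((t x).fun_pow 2).const_sub 1).const_mul β).congr_deriv ?_
    simp only [Nat.cast_ofNat]; ring
  have h1 : D 1 (term β) = fun x => tanh (β * x) :=
    PReg_D_succ (n := 0) iteratedDeriv_zero (PReg_term hβ)
  have h2 := PReg_D_succ h1 t
  have h3 := PReg_D_succ h2 w
  have h4 : D 4 (term β) = fun x => (4 * β ^ 2 * tanh (β * x) ^ 2 -
      2 * β * (β * (1 - tanh (β * x) ^ 2))) * (β * (1 - tanh (β * x) ^ 2)) :=
    PReg_D_succ h3 fun x => by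
      refine (((t x).const_mul (-2 * β)).fun_mul (w x)).congr_deriv ?_
      ring
  refine ⟨h1, h2, h3, h4, PReg_D_succ h4 fun x => ?_⟩
  refine (((((t x).fun_pow 2).const_mul (4 * β ^ 2)).fun_sub ((w x).const_mul (2 * β))).fun_mul
    (w x)).congr_deriv ?_
  simp only [Nat.cast_ofNat]; ring

theorem PReg_term_poly (hβ : 0 < β) (n : ℕ) :
    ∃ P : Polynomial ℝ, D (n + 1) (term β) = fun x => P.eval (tanh (β * x)) := by
  induction n with
  | zero => exact ⟨Polynomial.X, by simpa using (PReg_term_D hβ).1⟩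
  | succ n ih =>
    obtain ⟨P, hP⟩ := ih
    refine ⟨P.derivative * (Polynomial.C β * (1 - Polynomial.X ^ 2)), PReg_D_succ hP fun x => ?_⟩
    refine ((P.hasDerivAt (tanh (β * x))).comp x (PReg_tanh β x)).congr_deriv ?_
    simp

theorem term_D1 (hβ : 0 < β) (x : ℝ) : D 1 (term β) x = tanh (β * x) :=
  congrFun (PReg_term_D hβ).1 x

theorem term_D2 (hβ : 0 < β) (x : ℝ) : D 2 (term β) x = β * (1 - tanh (β * x) ^ 2) :=
  congrFun (PReg_term_D hβ).2.1 x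

theorem term_D3 (hβ : 0 < β) (x : ℝ) :
    D 3 (term β) x = -2 * β * tanh (β * x) * D 2 (term β) x := by
  rw [term_D2 hβ]
  exact congrFun (PReg_term_D hβ).2.2.1 x

theorem term_reg (hβ : 0 < β) : Reg (term β) := by
  obtain ⟨h1, h2, h3, h4, h5⟩ := PReg_term_D hβ
  have w0 : ∀ x, 0 < β * (1 - tanh (β * x) ^ 2) := fun x =>
    mul_pos hβ (sub_pos.2 (tanh_sq_lt_one _))
  refine ⟨?_, fun x => ?_, fun x => ?_, fun n hn => ?_, fun x => ?_,
    ⟨2 * β + 6 * β ^ 2 + 24 * β ^ 3, fun x => ?_⟩⟩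
  · unfold term
    refine contDiff_const.mul (ContDiff.log (contDiff_const.mul ?_) fun x => ?_)
    · exact (contDiff_const.mul contDiff_id).cosh
    · exact mul_ne_zero two_ne_zero (cosh_pos _).ne'
  · unfold term
    rw [mul_neg, cosh_neg]
  · rw [h1]
    exact (abs_tanh_lt_one _).le
  · obtain ⟨k, rfl⟩ : ∃ k, n = k + 1 := ⟨n - 1, by omega⟩
    obtain ⟨P, hP⟩ := PReg_term_poly hβ k
    obtain ⟨C, hC⟩ := (isCompact_Icc (a := (-1 : ℝ)) (b := 1)).exists_bound_of_continuousOn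
      P.continuous.continuousOn
    refine ⟨C, fun x => ?_⟩
    rw [hP]
    exact hC _ ⟨(neg_one_lt_tanh _).le, (tanh_lt_one _).le⟩
  · rw [h2]
    exact w0 x
  · rw [h2, h3, h4, h5]
    have hw := w0 x
    have t1 := (neg_one_lt_tanh (β * x)).le
    have t2 := (tanh_lt_one (β * x)).le
    have t3 := (tanh_sq_lt_one (β * x)).le
    simp only
    generalize tanh (β * x) = t at *
    have t4 := sq_nonneg t
    have b1 : 0 ≤ β ^ 2 := by positivity
    have b2 : 0 ≤ β ^ 3 := by positivity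
    have u1 : |t * (1 - t ^ 2)| ≤ 1 := by
      rw [abs_mul, abs_of_nonneg (sub_nonneg.2 t3)]
      exact mul_le_one₀ (abs_le.2 ⟨t1, t2⟩) (sub_nonneg.2 t3) (by linarith)
    have u2 : |t ^ 3| ≤ 1 := by
      rw [abs_pow]
      exact pow_le_one₀ (abs_nonneg _) (abs_le.2 ⟨t1, t2⟩)
    have u3 := abs_le.1 u1
    have u4 := abs_le.1 u2
    simp only [abs_mul _ (β * (1 - t ^ 2)), abs_of_pos hw]
    refine ⟨mul_le_mul_of_nonneg_right (abs_le.2 ⟨?_, ?_⟩) hw.le,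
      mul_le_mul_of_nonneg_right (abs_le.2 ⟨?_, ?_⟩) hw.le,
      mul_le_mul_of_nonneg_right (abs_le.2 ⟨?_, ?_⟩) hw.le⟩
    · nlinarith [mul_le_mul_of_nonneg_left t2 hβ.le]
    · nlinarith [mul_le_mul_of_nonneg_left t1 hβ.le]
    · nlinarith [mul_nonneg b1 t4]
    · nlinarith [mul_le_mul_of_nonneg_left t3 b1]
    · nlinarith [mul_le_mul_of_nonneg_left u3.1 b2, mul_le_mul_of_nonneg_left u4.2 b2]
    · nlinarith [mul_le_mul_of_nonneg_left u3.2 b2, mul_le_mul_of_nonneg_left u4.1 b2]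

theorem term_inv (hβ : 0 < β) (hm : m ≤ β) : Inv m (term β) := by
  obtain ⟨-, h2, h3, h4, h5⟩ := PReg_term_D hβ
  have w0 : ∀ x, 0 < β * (1 - tanh (β * x) ^ 2) := fun x =>
    mul_pos hβ (sub_pos.2 (tanh_sq_lt_one _))
  have hk : ∀ x, kk m (term β) x = 2 * (β - m) * (β * (1 - tanh (β * x) ^ 2)) := fun x => by
    unfold kk
    rw [h2, h3, h4]
    have hw := (w0 x).ne'
    simp only
    generalize β * (1 - tanh (β * x) ^ 2) = w at *
    field_simp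
    ring
  have hk' : ∀ x, kk' m (term β) x =
      -(4 * β * (β - m) * tanh (β * x) * (β * (1 - tanh (β * x) ^ 2))) := fun x => by
    unfold kk'
    rw [h2, h3, h4, h5]
    have hw := (w0 x).ne'
    simp only
    generalize β * (1 - tanh (β * x) ^ 2) = w at *
    field_simp
    ring
  have hy : ∀ x, yy (term β) x = 2 * β * tanh (β * x) := fun x => by
    unfold yy
    rw [h2, h3]
    have hw := (w0 x).ne'
    simp only
    generalize β * (1 - tanh (β * x) ^ 2) = w at *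
    field_simp
  have hm' := sub_nonneg.2 hm
  refine ⟨fun x => ?_, fun x hx => ?_⟩
  · rw [hk]
    have := w0 x
    positivity
  · rw [hk, hk', hy]
    have hw := w0 x
    have ht : 0 ≤ tanh (β * x) := by
      rw [tanh_eq_sinh_div_cosh]
      exact div_nonneg (sinh_nonneg_iff.2 (mul_nonneg hβ.le hx)) (cosh_pos _).le
    have a1 : 0 ≤ 4 * β * (β - m) * tanh (β * x) * (β * (1 - tanh (β * x) ^ 2)) := by positivity
    have a2 : 0 ≤ 2 * (β - m) * (β * (1 - tanh (β * x) ^ 2)) * (2 * β * tanh (β * x)) / 2 := by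
      positivity
    linarith

theorem term_sub_le (hβ : 0 < β) (x : ℝ) : term β x - x * tanh (β * x) ≤ log 2 / β := by
  have key : ∀ s : ℝ, log (cosh s) ≤ s * tanh s := fun s => by
    have hc := cosh_pos s
    have h1 := log_le_sub_one_of_pos (mul_pos hc (exp_pos (-s)))
    have h2 := log_le_sub_one_of_pos (mul_pos hc (exp_pos s))
    rw [log_mul hc.ne' (exp_pos _).ne', log_exp] at h1 h2
    have h3 := mul_le_mul_of_nonneg_left h1 (exp_pos s).le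
    have h4 := mul_le_mul_of_nonneg_left h2 (exp_pos (-s)).le
    have h5 : exp s * exp (-s) = 1 := by rw [← exp_add]; simp
    have h6 : exp s * (cosh s * exp (-s) - 1) = cosh s - exp s := by
      linear_combination cosh s * h5
    have h7 : exp (-s) * (cosh s * exp s - 1) = cosh s - exp (-s) := by
      linear_combination cosh s * h5
    rw [h6] at h3
    rw [h7] at h4
    rw [tanh_eq_sinh_div_cosh, ← mul_div_assoc, le_div_iff₀ hc]
    have h8 := cosh_add_sinh s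
    have h9 := cosh_sub_sinh s
    rw [← h8] at h3
    rw [← h9] at h4
    linarith
  have h := mul_le_mul_of_nonneg_left (key (β * x)) (inv_pos.2 hβ).le
  unfold term
  rw [log_mul two_ne_zero (cosh_pos _).ne', mul_add, div_eq_inv_mul]
  have e : β⁻¹ * (β * x * tanh (β * x)) = x * tanh (β * x) := by field_simp
  linarith

/-- The replica symmetric part of the recursion is explicit (also after adding a constant). -/
theorem T_term (hβ : 0 < β) {τ : ℝ} (hτ : 0 ≤ τ) (c : ℝ) :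
    T β τ (fun x => term β x + c) = fun x => term β x + (c + β * τ / 2) := by
  funext x
  have hp : ∀ y, 0 < 2 * cosh y := fun y => mul_pos two_pos (cosh_pos y)
  have g : ∀ t : ℝ, ∫ z, exp (t * z) ∂γ1 = exp (t ^ 2 / 2) := fun t => by
    have h := congrFun (mgf_fun_id_gaussianReal (μ := 0) (v := 1)) t
    simpa [mgf] using h
  have e1 : ∀ z, exp (β * (term β (x + √τ * z) + c)) =
      exp (β * c) * exp (β * x) * exp (β * √τ * z) +
        exp (β * c) * exp (-(β * x)) * exp (-(β * √τ) * z) := fun z => by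
    unfold term
    rw [mul_add, ← mul_assoc, mul_inv_cancel₀ hβ.ne', one_mul, exp_add, exp_log (hp _), cosh_eq,
      mul_assoc (exp (β * c)), mul_assoc (exp (β * c)), ← exp_add (β * x), ← exp_add (-(β * x)),
      show β * x + β * √τ * z = β * (x + √τ * z) by ring,
      show -(β * x) + -(β * √τ) * z = -(β * (x + √τ * z)) by ring]
    ring
  have e2 : ∫ z, exp (β * (term β (x + √τ * z) + c)) ∂γ1 =
      2 * cosh (β * x) * exp (β * (c + β * τ / 2)) := by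
    simp only [e1]
    rw [integral_add ((integrable_exp_mul_gaussianReal _).const_mul _)
      ((integrable_exp_mul_gaussianReal _).const_mul _), integral_const_mul, integral_const_mul, g, g,
      neg_sq, mul_pow, sq_sqrt hτ, cosh_eq, mul_add β, exp_add,
      show β * (β * τ / 2) = β ^ 2 * τ / 2 by ring]
    ring
  unfold T
  rw [e2, log_mul (hp _).ne' (exp_pos _).ne', log_exp, mul_add, ← mul_assoc β⁻¹ β,
    inv_mul_cancel₀ hβ.ne', one_mul]
  rfl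

theorem Phi_reg (hβ : 0 < β) (L : ℕ) {g : ℕ → ℝ} (hg : ∀ l, 0 < g l) (l : ℕ) :
    Reg (Phi β L g l) := by
  unfold Phi
  induction L - l with
  | zero => exact term_reg hβ
  | succ k ih => exact ih.T (hg _) _

theorem Psi_reg (hβ : 0 < β) (L : ℕ) {g : ℕ → ℝ} (hg : ∀ l, 0 < g l) (l : ℕ) (τ : ℝ) :
    Reg (Psi β L g l τ) := (Phi_reg hβ L hg (l + 1)).T (hg l) _

theorem Psi_zero (β : ℝ) {L : ℕ} (g : ℕ → ℝ) {l : ℕ} (hl : l < L) :
    Psi β L g l 0 = Phi β L g l := by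
  rw [Psi, Phi_of_lt β g hl, sub_zero]

theorem Psi_end (β : ℝ) (L : ℕ) {g : ℕ → ℝ} (hg : ∀ l, 0 < g l) (l : ℕ) :
    Psi β L g l (1 / L) = Phi β L g (l + 1) := by
  rw [Psi, sub_self, T_zero (hg l)]

end Crest.Agent.R339
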