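import Crest.Agent.R339.QDefs

/-! # Row 339: algebra of the spin-boson model -/

set_option autoImplicit false
set_option linter.unusedSectionVars false
set_option linter.unusedVariables false

namespace Crest.Agent.R339

open MeasureTheory ProbabilityTheory Complex Filter Topology Asymptotics
open scoped InnerProductSpace

variable {H : Type} [NormedAddCommGroup H] [InnerProductSpace ℂ H] [CompleteSpace H]

namespace Weyl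

variable (𝓜 : Weyl H)

theorem W_unitary {g : H} (hg : g ∈ 𝓜.R) : 𝓜.W g ∈ unitary (H →L[ℂ] H) := by
  have h0 : (⟪g, g⟫_ℂ).im = 0 := inner_self_im (𝕜 := ℂ) g
  have hn := 𝓜.R.neg_mem hg
  refine Unitary.mem_iff.2 ⟨?_, ?_⟩
  · rw [𝓜.W_star g hg, 𝓜.W_mul _ hn _ hg, neg_add_cancel, 𝓜.W_zero, inner_neg_left, neg_im, h0]
    simp
  · rw [𝓜.W_star g hg, 𝓜.W_mul _ hg _ hn, add_neg_cancel, 𝓜.W_zero, inner_neg_right, neg_im, h0]
    simp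

theorem QBase_im_symm (u v : H) : (⟪u, v⟫_ℂ).im = -(⟪v, u⟫_ℂ).im := by
  rw [← inner_conj_symm u v, conj_im]

/-- `W u W v = e^{-2 i Im ⟪u, v⟫} W v W u`. -/
theorem W_comm {u v : H} (hu : u ∈ 𝓜.R) (hv : v ∈ 𝓜.R) :
    𝓜.W u * 𝓜.W v = exp (-(2 * I * (⟪u, v⟫_ℂ).im)) • (𝓜.W v * 𝓜.W u) := by
  rw [𝓜.W_mul _ hu _ hv, 𝓜.W_mul _ hv _ hu, smul_smul, ← Complex.exp_add, add_comm v u,
    QBase_im_symm v u]
  congr 2
  push_cast
  ring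

theorem invol_X : 𝓜.Invol 𝓜.X := ⟨𝓜.X_star, 𝓜.X_sq, 𝓜.X_W⟩
theorem invol_Z : 𝓜.Invol 𝓜.Z := ⟨𝓜.Z_star, 𝓜.Z_sq, 𝓜.Z_W⟩
theorem invol_Y : 𝓜.Invol 𝓜.Y := by
  have hZX : 𝓜.Z * 𝓜.X = -(𝓜.X * 𝓜.Z) := by rw [𝓜.XZ, neg_neg]
  refine ⟨?_, ?_, fun g hg => ?_⟩
  · rw [Y, star_smul, star_mul, 𝓜.X_star, 𝓜.Z_star, hZX]
    simp
  · have : 𝓜.X * 𝓜.Z * (𝓜.X * 𝓜.Z) = -1 := by
      rw [mul_assoc, ← mul_assoc 𝓜.Z, hZX, neg_mul, mul_assoc, 𝓜.Z_sq, mul_one, mul_neg, 𝓜.X_sq]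
    rw [Y, smul_mul_smul_comm, this, I_mul_I]
    simp
  · rw [Y, smul_mul_assoc, mul_smul_comm, mul_assoc, 𝓜.Z_W g hg, ← mul_assoc, 𝓜.X_W g hg,
      mul_assoc]

theorem Invol.mem_unitary {𝓜 : Weyl H} {Q : H →L[ℂ] H} (hQ : 𝓜.Invol Q) :
    Q ∈ unitary (H →L[ℂ] H) := by
  refine Unitary.mem_iff.2 ⟨?_, ?_⟩ <;> rw [hQ.star_eq, hQ.sq]

theorem XY : 𝓜.X * 𝓜.Y = I • 𝓜.Z := by
  rw [Y, mul_smul_comm, ← mul_assoc, 𝓜.X_sq, one_mul]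
theorem YZ : 𝓜.Y * 𝓜.Z = I • 𝓜.X := by
  rw [Y, smul_mul_assoc, mul_assoc, 𝓜.Z_sq, mul_one]
theorem ZX : 𝓜.Z * 𝓜.X = I • 𝓜.Y := by
  rw [Y, smul_smul, I_mul_I, 𝓜.XZ]
  simp
theorem YX : 𝓜.Y * 𝓜.X = -(I • 𝓜.Z) := by
  rw [Y, smul_mul_assoc, 𝓜.XZ, neg_mul, mul_assoc, 𝓜.X_sq, mul_one, smul_neg]
theorem ZY : 𝓜.Z * 𝓜.Y = -(I • 𝓜.X) := by
  rw [Y, mul_smul_comm, 𝓜.XZ, mul_neg, ← mul_assoc, 𝓜.Z_sq, one_mul, smul_neg]

theorem B_zero : 𝓜.B 0 = 1 := by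
  simp [B]
theorem B_add (α β : ℝ) : 𝓜.B (α + β) = 𝓜.B α * 𝓜.B β := by
  simp only [B, Real.cos_add, Real.sin_add, sub_mul, mul_sub, smul_mul_smul_comm, 𝓜.X_sq, one_mul,
    mul_one]
  push_cast
  match_scalars
  · linear_combination (-(Complex.sin α * Complex.sin β)) * I_mul_I
  · ring
theorem B_star (β : ℝ) : star (𝓜.B β) = 𝓜.B (-β) := by
  rw [B, B, star_sub, star_smul, star_smul, star_one, 𝓜.X_star, Real.cos_neg, Real.sin_neg]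
  simp only [star_mul', RCLike.star_def, conj_ofReal, conj_I, ofReal_neg, neg_mul, mul_neg]
theorem B_unitary (β : ℝ) : 𝓜.B β ∈ unitary (H →L[ℂ] H) := by
  refine Unitary.mem_iff.2 ⟨?_, ?_⟩
  · rw [B_star, ← B_add, neg_add_cancel, B_zero]
  · rw [B_star, ← B_add, add_neg_cancel, B_zero]
theorem B_cw (β : ℝ) : 𝓜.CW (𝓜.B β) := by
  intro g hg
  rw [B, sub_mul, mul_sub, smul_mul_assoc, smul_mul_assoc, mul_smul_comm, mul_smul_comm,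
    𝓜.X_W g hg, one_mul, mul_one]
theorem Z_B (β : ℝ) : 𝓜.Z * 𝓜.B β = 𝓜.B (-β) * 𝓜.Z := by
  rw [B, B, sub_mul, mul_sub, smul_mul_assoc, smul_mul_assoc, mul_smul_comm, mul_smul_comm,
    𝓜.XZ, one_mul, mul_one, Real.cos_neg, Real.sin_neg]
  simp
theorem B_conj_Z (β : ℝ) : star (𝓜.B β) * 𝓜.Z * 𝓜.B β =
    ((Real.cos (2 * β) : ℝ) : ℂ) • 𝓜.Z + ((Real.sin (2 * β) : ℝ) : ℂ) • 𝓜.Y := by
  rw [B_star, mul_assoc, Z_B, ← mul_assoc, ← B_add, show -β + -β = -(2 * β) by ring, B,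
    Real.cos_neg, Real.sin_neg, sub_mul, smul_mul_assoc, smul_mul_assoc, one_mul, Y]
  push_cast
  match_scalars <;> ring
theorem norm_B_sub_one (β : ℝ) : ‖𝓜.B β - 1‖ ≤ |β| := by
  have h1 : 𝓜.B β - 1 = 𝓜.B (β / 2) * ((-(2 * I * ((Real.sin (β / 2) : ℝ) : ℂ))) • 𝓜.X) := by
    have h2 : (-(2 * I * ((Real.sin (β / 2) : ℝ) : ℂ))) • 𝓜.X =
        𝓜.B (β / 2) - 𝓜.B (-(β / 2)) := by
      rw [B, B, Real.cos_neg, Real.sin_neg]
      push_cast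
      match_scalars <;> ring
    rw [h2, mul_sub, ← B_add, ← B_add, add_halves, add_neg_cancel, B_zero]
  have hX : ‖𝓜.X‖ ≤ 1 := by
    have := CStarRing.norm_mem_unitary_mul (1 : H →L[ℂ] H) 𝓜.invol_X.mem_unitary
    rw [mul_one] at this
    rw [this]
    exact ContinuousLinearMap.norm_id_le
  rw [h1, CStarRing.norm_mem_unitary_mul _ (𝓜.B_unitary _), norm_smul, norm_neg, norm_mul,
    norm_mul, norm_I, Complex.norm_real, Real.norm_eq_abs, Complex.norm_two]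
  have h3 : |Real.sin (β / 2)| ≤ |β| / 2 := by
    have := Real.abs_sin_le_abs (x := β / 2)
    rwa [abs_div, abs_two] at this
  have h4 := abs_nonneg (Real.sin (β / 2))
  nlinarith [norm_nonneg 𝓜.X]

theorem CW.mul {𝓜 : Weyl H} {A A' : H →L[ℂ] H} (h : 𝓜.CW A) (h' : 𝓜.CW A') : 𝓜.CW (A * A') := by
  intro g hg
  rw [mul_assoc, h' g hg, ← mul_assoc, h g hg, mul_assoc]
theorem CW.add {𝓜 : Weyl H} {A A' : H →L[ℂ] H} (h : 𝓜.CW A) (h' : 𝓜.CW A') : 𝓜.CW (A + A') := by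
  intro g hg
  rw [add_mul, mul_add, h g hg, h' g hg]
theorem CW.smul {𝓜 : Weyl H} {A : H →L[ℂ] H} (h : 𝓜.CW A) (c : ℂ) : 𝓜.CW (c • A) := by
  intro g hg
  rw [smul_mul_assoc, mul_smul_comm, h g hg]
theorem CW.star {𝓜 : Weyl H} {A : H →L[ℂ] H} (h : 𝓜.CW A) : 𝓜.CW (star A) := by
  intro g hg
  have hn := 𝓜.R.neg_mem hg
  have := congrArg Star.star (h (-g) hn)
  rw [star_mul, star_mul, 𝓜.W_star _ hn, neg_neg] at this
  exact this.symm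
theorem cw_one : 𝓜.CW 1 := by
  intro g _
  rw [one_mul, mul_one]
theorem Invol.conj {𝓜 : Weyl H} {Q u : H →L[ℂ] H} (hQ : 𝓜.Invol Q)
    (hu : u ∈ unitary (H →L[ℂ] H)) (hc : 𝓜.CW u) : 𝓜.Invol (star u * Q * u) := by
  refine ⟨?_, ?_, (hc.star.mul hQ.cw).mul hc⟩
  · rw [star_mul, star_mul, star_star, hQ.star_eq, mul_assoc]
  · calc star u * Q * u * (star u * Q * u) = star u * (Q * (u * star u) * Q) * u := by
          simp only [mul_assoc]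
      _ = 1 := by
          rw [Unitary.mul_star_self_of_mem hu, mul_one, hQ.sq, mul_one,
            Unitary.star_mul_self_of_mem hu]

section WQ
variable {𝓜} {Q : H →L[ℂ] H} (hQ : 𝓜.Invol Q)
include hQ

theorem WQ_eq (g : H) :
    𝓜.WQ Q g = (1 / 2 : ℂ) • ((1 + Q) * 𝓜.W g) + (1 / 2 : ℂ) • ((1 - Q) * 𝓜.W (-g)) := by
  simp only [WQ, cosW, sinW, add_mul, sub_mul, mul_sub, one_mul, mul_smul_comm]
  match_scalars <;> field_simp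
theorem WQ_zero : 𝓜.WQ Q 0 = 1 := by
  rw [WQ_eq hQ, neg_zero, 𝓜.W_zero, mul_one, mul_one]
  match_scalars <;> ring
theorem WQ_star {g : H} (hg : g ∈ 𝓜.R) : star (𝓜.WQ Q g) = 𝓜.WQ Q (-g) := by
  have hn := 𝓜.R.neg_mem hg
  rw [WQ_eq hQ, WQ_eq hQ, star_add, star_smul, star_smul, star_mul, star_mul, star_add, star_sub,
    star_one, hQ.star_eq, 𝓜.W_star g hg, 𝓜.W_star _ hn, neg_neg]
  simp only [mul_add, mul_sub, add_mul, sub_mul, mul_one, one_mul, hQ.cw _ hg, hQ.cw _ hn]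
  simp
theorem WQ_mul {g h : H} (hg : g ∈ 𝓜.R) (hh : h ∈ 𝓜.R) :
    𝓜.WQ Q g * 𝓜.WQ Q h = exp (-(I * (⟪g, h⟫_ℂ).im)) • 𝓜.WQ Q (g + h) := by
  have hn := 𝓜.R.neg_mem hg
  have hQQ : ∀ A : H →L[ℂ] H, Q * (Q * A) = A := fun A => by rw [← mul_assoc, hQ.sq, one_mul]
  have e1 : ∀ u ∈ 𝓜.R, ∀ A : H →L[ℂ] H, 𝓜.W u * (Q * A) = Q * (𝓜.W u * A) := fun u hu A => by
    rw [← mul_assoc, ← hQ.cw u hu, mul_assoc]
  have h1 := 𝓜.W_mul g hg h hh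
  have h2 := 𝓜.W_mul _ hn _ (𝓜.R.neg_mem hh)
  rw [inner_neg_neg, ← neg_add] at h2
  rw [WQ_eq hQ, WQ_eq hQ, WQ_eq hQ]
  simp only [mul_add, mul_sub, add_mul, sub_mul, one_mul, mul_smul_comm, smul_mul_assoc, mul_assoc,
    e1 g hg, e1 _ hn, hQQ, h1, h2]
  match_scalars <;> ring
theorem WQ_unitary {g : H} (hg : g ∈ 𝓜.R) : 𝓜.WQ Q g ∈ unitary (H →L[ℂ] H) := by
  have h0 : (⟪g, g⟫_ℂ).im = 0 := inner_self_im (𝕜 := ℂ) g
  have hn := 𝓜.R.neg_mem hg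
  refine Unitary.mem_iff.2 ⟨?_, ?_⟩
  · rw [WQ_star hQ hg, WQ_mul hQ hn hg, neg_add_cancel, WQ_zero hQ, inner_neg_left, neg_im, h0]
    simp
  · rw [WQ_star hQ hg, WQ_mul hQ hg hn, add_neg_cancel, WQ_zero hQ, inner_neg_right, neg_im, h0]
    simp
/-- Operators commuting with `Q` and the Weyl operators commute with `WQ`. -/
theorem WQ_comm {A : H →L[ℂ] H} (hA : 𝓜.CW A) (h : A * Q = Q * A) {g : H} (hg : g ∈ 𝓜.R) :
    A * 𝓜.WQ Q g = 𝓜.WQ Q g * A := by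
  have hn := 𝓜.R.neg_mem hg
  have e1 : ∀ B : H →L[ℂ] H, A * (Q * B) = Q * (A * B) := fun B => by
    rw [← mul_assoc, h, mul_assoc]
  rw [WQ_eq hQ]
  simp only [mul_add, mul_sub, add_mul, sub_mul, one_mul, mul_smul_comm, smul_mul_assoc, mul_assoc,
    e1, hA _ hg, hA _ hn]
theorem WQ_anticomm {A : H →L[ℂ] H} (hA : 𝓜.CW A) (h : A * Q = -(Q * A)) {g : H} (hg : g ∈ 𝓜.R) :
    A * 𝓜.WQ Q g = 𝓜.WQ Q (-g) * A := by
  have hn := 𝓜.R.neg_mem hg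
  have e1 : ∀ B : H →L[ℂ] H, A * (Q * B) = -(Q * (A * B)) := fun B => by
    rw [← mul_assoc, h, neg_mul, mul_assoc]
  rw [WQ_eq hQ, WQ_eq hQ, neg_neg]
  simp only [mul_add, mul_sub, add_mul, sub_mul, one_mul, mul_smul_comm, smul_mul_assoc, mul_assoc,
    e1, hA _ hg, hA _ hn]
  match_scalars <;> ring
theorem WQ_conj {u : H →L[ℂ] H} (hu : u ∈ unitary (H →L[ℂ] H)) (hc : 𝓜.CW u) {g : H}
    (hg : g ∈ 𝓜.R) : star u * 𝓜.WQ Q g * u = 𝓜.WQ (star u * Q * u) g := by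
  have hn := 𝓜.R.neg_mem hg
  have e1 : ∀ B : H →L[ℂ] H, star u * (u * B) = B := fun B => by
    rw [← mul_assoc, Unitary.star_mul_self_of_mem hu, one_mul]
  rw [WQ_eq hQ, WQ_eq (hQ.conj hu hc)]
  simp only [mul_add, mul_sub, add_mul, sub_mul, one_mul, mul_smul_comm, smul_mul_assoc, mul_assoc,
    ← hc _ hg, ← hc _ hn, e1]
/-- Moving a displacement through `WQ` produces a rotation about `Q`. -/
theorem WQ_W {g v : H} (hg : g ∈ 𝓜.R) (hv : v ∈ 𝓜.R) :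
    𝓜.WQ Q g * 𝓜.W v = 𝓜.W v * ((((Real.cos (2 * (⟪g, v⟫_ℂ).im) : ℝ) : ℂ) • 1 -
      (I * ((Real.sin (2 * (⟪g, v⟫_ℂ).im) : ℝ) : ℂ)) • Q) * 𝓜.WQ Q g) := by
  have hn := 𝓜.R.neg_mem hg
  have hQQ : ∀ A : H →L[ℂ] H, Q * (Q * A) = A := fun A => by rw [← mul_assoc, hQ.sq, one_mul]
  have e1 : ∀ A : H →L[ℂ] H, 𝓜.W v * (Q * A) = Q * (𝓜.W v * A) := fun A => by
    rw [← mul_assoc, ← hQ.cw v hv, mul_assoc]
  have h1 := 𝓜.W_comm hg hv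
  have h2 := 𝓜.W_comm hn hv
  rw [inner_neg_left, neg_im] at h2
  generalize (⟪g, v⟫_ℂ).im = s at h1 h2 ⊢
  have h3 : exp (-(2 * I * (s : ℂ))) = Complex.cos (2 * s) - Complex.sin (2 * s) * I := by
    rw [show -(2 * I * (s : ℂ)) = (-(2 * s)) * I by ring, Complex.exp_mul_I, Complex.cos_neg,
      Complex.sin_neg]
    ring
  have h4 : exp (-(2 * I * ((-s : ℝ) : ℂ))) = Complex.cos (2 * s) + Complex.sin (2 * s) * I := by
    rw [show -(2 * I * ((-s : ℝ) : ℂ)) = (2 * s) * I by push_cast; ring, Complex.exp_mul_I]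
  rw [h3] at h1
  rw [h4] at h2
  rw [WQ_eq hQ]
  simp only [mul_add, mul_sub, add_mul, sub_mul, one_mul, mul_smul_comm, smul_mul_assoc, mul_assoc,
    e1, hQQ, h1, h2]
  push_cast
  match_scalars <;> ring

end WQ

theorem norm_br {U O : H →L[ℂ] H} (hU : U ∈ unitary (H →L[ℂ] H)) :
    ‖𝓜.br U O‖ = ‖O (U 𝓜.Ω)‖ := by
  rw [br, ContinuousLinearMap.norm_map_of_mem_unitary (Unitary.star_mem hU)]
theorem norm_br_invol {U Q : H →L[ℂ] H} (hU : U ∈ unitary (H →L[ℂ] H)) (hQ : 𝓜.Invol Q) :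
    ‖𝓜.br U Q‖ = 1 := by
  rw [𝓜.norm_br hU, ContinuousLinearMap.norm_map_of_mem_unitary hQ.mem_unitary,
    ContinuousLinearMap.norm_map_of_mem_unitary hU, 𝓜.Ω_norm]
theorem br_mul (V U O : H →L[ℂ] H) : 𝓜.br (V * U) O = 𝓜.br U (star V * O * V) := by
  simp only [br, star_mul, mul_apply_eq_comp]
theorem inner_br {U : H →L[ℂ] H} (hU : U ∈ unitary (H →L[ℂ] H)) (O O' : H →L[ℂ] H) :
    ⟪𝓜.br U O, 𝓜.br U O'⟫_ℂ = ⟪O (U 𝓜.Ω), O' (U 𝓜.Ω)⟫_ℂ := by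
  rw [br, br, ContinuousLinearMap.inner_map_map_of_mem_unitary (Unitary.star_mem hU)]
theorem QBase_apply_br {U : H →L[ℂ] H} (hU : U ∈ unitary (H →L[ℂ] H)) (O : H →L[ℂ] H) :
    U (𝓜.br U O) = O (U 𝓜.Ω) := by
  rw [br, ← mul_apply_eq_comp, Unitary.mul_star_self_of_mem hU,
    one_apply_eq_self]
/-- Continuity of `⟦O⟧` in the state. -/
theorem norm_br_sub_le {U V : H →L[ℂ] H} (hU : U ∈ unitary (H →L[ℂ] H))
    (hV : V ∈ unitary (H →L[ℂ] H)) (O : H →L[ℂ] H) :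
    ‖𝓜.br U O - 𝓜.br V O‖ ≤ ‖O‖ * ‖U 𝓜.Ω - V 𝓜.Ω‖ + ‖U (𝓜.br V O) - V (𝓜.br V O)‖ := by
  rw [← ContinuousLinearMap.norm_map_of_mem_unitary hU (𝓜.br U O - 𝓜.br V O), map_sub,
    𝓜.QBase_apply_br hU]
  have h1 : O (U 𝓜.Ω) - U (𝓜.br V O) =
      O (U 𝓜.Ω - V 𝓜.Ω) - (U (𝓜.br V O) - V (𝓜.br V O)) := by
    rw [𝓜.QBase_apply_br hV, map_sub]
    abel
  rw [h1]
  exact (norm_sub_le _ _).trans (add_le_add (O.le_opNorm _) le_rfl)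

theorem QBase_WZ_zero : 𝓜.WZ 0 = 1 := WQ_zero 𝓜.invol_Z
theorem QBase_WZ_mul {g h : H} (hg : g ∈ 𝓜.R) (hh : h ∈ 𝓜.R) :
    𝓜.WZ g * 𝓜.WZ h = exp (-(I * (⟪g, h⟫_ℂ).im)) • 𝓜.WZ (g + h) := WQ_mul 𝓜.invol_Z hg hh
theorem QBase_br_smul {c : ℂ} (hc : ‖c‖ = 1) (U O : H →L[ℂ] H) :
    𝓜.br (c • U) O = 𝓜.br U O := by
  have h1 : c * star c = 1 := by
    rw [RCLike.star_def, mul_conj', hc]
    simp
  simp only [br, star_smul, smul_apply, map_smul, smul_smul, h1, one_smul]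
theorem QBase_C_smul {c : ℂ} (hc : ‖c‖ = 1) (γ : ℝ) (U : H →L[ℂ] H) :
    𝓜.C γ (c • U) = c • 𝓜.C γ U := by
  rw [C, C, 𝓜.QBase_br_smul hc, mul_smul_comm]
theorem QBase_C_zero (U : H →L[ℂ] H) : 𝓜.C 0 U = U := by
  rw [C, zero_smul, neg_zero, 𝓜.QBase_WZ_zero, one_mul]
theorem QBase_norm_phase (s : ℝ) : ‖exp (-(I * (s : ℂ)))‖ = 1 := by
  rw [show -(I * (s : ℂ)) = ((-s : ℝ) : ℂ) * I by push_cast; ring, Complex.norm_exp_ofReal_mul_I]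

theorem QReach.mem_unitary {𝓜 : Weyl H} (hR : 𝓜.R = ⊤) {U : H →L[ℂ] H} (hU : 𝓜.QReach U) :
    U ∈ unitary (H →L[ℂ] H) := by
  induction hU with
  | one => exact one_mem _
  | B β _ ih => exact mul_mem (𝓜.B_unitary β) ih
  | C γ _ ih => exact mul_mem (WQ_unitary 𝓜.invol_Z (by rw [hR]; trivial)) ih
theorem QReach.exists_qaoa {𝓜 : Weyl H} {U : H →L[ℂ] H} (hU : 𝓜.QReach U) :
    ∃ angles, U = 𝓜.qaoa angles := by
  induction hU with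
  | one => exact ⟨[], rfl⟩
  | B β _ ih =>
    obtain ⟨a, rfl⟩ := ih
    refine ⟨a ++ [(0, β)], ?_⟩
    simp only [qaoa, List.foldl_append, List.foldl_cons, List.foldl_nil, QBase_C_zero]
  | C γ _ ih =>
    obtain ⟨a, rfl⟩ := ih
    refine ⟨a ++ [(γ, 0)], ?_⟩
    simp only [qaoa, List.foldl_append, List.foldl_cons, List.foldl_nil, B_zero, one_mul]
theorem Uo_unitary (β : ℕ → ℝ) {x : ℕ → H} (hx : ∀ j, x j ∈ 𝓜.R) (k : ℕ) :
    𝓜.Uo β x k ∈ unitary (H →L[ℂ] H) := by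
  induction k with
  | zero => exact one_mem _
  | succ k ih =>
    exact mul_mem (mul_mem (𝓜.B_unitary _) (WQ_unitary 𝓜.invol_Z (𝓜.R.neg_mem (hx k)))) ih
theorem Uo_congr {β β' : ℕ → ℝ} {x x' : ℕ → H} {k : ℕ} (hβ : ∀ j < k, β j = β' j)
    (hx : ∀ j < k, x j = x' j) : 𝓜.Uo β x k = 𝓜.Uo β' x' k := by
  induction k with
  | zero => rfl
  | succ k ih =>
    rw [Uo, Uo, hβ k (Nat.lt_succ_self k), hx k (Nat.lt_succ_self k),
      ih (fun j hj => hβ j (Nat.lt_succ_of_lt hj)) (fun j hj => hx j (Nat.lt_succ_of_lt hj))]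
theorem UE_eq (β γ τ : ℕ → ℝ) (k : ℕ) :
    𝓜.UE β γ τ k = 𝓜.Uo β (fun j => γ j • 𝓜.gE β γ τ j + τ j • 𝓜.Ω) k := by
  induction k with
  | zero => rfl
  | succ k ih => rw [UE, Uo, ← ih, gE]
theorem UE_reach {𝓜 : Weyl H} (h : 𝓜.EClosed) (β γ τ : ℕ → ℝ) (k : ℕ) :
    ∃ c : ℂ, ‖c‖ = 1 ∧ 𝓜.EReach (c • 𝓜.UE β γ τ k) := by
  induction k with
  | zero => exact ⟨1, norm_one, by rw [one_smul]; exact EReach.one⟩
  | succ k ih =>
    obtain ⟨c, hc, hU⟩ := ih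
    have hg : 𝓜.br (𝓜.UE β γ τ k) 𝓜.Z ∈ 𝓜.R := by
      rw [← 𝓜.QBase_br_smul hc]
      exact h.2 _ hU
    have h1 := EReach.B (β k) (EReach.E (τ k) (EReach.C (γ k) hU))
    have ha : -(τ k • 𝓜.Ω) ∈ 𝓜.R := 𝓜.R.neg_mem (𝓜.R.smul_mem _ h.1)
    have hb : -(γ k • 𝓜.br (𝓜.UE β γ τ k) 𝓜.Z) ∈ 𝓜.R := 𝓜.R.neg_mem (𝓜.R.smul_mem _ hg)
    rw [𝓜.QBase_C_smul hc, C, mul_smul_comm, ← mul_assoc, WQ_mul 𝓜.invol_Z ha hb, ← neg_add,
      add_comm (τ k • 𝓜.Ω), smul_mul_assoc, smul_smul, mul_smul_comm, ← mul_assoc] at h1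
    exact ⟨_, by rw [norm_mul, hc, QBase_norm_phase, one_mul], h1⟩
theorem gE_mem {𝓜 : Weyl H} (h : 𝓜.EClosed) (β γ τ : ℕ → ℝ) (k : ℕ) : 𝓜.gE β γ τ k ∈ 𝓜.R := by
  obtain ⟨c, hc, hU⟩ := UE_reach h β γ τ k
  rw [gE, ← 𝓜.QBase_br_smul hc]
  exact h.2 _ hU
theorem QBase_UE_congr {β β' γ γ' τ τ' : ℕ → ℝ} {k : ℕ} (hβ : ∀ j < k, β j = β' j)
    (hγ : ∀ j < k, γ j = γ' j) (hτ : ∀ j < k, τ j = τ' j) :
    𝓜.UE β γ τ k = 𝓜.UE β' γ' τ' k := by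
  induction k with
  | zero => rfl
  | succ k ih =>
    rw [UE, UE, hβ k (Nat.lt_succ_self k), hγ k (Nat.lt_succ_self k), hτ k (Nat.lt_succ_self k),
      ih (fun j hj => hβ j (Nat.lt_succ_of_lt hj)) (fun j hj => hγ j (Nat.lt_succ_of_lt hj))
        (fun j hj => hτ j (Nat.lt_succ_of_lt hj))]
/-- One block of three steps. -/
theorem QBase_UE_block (b c t : ℕ → ℝ) (p : ℕ) :
    𝓜.UE (tri b) (fst3 c) (fst3 t) (3 * (p + 1)) = 𝓜.B (4 * b p) *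
      𝓜.WZ (-(c p • 𝓜.br (𝓜.UE (tri b) (fst3 c) (fst3 t) (3 * p)) 𝓜.Z + t p • 𝓜.Ω)) *
        𝓜.UE (tri b) (fst3 c) (fst3 t) (3 * p) := by
  have a0 : tri b (3 * p) = b p := by
    rw [tri, if_neg (by omega), show 3 * p / 3 = p by omega]
  have a1 : tri b (3 * p + 1) = 2 * b p := by
    rw [tri, if_pos (by omega), show (3 * p + 1) / 3 = p by omega]
  have a2 : tri b (3 * p + 1 + 1) = b p := by
    rw [tri, if_neg (by omega), show (3 * p + 1 + 1) / 3 = p by omega]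
  have f0 : ∀ c : ℕ → ℝ, fst3 c (3 * p) = c p := fun c => by
    rw [fst3, if_pos (by omega), show 3 * p / 3 = p by omega]
  have f1 : ∀ c : ℕ → ℝ, fst3 c (3 * p + 1) = 0 := fun c => by rw [fst3, if_neg (by omega)]
  have f2 : ∀ c : ℕ → ℝ, fst3 c (3 * p + 1 + 1) = 0 := fun c => by rw [fst3, if_neg (by omega)]
  rw [show 3 * (p + 1) = 3 * p + 1 + 1 + 1 by ring, UE, a2, f2, f2, zero_smul, zero_smul, add_zero,
    neg_zero, 𝓜.QBase_WZ_zero, mul_one, UE, a1, f1, f1, zero_smul, zero_smul, add_zero,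
    neg_zero, 𝓜.QBase_WZ_zero, mul_one, UE, a0, f0, f0,
    show 4 * b p = b p + (2 * b p + b p) by ring, B_add, B_add]
  simp only [mul_assoc]
theorem QBase_UE_update (b c t : ℕ → ℝ) (p : ℕ) (x y z : ℝ) :
    𝓜.UE (tri (Function.update b p x)) (fst3 (Function.update c p y))
      (fst3 (Function.update t p z)) (3 * (p + 1)) = 𝓜.B (4 * x) *
      𝓜.WZ (-(y • 𝓜.br (𝓜.UE (tri b) (fst3 c) (fst3 t) (3 * p)) 𝓜.Z + z • 𝓜.Ω)) *
        𝓜.UE (tri b) (fst3 c) (fst3 t) (3 * p) := by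
  have hf : ∀ (c : ℕ → ℝ) (y : ℝ), ∀ j < 3 * p, fst3 (Function.update c p y) j = fst3 c j :=
    fun c y j hj => by
      rw [fst3, fst3, Function.update_of_ne (by omega)]
  have h1 : 𝓜.UE (tri (Function.update b p x)) (fst3 (Function.update c p y))
      (fst3 (Function.update t p z)) (3 * p) = 𝓜.UE (tri b) (fst3 c) (fst3 t) (3 * p) :=
    𝓜.QBase_UE_congr (fun j hj => by rw [tri, tri, Function.update_of_ne (by omega)])
      (hf c y) (hf t z)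
  rw [QBase_UE_block, h1, Function.update_self, Function.update_self, Function.update_self]
theorem QBase_exists_tri {𝓜 : Weyl H} {U : H →L[ℂ] H} (hU : 𝓜.EReach U) :
    ∃ (p : ℕ) (b c t : ℕ → ℝ), 1 ≤ p ∧ U = 𝓜.UE (tri b) (fst3 c) (fst3 t) (3 * p) := by
  induction hU with
  | one =>
    refine ⟨0 + 1, fun _ => 0, fun _ => 0, fun _ => 0, le_rfl, ?_⟩
    rw [QBase_UE_block, mul_zero, B_zero, zero_smul, zero_smul, add_zero, neg_zero,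
      𝓜.QBase_WZ_zero, mul_zero, UE, one_mul, one_mul]
  | B β _ ih =>
    obtain ⟨p, b, c, t, hp, rfl⟩ := ih
    refine ⟨p + 1, Function.update b p (β / 4), Function.update c p 0, Function.update t p 0,
      by omega, ?_⟩
    rw [QBase_UE_update, zero_smul, zero_smul, add_zero, neg_zero, 𝓜.QBase_WZ_zero, mul_one,
      show 4 * (β / 4) = β by ring]
  | C γ _ ih =>
    obtain ⟨p, b, c, t, hp, rfl⟩ := ih
    refine ⟨p + 1, Function.update b p 0, Function.update c p γ, Function.update t p 0,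
      by omega, ?_⟩
    rw [QBase_UE_update, zero_smul, add_zero, mul_zero, B_zero, one_mul, C]
  | E τ _ ih =>
    obtain ⟨p, b, c, t, hp, rfl⟩ := ih
    refine ⟨p + 1, Function.update b p 0, Function.update c p 0, Function.update t p τ,
      by omega, ?_⟩
    rw [QBase_UE_update, zero_smul, zero_add, mul_zero, B_zero, one_mul]
/-- Normal form of a label protocol: blocks of three steps. -/
theorem EReach.exists_tri {𝓜 : Weyl H} (h : 𝓜.EClosed) {U : H →L[ℂ] H} (hU : 𝓜.EReach U) :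
    ∃ (p : ℕ) (b c t : ℕ → ℝ), 1 ≤ p ∧
      𝓜.br U 𝓜.Z = 𝓜.gE (tri b) (fst3 c) (fst3 t) (3 * p) := by
  obtain ⟨p, b, c, t, hp, rfl⟩ := QBase_exists_tri hU
  exact ⟨p, b, c, t, hp, rfl⟩

end Weyl

end Crest.Agent.R339
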