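import Crest.Agent.R339.PDefs

/-!
# Row 339, quantum side: definitions

The `n → ∞` limit of the alternating ansatz is a self-consistent spin-boson model: a state is a
unitary `U` on a Hilbert space `H` carrying Pauli operators `X, Z`, a unit vector `Ω` and a Weyl
system `W` indexed by (a real subspace `R` of) `H` itself; `br U O = U† O U Ω`; the mixer is
`U ↦ B β * U`, the cost rotation is `U ↦ WZ (-(γ • br U Z)) * U`.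
-/

set_option autoImplicit false

namespace Crest.Agent.R339

open MeasureTheory ProbabilityTheory Complex Filter Topology
open scoped InnerProductSpace

/-- Spin-boson model. -/
structure Weyl (H : Type) [NormedAddCommGroup H] [InnerProductSpace ℂ H] [CompleteSpace H] where
  X : H →L[ℂ] H
  Z : H →L[ℂ] H
  Ω : H
  R : Submodule ℝ H
  W : H → H →L[ℂ] H
  X_star : star X = X
  Z_star : star Z = Z
  X_sq : X * X = 1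
  Z_sq : Z * Z = 1
  XZ : X * Z = -(Z * X)
  Ω_norm : ‖Ω‖ = 1
  XΩ : X Ω = Ω
  W_zero : W 0 = 1
  W_star : ∀ g ∈ R, star (W g) = W (-g)
  W_mul : ∀ g ∈ R, ∀ h ∈ R, W g * W h = exp (-(I * (⟪g, h⟫_ℂ).im)) • W (g + h)
  X_W : ∀ g ∈ R, X * W g = W g * X
  Z_W : ∀ g ∈ R, Z * W g = W g * Z
  vac : ∀ g ∈ R, ⟪Ω, W g Ω⟫_ℂ = exp (-((‖g‖ : ℂ) ^ 2 / 2))

variable {H : Type} [NormedAddCommGroup H] [InnerProductSpace ℂ H] [CompleteSpace H]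

/-- `U` lies in the strong closure of `S`. -/
def Approx (S : Set (H →L[ℂ] H)) (U : H →L[ℂ] H) : Prop :=
  ∀ (F : Finset H) (ε : ℝ), 0 < ε → ∃ V ∈ S, ∀ ψ ∈ F, ‖U ψ - V ψ‖ < ε

namespace Weyl

variable (𝓜 : Weyl H)

/-- The third Pauli operator. -/
noncomputable def Y : H →L[ℂ] H := I • (𝓜.X * 𝓜.Z)

/-- The mixer `exp (-i β X)`. -/
noncomputable def B (β : ℝ) : H →L[ℂ] H :=
  ((Real.cos β : ℝ) : ℂ) • (1 : H →L[ℂ] H) - (I * ((Real.sin β : ℝ) : ℂ)) • 𝓜.X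

/-- `cos φ(g)`. -/
noncomputable def cosW (g : H) : H →L[ℂ] H := (1 / 2 : ℂ) • (𝓜.W g + 𝓜.W (-g))

/-- `sin φ(g)`. -/
noncomputable def sinW (g : H) : H →L[ℂ] H := (1 / (2 * I) : ℂ) • (𝓜.W g - 𝓜.W (-g))

/-- `exp (i Q φ(g))` for an involution `Q` commuting with the Weyl operators. -/
noncomputable def WQ (Q : H →L[ℂ] H) (g : H) : H →L[ℂ] H := 𝓜.cosW g + I • (Q * 𝓜.sinW g)

/-- `exp (i Z φ(g))`. -/
noncomputable abbrev WZ (g : H) : H →L[ℂ] H := 𝓜.WQ 𝓜.Z g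

/-- `⟦O⟧ = U† O U Ω`. -/
noncomputable def br (U O : H →L[ℂ] H) : H := star U (O (U 𝓜.Ω))

/-- The operator commutes with the Weyl operators. -/
def CW (A : H →L[ℂ] H) : Prop := ∀ g ∈ 𝓜.R, A * 𝓜.W g = 𝓜.W g * A

/-- A self-adjoint involution commuting with the Weyl operators. -/
structure Invol (Q : H →L[ℂ] H) : Prop where
  star_eq : star Q = Q
  sq : Q * Q = 1
  cw : 𝓜.CW Q

/-- The limiting energy per spin, as a function of `g = ⟦Z⟧`: `Re ⟪g, φ(g) Ω⟫`. -/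
noncomputable def energy (g : H) : ℝ := deriv (fun t : ℝ => (⟪g, 𝓜.W (t • g) 𝓜.Ω⟫_ℂ).im) 0

/-- The field operator on regular vectors. -/
noncomputable def phi (u ψ : H) : H := (-I) • deriv (fun t : ℝ => 𝓜.W (t • u) ψ) 0

/-- First order regularity. -/
def P1 (ψ : H) (c : ℝ) : Prop := ∀ u ∈ 𝓜.R, ‖𝓜.W u ψ - ψ‖ ≤ c * ‖u‖

/-- Second order regularity. -/
def P2 (ψ : H) (c : ℝ) : Prop :=
  ∀ u ∈ 𝓜.R, ∀ v ∈ 𝓜.R, ‖𝓜.W u (𝓜.W v ψ - ψ) - (𝓜.W v ψ - ψ)‖ ≤ c * ‖u‖ * ‖v‖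

/-- `c` bounds the norm and both regularity seminorms. -/
def P (ψ : H) (c : ℝ) : Prop := ‖ψ‖ ≤ c ∧ 𝓜.P1 ψ c ∧ 𝓜.P2 ψ c

/-- Regular vectors. -/
def Regu (ψ : H) : Prop := ∃ c, 𝓜.P ψ c

/-- The cost rotation in the state `U`. -/
noncomputable def C (γ : ℝ) (U : H →L[ℂ] H) : H →L[ℂ] H := 𝓜.WZ (-(γ • 𝓜.br U 𝓜.Z)) * U

/-- The state of the alternating ansatz. -/
noncomputable def qaoa (angles : List (ℝ × ℝ)) : H →L[ℂ] H :=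
  angles.foldl (fun U a => 𝓜.B a.2 * 𝓜.C a.1 U) 1

/-- States reachable by mixers and cost rotations. -/
inductive QReach : (H →L[ℂ] H) → Prop
  | one : QReach 1
  | B (β : ℝ) {U : H →L[ℂ] H} : QReach U → QReach (𝓜.B β * U)
  | C (γ : ℝ) {U : H →L[ℂ] H} : QReach U → QReach (𝓜.C γ U)

/-- States reachable with the extra gate `exp (-i τ Z η)`, `η = φ(Ω)` a Gaussian label. -/
inductive EReach : (H →L[ℂ] H) → Prop
  | one : EReach 1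
  | B (β : ℝ) {U : H →L[ℂ] H} : EReach U → EReach (𝓜.B β * U)
  | C (γ : ℝ) {U : H →L[ℂ] H} : EReach U → EReach (𝓜.C γ U)
  | E (τ : ℝ) {U : H →L[ℂ] H} : EReach U → EReach (𝓜.WZ (-(τ • 𝓜.Ω)) * U)

/-- Open protocol: the field vectors `x k` are prescribed. -/
noncomputable def Uo (β : ℕ → ℝ) (x : ℕ → H) : ℕ → H →L[ℂ] H
  | 0 => 1
  | k + 1 => 𝓜.B (β k) * 𝓜.WZ (-x k) * Uo β x k

/-- `⟦Z⟧` at time `k` of the open protocol. -/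
noncomputable def go (β : ℕ → ℝ) (x : ℕ → H) (k : ℕ) : H := 𝓜.br (𝓜.Uo β x k) 𝓜.Z

/-- Closed protocol with label gates. -/
noncomputable def UE (β γ τ : ℕ → ℝ) : ℕ → H →L[ℂ] H
  | 0 => 1
  | k + 1 => 𝓜.B (β k) * 𝓜.WZ (-(γ k • 𝓜.br (UE β γ τ k) 𝓜.Z + τ k • 𝓜.Ω)) * UE β γ τ k

/-- `⟦Z⟧` at time `k` of the closed protocol. -/
noncomputable def gE (β γ τ : ℕ → ℝ) (k : ℕ) : H := 𝓜.br (𝓜.UE β γ τ k) 𝓜.Z

/-- The response of `Z` at time `l` to the label. -/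
noncomputable def sE (β γ τ : ℕ → ℝ) (l : ℕ) : ℝ :=
  ∑ i ∈ Finset.range l, τ i * (⟪𝓜.gE β γ τ i, 𝓜.gE β γ τ l⟫_ℂ).im

/-- The model is closed under the label protocols. -/
def EClosed : Prop := 𝓜.Ω ∈ 𝓜.R ∧ ∀ U, 𝓜.EReach U → 𝓜.br U 𝓜.Z ∈ 𝓜.R

/-- A family of vectors, regular uniformly as `σ → 0+`. -/
def RegF (ξ : ℝ → H) : Prop := ∃ c, ∀ᶠ σ in 𝓝[>] (0 : ℝ), 𝓜.P (ξ σ) c

end Weyl

/-- Mixer angles of a protocol made of blocks `b, 2 b, b`. -/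
def tri (b : ℕ → ℝ) (k : ℕ) : ℝ := if k % 3 = 1 then 2 * b (k / 3) else b (k / 3)

/-- Angles supported on the first step of each block. -/
def fst3 (c : ℕ → ℝ) (k : ℕ) : ℝ := if k % 3 = 0 then c (k / 3) else 0

/-- Bounded measurable functions of the labels. -/
def BM {K : ℕ} (ψ : (Fin (K + 1) → ℝ) → ℂ) : Prop := Measurable ψ ∧ ∃ C, ∀ ω, ‖ψ ω‖ ≤ C

/-- The function depends only on the labels `0, …, l`. -/
def Lvl {K : ℕ} {α : Type} (l : ℕ) (θ : (Fin (K + 1) → ℝ) → α) : Prop :=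
  ∀ ω ω', (∀ b : Fin (K + 1), b.val ≤ l → ω b = ω' b) → θ ω = θ ω'

/-- Spin-boson model with classical Gaussian labels: the label `ω a` is the field `φ(f_a Ω)`. -/
structure Label {K : ℕ} (A : AMP K) (H : Type) [NormedAddCommGroup H] [InnerProductSpace ℂ H]
    [CompleteSpace H] extends Weyl H where
  M : ((Fin (K + 1) → ℝ) → ℂ) → H →L[ℂ] H
  M_const : ∀ c : ℂ, M (fun _ => c) = c • (1 : H →L[ℂ] H)
  M_add : ∀ ψ χ, BM ψ → BM χ → M (fun ω => ψ ω + χ ω) = M ψ + M χ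
  M_mul : ∀ ψ χ, BM ψ → BM χ → M (fun ω => ψ ω * χ ω) = M ψ * M χ
  M_star : ∀ ψ, BM ψ → star (M ψ) = M fun ω => (starRingEnd ℂ) (ψ ω)
  M_norm : ∀ ψ (c : ℝ), Measurable ψ → (∀ ω, ‖ψ ω‖ ≤ c) → ‖M ψ‖ ≤ c
  M_lim : ∀ (ψ : ℕ → (Fin (K + 1) → ℝ) → ℂ) χ (c : ℝ), (∀ n, Measurable (ψ n)) → BM χ →
    (∀ n ω, ‖ψ n ω‖ ≤ c) → (∀ᵐ ω ∂gam K, Tendsto (fun n => ψ n ω) atTop (𝓝 (χ ω))) →
    ∀ ξ, Tendsto (fun n => M (ψ n) ξ) atTop (𝓝 (M χ ξ))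
  M_X : ∀ ψ, BM ψ → M ψ * X = X * M ψ
  M_Z : ∀ ψ, BM ψ → M ψ * Z = Z * M ψ
  M_W : ∀ ψ, BM ψ → ∀ g ∈ R, M ψ * W g = W g * M ψ
  mem_R : ∀ g, g ∈ R ↔ ∀ a, (⟪M (fun ω => (A.f a ω : ℂ)) Ω, g⟫_ℂ).im = 0
  W_v : ∀ a (t : ℝ), W (t • M (fun ω => (A.f a ω : ℂ)) Ω) = M fun ω => exp (I * (t * ω a : ℝ))
  vacM : ∀ ψ, BM ψ → ∀ g ∈ R, ⟪Ω, M ψ (W g Ω)⟫_ℂ =
    (∫ ω, ψ ω * exp (I * (∑ a, (⟪M (fun ω => (A.f a ω : ℂ)) Ω, g⟫_ℂ).re * ω a : ℝ)) ∂gam K) *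
      exp (-(((‖g‖ ^ 2 - ∑ a, (⟪M (fun ω => (A.f a ω : ℂ)) Ω, g⟫_ℂ).re ^ 2) / 2 : ℝ) : ℂ))
  total : Dense (Submodule.span ℂ
    {ξ | ∃ ψ g, BM ψ ∧ g ∈ R ∧ (ξ = M ψ (W g Ω) ∨ ξ = M ψ (Z (W g Ω)))} : Set H)

namespace Label

variable {K : ℕ} {A : AMP K} (𝓛 : Label A H)

/-- Multiplication by a real function of the labels. -/
noncomputable def Mr (θ : (Fin (K + 1) → ℝ) → ℝ) : H →L[ℂ] H := 𝓛.M fun ω => (θ ω : ℂ)

/-- Multiplication by an indicator. -/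
noncomputable def Ind (S : Set (Fin (K + 1) → ℝ)) : H →L[ℂ] H := 𝓛.Mr (S.indicator fun _ => 1)

/-- `exp (-i θ(ω) Q)`. -/
noncomputable def rot (Q : H →L[ℂ] H) (θ : (Fin (K + 1) → ℝ) → ℝ) : H →L[ℂ] H :=
  𝓛.Mr (fun ω => Real.cos (θ ω)) - I • (𝓛.Mr (fun ω => Real.sin (θ ω)) * Q)

/-- The operator commutes with the labels. -/
def CM (U : H →L[ℂ] H) : Prop := ∀ ψ, BM ψ → 𝓛.M ψ * U = U * 𝓛.M ψ

/-- Label dependent one-site gates of level `l` (symmetric under the global flip). -/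
inductive Gate (l : ℕ) : (H →L[ℂ] H) → Prop
  | X (θ : (Fin (K + 1) → ℝ) → ℝ) : Measurable θ → Lvl l θ → (∀ ω, θ (-ω) = θ ω) →
      Gate l (𝓛.rot 𝓛.X θ)
  | Z (θ : (Fin (K + 1) → ℝ) → ℝ) : Measurable θ → Lvl l θ → (∀ ω, θ (-ω) = -θ ω) →
      Gate l (𝓛.rot 𝓛.Z θ)

/-- States reachable by gates of level `l` and cost rotations. -/
inductive LReach (l : ℕ) : (H →L[ℂ] H) → Prop
  | one : LReach l 1
  | gate {G U : H →L[ℂ] H} : 𝓛.Gate l G → LReach l U → LReach l (G * U)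
  | C (γ : ℝ) {U : H →L[ℂ] H} : LReach l U → LReach l (𝓛.C γ U)

/-- Products of mixers and of the elementary gates `exp (-i t Z ω_a)`, `a ≤ l`. -/
inductive Gen (l : ℕ) : (H →L[ℂ] H) → Prop
  | one : Gen l 1
  | B (β : ℝ) {V : H →L[ℂ] H} : Gen l V → Gen l (𝓛.B β * V)
  | E (a : Fin (K + 1)) (t : ℝ) {V : H →L[ℂ] H} : a.val ≤ l → Gen l V →
      Gen l (𝓛.rot 𝓛.Z (fun ω => t * ω a) * V)

/-- Back-reaction unitaries of level `l`: invisible to spin and label observables. -/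
structure IsT (l : ℕ) (T : H →L[ℂ] H) : Prop where
  unit : T ∈ unitary (H →L[ℂ] H)
  cX : 𝓛.X * T = T * 𝓛.X
  cZ : 𝓛.Z * T = T * 𝓛.Z
  cM : 𝓛.CM T
  cW : ∀ g ∈ 𝓛.R, ∃ θ : (Fin (K + 1) → ℝ) → ℝ, Measurable θ ∧ Lvl l θ ∧ (∀ ω, θ (-ω) = -θ ω) ∧
    ∀ c : ℝ, 𝓛.W (c • g) * T = T * 𝓛.M (fun ω => exp (I * (c * θ ω : ℝ))) * 𝓛.W (c • g)
  cV : ∀ f : (Fin (K + 1) → ℝ) → ℝ, BM (fun ω => (f ω : ℂ)) →
    𝓛.W (𝓛.Mr f 𝓛.Ω) * T = T * 𝓛.W (𝓛.Mr f 𝓛.Ω)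

/-- Level `l` states modulo back-reaction. -/
def TL (l : ℕ) : Set (H →L[ℂ] H) := {U | ∃ T V, 𝓛.IsT l T ∧ 𝓛.LReach l V ∧ U = T * V}

/-- A sign function of level `l`. -/
structure Sgn (l : ℕ) (f : (Fin (K + 1) → ℝ) → ℝ) : Prop where
  meas : Measurable f
  lvl : Lvl l f
  odd : ∀ ω, f (-ω) = -f ω
  bdd : ∀ ω, |f ω| ≤ 1
  sq : ∀ᵐ ω ∂gam K, f ω ^ 2 = 1

/-- An ancilla set. -/
structure Anc (S : Set (Fin (K + 1) → ℝ)) : Prop where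
  meas : MeasurableSet S
  lvl : Lvl 0 fun ω => ω ∈ S
  even : ∀ ω, -ω ∈ S ↔ ω ∈ S

/-- The `X` polarisation of the ancilla set. -/
noncomputable def xA (S : Set (Fin (K + 1) → ℝ)) (U : H →L[ℂ] H) : ℝ :=
  (⟪U 𝓛.Ω, 𝓛.X (𝓛.Ind S (U 𝓛.Ω))⟫_ℂ).re

end Label

end Crest.Agent.R339
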