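import Crest.Agent.R339.QFockAux

/-! # Row 339: Fock space with a spin -/

set_option autoImplicit false

namespace Crest.Agent.R339

open Complex
open scoped InnerProductSpace

/-- The one-particle space. -/
abbrev L2N : Type := lp (fun _ : ℕ => ℂ) 2

/-- `ℂ² ⊗ Fock(E)` with its Weyl operators. -/
structure Fock (E K : Type) [NormedAddCommGroup E] [InnerProductSpace ℂ E] [NormedAddCommGroup K]
    [InnerProductSpace ℂ K] [CompleteSpace K] where
  X : K →L[ℂ] K
  Z : K →L[ℂ] K
  Ω : K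
  W : E → K →L[ℂ] K
  X_star : star X = X
  Z_star : star Z = Z
  X_sq : X * X = 1
  Z_sq : Z * Z = 1
  XZ : X * Z = -(Z * X)
  Ω_norm : ‖Ω‖ = 1
  XΩ : X Ω = Ω
  W_zero : W 0 = 1
  W_star : ∀ g, star (W g) = W (-g)
  W_mul : ∀ g h, W g * W h = exp (-(I * (⟪g, h⟫_ℂ).im)) • W (g + h)
  X_W : ∀ g, X * W g = W g * X
  Z_W : ∀ g, Z * W g = W g * Z
  vac : ∀ g, ⟪Ω, W g Ω⟫_ℂ = exp (-((‖g‖ : ℂ) ^ 2 / 2))
  total : Dense (Submodule.span ℂ {ξ | ∃ g, ξ = W g Ω ∨ ξ = Z (W g Ω)} : Set K)

section kernel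

open scoped ComplexOrder Matrix

variable {E : Type} [NormedAddCommGroup E] [InnerProductSpace ℂ E]

/-- The kernel of normalised coherent vectors with a spin. -/
noncomputable def QFock_k (i j : E × Bool) : ℂ :=
  (if i.2 = j.2 then 1 else 0) * exp (⟪i.1, j.1⟫_ℂ - (‖i.1‖ : ℂ) ^ 2 / 2 - (‖j.1‖ : ℂ) ^ 2 / 2)

theorem QFock_k_psd : (Matrix.of (QFock_k (E := E))).PosSemidef := by
  have h1 : ((1 : Matrix Bool Bool ℂ).submatrix (Prod.snd : E × Bool → Bool) Prod.snd).PosSemidef :=
    Matrix.PosSemidef.one.submatrix _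
  have h2 := QFock_psd_exp (QFock_psd_gram (ι := E × Bool) fun i => i.1)
  have h3 := QFock_psd_gram (ι := E × Bool) fun i => exp (-((‖i.1‖ : ℂ) ^ 2 / 2))
  have h : Matrix.of (QFock_k (E := E)) =
      ((1 : Matrix Bool Bool ℂ).submatrix (Prod.snd : E × Bool → Bool) Prod.snd) ⊙
        ((Matrix.of fun i j : E × Bool => exp ⟪i.1, j.1⟫_ℂ) ⊙ Matrix.of fun i j : E × Bool =>
          ⟪exp (-((‖i.1‖ : ℂ) ^ 2 / 2)), exp (-((‖j.1‖ : ℂ) ^ 2 / 2))⟫_ℂ) := by
    ext i j
    have hc : (starRingEnd ℂ) (exp (-((‖i.1‖ : ℂ) ^ 2 / 2))) = exp (-((‖i.1‖ : ℂ) ^ 2 / 2)) := by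
      rw [← Complex.exp_conj]
      congr 1
      simp only [map_neg, map_div₀, map_pow, Complex.conj_ofReal, map_ofNat]
    simp only [Matrix.of_apply, QFock_k, Matrix.hadamard_apply, Matrix.submatrix_apply,
      Matrix.one_apply, RCLike.inner_apply, hc, ← Complex.exp_add]
    congr 2
    ring
  rw [h]
  exact h1.hadamard (h2.hadamard h3)

theorem QFock_k_shift (g : E) (i j : E × Bool) :
    (starRingEnd ℂ) (exp (-(I * (⟪g, i.1⟫_ℂ).im))) *
      (exp (-(I * (⟪g, j.1⟫_ℂ).im)) * QFock_k (g + i.1, i.2) (g + j.1, j.2)) = QFock_k i j := by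
  have hn : ∀ u : E, ((‖g + u‖ : ℂ)) ^ 2 = (‖g‖ : ℂ) ^ 2 + 2 * (⟪g, u⟫_ℂ).re + (‖u‖ : ℂ) ^ 2 := by
    intro u
    have := norm_add_sq (𝕜 := ℂ) g u
    exact_mod_cast this
  have h1 : ⟪g + i.1, g + j.1⟫_ℂ = (‖g‖ : ℂ) ^ 2 + ((⟪g, j.1⟫_ℂ).re + (⟪g, j.1⟫_ℂ).im * I) +
      ((⟪g, i.1⟫_ℂ).re - (⟪g, i.1⟫_ℂ).im * I) + ⟪i.1, j.1⟫_ℂ := by
    rw [inner_add_left, inner_add_right, inner_add_right, inner_self_eq_norm_sq_to_K,
      Complex.re_add_im, ← inner_conj_symm i.1 g]
    have : (starRingEnd ℂ) ⟪g, i.1⟫_ℂ = (⟪g, i.1⟫_ℂ).re - (⟪g, i.1⟫_ℂ).im * I := by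
      generalize ⟪g, i.1⟫_ℂ = z
      apply Complex.ext <;> simp
    rw [this]
    simp only [Complex.coe_algebraMap]
    ring
  simp only [QFock_k]
  rw [← Complex.exp_conj, mul_left_comm (exp _) (ite _ _ _), mul_left_comm (exp _) (ite _ _ _),
    ← Complex.exp_add, ← Complex.exp_add, hn, hn, h1]
  congr 2
  simp only [map_neg, map_mul, Complex.conj_I, Complex.conj_ofReal]
  ring

end kernel

theorem exists_fock (E : Type) [NormedAddCommGroup E] [InnerProductSpace ℂ E]
    [SecondCountableTopology E] : ∃ (K : Type) (_ : NormedAddCommGroup K)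
      (_ : InnerProductSpace ℂ K) (_ : CompleteSpace K), SecondCountableTopology K ∧
        Nonempty (Fock E K) := by
  obtain ⟨K, i1, i2, i3, d, hk, hd⟩ := QFock_exists_hilbert (QFock_k (E := E)) QFock_k_psd
  refine ⟨K, i1, i2, i3, ?_, ?_⟩
  · refine QFock_secondCountable hd (QFock_continuous ?_ fun j => ?_)
    · simp only [hk, QFock_k, if_true]
      fun_prop
    · simp only [hk, QFock_k]
      refine Continuous.mul ?_ (by fun_prop)
      exact (continuous_of_discreteTopology
        (f := fun a : Bool => if a = j.2 then (1 : ℂ) else 0)).comp continuous_snd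
  obtain ⟨X, hX, hXi⟩ := QFock_exists_op hd (fun i => d (i.1, !i.2)) (by
    rintro ⟨u, a⟩ ⟨v, b⟩
    simp [hk, QFock_k])
  obtain ⟨Z, hZ, hZi⟩ := QFock_exists_op hd (fun i => (if i.2 then (1 : ℂ) else -1) • d i) (by
    rintro ⟨u, a⟩ ⟨v, b⟩
    cases a <;> cases b <;> simp [hk, QFock_k])
  have hW := fun g : E => QFock_exists_op hd
    (fun i => exp (-(I * (⟪g, i.1⟫_ℂ).im)) • d (g + i.1, i.2)) (by
      intro i j
      rw [inner_smul_left, inner_smul_right, hk, hk, QFock_k_shift])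
  choose W hW hWi using hW
  have hXX : X * X = 1 := QFock_ext hd fun i => by simp [hX]
  have hZZ : Z * Z = 1 := QFock_ext hd fun i => by
    obtain ⟨u, a⟩ := i
    cases a <;> simp [hZ]
  have hW0 : W 0 = 1 := QFock_ext hd fun i => by simp [hW]
  have hWm : ∀ g h, W g * W h = exp (-(I * (⟪g, h⟫_ℂ).im)) • W (g + h) := fun g h =>
    QFock_ext hd fun i => by
      simp only [mul_apply_eq_comp, hW, map_smul, smul_apply, smul_smul,
        ← Complex.exp_add, inner_add_left, inner_add_right, add_assoc, Complex.add_im]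
      congr 2
      push_cast
      ring
  let c : ℂ := ((√2)⁻¹ : ℝ)
  have hc2 : c * c * 2 = 1 := by
    have h2 : (√2 : ℝ)⁻¹ * (√2)⁻¹ * 2 = 1 := by
      rw [← mul_inv, Real.mul_self_sqrt (by norm_num)]
      norm_num
    simp only [c]
    exact_mod_cast h2
  have hcc : (starRingEnd ℂ) c = c := Complex.conj_ofReal _
  have hWΩ : ∀ g, W g (c • (d (0, true) + d (0, false))) = c • (d (g, true) + d (g, false)) := by
    intro g
    simp [hW]
  have hvac : ∀ g, ⟪c • (d (0, true) + d (0, false)), W g (c • (d (0, true) + d (0, false)))⟫_ℂ =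
      exp (-((‖g‖ : ℂ) ^ 2 / 2)) := by
    intro g
    rw [hWΩ, inner_smul_left, inner_smul_right, hcc, inner_add_left, inner_add_right,
      inner_add_right, hk, hk, hk, hk]
    simp only [QFock_k]
    simp only [if_true, inner_zero_left, norm_zero, Complex.ofReal_zero, Bool.true_eq_false,
      Bool.false_eq_true, if_false]
    have : (0 : ℂ) - 0 ^ 2 / 2 - (‖g‖ : ℂ) ^ 2 / 2 = -((‖g‖ : ℂ) ^ 2 / 2) := by ring
    rw [this]
    linear_combination exp (-((‖g‖ : ℂ) ^ 2 / 2)) * hc2
  refine ⟨{ X := X, Z := Z, Ω := c • (d (0, true) + d (0, false)), W := W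
            X_star := QFock_star_eq hXi hXX
            Z_star := QFock_star_eq hZi hZZ
            X_sq := hXX
            Z_sq := hZZ
            XZ := QFock_ext hd fun i => ?_
            Ω_norm := ?_
            XΩ := ?_
            W_zero := hW0
            W_star := fun g => QFock_star_eq (hWi g) ?_
            W_mul := hWm
            X_W := fun g => QFock_ext hd fun i => ?_
            Z_W := fun g => QFock_ext hd fun i => ?_
            vac := hvac
            total := hd.mono ?_ }⟩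
  · obtain ⟨u, a⟩ := i
    cases a <;> simp [hX, hZ]
  · have h := hvac 0
    rw [hW0, one_apply_eq_self, inner_self_eq_norm_sq_to_K] at h
    simp only [norm_zero, Complex.ofReal_zero, ne_eq, OfNat.ofNat_ne_zero, not_false_eq_true,
      zero_pow, zero_div, neg_zero, Complex.exp_zero, Complex.coe_algebraMap] at h
    have h' : ‖c • (d (0, true) + d (0, false))‖ ^ 2 = 1 := by exact_mod_cast h
    exact (pow_eq_one_iff_of_nonneg (norm_nonneg _) (by norm_num)).1 h'
  · simp [hX, add_comm]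
  · rw [hWm, add_neg_cancel, hW0, inner_neg_right, inner_self_eq_norm_sq_to_K]
    have : (-((‖g‖ : ℂ) ^ 2)).im = 0 := by
      rw [← Complex.ofReal_pow, ← Complex.ofReal_neg, Complex.ofReal_im]
    simp only [Complex.coe_algebraMap]
    rw [this]
    simp
  · simp [hX, hW]
  · obtain ⟨u, a⟩ := i
    cases a <;> simp [hZ, hW]
  · refine Submodule.span_le.2 ?_
    rintro _ ⟨⟨g, a⟩, rfl⟩
    set S := Submodule.span ℂ {ξ | ∃ g, ξ = W g (c • (d (0, true) + d (0, false))) ∨
      ξ = Z (W g (c • (d (0, true) + d (0, false))))}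
    have h1 : W g (c • (d (0, true) + d (0, false))) ∈ S := Submodule.subset_span ⟨g, Or.inl rfl⟩
    have h2 : Z (W g (c • (d (0, true) + d (0, false)))) ∈ S :=
      Submodule.subset_span ⟨g, Or.inr rfl⟩
    have h3 : Z (W g (c • (d (0, true) + d (0, false)))) = c • (d (g, true) - d (g, false)) := by
      rw [hWΩ]
      simp [hZ, sub_eq_add_neg]
    rw [h3] at h2
    rw [hWΩ] at h1
    cases a
    · have h4 : d (g, false) = c • (c • (d (g, true) + d (g, false)) -
          c • (d (g, true) - d (g, false))) := by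
        have : c • (c • (d (g, true) + d (g, false)) - c • (d (g, true) - d (g, false))) =
            (c * c * 2) • d (g, false) := by module
        rw [this, hc2, one_smul]
      rw [h4]
      exact S.smul_mem _ (S.sub_mem h1 h2)
    · have h4 : d (g, true) = c • (c • (d (g, true) + d (g, false)) +
          c • (d (g, true) - d (g, false))) := by
        have : c • (c • (d (g, true) + d (g, false)) + c • (d (g, true) - d (g, false))) =
            (c * c * 2) • d (g, true) := by module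
        rw [this, hc2, one_smul]
      rw [h4]
      exact S.smul_mem _ (S.add_mem h1 h2)

/-- A separable Hilbert space embeds in `ℓ²`. -/
theorem exists_isometry_L2N (H : Type) [NormedAddCommGroup H] [InnerProductSpace ℂ H]
    [CompleteSpace H] [SecondCountableTopology H] : Nonempty (H →ₗᵢ[ℂ] L2N) := by
  obtain ⟨w, b, -⟩ := exists_hilbertBasis ℂ H
  have := QFock_countable_of_orthonormal b.orthonormal
  obtain ⟨f, hf⟩ := exists_injective_nat w
  let b0 : HilbertBasis ℕ ℂ L2N := default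
  have ho := b0.orthonormal.comp f hf
  exact ⟨ho.orthogonalFamily.linearIsometry.comp b.repr.toLinearIsometry⟩

/-- An infinite dimensional separable Hilbert space is `ℓ²`. -/
theorem exists_equiv_L2N (H : Type) [NormedAddCommGroup H] [InnerProductSpace ℂ H]
    [CompleteSpace H] [SecondCountableTopology H] (h : ¬ FiniteDimensional ℂ H) :
    Nonempty (H ≃ₗᵢ[ℂ] L2N) := by
  obtain ⟨w, b, -⟩ := exists_hilbertBasis ℂ H
  have := QFock_countable_of_orthonormal b.orthonormal
  have : Infinite w := by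
    refine not_finite_iff_infinite.1 fun h' => h ?_
    have := Fintype.ofFinite w
    exact Module.Finite.of_basis b.toOrthonormalBasis.toBasis
  obtain ⟨e⟩ : Nonempty (ℕ ≃ w) := inferInstance
  refine ⟨(HilbertBasis.mk (b.orthonormal.comp e e.injective) ?_).repr⟩
  rw [e.surjective.range_comp]
  exact b.dense_span.ge

theorem Fock.not_finiteDimensional {K : Type} [NormedAddCommGroup K] [InnerProductSpace ℂ K]
    [CompleteSpace K] (F : Fock L2N K) : ¬ FiniteDimensional ℂ K := by
  intro hfin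
  have : ProperSpace K := FiniteDimensional.proper_rclike ℂ K
  let b0 : HilbertBasis ℕ ℂ L2N := default
  have ho := b0.orthonormal
  have hin : ∀ g h, ⟪F.W g F.Ω, F.W h F.Ω⟫_ℂ =
      exp (-(I * (⟪-g, h⟫_ℂ).im)) * exp (-((‖-g + h‖ : ℂ) ^ 2 / 2)) := by
    intro g h
    rw [← ContinuousLinearMap.adjoint_inner_right, ← ContinuousLinearMap.star_eq_adjoint,
      F.W_star, ← mul_apply_eq_comp, F.W_mul, smul_apply, inner_smul_right,
      F.vac]
  have hnorm : ∀ g, ‖F.W g F.Ω‖ = 1 := by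
    intro g
    have h := congrArg (fun z => ‖z‖) (hin g g)
    simp only [neg_add_cancel, norm_zero, Complex.ofReal_zero, inner_self_eq_norm_sq_to_K,
      norm_mul, Complex.norm_exp] at h
    simp at h
    rcases h with h | h
    · exact h
    · linarith [norm_nonneg (F.W g F.Ω)]
  have hsep : ∀ m n, m ≠ n → 1 ≤ ‖F.W (b0 m) F.Ω - F.W (b0 n) F.Ω‖ := by
    intro m n hmn
    have h1 := norm_sub_sq (𝕜 := ℂ) (F.W (b0 m) F.Ω) (F.W (b0 n) F.Ω)
    have h2 : ‖-b0 m + b0 n‖ ^ 2 = 2 := by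
      rw [norm_add_sq (𝕜 := ℂ), inner_neg_left, ho.2 hmn, norm_neg, ho.1, ho.1]
      simp
      norm_num
    have h3 : ((‖-b0 m + b0 n‖ : ℝ) : ℂ) ^ 2 = 2 := by exact_mod_cast h2
    have h4 : ⟪F.W (b0 m) F.Ω, F.W (b0 n) F.Ω⟫_ℂ = (Real.exp (-1) : ℝ) := by
      rw [hin, h3, inner_neg_left, ho.2 hmn]
      simp
    rw [hnorm, hnorm, h4] at h1
    have h5 : Real.exp (-1) ≤ 1 / 2 := by
      rw [Real.exp_neg, ← one_div]
      refine one_div_le_one_div_of_le (by norm_num) ?_
      have := Real.add_one_le_exp (1 : ℝ)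
      linarith
    have h6 : RCLike.re ((Real.exp (-1) : ℝ) : ℂ) = Real.exp (-1) := Complex.ofReal_re _
    rw [h6] at h1
    nlinarith [norm_nonneg (F.W (b0 m) F.Ω - F.W (b0 n) F.Ω)]
  obtain ⟨a, -, φ, hφ, ht⟩ := (isCompact_closedBall (0 : K) 1).tendsto_subseq
    (x := fun n => F.W (b0 n) F.Ω) fun n => by simp [hnorm]
  have h7 := (ht.sub (ht.comp (Filter.tendsto_add_atTop_nat 1))).norm
  rw [sub_self, norm_zero] at h7
  have h8 := ge_of_tendsto' h7 fun n => hsep (φ n) (φ (n + 1)) (hφ (Nat.lt_succ_self n)).ne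
  norm_num at h8

theorem QFock_secondCountable_L2N : SecondCountableTopology L2N := by
  let b0 : HilbertBasis ℕ ℂ L2N := default
  refine QFock_secondCountable (d := b0) ?_ continuous_of_discreteTopology
  exact Submodule.dense_iff_topologicalClosure_eq_top.2 b0.dense_span

theorem exists_basic : ∃ (H : Type) (_ : NormedAddCommGroup H) (_ : InnerProductSpace ℂ H)
    (_ : CompleteSpace H) (𝓜 : Weyl H), 𝓜.R = ⊤ := by
  have := QFock_secondCountable_L2N
  obtain ⟨H, i1, i2, i3, h2, ⟨F⟩⟩ := exists_fock L2N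
  obtain ⟨j⟩ := exists_isometry_L2N H
  refine ⟨H, i1, i2, i3,
    { X := F.X, Z := F.Z, Ω := F.Ω, R := ⊤, W := fun g => F.W (j g)
      X_star := F.X_star
      Z_star := F.Z_star
      X_sq := F.X_sq
      Z_sq := F.Z_sq
      XZ := F.XZ
      Ω_norm := F.Ω_norm
      XΩ := F.XΩ
      W_zero := by rw [map_zero, F.W_zero]
      W_star := fun g _ => by rw [F.W_star, map_neg]
      W_mul := fun g _ h _ => by rw [F.W_mul, map_add, j.inner_map_map]
      X_W := fun g _ => F.X_W _
      Z_W := fun g _ => F.Z_W _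
      vac := fun g _ => by rw [F.vac, j.norm_map] }, rfl⟩

end Crest.Agent.R339
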