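import Crest.Agent.R339.QDefs

/-! # Row 339: Hilbert spaces generated by positive semidefinite kernels -/

set_option autoImplicit false

namespace Crest.Agent.R339

open Complex Filter Topology TopologicalSpace
open scoped InnerProductSpace ComplexOrder Matrix

theorem QFock_psd_gram {ι E : Type} [NormedAddCommGroup E] [InnerProductSpace ℂ E] (v : ι → E) :
    (Matrix.of fun i j => ⟪v i, v j⟫_ℂ).PosSemidef := by
  refine ⟨?_, fun x => ?_⟩
  · ext i j
    simp [Matrix.conjTranspose_apply]
  · have h : (x.sum fun i xi => x.sum fun j xj =>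
        star xi * (Matrix.of fun i j => ⟪v i, v j⟫_ℂ) i j * xj) =
        ⟪x.sum fun i xi => xi • v i, x.sum fun i xi => xi • v i⟫_ℂ := by
      simp only [Finsupp.sum, sum_inner, inner_sum, inner_smul_left, inner_smul_right,
        Matrix.of_apply]
      rw [Finset.sum_comm]
      refine Finset.sum_congr rfl fun i _ => ?_
      rw [Finset.mul_sum]
      refine Finset.sum_congr rfl fun j _ => ?_
      simp only [RCLike.star_def]
      ring
    rw [h, inner_self_eq_norm_sq_to_K]
    have := Complex.zero_le_real.2 (sq_nonneg ‖x.sum fun i xi => xi • v i‖)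
    rw [Complex.ofReal_pow] at this
    exact this

theorem QFock_psd_pow {ι : Type} {k : ι → ι → ℂ} (hk : (Matrix.of k).PosSemidef) (n : ℕ) :
    (Matrix.of fun i j => k i j ^ n).PosSemidef := by
  induction n with
  | zero =>
    have := QFock_psd_gram (ι := ι) (fun _ => (1 : ℂ))
    simpa using this
  | succ n ih =>
    have h1 : (Matrix.of fun i j => k i j ^ (n + 1)) =
        (Matrix.of fun i j => k i j ^ n) ⊙ Matrix.of k := by
      ext i j
      simp [pow_succ]
    rw [h1]
    exact ih.hadamard hk

theorem QFock_psd_exp {ι : Type} {k : ι → ι → ℂ} (hk : (Matrix.of k).PosSemidef) :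
    (Matrix.of fun i j => exp (k i j)).PosSemidef := by
  refine ⟨?_, fun x => ?_⟩
  · ext i j
    have := hk.1.apply i j
    simp only [Matrix.of_apply, RCLike.star_def] at this
    simp [Matrix.conjTranspose_apply, ← this, ← Complex.exp_conj]
  · have hs : ∀ z : ℂ, HasSum (fun n : ℕ => z ^ n / (n.factorial : ℂ)) (exp z) := by
      intro z
      rw [Complex.exp_eq_exp_ℂ]
      exact NormedSpace.expSeries_div_hasSum_exp z
    have h1 : HasSum (fun n : ℕ => x.sum fun i xi => x.sum fun j xj =>
        star xi * (k i j ^ n / (n.factorial : ℂ)) * xj)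
        (x.sum fun i xi => x.sum fun j xj => star xi * exp (k i j) * xj) := by
      simp only [Finsupp.sum]
      refine hasSum_sum fun i _ => hasSum_sum fun j _ => ?_
      exact ((hs (k i j)).mul_left _).mul_right _
    refine h1.nonneg fun n => ?_
    have h2 := (QFock_psd_pow hk n).2 x
    have h3 : (x.sum fun i xi => x.sum fun j xj =>
        star xi * (k i j ^ n / (n.factorial : ℂ)) * xj) =
        (((n.factorial : ℝ)⁻¹ : ℝ) : ℂ) * x.sum fun i xi => x.sum fun j xj =>
          star xi * (Matrix.of fun i j => k i j ^ n) i j * xj := by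
      simp only [Finsupp.sum, Finset.mul_sum, Matrix.of_apply]
      refine Finset.sum_congr rfl fun i _ => Finset.sum_congr rfl fun j _ => ?_
      push_cast
      ring
    rw [h3]
    refine mul_nonneg ?_ h2
    exact_mod_cast inv_nonneg.2 (Nat.cast_nonneg _)

/-- The Hilbert space generated by a positive semidefinite kernel. -/
theorem QFock_exists_hilbert {ι : Type} (k : ι → ι → ℂ) (hk : (Matrix.of k).PosSemidef) :
    ∃ (K : Type) (_ : NormedAddCommGroup K) (_ : InnerProductSpace ℂ K) (_ : CompleteSpace K)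
      (d : ι → K), (∀ i j, ⟪d i, d j⟫_ℂ = k i j) ∧
        Dense (Submodule.span ℂ (Set.range d) : Set K) := by
  classical
  letI core : PreInnerProductSpace.Core ℂ (ι →₀ ℂ) :=
    { inner := fun f g => f.sum fun i z => g.sum fun j w => star z * k i j * w
      conj_inner_symm := by
        intro f g
        rw [Finsupp.sum_comm]
        simp only [map_finsuppSum]
        refine Finsupp.sum_congr fun j _ => Finsupp.sum_congr fun i _ => ?_
        have := hk.1.apply j i
        simp only [Matrix.of_apply, RCLike.star_def] at this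
        simp only [RCLike.star_def, map_mul, Complex.conj_conj, this]
        ring
      re_inner_nonneg := by
        intro f
        exact (Complex.nonneg_iff.1 (hk.2 f)).1
      add_left := by
        intro f g h
        rw [Finsupp.sum_add_index'] <;> simp [← Finsupp.sum_add, add_mul]
      smul_left := by
        intro f g r
        rw [Finsupp.sum_smul_index] <;> simp [Finsupp.mul_sum, ← mul_assoc] }
  letI : SeminormedAddCommGroup (ι →₀ ℂ) :=
    InnerProductSpace.Core.toSeminormedAddCommGroup (𝕜 := ℂ)
  letI : InnerProductSpace ℂ (ι →₀ ℂ) := .ofCore _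
  have hin : ∀ f g : ι →₀ ℂ, ⟪f, g⟫_ℂ = f.sum fun i z => g.sum fun j w => star z * k i j * w :=
    fun _ _ => rfl
  refine ⟨UniformSpace.Completion (ι →₀ ℂ), inferInstance, inferInstance, inferInstance,
    fun i => ((Finsupp.single i (1 : ℂ) : ι →₀ ℂ) : UniformSpace.Completion (ι →₀ ℂ)), ?_, ?_⟩
  · intro i j
    rw [UniformSpace.Completion.inner_coe, hin]
    simp
  · refine UniformSpace.Completion.denseRange_coe.mono ?_
    rintro _ ⟨f, rfl⟩
    induction f using Finsupp.induction_linear with
    | zero =>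
      rw [UniformSpace.Completion.coe_zero]
      exact Submodule.zero_mem _
    | add f g hf hg =>
      rw [UniformSpace.Completion.coe_add]
      exact Submodule.add_mem _ hf hg
    | single i c =>
      have : (Finsupp.single i c : ι →₀ ℂ) = c • Finsupp.single i (1 : ℂ) := by simp
      rw [this, UniformSpace.Completion.coe_smul]
      exact Submodule.smul_mem _ _ (Submodule.subset_span ⟨i, rfl⟩)

section ops

variable {ι K : Type} [NormedAddCommGroup K] [InnerProductSpace ℂ K] [CompleteSpace K] {d : ι → K}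

theorem QFock_exists_op (hd : Dense (Submodule.span ℂ (Set.range d) : Set K)) (w : ι → K)
    (h : ∀ i j, ⟪w i, w j⟫_ℂ = ⟪d i, d j⟫_ℂ) :
    ∃ U : K →L[ℂ] K, (∀ i, U (d i) = w i) ∧ ∀ x y, ⟪U x, U y⟫_ℂ = ⟪x, y⟫_ℂ := by
  let e := Finsupp.linearCombination ℂ d
  let f := Finsupp.linearCombination ℂ w
  have he : DenseRange e := by
    have : Set.range e = (Submodule.span ℂ (Set.range d) : Set K) := by
      rw [← Finsupp.range_linearCombination]
      rfl
    rw [DenseRange, this]
    exact hd
  have hin : ∀ x y, ⟪f x, f y⟫_ℂ = ⟪e x, e y⟫_ℂ := by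
    intro x y
    simp only [e, f, Finsupp.linearCombination_apply, Finsupp.sum, sum_inner, inner_sum,
      inner_smul_left, inner_smul_right, h]
  have hn : ∀ x, ‖f x‖ ≤ 1 * ‖e x‖ := by
    intro x
    rw [one_mul, @norm_eq_sqrt_re_inner ℂ, @norm_eq_sqrt_re_inner ℂ, hin]
  have hU : ∀ x, f.extendOfNorm e (e x) = f x := LinearMap.extendOfNorm_eq he ⟨1, hn⟩
  refine ⟨f.extendOfNorm e, fun i => ?_, fun x y => ?_⟩
  · have := hU (Finsupp.single i 1)
    simpa [e, f] using this
  · refine he.induction_on₂ (p := fun x y => ⟪f.extendOfNorm e x, f.extendOfNorm e y⟫_ℂ = ⟪x, y⟫_ℂ)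
      ?_ (fun x y => by rw [hU, hU, hin]) x y
    exact isClosed_eq (by fun_prop) (by fun_prop)

omit [CompleteSpace K] in
theorem QFock_ext (hd : Dense (Submodule.span ℂ (Set.range d) : Set K)) {A B : K →L[ℂ] K}
    (h : ∀ i, A (d i) = B (d i)) : A = B := by
  refine ContinuousLinearMap.ext_on hd ?_
  rintro _ ⟨i, rfl⟩
  exact h i

theorem QFock_star_eq {U V : K →L[ℂ] K} (hU : ∀ x y, ⟪U x, U y⟫_ℂ = ⟪x, y⟫_ℂ) (h : U * V = 1) :
    star U = V := by
  have h1 : star U * U = 1 := by
    ext x
    refine ext_inner_left ℂ fun y => ?_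
    rw [mul_apply_eq_comp, ContinuousLinearMap.star_eq_adjoint,
      ContinuousLinearMap.adjoint_inner_right, hU, one_apply_eq_self]
  rw [← mul_one (star U), ← h, ← mul_assoc, h1, one_mul]

omit [CompleteSpace K] in
theorem QFock_secondCountable [TopologicalSpace ι] [SeparableSpace ι]
    (hd : Dense (Submodule.span ℂ (Set.range d) : Set K)) (hc : Continuous d) :
    SecondCountableTopology K := by
  have : SeparableSpace K := by
    rw [← isSeparable_univ_iff]
    have h : IsSeparable (Submodule.span ℂ (Set.range d) : Set K) :=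
      (isSeparable_range hc).span
    exact h.closure.mono fun v _ => hd v
  exact UniformSpace.secondCountable_of_separable K

omit [CompleteSpace K] in
theorem QFock_continuous [TopologicalSpace ι] (h1 : Continuous fun i => ⟪d i, d i⟫_ℂ)
    (h2 : ∀ j, Continuous fun i => ⟪d i, d j⟫_ℂ) : Continuous d := by
  rw [continuous_iff_continuousAt]
  intro j
  rw [ContinuousAt, tendsto_iff_norm_sub_tendsto_zero]
  have h3 : ∀ i, ‖d i - d j‖ =
      √((⟪d i, d i⟫_ℂ).re - 2 * (⟪d i, d j⟫_ℂ).re + (⟪d j, d j⟫_ℂ).re) := by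
    intro i
    rw [← Real.sqrt_sq (norm_nonneg (d i - d j)), norm_sub_sq (𝕜 := ℂ),
      ← inner_self_eq_norm_sq (𝕜 := ℂ), ← inner_self_eq_norm_sq (𝕜 := ℂ)]
    rfl
  have h4 : Continuous fun i =>
      √((⟪d i, d i⟫_ℂ).re - 2 * (⟪d i, d j⟫_ℂ).re + (⟪d j, d j⟫_ℂ).re) := by
    have := h2 j
    fun_prop
  have h5 := h4.tendsto j
  simp only [← h3] at h5
  simpa using h5

end ops

theorem QFock_countable_of_orthonormal {H ι : Type} [NormedAddCommGroup H] [InnerProductSpace ℂ H]
    [SeparableSpace H] {v : ι → H} (hv : Orthonormal ℂ v) : Countable ι := by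
  refine Pairwise.countable_of_isOpen_disjoint (s := fun i => Metric.ball (v i) (1 / 2))
    (fun i j hij => Metric.ball_disjoint_ball ?_) (fun _ => Metric.isOpen_ball)
    fun _ => Metric.nonempty_ball.2 (by norm_num)
  have h1 := norm_sub_sq (𝕜 := ℂ) (v i) (v j)
  rw [hv.1, hv.1, hv.2 hij, map_zero] at h1
  rw [dist_eq_norm]
  nlinarith [norm_nonneg (v i - v j)]

end Crest.Agent.R339
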