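import Crest.Agent.R339.QUniv

/-! # Row 339: generic protocols have a non-zero response to the label at all times -/

set_option autoImplicit false

namespace Crest.Agent.R339

open MeasureTheory ProbabilityTheory Complex Filter Topology Asymptotics
open scoped InnerProductSpace

variable {H : Type} [NormedAddCommGroup H] [InnerProductSpace ℂ H] [CompleteSpace H]

omit [CompleteSpace H] in
theorem QGeneric_inl (r : ℝ) (x y : H) : ⟪r • x, y⟫_ℂ = r * ⟪x, y⟫_ℂ := by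
  rw [← Complex.coe_smul, inner_smul_left, conj_ofReal]

omit [CompleteSpace H] in
theorem QGeneric_inr (r : ℝ) (x y : H) : ⟪x, r • y⟫_ℂ = r * ⟪x, y⟫_ℂ := by
  rw [← Complex.coe_smul, inner_smul_right]

theorem QGeneric_ofReal {f : ℝ → ℝ} (h : AnalyticOnNhd ℝ f Set.univ) :
    AnalyticOnNhd ℝ (fun s => (f s : ℂ)) Set.univ := fun s hs =>
  (Complex.ofRealCLM.analyticAt (f s)).comp (h s hs)

theorem QGeneric_re {f : ℝ → ℂ} (h : AnalyticOnNhd ℝ f Set.univ) :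
    AnalyticOnNhd ℝ (fun s => (f s).re) Set.univ := fun s hs =>
  (Complex.reCLM.analyticAt (f s)).comp (h s hs)

theorem QGeneric_im {f : ℝ → ℂ} (h : AnalyticOnNhd ℝ f Set.univ) :
    AnalyticOnNhd ℝ (fun s => (f s).im) Set.univ := fun s hs =>
  (Complex.imCLM.analyticAt (f s)).comp (h s hs)

namespace Weyl

variable {𝓜 : Weyl H}

theorem QGeneric_sa {A : H →L[ℂ] H} (hA : star A = A) (x y : H) : ⟪A x, y⟫_ℂ = ⟪x, A y⟫_ℂ := by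
  conv_lhs => rw [← hA]
  rw [ContinuousLinearMap.star_eq_adjoint, ContinuousLinearMap.adjoint_inner_left]

theorem QGeneric_ΩΩ : ⟪𝓜.Ω, 𝓜.Ω⟫_ℂ = 1 := by
  rw [inner_self_eq_norm_sq_to_K, 𝓜.Ω_norm]; simp

theorem QGeneric_x_mem (h : 𝓜.EClosed) (β γ τ : ℕ → ℝ) (j : ℕ) :
    γ j • 𝓜.gE β γ τ j + τ j • 𝓜.Ω ∈ 𝓜.R :=
  𝓜.R.add_mem (𝓜.R.smul_mem _ (gE_mem h β γ τ j)) (𝓜.R.smul_mem _ h.1)

theorem QGeneric_gE (β γ τ : ℕ → ℝ) (k : ℕ) :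
    𝓜.gE β γ τ k = 𝓜.go β (fun j => γ j • 𝓜.gE β γ τ j + τ j • 𝓜.Ω) k := by
  rw [go, ← UE_eq]; rfl

theorem QGeneric_Ωg (h : 𝓜.EClosed) (β γ τ : ℕ → ℝ) (k : ℕ) : ⟪𝓜.Ω, 𝓜.gE β γ τ k⟫_ℂ = 0 := by
  rw [QGeneric_gE]
  exact 𝓜.inner_Ω_go β (QGeneric_x_mem h β γ τ) k

theorem QGeneric_gΩ (h : 𝓜.EClosed) (β γ τ : ℕ → ℝ) (k : ℕ) : ⟪𝓜.gE β γ τ k, 𝓜.Ω⟫_ℂ = 0 := by
  rw [← inner_conj_symm, QGeneric_Ωg h, map_zero]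

theorem QGeneric_gram (h : 𝓜.EClosed) {β γ τ : ℝ → ℕ → ℝ}
    (hβ : ∀ j, AnalyticOnNhd ℝ (fun s => β s j) Set.univ)
    (hγ : ∀ j, AnalyticOnNhd ℝ (fun s => γ s j) Set.univ)
    (hτ : ∀ j, AnalyticOnNhd ℝ (fun s => τ s j) Set.univ) (n : ℕ) : ∀ k l, k < n → l < n →
      AnalyticOnNhd ℝ (fun s => ⟪𝓜.gE (β s) (γ s) (τ s) k, 𝓜.gE (β s) (γ s) (τ s) l⟫_ℂ) Set.univ := by
  induction n with
  | zero => intro k l hk; omega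
  | succ n ih =>
    intro k l hk hl
    obtain ⟨Ψ, h1, -, h3⟩ := gram_univ k l
    have e : (fun s => ⟪𝓜.gE (β s) (γ s) (τ s) k, 𝓜.gE (β s) (γ s) (τ s) l⟫_ℂ) =
        fun s => Ψ (β s) fun i j => (γ s i : ℂ) * ((γ s j : ℂ) *
          ⟪𝓜.gE (β s) (γ s) (τ s) i, 𝓜.gE (β s) (γ s) (τ s) j⟫_ℂ) + (τ s i : ℂ) * τ s j := by
      funext s
      rw [QGeneric_gE _ _ _ k, QGeneric_gE _ _ _ l, h1 H 𝓜 _ _ (QGeneric_x_mem h _ _ _)]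
      congr 1
      funext i j
      simp only [inner_add_left, inner_add_right, QGeneric_inl, QGeneric_inr, QGeneric_Ωg h,
        QGeneric_gΩ h, QGeneric_ΩΩ]
      ring
    rw [e]
    refine h3 β _ hβ fun i hi j hj => ?_
    exact ((QGeneric_ofReal (hγ i)).mul ((QGeneric_ofReal (hγ j)).mul
      (ih i j (by omega) (by omega)))).add ((QGeneric_ofReal (hτ i)).mul (QGeneric_ofReal (hτ j)))

theorem QGeneric_energy (h : 𝓜.EClosed) (β γ τ : ℕ → ℝ) (p : ℕ) :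
    𝓜.energy (𝓜.gE β γ τ p) = ∑ k ∈ Finset.range p,
      2 * ((γ k : ℂ) * ⟪𝓜.gE β γ τ k, 𝓜.gE β γ τ p⟫_ℂ).re * (⟪𝓜.gE β γ τ p, 𝓜.gE β γ τ k⟫_ℂ).im := by
  have h1 := 𝓜.energy_go β (QGeneric_x_mem h β γ τ) p (by rw [← QGeneric_gE]; exact gE_mem h β γ τ p)
  simp only [← QGeneric_gE] at h1
  rw [h1]
  refine Finset.sum_congr rfl fun k _ => ?_
  rw [inner_add_left, QGeneric_inl, QGeneric_inl, QGeneric_Ωg h, mul_zero, add_zero]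

theorem QGeneric_ZW {g : H} (hg : g ∈ 𝓜.R) : ⟪𝓜.Ω, 𝓜.Z (𝓜.W g 𝓜.Ω)⟫_ℂ = 0 := by
  have h1 : 𝓜.X (𝓜.Z (𝓜.W g 𝓜.Ω)) = -𝓜.Z (𝓜.W g 𝓜.Ω) := by
    have a1 : 𝓜.X (𝓜.Z (𝓜.W g 𝓜.Ω)) = (𝓜.X * 𝓜.Z) (𝓜.W g 𝓜.Ω) := rfl
    have a2 : 𝓜.X (𝓜.W g 𝓜.Ω) = 𝓜.W g 𝓜.Ω := by
      have : 𝓜.X (𝓜.W g 𝓜.Ω) = (𝓜.X * 𝓜.W g) 𝓜.Ω := rfl
      rw [this, 𝓜.X_W g hg, mul_apply_eq_comp, 𝓜.XΩ]
    rw [a1, 𝓜.XZ, neg_apply, mul_apply_eq_comp, a2]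
  have h2 := QGeneric_sa 𝓜.X_star 𝓜.Ω (𝓜.Z (𝓜.W g 𝓜.Ω))
  rw [𝓜.XΩ, h1, inner_neg_right] at h2
  linear_combination (1 / 2 : ℂ) * h2

theorem QGeneric_WZ {g : H} (hg : g ∈ 𝓜.R) :
    ⟪𝓜.Ω, 𝓜.WZ g 𝓜.Ω⟫_ℂ = ((Real.exp (-(‖g‖ ^ 2 / 2)) : ℝ) : ℂ) := by
  have hg' := 𝓜.R.neg_mem hg
  simp only [WQ, cosW, sinW, add_apply, smul_apply,
    mul_apply_eq_comp, sub_apply, map_smul, map_sub,
    inner_add_right, inner_smul_right, inner_sub_right, QGeneric_ZW hg, QGeneric_ZW hg',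
    𝓜.vac g hg, 𝓜.vac _ hg', norm_neg]
  push_cast
  ring

theorem QGeneric_UE {β γ τ : ℕ → ℝ} (hγ : ∀ k, γ k = 0) (h0 : τ 0 = 1) (hτ : ∀ k, τ (k + 1) = 0)
    (l : ℕ) : 𝓜.UE β γ τ (l + 1) = 𝓜.B (∑ k ∈ Finset.range (l + 1), β k) * 𝓜.WZ (-𝓜.Ω) := by
  induction l with
  | zero => simp [UE, hγ, h0]
  | succ l ih =>
    rw [UE, hγ, hτ, zero_smul, zero_smul, add_zero, neg_zero,
      show 𝓜.WZ 0 = 1 from WQ_zero 𝓜.invol_Z, mul_one, ih,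
      ← mul_assoc, ← B_add, Finset.sum_range_succ _ (l + 1), add_comm (β (l + 1))]

theorem QGeneric_sE (h : 𝓜.EClosed) {β γ τ : ℕ → ℝ} (hγ : ∀ k, γ k = 0) (h0 : τ 0 = 1)
    (hτ : ∀ k, τ (k + 1) = 0) (l : ℕ) : 𝓜.sE β γ τ (l + 1) =
      -(Real.sin (2 * ∑ k ∈ Finset.range (l + 1), β k) * Real.exp (-(‖-𝓜.Ω + -𝓜.Ω‖ ^ 2 / 2))) := by
  have hΩ := 𝓜.R.neg_mem h.1
  have hZ := 𝓜.invol_Z
  have hV := Unitary.star_mul_self_of_mem (WQ_unitary hZ hΩ)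
  have e1 : star (𝓜.WZ (-𝓜.Ω)) * 𝓜.Z * 𝓜.WZ (-𝓜.Ω) = 𝓜.Z := by
    rw [mul_assoc, WQ_comm hZ hZ.cw rfl hΩ, ← mul_assoc, hV, one_mul]
  have e2 : star (𝓜.WZ (-𝓜.Ω)) * 𝓜.Y * 𝓜.WZ (-𝓜.Ω) = 𝓜.Y * 𝓜.WZ (-𝓜.Ω + -𝓜.Ω) := by
    rw [WQ_star hZ hΩ, ← WQ_anticomm hZ 𝓜.invol_Y.cw (by rw [YZ, ZY, neg_neg]) hΩ, mul_assoc,
      WQ_mul hZ hΩ hΩ, inner_neg_neg, QGeneric_ΩΩ]
    simp
  have e3 : ∀ A : ℝ, 𝓜.br (𝓜.B A * 𝓜.WZ (-𝓜.Ω)) 𝓜.Z =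
      ((Real.cos (2 * A) : ℝ) : ℂ) • 𝓜.Z 𝓜.Ω +
        ((Real.sin (2 * A) : ℝ) : ℂ) • 𝓜.Y (𝓜.WZ (-𝓜.Ω + -𝓜.Ω) 𝓜.Ω) := by
    intro A
    rw [br_mul, B_conj_Z]
    have : ∀ O, 𝓜.br (𝓜.WZ (-𝓜.Ω)) O = (star (𝓜.WZ (-𝓜.Ω)) * O * 𝓜.WZ (-𝓜.Ω)) 𝓜.Ω := fun _ => rfl
    rw [this, mul_add, add_mul, mul_smul_comm, mul_smul_comm, smul_mul_assoc, smul_mul_assoc, e1, e2]
    rfl
  have e4 : ⟪𝓜.Z 𝓜.Ω, 𝓜.Z 𝓜.Ω⟫_ℂ = 1 := by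
    rw [QGeneric_sa 𝓜.Z_star, ← mul_apply_eq_comp, 𝓜.Z_sq,
      one_apply_eq_self, QGeneric_ΩΩ]
  have e5 : ⟪𝓜.Z 𝓜.Ω, 𝓜.Y (𝓜.WZ (-𝓜.Ω + -𝓜.Ω) 𝓜.Ω)⟫_ℂ =
      -(I * ((Real.exp (-(‖-𝓜.Ω + -𝓜.Ω‖ ^ 2 / 2)) : ℝ) : ℂ)) := by
    rw [QGeneric_sa 𝓜.Z_star, ← mul_apply_eq_comp, ZY, neg_apply,
      smul_apply, inner_neg_right, inner_smul_right, ← QGeneric_sa 𝓜.X_star,
      𝓜.XΩ, QGeneric_WZ (𝓜.R.add_mem hΩ hΩ)]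
  have e6 : 𝓜.gE β γ τ 0 = 𝓜.Z 𝓜.Ω := by simp [gE, UE, br]
  rw [sE, Finset.sum_range_succ', Finset.sum_eq_zero fun i _ => by rw [hτ, zero_mul], zero_add, h0,
    one_mul, e6, gE, QGeneric_UE hγ h0 hτ, e3, inner_add_right, inner_smul_right, inner_smul_right,
    e4, e5]
  generalize Real.exp _ = E
  generalize Real.cos _ = c
  generalize Real.sin _ = s
  simp

end Weyl

theorem QGeneric_tri {b : ℝ → ℕ → ℝ} (hb : ∀ j, AnalyticOnNhd ℝ (fun s => b s j) Set.univ) (j : ℕ) :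
    AnalyticOnNhd ℝ (fun s => tri (b s) j) Set.univ := by
  unfold tri
  split_ifs
  · exact analyticOnNhd_const.mul (hb _)
  · exact hb _

theorem QGeneric_fst3 {b : ℝ → ℕ → ℝ} (hb : ∀ j, AnalyticOnNhd ℝ (fun s => b s j) Set.univ) (j : ℕ) :
    AnalyticOnNhd ℝ (fun s => fst3 (b s) j) Set.univ := by
  unfold fst3
  split_ifs
  · exact hb _
  · exact analyticOnNhd_const

/-- linear interpolation -/
def QGeneric_lin (b b' : ℕ → ℝ) (s : ℝ) (j : ℕ) : ℝ := b j + s * (b' j - b j)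

theorem QGeneric_lin_an (b b' : ℕ → ℝ) (j : ℕ) :
    AnalyticOnNhd ℝ (fun s => QGeneric_lin b b' s j) Set.univ :=
  analyticOnNhd_const.add (analyticOnNhd_id.mul analyticOnNhd_const)

theorem QGeneric_lin0 (b b' : ℕ → ℝ) : QGeneric_lin b b' 0 = b := by
  funext j; simp [QGeneric_lin]

theorem QGeneric_lin1 (b b' : ℕ → ℝ) : QGeneric_lin b b' 1 = b' := by
  funext j; simp [QGeneric_lin]

theorem QGeneric_ne {f : ℝ → ℝ} (hf : AnalyticOnNhd ℝ f Set.univ) (h1 : f 1 ≠ 0) :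
    ∀ᶠ s in 𝓝[≠] (0 : ℝ), f s ≠ 0 := by
  rcases (hf 0 trivial).eventually_eq_zero_or_eventually_ne_zero with h | h
  · exact absurd (hf.eqOn_zero_of_preconnected_of_eventuallyEq_zero isPreconnected_univ
      (Set.mem_univ 0) h (Set.mem_univ 1)) h1
  · exact h

theorem Weyl.generic {𝓜 : Weyl H} (h : 𝓜.EClosed) (p : ℕ) (b c t : ℕ → ℝ) {ε : ℝ} (hε : 0 < ε) :
    ∃ b' c' t' : ℕ → ℝ, 𝓜.energy (𝓜.gE (tri b) (fst3 c) (fst3 t) (3 * p)) - ε ≤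
        𝓜.energy (𝓜.gE (tri b') (fst3 c') (fst3 t') (3 * p)) ∧
      ∀ l, 1 ≤ l → l ≤ 3 * p → 𝓜.sE (tri b') (fst3 c') (fst3 t') l ≠ 0 := by
  obtain ⟨a, a0, ha⟩ : ∃ a : ℝ, 0 < a ∧ 12 * p * a < Real.pi := by
    refine ⟨1 / (12 * p + 1), by positivity, ?_⟩
    have h1 : (12 * p : ℝ) * (1 / (12 * p + 1)) < 1 := by
      rw [mul_one_div, div_lt_one (by positivity)]; linarith
    linarith [Real.pi_gt_three]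
  obtain ⟨β, hβ⟩ : ∃ β : ℝ → ℕ → ℝ, β = QGeneric_lin b fun _ => a := ⟨_, rfl⟩
  obtain ⟨γ, hγ⟩ : ∃ γ : ℝ → ℕ → ℝ, γ = QGeneric_lin c fun _ => 0 := ⟨_, rfl⟩
  obtain ⟨τ, hτ⟩ : ∃ τ : ℝ → ℕ → ℝ, τ = QGeneric_lin t fun k => if k = 0 then 1 else 0 := ⟨_, rfl⟩
  have aβ : ∀ j, AnalyticOnNhd ℝ (fun s => tri (β s) j) Set.univ :=
    QGeneric_tri (hβ ▸ QGeneric_lin_an _ _)
  have aγ : ∀ j, AnalyticOnNhd ℝ (fun s => fst3 (γ s) j) Set.univ :=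
    QGeneric_fst3 (hγ ▸ QGeneric_lin_an _ _)
  have aτ : ∀ j, AnalyticOnNhd ℝ (fun s => fst3 (τ s) j) Set.univ :=
    QGeneric_fst3 (hτ ▸ QGeneric_lin_an _ _)
  have aG : ∀ k l, AnalyticOnNhd ℝ (fun s => ⟪𝓜.gE (tri (β s)) (fst3 (γ s)) (fst3 (τ s)) k,
      𝓜.gE (tri (β s)) (fst3 (γ s)) (fst3 (τ s)) l⟫_ℂ) Set.univ := fun k l =>
    Weyl.QGeneric_gram h aβ aγ aτ (max k l + 1) k l (by omega) (by omega)
  have aE : AnalyticOnNhd ℝ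
      (fun s => 𝓜.energy (𝓜.gE (tri (β s)) (fst3 (γ s)) (fst3 (τ s)) (3 * p))) Set.univ := by
    simp only [Weyl.QGeneric_energy h]
    exact Finset.analyticOnNhd_fun_sum _ fun k _ => (analyticOnNhd_const.mul
      (QGeneric_re ((QGeneric_ofReal (aγ k)).mul (aG _ _)))).mul (QGeneric_im (aG _ _))
  have aS : ∀ l, AnalyticOnNhd ℝ
      (fun s => 𝓜.sE (tri (β s)) (fst3 (γ s)) (fst3 (τ s)) l) Set.univ := fun l => by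
    unfold Weyl.sE
    exact Finset.analyticOnNhd_fun_sum _ fun k _ => (aτ k).mul (QGeneric_im (aG _ _))
  have h1 : ∀ l ∈ Finset.Icc 1 (3 * p), 𝓜.sE (tri (β 1)) (fst3 (γ 1)) (fst3 (τ 1)) l ≠ 0 := by
    intro l hl
    rw [Finset.mem_Icc] at hl
    obtain ⟨l, rfl⟩ : ∃ k, l = k + 1 := ⟨l - 1, by omega⟩
    rw [hβ, hγ, hτ, QGeneric_lin1, QGeneric_lin1, QGeneric_lin1,
      Weyl.QGeneric_sE h (fun k => by simp [fst3]) (by simp [fst3]) (fun k => by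
        unfold fst3
        split_ifs with h1
        · exact if_neg (by omega)
        · rfl)]
    have b1 : ∀ k, 0 < tri (fun _ => a) k ∧ tri (fun _ => a) k ≤ 2 * a := fun k => by
      unfold tri
      split_ifs <;> constructor <;> linarith
    have b2 : 0 < ∑ k ∈ Finset.range (l + 1), tri (fun _ => a) k :=
      Finset.sum_pos (fun k _ => (b1 k).1) Finset.nonempty_range_add_one
    have b3 : ∑ k ∈ Finset.range (l + 1), tri (fun _ => a) k ≤ (l + 1 : ℕ) * (2 * a) := by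
      have := Finset.sum_le_card_nsmul (Finset.range (l + 1)) _ _ fun k _ => (b1 k).2
      rwa [Finset.card_range, nsmul_eq_mul] at this
    have b4 : ((l + 1 : ℕ) : ℝ) ≤ 3 * p := by exact_mod_cast hl.2
    have b5 := mul_le_mul_of_nonneg_right b4 (show 0 ≤ 2 * a by linarith)
    have b6 := Real.sin_pos_of_pos_of_lt_pi (x := 2 * ∑ k ∈ Finset.range (l + 1), tri (fun _ => a) k)
      (by linarith) (by linarith)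
    exact neg_ne_zero.2 (mul_pos b6 (Real.exp_pos _)).ne'
  have ev1 : ∀ᶠ s in 𝓝[≠] (0 : ℝ), ∀ l ∈ Finset.Icc 1 (3 * p),
      𝓜.sE (tri (β s)) (fst3 (γ s)) (fst3 (τ s)) l ≠ 0 :=
    (Finset.eventually_all _).2 fun l hl => QGeneric_ne (aS l) (h1 l hl)
  have ev2 : ∀ᶠ s in 𝓝 (0 : ℝ),
      𝓜.energy (𝓜.gE (tri (β 0)) (fst3 (γ 0)) (fst3 (τ 0)) (3 * p)) - ε <
        𝓜.energy (𝓜.gE (tri (β s)) (fst3 (γ s)) (fst3 (τ s)) (3 * p)) :=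
    (aE 0 trivial).continuousAt.eventually (lt_mem_nhds (by linarith))
  obtain ⟨s, s1, s2⟩ := (ev1.and (ev2.filter_mono nhdsWithin_le_nhds)).exists
  have e0 : β 0 = b ∧ γ 0 = c ∧ τ 0 = t := by
    rw [hβ, hγ, hτ]
    exact ⟨QGeneric_lin0 _ _, QGeneric_lin0 _ _, QGeneric_lin0 _ _⟩
  rw [e0.1, e0.2.1, e0.2.2] at s2
  exact ⟨β s, γ s, τ s, s2.le, fun l l1 l2 => s1 l (Finset.mem_Icc.2 ⟨l1, l2⟩)⟩

end Crest.Agent.R339
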