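import Crest.Agent.R339.QLabDefs

/-! # Row 339: algebra of the label model (multiplication operators and rotations) -/

set_option autoImplicit false

namespace Crest.Agent.R339

open MeasureTheory ProbabilityTheory Complex Filter Topology
open scoped InnerProductSpace

variable {H : Type} [NormedAddCommGroup H] [InnerProductSpace ℂ H] [CompleteSpace H]

section BM

variable {K : ℕ} {ψ χ : (Fin (K + 1) → ℝ) → ℂ} {θ θ' : (Fin (K + 1) → ℝ) → ℝ}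
  {S : Set (Fin (K + 1) → ℝ)}

theorem BM.const (c : ℂ) : BM fun _ : Fin (K + 1) → ℝ => c :=
  ⟨measurable_const, ‖c‖, fun _ => le_rfl⟩
theorem BM.add (h : BM ψ) (h' : BM χ) : BM fun ω => ψ ω + χ ω := by
  obtain ⟨m, C, hC⟩ := h
  obtain ⟨m', C', hC'⟩ := h'
  exact ⟨m.add m', C + C', fun ω => (norm_add_le _ _).trans (add_le_add (hC ω) (hC' ω))⟩
theorem BM.sub (h : BM ψ) (h' : BM χ) : BM fun ω => ψ ω - χ ω := by
  obtain ⟨m, C, hC⟩ := h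
  obtain ⟨m', C', hC'⟩ := h'
  exact ⟨m.sub m', C + C', fun ω => (norm_sub_le _ _).trans (add_le_add (hC ω) (hC' ω))⟩
theorem BM.mul (h : BM ψ) (h' : BM χ) : BM fun ω => ψ ω * χ ω := by
  obtain ⟨m, C, hC⟩ := h
  obtain ⟨m', C', hC'⟩ := h'
  refine ⟨m.mul m', C * C', fun ω => ?_⟩
  rw [norm_mul]
  exact mul_le_mul (hC ω) (hC' ω) (norm_nonneg _) ((norm_nonneg _).trans (hC ω))
theorem BM.neg (h : BM ψ) : BM fun ω => -ψ ω := by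
  obtain ⟨m, C, hC⟩ := h
  exact ⟨m.neg, C, fun ω => by rw [norm_neg]; exact hC ω⟩
theorem BM.conj (h : BM ψ) : BM fun ω => (starRingEnd ℂ) (ψ ω) := by
  obtain ⟨m, C, hC⟩ := h
  exact ⟨Complex.continuous_conj.measurable.comp m, C, fun ω => by
    rw [RCLike.norm_conj]; exact hC ω⟩
theorem BM.cexp (h : Measurable θ) : BM fun ω => exp (I * (θ ω : ℝ)) := by
  refine ⟨Complex.measurable_exp.comp
    (measurable_const.mul (Complex.measurable_ofReal.comp h)), 1, fun ω => ?_⟩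
  rw [Complex.norm_exp_I_mul_ofReal]
theorem BM.integrable (h : BM ψ) : Integrable ψ (gam K) := by
  obtain ⟨m, C, hC⟩ := h
  exact Integrable.of_bound m.aestronglyMeasurable C (Eventually.of_forall hC)
theorem BR.of {C : ℝ} (h : Measurable θ) (hC : ∀ ω, |θ ω| ≤ C) : BR θ :=
  ⟨Complex.measurable_ofReal.comp h, C, fun ω => by
    rw [Complex.norm_real, Real.norm_eq_abs]; exact hC ω⟩
theorem BR.meas (h : BR θ) : Measurable θ := by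
  have := Complex.measurable_re.comp h.1
  simpa [Function.comp_def] using this
theorem BR.bdd (h : BR θ) : ∃ C, 0 ≤ C ∧ ∀ ω, |θ ω| ≤ C := by
  obtain ⟨-, C, hC⟩ := h
  refine ⟨C, (norm_nonneg _).trans (hC 0), fun ω => ?_⟩
  have := hC ω
  rwa [Complex.norm_real, Real.norm_eq_abs] at this
theorem BR.const (c : ℝ) : BR fun _ : Fin (K + 1) → ℝ => c :=
  BM.const (c : ℂ)
theorem BR.add (h : BR θ) (h' : BR θ') : BR fun ω => θ ω + θ' ω := by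
  have := BM.add h h'
  simpa only [BR, Complex.ofReal_add] using this
theorem BR.sub (h : BR θ) (h' : BR θ') : BR fun ω => θ ω - θ' ω := by
  have := BM.sub h h'
  simpa only [BR, Complex.ofReal_sub] using this
theorem BR.mul (h : BR θ) (h' : BR θ') : BR fun ω => θ ω * θ' ω := by
  have := BM.mul h h'
  simpa only [BR, Complex.ofReal_mul] using this
theorem BR.neg (h : BR θ) : BR fun ω => -θ ω := by
  have := BM.neg h
  simpa only [BR, Complex.ofReal_neg] using this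
theorem BR.cos (h : Measurable θ) : BR fun ω => Real.cos (θ ω) :=
  BR.of (Real.measurable_cos.comp h) fun _ => Real.abs_cos_le_one _
theorem BR.sin (h : Measurable θ) : BR fun ω => Real.sin (θ ω) :=
  BR.of (Real.measurable_sin.comp h) fun _ => Real.abs_sin_le_one _
theorem BR.indicator (h : BR θ) (hS : MeasurableSet S) : BR (S.indicator θ) := by
  obtain ⟨C, h0, hC⟩ := h.bdd
  refine BR.of (C := C) (h.meas.indicator hS) fun ω => ?_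
  by_cases hω : ω ∈ S
  · rw [Set.indicator_of_mem hω]; exact hC ω
  · rw [Set.indicator_of_notMem hω, abs_zero]; exact h0
theorem AMP.br (A : AMP K) (a : Fin (K + 1)) : BR (A.f a) := by
  obtain ⟨C, hC⟩ := A.f_bdd
  exact BR.of (A.f_meas a) (hC a)
theorem Label.Sgn.br {l : ℕ} (h : Label.Sgn l θ) : BR θ :=
  BR.of h.meas h.bdd
theorem Lvl.mono {α : Type} {l l' : ℕ} {g : (Fin (K + 1) → ℝ) → α} (h : Lvl l g) (hl : l ≤ l') :
    Lvl l' g :=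
  fun ω ω' e => h ω ω' fun b hb => e b (hb.trans hl)
theorem Lvl.of_ge {α : Type} {l : ℕ} (hl : K ≤ l) (g : (Fin (K + 1) → ℝ) → α) : Lvl l g := by
  intro ω ω' e
  rw [show ω = ω' from funext fun b => e b ((Nat.lt_succ_iff.1 b.2).trans hl)]
theorem Label.Anc.lvl_indicator {l : ℕ} (hS : Label.Anc S) (h : Lvl l θ) : Lvl l (S.indicator θ) := by
  intro ω ω' e
  have h1 : (ω ∈ S) = (ω' ∈ S) := hS.lvl ω ω' fun b hb => e b (hb.trans (Nat.zero_le l))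
  by_cases hω : ω ∈ S
  · rw [Set.indicator_of_mem hω, Set.indicator_of_mem (h1 ▸ hω), h ω ω' e]
  · rw [Set.indicator_of_notMem hω, Set.indicator_of_notMem (h1 ▸ hω)]
theorem Label.Anc.compl (hS : Label.Anc S) : Label.Anc Sᶜ := by
  refine ⟨hS.meas.compl, fun ω ω' e => ?_, fun ω => not_congr (hS.even ω)⟩
  have h1 : (ω ∈ S) = (ω' ∈ S) := hS.lvl ω ω' e
  exact congrArg Not h1
theorem ae_coord_ne_zero (a : Fin (K + 1)) : ∀ᵐ ω ∂gam K, ω a ≠ 0 := by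
  have : NullSingletonClass γ1 := nullSingletonClass_gaussianReal one_ne_zero
  exact Measure.ae_eval_ne _ a 0

end BM

namespace Label

variable {K : ℕ} {A : AMP K} {𝓛 : Label A H} {ψ χ : (Fin (K + 1) → ℝ) → ℂ}
  {θ θ' : (Fin (K + 1) → ℝ) → ℝ} {S : Set (Fin (K + 1) → ℝ)} {Q T U V : H →L[ℂ] H}

/-! Multiplication operators. -/

theorem M_congr (h : BM ψ) (h' : BM χ) (e : ψ =ᵐ[gam K] χ) : 𝓛.M ψ = 𝓛.M χ := by
  obtain ⟨C, hC⟩ := h.2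
  ext ξ
  have := 𝓛.M_lim (fun _ => ψ) χ C (fun _ => h.1) h' (fun _ => hC)
    (e.mono fun ω hω => by rw [hω]; exact tendsto_const_nhds) ξ
  exact tendsto_nhds_unique tendsto_const_nhds this
theorem M_one : 𝓛.M (fun _ => 1) = 1 := by
  rw [𝓛.M_const, one_smul]
theorem M_zero : 𝓛.M (fun _ => 0) = 0 := by
  rw [𝓛.M_const, zero_smul]
theorem M_smul (c : ℂ) (h : BM ψ) : 𝓛.M (fun ω => c * ψ ω) = c • 𝓛.M ψ := by
  rw [𝓛.M_mul _ _ (BM.const c) h, 𝓛.M_const, smul_mul_assoc, one_mul]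
theorem M_neg (h : BM ψ) : 𝓛.M (fun ω => -ψ ω) = -𝓛.M ψ := by
  have := M_smul (𝓛 := 𝓛) (-1) h
  simpa only [neg_mul, one_mul, neg_smul, one_smul] using this
theorem M_sub (h : BM ψ) (h' : BM χ) : 𝓛.M (fun ω => ψ ω - χ ω) = 𝓛.M ψ - 𝓛.M χ := by
  simp only [sub_eq_add_neg]
  rw [𝓛.M_add _ _ h h'.neg, M_neg h']
theorem M_Y (h : BM ψ) : 𝓛.M ψ * 𝓛.Y = 𝓛.Y * 𝓛.M ψ := by
  rw [Weyl.Y, mul_smul_comm, smul_mul_assoc, ← mul_assoc, 𝓛.M_X _ h, mul_assoc, 𝓛.M_Z _ h,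
    mul_assoc]
theorem M_cw (h : BM ψ) : 𝓛.CW (𝓛.M ψ) :=
  𝓛.M_W _ h
theorem M_cexp_unitary (h : Measurable θ) :
    𝓛.M (fun ω => exp (I * (θ ω : ℝ))) ∈ unitary (H →L[ℂ] H) := by
  have hb := BM.cexp h
  have e : ∀ ω, (starRingEnd ℂ) (exp (I * (θ ω : ℝ))) * exp (I * (θ ω : ℝ)) = 1 := fun ω => by
    rw [Complex.conj_mul', Complex.norm_exp_I_mul_ofReal]
    simp
  rw [Unitary.mem_iff, 𝓛.M_star _ hb, ← 𝓛.M_mul _ _ hb.conj hb, ← 𝓛.M_mul _ _ hb hb.conj]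
  simp only [mul_comm (exp _) ((starRingEnd ℂ) _), e, M_one, and_self]
theorem inner_M (h : BM ψ) : ⟪𝓛.Ω, 𝓛.M ψ 𝓛.Ω⟫_ℂ = ∫ ω, ψ ω ∂gam K := by
  have := 𝓛.vacM ψ h 0 𝓛.R.zero_mem
  simpa [𝓛.W_zero] using this
theorem inner_Z_M_W (h : BM ψ) {g : H} (hg : g ∈ 𝓛.R) :
    ⟪𝓛.Ω, 𝓛.Z (𝓛.M ψ (𝓛.W g 𝓛.Ω))⟫_ℂ = 0 := by
  have h1 : 𝓛.X * (𝓛.Z * (𝓛.M ψ * 𝓛.W g)) = -(𝓛.Z * (𝓛.M ψ * 𝓛.W g) * 𝓛.X) := by
    rw [← mul_assoc, 𝓛.XZ, neg_mul, mul_assoc, ← mul_assoc 𝓛.X, ← 𝓛.M_X _ h, mul_assoc,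
      𝓛.X_W g hg]
    simp only [mul_assoc]
  have h2 := congrArg (fun T : H →L[ℂ] H => ⟪𝓛.Ω, T 𝓛.Ω⟫_ℂ) h1
  simp only [mul_apply_eq_comp, neg_apply, 𝓛.XΩ,
    inner_neg_right] at h2
  have h3 : ∀ v, ⟪𝓛.Ω, 𝓛.X v⟫_ℂ = ⟪𝓛.Ω, v⟫_ℂ := fun v => by
    rw [← ContinuousLinearMap.adjoint_inner_left, ← ContinuousLinearMap.star_eq_adjoint, 𝓛.X_star,
      𝓛.XΩ]
  rw [h3] at h2
  linear_combination (1 / 2 : ℂ) * h2
/-- Dominated convergence along a countably generated filter. -/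
theorem M_tendsto {ι : Type} {F : Filter ι} [F.IsCountablyGenerated]
    {φ : ι → (Fin (K + 1) → ℝ) → ℂ} {c : ℝ} (hm : ∀ i, Measurable (φ i)) (h : BM χ)
    (hc : ∀ i ω, ‖φ i ω‖ ≤ c) (hl : ∀ᵐ ω ∂gam K, Tendsto (fun i => φ i ω) F (𝓝 (χ ω))) (ξ : H) :
    Tendsto (fun i => 𝓛.M (φ i) ξ) F (𝓝 (𝓛.M χ ξ)) := by
  rw [tendsto_iff_seq_tendsto]
  intro x hx
  exact 𝓛.M_lim (fun n => φ (x n)) χ c (fun n => hm _) h (fun n => hc _)
    (hl.mono fun ω hω => hω.comp hx) ξ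

theorem Mr_star (h : BR θ) : star (𝓛.Mr θ) = 𝓛.Mr θ := by
  rw [Mr, 𝓛.M_star _ h]
  simp only [Complex.conj_ofReal]
theorem Mr_const (c : ℝ) : 𝓛.Mr (fun _ => c) = (c : ℂ) • (1 : H →L[ℂ] H) :=
  𝓛.M_const c
theorem Mr_add (h : BR θ) (h' : BR θ') : 𝓛.Mr (fun ω => θ ω + θ' ω) = 𝓛.Mr θ + 𝓛.Mr θ' := by
  simp only [Mr, Complex.ofReal_add]
  exact 𝓛.M_add _ _ h h'
theorem Mr_sub (h : BR θ) (h' : BR θ') : 𝓛.Mr (fun ω => θ ω - θ' ω) = 𝓛.Mr θ - 𝓛.Mr θ' := by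
  simp only [Mr, Complex.ofReal_sub]
  exact M_sub h h'
theorem Mr_mul (h : BR θ) (h' : BR θ') : 𝓛.Mr (fun ω => θ ω * θ' ω) = 𝓛.Mr θ * 𝓛.Mr θ' := by
  simp only [Mr, Complex.ofReal_mul]
  exact 𝓛.M_mul _ _ h h'
theorem Mr_neg (h : BR θ) : 𝓛.Mr (fun ω => -θ ω) = -𝓛.Mr θ := by
  simp only [Mr, Complex.ofReal_neg]
  exact M_neg h
theorem Mr_smul (c : ℝ) (h : BR θ) : 𝓛.Mr (fun ω => c * θ ω) = (c : ℂ) • 𝓛.Mr θ := by
  simp only [Mr, Complex.ofReal_mul]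
  exact M_smul _ h
theorem Mr_smul_apply (c : ℝ) (h : BR θ) (ξ : H) : 𝓛.Mr (fun ω => c * θ ω) ξ = c • 𝓛.Mr θ ξ := by
  rw [Mr_smul c h, smul_apply, Complex.coe_smul]
theorem Mr_congr (h : BR θ) (h' : BR θ') (e : θ =ᵐ[gam K] θ') : 𝓛.Mr θ = 𝓛.Mr θ' :=
  M_congr h h' (e.mono fun ω hω => by simp only [hω])
theorem norm_Mr_le {c : ℝ} (h : Measurable θ) (hc : ∀ ω, |θ ω| ≤ c) : ‖𝓛.Mr θ‖ ≤ c :=
  𝓛.M_norm _ c (Complex.measurable_ofReal.comp h) fun ω => by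
    rw [Complex.norm_real, Real.norm_eq_abs]; exact hc ω
theorem Mr_f_zero : 𝓛.Mr (A.f 0) = 1 := by
  have : A.f 0 = fun _ => 1 := funext A.f_zero
  rw [this, Mr_const, Complex.ofReal_one, one_smul]
theorem Mr_indicator (h : BR θ) (hS : MeasurableSet S) :
    𝓛.Mr (S.indicator θ) = 𝓛.Ind S * 𝓛.Mr θ := by
  rw [Ind, ← Mr_mul ((BR.const 1).indicator hS) h]
  congr 1
  funext ω
  by_cases hω : ω ∈ S <;> simp [hω]
theorem inner_Mr_Mr (h : BR θ) (h' : BR θ') :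
    ⟪𝓛.Mr θ 𝓛.Ω, 𝓛.Mr θ' 𝓛.Ω⟫_ℂ = ((∫ ω, θ ω * θ' ω ∂gam K : ℝ) : ℂ) := by
  rw [← ContinuousLinearMap.adjoint_inner_right, ← ContinuousLinearMap.star_eq_adjoint, Mr_star h,
    ← mul_apply_eq_comp, ← Mr_mul h h', Mr, inner_M (h.mul h')]
  exact integral_ofReal

theorem Ind_star (hS : MeasurableSet S) : star (𝓛.Ind S) = 𝓛.Ind S :=
  Mr_star ((BR.const 1).indicator hS)
theorem Ind_sq (hS : MeasurableSet S) : 𝓛.Ind S * 𝓛.Ind S = 𝓛.Ind S :=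
  (Mr_indicator ((BR.const 1).indicator hS) hS).symm.trans (by
    rw [Set.indicator_indicator, Set.inter_self]; rfl)
theorem Ind_add_compl (hS : MeasurableSet S) : 𝓛.Ind S + 𝓛.Ind Sᶜ = 1 := by
  rw [Ind, Ind, ← Mr_add ((BR.const 1).indicator hS) ((BR.const 1).indicator hS.compl)]
  have : (fun ω => S.indicator (fun _ => (1 : ℝ)) ω + Sᶜ.indicator (fun _ => (1 : ℝ)) ω) =
      fun _ => 1 := by
    funext ω
    by_cases hω : ω ∈ S <;> simp [hω]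
  rw [this, Mr_const, Complex.ofReal_one, one_smul]
theorem Ind_mul_compl (hS : MeasurableSet S) : 𝓛.Ind S * 𝓛.Ind Sᶜ = 0 := by
  rw [eq_sub_of_add_eq' (Ind_add_compl (𝓛 := 𝓛) hS), mul_sub, mul_one, Ind_sq hS, sub_self]
theorem Ind_compl_mul (hS : MeasurableSet S) : 𝓛.Ind Sᶜ * 𝓛.Ind S = 0 := by
  rw [eq_sub_of_add_eq' (Ind_add_compl (𝓛 := 𝓛) hS), sub_mul, one_mul, Ind_sq hS, sub_self]
theorem norm_Ind_le (hS : MeasurableSet S) : ‖𝓛.Ind S‖ ≤ 1 := by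
  refine norm_Mr_le (measurable_const.indicator hS) fun ω => ?_
  by_cases hω : ω ∈ S <;> simp [hω]
theorem Ind_cw (hS : MeasurableSet S) : 𝓛.CW (𝓛.Ind S) :=
  M_cw ((BR.const 1).indicator hS)
theorem norm_Ind_unitary (hS : MeasurableSet S) (hU : U ∈ unitary (H →L[ℂ] H)) (hc : 𝓛.CM U)
    (ξ : H) : ‖𝓛.Ind S (U ξ)‖ = ‖𝓛.Ind S ξ‖ := by
  have h : 𝓛.Ind S * U = U * 𝓛.Ind S := hc _ ((BR.const 1).indicator hS)
  rw [← mul_apply_eq_comp, h, mul_apply_eq_comp]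
  exact ContinuousLinearMap.norm_map_of_mem_unitary hU _

/-! Operators commuting with the labels. -/

theorem CM.mul (h : 𝓛.CM U) (h' : 𝓛.CM V) : 𝓛.CM (U * V) :=
  fun ψ hψ => by rw [← mul_assoc, h ψ hψ, mul_assoc, h' ψ hψ, mul_assoc]
theorem CM.add (h : 𝓛.CM U) (h' : 𝓛.CM V) : 𝓛.CM (U + V) :=
  fun ψ hψ => by rw [mul_add, add_mul, h ψ hψ, h' ψ hψ]
theorem CM.sub (h : 𝓛.CM U) (h' : 𝓛.CM V) : 𝓛.CM (U - V) :=
  fun ψ hψ => by rw [mul_sub, sub_mul, h ψ hψ, h' ψ hψ]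
theorem CM.smul (h : 𝓛.CM U) (c : ℂ) : 𝓛.CM (c • U) :=
  fun ψ hψ => by rw [mul_smul_comm, smul_mul_assoc, h ψ hψ]
theorem CM.star (h : 𝓛.CM U) : 𝓛.CM (star U) := by
  intro ψ hψ
  have h1 := congrArg Star.star (h _ hψ.conj)
  rw [star_mul, star_mul, ← 𝓛.M_star _ hψ, star_star] at h1
  exact h1.symm
theorem CM.Mr (h : 𝓛.CM U) (hθ : BR θ) : 𝓛.Mr θ * U = U * 𝓛.Mr θ := h _ hθ
theorem CM.Ind (h : 𝓛.CM U) (hS : MeasurableSet S) : 𝓛.Ind S * U = U * 𝓛.Ind S :=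
  h _ ((BR.const 1).indicator hS)
theorem cm_one : 𝓛.CM 1 :=
  fun _ _ => by rw [mul_one, one_mul]
theorem cm_X : 𝓛.CM 𝓛.X :=
  𝓛.M_X
theorem cm_Y : 𝓛.CM 𝓛.Y :=
  fun _ h => M_Y h
theorem cm_Z : 𝓛.CM 𝓛.Z :=
  𝓛.M_Z
theorem cm_M (h : BM ψ) : 𝓛.CM (𝓛.M ψ) :=
  fun χ hχ => by
    rw [← 𝓛.M_mul _ _ hχ h, ← 𝓛.M_mul _ _ h hχ]
    simp only [mul_comm]
theorem cm_Ind (hS : MeasurableSet S) : 𝓛.CM (𝓛.Ind S) :=
  cm_M ((BR.const 1).indicator hS)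
theorem cm_W {g : H} (hg : g ∈ 𝓛.R) : 𝓛.CM (𝓛.W g) :=
  fun ψ hψ => 𝓛.M_W ψ hψ g hg
theorem cm_cosW {g : H} (hg : g ∈ 𝓛.R) : 𝓛.CM (𝓛.cosW g) :=
  ((cm_W hg).add (cm_W (𝓛.R.neg_mem hg))).smul _
theorem cm_sinW {g : H} (hg : g ∈ 𝓛.R) : 𝓛.CM (𝓛.sinW g) :=
  ((cm_W hg).sub (cm_W (𝓛.R.neg_mem hg))).smul _
theorem cm_WQ (hQ : 𝓛.CM Q) {g : H} (hg : g ∈ 𝓛.R) : 𝓛.CM (𝓛.WQ Q g) :=
  (cm_cosW hg).add ((hQ.mul (cm_sinW hg)).smul _)
theorem linv_X : 𝓛.LInv 𝓛.X := ⟨𝓛.invol_X, cm_X⟩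
theorem linv_Y : 𝓛.LInv 𝓛.Y := ⟨𝓛.invol_Y, cm_Y⟩
theorem linv_Z : 𝓛.LInv 𝓛.Z := ⟨𝓛.invol_Z, cm_Z⟩
theorem linv_sgn {l : ℕ} (h : Sgn l θ) : 𝓛.LInv (𝓛.Mr θ) := by
  refine ⟨⟨Mr_star h.br, ?_, M_cw h.br⟩, cm_M h.br⟩
  rw [← Mr_mul h.br h.br, Mr_congr (h.br.mul h.br) (BR.const 1)
    (h.sq.mono fun ω hω => by simpa only [sq] using hω), Mr_const, Complex.ofReal_one, one_smul]

/-! Rotations. -/

omit [CompleteSpace H] in
theorem QLabBase_alg {c s c' s' Q : H →L[ℂ] H} (hc : c' * Q = Q * c') (hs : s' * Q = Q * s')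
    (hQ : Q * Q = 1) :
    (c - I • (s * Q)) * (c' - I • (s' * Q)) = (c * c' - s * s') - I • ((s * c' + c * s') * Q) := by
  have e1 : s * Q * c' = s * c' * Q := by rw [mul_assoc, ← hc, mul_assoc]
  have e2 : s * Q * (s' * Q) = s * s' := by
    rw [hs, mul_assoc, ← mul_assoc Q, hQ, one_mul]
  rw [mul_sub, sub_mul, sub_mul, mul_smul_comm, mul_smul_comm, smul_mul_assoc, smul_mul_assoc, e1,
    e2, smul_smul, Complex.I_mul_I, add_mul, smul_add, ← mul_assoc, neg_smul, one_smul]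
  abel

theorem rot_zero (Q : H →L[ℂ] H) : 𝓛.rot Q (fun _ => 0) = 1 := by
  simp only [rot, Real.cos_zero, Real.sin_zero, Mr_const, Complex.ofReal_one, Complex.ofReal_zero,
    one_smul, zero_smul, zero_mul, smul_zero, sub_zero]
theorem rot_add (hQ : 𝓛.LInv Q) (h : Measurable θ) (h' : Measurable θ') :
    𝓛.rot Q (fun ω => θ ω + θ' ω) = 𝓛.rot Q θ * 𝓛.rot Q θ' := by
  have c := BR.cos h
  have s := BR.sin h
  have c' := BR.cos h'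
  have s' := BR.sin h'
  simp only [rot, Real.cos_add, Real.sin_add]
  rw [Mr_sub (c.mul c') (s.mul s'), Mr_add (s.mul c') (c.mul s'), Mr_mul c c', Mr_mul s s',
    Mr_mul s c', Mr_mul c s']
  exact (QLabBase_alg (hQ.cm.Mr c') (hQ.cm.Mr s') hQ.inv.sq).symm
theorem rot_star (hQ : 𝓛.LInv Q) (h : Measurable θ) :
    star (𝓛.rot Q θ) = 𝓛.rot Q fun ω => -θ ω := by
  have c := BR.cos h
  have s := BR.sin h
  simp only [rot, Real.cos_neg, Real.sin_neg]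
  rw [Mr_neg s, star_sub, star_smul, star_mul, Mr_star c, Mr_star s, hQ.inv.star_eq,
    ← hQ.cm.Mr s]
  simp
theorem rot_unitary (hQ : 𝓛.LInv Q) (h : Measurable θ) : 𝓛.rot Q θ ∈ unitary (H →L[ℂ] H) := by
  have hn : Measurable fun ω => -θ ω := h.neg
  rw [Unitary.mem_iff, rot_star hQ h, ← rot_add hQ hn h, ← rot_add hQ h hn]
  simp only [neg_add_cancel, add_neg_cancel, rot_zero, and_self]
theorem rot_cw (hQ : 𝓛.LInv Q) (h : Measurable θ) : 𝓛.CW (𝓛.rot Q θ) := by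
  have h1 := (M_cw (𝓛 := 𝓛) (BR.cos h)).add (((M_cw (BR.sin h)).mul hQ.inv.cw).smul (-I))
  rw [neg_smul, ← sub_eq_add_neg] at h1
  exact h1
theorem rot_cm (hQ : 𝓛.LInv Q) (h : Measurable θ) : 𝓛.CM (𝓛.rot Q θ) :=
  (cm_M (BR.cos h)).sub (((cm_M (BR.sin h)).mul hQ.cm).smul I)
theorem rot_comm (h : Measurable θ) (hT : 𝓛.CM T) (e : T * Q = Q * T) :
    T * 𝓛.rot Q θ = 𝓛.rot Q θ * T := by
  rw [rot, mul_sub, sub_mul, mul_smul_comm, smul_mul_assoc, ← hT.Mr (BR.cos h), ← mul_assoc,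
    ← hT.Mr (BR.sin h), mul_assoc, e, mul_assoc]
theorem rot_anticomm (h : Measurable θ) (hT : 𝓛.CM T) (e : T * Q = -(Q * T)) :
    T * 𝓛.rot Q θ = 𝓛.rot Q (fun ω => -θ ω) * T := by
  simp only [rot, Real.cos_neg, Real.sin_neg]
  rw [Mr_neg (BR.sin h), mul_sub, sub_mul, mul_smul_comm, smul_mul_assoc, ← hT.Mr (BR.cos h),
    ← mul_assoc, ← hT.Mr (BR.sin h), mul_assoc, e, mul_neg, neg_mul, neg_mul, mul_assoc]
theorem rot_conj_anticomm (hQ : 𝓛.LInv Q) (h : Measurable θ) (hT : 𝓛.CM T)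
    (e : T * Q = -(Q * T)) :
    star (𝓛.rot Q θ) * T * 𝓛.rot Q θ = T * 𝓛.rot Q fun ω => 2 * θ ω := by
  rw [rot_star hQ h, ← rot_anticomm h hT e, mul_assoc, ← rot_add hQ h h]
  simp only [two_mul]
theorem rot_conj (h : Measurable θ) (hU : U ∈ unitary (H →L[ℂ] H)) (hc : 𝓛.CM U) :
    star U * 𝓛.rot Q θ * U = 𝓛.rot (star U * Q * U) θ := by
  have h1 : star U * U = 1 := Unitary.star_mul_self_of_mem hU
  rw [rot, rot, mul_sub, sub_mul, mul_smul_comm, smul_mul_assoc, mul_assoc, hc.Mr (BR.cos h),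
    ← mul_assoc, h1, one_mul, ← mul_assoc (star U), ← hc.star.Mr (BR.sin h)]
  simp only [mul_assoc]
theorem rot_neg_op (Q : H →L[ℂ] H) (h : Measurable θ) :
    𝓛.rot (-Q) θ = 𝓛.rot Q fun ω => -θ ω := by
  simp only [rot, Real.cos_neg, Real.sin_neg]
  rw [Mr_neg (BR.sin h), mul_neg, neg_mul]
theorem rot_const (Q : H →L[ℂ] H) (β : ℝ) : 𝓛.rot Q (fun _ => β) =
    ((Real.cos β : ℝ) : ℂ) • (1 : H →L[ℂ] H) - (I * ((Real.sin β : ℝ) : ℂ)) • Q := by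
  rw [rot, Mr_const, Mr_const, smul_mul_assoc, one_mul, smul_smul]
theorem rot_X_const (β : ℝ) : 𝓛.rot 𝓛.X (fun _ => β) = 𝓛.B β :=
  rot_const _ β
theorem rot_indicator (Q : H →L[ℂ] H) (h : Measurable θ) (hS : MeasurableSet S) :
    𝓛.rot Q (S.indicator θ) = 𝓛.Ind S * 𝓛.rot Q θ + 𝓛.Ind Sᶜ := by
  have e1 : (fun ω => Real.cos (S.indicator θ ω)) = fun ω =>
      S.indicator (fun ω => Real.cos (θ ω)) ω + Sᶜ.indicator (fun _ => (1 : ℝ)) ω := by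
    funext ω
    by_cases hω : ω ∈ S <;> simp [hω]
  have e2 : (fun ω => Real.sin (S.indicator θ ω)) = S.indicator fun ω => Real.sin (θ ω) := by
    funext ω
    by_cases hω : ω ∈ S <;> simp [hω]
  rw [rot, rot, e1, e2, Mr_add ((BR.cos h).indicator hS) ((BR.const 1).indicator hS.compl),
    Mr_indicator (BR.cos h) hS, Mr_indicator (BR.sin h) hS, mul_sub, mul_smul_comm, mul_assoc]
  change _ + 𝓛.Ind Sᶜ - _ = _
  abel
theorem norm_rot_sub (hQ : 𝓛.LInv Q) {ε : ℝ} (h : Measurable θ) (h' : Measurable θ')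
    (hε : ∀ ω, |θ ω - θ' ω| ≤ ε) : ‖𝓛.rot Q θ - 𝓛.rot Q θ'‖ ≤ 2 * ε := by
  have c := BR.cos h
  have s := BR.sin h
  have c' := BR.cos h'
  have s' := BR.sin h'
  have e : 𝓛.rot Q θ - 𝓛.rot Q θ' = 𝓛.Mr (fun ω => Real.cos (θ ω) - Real.cos (θ' ω)) -
      I • (𝓛.Mr (fun ω => Real.sin (θ ω) - Real.sin (θ' ω)) * Q) := by
    rw [Mr_sub c c', Mr_sub s s', rot, rot, sub_mul, smul_sub]
    abel
  have n1 : ‖𝓛.Mr (fun ω => Real.cos (θ ω) - Real.cos (θ' ω))‖ ≤ ε :=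
    norm_Mr_le (c.sub c').meas fun ω => (Real.abs_cos_sub_cos_le _ _).trans (hε ω)
  have n2 : ‖𝓛.Mr (fun ω => Real.sin (θ ω) - Real.sin (θ' ω))‖ ≤ ε :=
    norm_Mr_le (s.sub s').meas fun ω => (Real.abs_sin_sub_sin_le _ _).trans (hε ω)
  rw [e]
  refine (norm_sub_le _ _).trans ?_
  rw [norm_smul, Complex.norm_I, one_mul,
    CStarRing.norm_mul_mem_unitary _ hQ.inv.mem_unitary]
  linarith
theorem rot_tendsto (Q : H →L[ℂ] H) {ι : Type} {F : Filter ι} [F.IsCountablyGenerated]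
    {φ : ι → (Fin (K + 1) → ℝ) → ℝ} (hm : ∀ i, Measurable (φ i)) (h : Measurable θ)
    (hl : ∀ᵐ ω ∂gam K, Tendsto (fun i => φ i ω) F (𝓝 (θ ω))) (ξ : H) :
    Tendsto (fun i => 𝓛.rot Q (φ i) ξ) F (𝓝 (𝓛.rot Q θ ξ)) := by
  have h1 : Tendsto (fun i => 𝓛.Mr (fun ω => Real.cos (φ i ω)) ξ) F
      (𝓝 (𝓛.Mr (fun ω => Real.cos (θ ω)) ξ)) :=
    M_tendsto (c := 1) (fun i => (BR.cos (hm i)).1) (BR.cos h)
      (fun i ω => by rw [Complex.norm_real, Real.norm_eq_abs]; exact Real.abs_cos_le_one _)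
      (hl.mono fun ω hω => ((Complex.continuous_ofReal.comp Real.continuous_cos).tendsto _).comp hω)
      ξ
  have h2 : Tendsto (fun i => 𝓛.Mr (fun ω => Real.sin (φ i ω)) (Q ξ)) F
      (𝓝 (𝓛.Mr (fun ω => Real.sin (θ ω)) (Q ξ))) :=
    M_tendsto (c := 1) (fun i => (BR.sin (hm i)).1) (BR.sin h)
      (fun i ω => by rw [Complex.norm_real, Real.norm_eq_abs]; exact Real.abs_sin_le_one _)
      (hl.mono fun ω hω => ((Complex.continuous_ofReal.comp Real.continuous_sin).tendsto _).comp hω)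
      (Q ξ)
  exact h1.sub (h2.const_smul I)
/-- `Y` rotations are conjugate to `Z` rotations. -/
theorem rot_Y_eq (h : Measurable θ) :
    𝓛.rot 𝓛.Y θ = star (𝓛.B (Real.pi / 4)) * 𝓛.rot 𝓛.Z θ * 𝓛.B (Real.pi / 4) := by
  have hc : 𝓛.CM (𝓛.B (Real.pi / 4)) := (cm_one.smul _).sub (cm_X.smul _)
  rw [rot_conj h (𝓛.B_unitary _) hc, 𝓛.B_conj_Z,
    show 2 * (Real.pi / 4) = Real.pi / 2 by ring, Real.cos_pi_div_two, Real.sin_pi_div_two]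
  simp
theorem rot_Z_coord (a : Fin (K + 1)) (t : ℝ) :
    𝓛.rot 𝓛.Z (fun ω => t * ω a) = 𝓛.WZ (-(t • 𝓛.Mr (A.f a) 𝓛.Ω)) := by
  have hm : ∀ t : ℝ, Measurable fun ω : Fin (K + 1) → ℝ => t * ω a := fun t =>
    measurable_const.mul (measurable_pi_apply a)
  have e1 : 𝓛.W (-(t • 𝓛.Mr (A.f a) 𝓛.Ω)) = 𝓛.M fun ω => exp (I * (-t * ω a : ℝ)) := by
    rw [← neg_smul]
    exact 𝓛.W_v a (-t)
  have e2 : 𝓛.W (-(-(t • 𝓛.Mr (A.f a) 𝓛.Ω))) = 𝓛.M fun ω => exp (I * (t * ω a : ℝ)) := by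
    rw [neg_neg]
    exact 𝓛.W_v a t
  have b1 := BM.cexp (hm (-t))
  have b2 := BM.cexp (hm t)
  have hc : 𝓛.cosW (-(t • 𝓛.Mr (A.f a) 𝓛.Ω)) = 𝓛.Mr fun ω => Real.cos (t * ω a) := by
    rw [Weyl.cosW, e1, e2, ← 𝓛.M_add _ _ b1 b2, ← M_smul _ (b1.add b2), Mr]
    congr 1
    funext ω
    rw [Complex.ofReal_cos, Complex.cos]
    push_cast
    ring_nf
  have hs : 𝓛.sinW (-(t • 𝓛.Mr (A.f a) 𝓛.Ω)) = -𝓛.Mr fun ω => Real.sin (t * ω a) := by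
    rw [Weyl.sinW, e1, e2, ← M_sub b1 b2, ← M_smul _ (b1.sub b2), Mr, ← M_neg (BR.sin (hm t))]
    congr 1
    funext ω
    rw [Complex.ofReal_sin, Complex.sin, one_div, mul_inv, Complex.inv_I]
    push_cast
    ring_nf
  rw [Weyl.WZ, Weyl.WQ, hc, hs, rot, cm_Z.Mr (BR.sin (hm t)), mul_neg, smul_neg, sub_eq_add_neg]

end Label

end Crest.Agent.R339
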