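import Crest.Agent.R339.QReg

/-! # Row 339: definitions for the simulation of labels -/

set_option autoImplicit false

namespace Crest.Agent.R339

open MeasureTheory ProbabilityTheory Complex Filter Topology
open scoped InnerProductSpace

variable {H : Type} [NormedAddCommGroup H] [InnerProductSpace ℂ H] [CompleteSpace H]

/-- Bounded measurable real functions of the labels. -/
abbrev BR {K : ℕ} (θ : (Fin (K + 1) → ℝ) → ℝ) : Prop := BM fun ω => (θ ω : ℂ)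

/-- Weak operator convergence as `s → ∞`. -/
def WLim (A : ℝ → H →L[ℂ] H) (B : H →L[ℂ] H) : Prop :=
  ∀ ξ ζ : H, Tendsto (fun s => ⟪ξ, A s ζ⟫_ℂ) atTop (𝓝 ⟪ξ, B ζ⟫_ℂ)

/-- Weak convergence of vectors as `s → ∞`. -/
def VLim (u : ℝ → H) (w : H) : Prop := ∀ ξ : H, Tendsto (fun s => ⟪ξ, u s⟫_ℂ) atTop (𝓝 ⟪ξ, w⟫_ℂ)

/-- `μ = exp (-1/2)`. -/
noncomputable def muL : ℝ := Real.exp (-(1 / 2))

/-- `b = 2 τ μ`. -/
noncomputable def bL (τ : ℝ) : ℝ := 2 * τ * muL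

namespace Weyl

variable (𝓜 : Weyl H)

/-- A bounded family of field vectors. -/
def Fam (u : ℝ → H) : Prop := (∀ s, u s ∈ 𝓜.R) ∧ ∃ C, ∀ s, ‖u s‖ ≤ C

/-- A family of operators which oscillates faster than any bounded family of Weyl operators. -/
def Osc (A : ℝ → H →L[ℂ] H) : Prop := ∀ u, 𝓜.Fam u → WLim (fun s => A s * 𝓜.W (u s)) 0

end Weyl

namespace Label

variable {K : ℕ} {A : AMP K} (𝓛 : Label A H)

/-- Vectors whose Weyl operator commutes with those of all label vectors. -/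
def RealL (u : H) : Prop := ∀ f, BR f → (⟪𝓛.Mr f 𝓛.Ω, u⟫_ℂ).im = 0

/-- Involutions commuting with the fields and the labels. -/
structure LInv (Q : H →L[ℂ] H) : Prop where
  inv : 𝓛.Invol Q
  cm : 𝓛.CM Q

/-- Products of gates of level `l`. -/
inductive Loc (l : ℕ) : (H →L[ℂ] H) → Prop
  | one : Loc l 1
  | gate {G u : H →L[ℂ] H} : 𝓛.Gate l G → Loc l u → Loc l (G * u)

/-- Level `l` states up to a phase. -/
def PR (l : ℕ) (U : H →L[ℂ] H) : Prop := ∃ c : ℂ, ‖c‖ = 1 ∧ 𝓛.LReach l (c • U)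

/-- Unitaries which can be simulated at level `l`. -/
def Sim (l : ℕ) (U : H →L[ℂ] H) : Prop := U ∈ unitary (H →L[ℂ] H) ∧ Approx (𝓛.TL l) U

/-! The loop.  `N` is the ancilla set, `Nᶜ` the system. -/

/-- Standing assumptions for a loop. -/
structure Hyp (l : ℕ) (f : (Fin (K + 1) → ℝ) → ℝ) (N : Set (Fin (K + 1) → ℝ)) (U : H →L[ℂ] H) :
    Prop where
  sgn : Sgn l f
  anc : Anc N
  reach : 𝓛.PR l U

section
variable (f : (Fin (K + 1) → ℝ) → ℝ) (N : Set (Fin (K + 1) → ℝ)) (U : H →L[ℂ] H) (τ ε s : ℝ)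

/-- The randomising rotation. -/
noncomputable def Rs : H →L[ℂ] H :=
  𝓛.rot 𝓛.Z (Nᶜ.indicator fun ω => s * ω 0) * 𝓛.rot 𝓛.X (N.indicator fun ω => s * |ω 0|)

/-- `f` on the system. -/
noncomputable def Mf : H →L[ℂ] H := 𝓛.Mr (Nᶜ.indicator f)

/-- `Q = f X` on the system, `Y` on the ancillas. -/
noncomputable def Qf : H →L[ℂ] H := 𝓛.Mf f N * 𝓛.X + 𝓛.Ind N * 𝓛.Y

/-- The small rotation of the system. -/
noncomputable def Xe : H →L[ℂ] H := 𝓛.rot 𝓛.X (Nᶜ.indicator fun _ => ε)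

noncomputable def lq : H := 𝓛.br (𝓛.Rs N s * U) (𝓛.Qf f N)

noncomputable def lO : H →L[ℂ] H := 𝓛.WQ (𝓛.Qf f N) (-((1 / 2 : ℝ) • 𝓛.lq f N U s))

noncomputable def lg : H := 𝓛.br (𝓛.lO f N U s * (𝓛.Rs N s * U)) 𝓛.Z

noncomputable def lI : H →L[ℂ] H := 𝓛.WZ (-(τ • 𝓛.lg f N U s))

noncomputable def lU3 : H →L[ℂ] H := 𝓛.lI f N U τ s * (𝓛.lO f N U s * (𝓛.Rs N s * U))

noncomputable def lu1 : H := τ • (𝓛.br (𝓛.Xe N ε * 𝓛.lU3 f N U τ s) 𝓛.Z - 𝓛.lg f N U s)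

noncomputable def lD1 : H →L[ℂ] H :=
  star (𝓛.lO f N U s) * (star (𝓛.lI f N U τ s) * 𝓛.Xe N ε * 𝓛.lI f N U τ s) * 𝓛.lO f N U s

noncomputable def lD2 : H →L[ℂ] H :=
  star (𝓛.lO f N U s) * 𝓛.WZ (𝓛.lu1 f N U τ ε s) * 𝓛.lO f N U s

noncomputable def lu2 : H := (1 / 2 : ℝ) •
  (𝓛.br (𝓛.lD2 f N U τ ε s * 𝓛.lD1 f N U τ ε s * (𝓛.Rs N s * U)) (𝓛.Qf f N) - 𝓛.lq f N U s)

noncomputable def lD3 : H →L[ℂ] H := 𝓛.WQ (𝓛.Qf f N) (𝓛.lu2 f N U τ ε s)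

/-- The loop. -/
noncomputable def lL : H →L[ℂ] H :=
  star (𝓛.Rs N s) * (𝓛.lD3 f N U τ ε s * 𝓛.lD2 f N U τ ε s * 𝓛.lD1 f N U τ ε s) * 𝓛.Rs N s

/-- `⟦Z 1_S⟧`. -/
noncomputable def gS : H := 𝓛.br U (𝓛.Ind Nᶜ * 𝓛.Z)

/-- `⟦f 1_S cos (b φ(g_S))⟧`. -/
noncomputable def lam : H := 𝓛.br U (𝓛.Mf f N * 𝓛.cosW (bL τ • 𝓛.gS N U))

/-- The strength of the effective generator. -/
noncomputable def kap : ℝ :=
  Real.exp (-(2 * τ ^ 2 * (1 - muL ^ 2 * ‖𝓛.gS N U‖ ^ 2))) * Real.sin (bL τ * 𝓛.xA N U)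

/-- The effective generator on the system. -/
noncomputable def Kop (ζ : H) : H := 𝓛.kap N U τ • (𝓛.Mf f N (𝓛.sinW (bL τ • 𝓛.gS N U) ζ) +
  bL τ • 𝓛.Ind Nᶜ (𝓛.Z (𝓛.phi (𝓛.lam f N U τ) ζ)))

/-- The reference step. -/
noncomputable def Gref (h : ℝ) : H →L[ℂ] H :=
  𝓛.WQ (𝓛.Mr f) (-(h • 𝓛.gS N U)) * 𝓛.WZ (-(h • 𝓛.Mf f N 𝓛.Ω))

end

end Label

end Crest.Agent.R339
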