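import Crest.Agent.R339.QLabBase

/-! # Row 339: trigonometric approximation of label functions -/

set_option autoImplicit false

namespace Crest.Agent.R339

open MeasureTheory ProbabilityTheory Complex Filter Topology
open scoped InnerProductSpace

variable {H : Type} [NormedAddCommGroup H] [InnerProductSpace ℂ H] [CompleteSpace H]

/-- Real trigonometric polynomials in the labels `0, …, l` built from `F` (`cos` or `sin`). -/
inductive Trig {K : ℕ} (F : ℝ → ℝ) (l : ℕ) : ((Fin (K + 1) → ℝ) → ℝ) → Prop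
  | zero : Trig F l fun _ => 0
  | add (c : ℝ) (ξ : Fin (K + 1) → ℝ) {p : (Fin (K + 1) → ℝ) → ℝ} :
      (∀ a, l < a.val → ξ a = 0) → Trig F l p → Trig F l fun ω => c * F (∑ a, ξ a * ω a) + p ω

theorem Trig.measurable {K l : ℕ} {F : ℝ → ℝ} (hF : Measurable F) {p : (Fin (K + 1) → ℝ) → ℝ}
    (h : Trig F l p) : Measurable p := by
  induction h with
  | zero => exact measurable_const
  | add c ξ _ _ ih => exact ((hF.comp (by fun_prop)).const_mul c).add ih

namespace QLabTrig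

variable {K l : ℕ} {F : ℝ → ℝ} {p q : (Fin (K + 1) → ℝ) → ℝ}

theorem of_eq (h : Trig F l p) (e : ∀ ω, q ω = p ω) : Trig F l q := by
  rwa [funext e]

theorem add' (h : Trig F l p) (h' : Trig F l q) : Trig F l fun ω => p ω + q ω := by
  induction h with
  | zero => exact of_eq h' fun ω => zero_add _
  | add c ξ hξ _ ih => exact of_eq (Trig.add c ξ hξ ih) fun ω => add_assoc _ _ _

theorem smul' (r : ℝ) (h : Trig F l p) : Trig F l fun ω => r * p ω := by
  induction h with
  | zero => exact of_eq Trig.zero fun ω => mul_zero _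
  | add c ξ hξ _ ih => exact of_eq (Trig.add (r * c) ξ hξ ih) fun ω => by ring

theorem single (F : ℝ → ℝ) (ξ : Fin (K + 1) → ℝ) : Trig F K fun ω => F (∑ a, ξ a * ω a) :=
  of_eq (Trig.add 1 ξ (fun a h => absurd a.2 (by omega)) Trig.zero) fun ω => by simp

theorem par {ε : ℝ} (hF : ∀ x, F (-x) = ε * F x) (h : Trig F l p) (ω : Fin (K + 1) → ℝ) :
    p (-ω) = ε * p ω := by
  induction h with
  | zero => simp
  | add c ξ _ _ ih =>
    have e : ∑ a, ξ a * (-ω) a = -∑ a, ξ a * ω a := by simp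
    simp only [e, hF, ih]
    ring

/-- Projection on the labels `0, …, l`. -/
def prj (l : ℕ) (ω : Fin (K + 1) → ℝ) : Fin (K + 1) → ℝ := fun a => if a.val ≤ l then ω a else 0

theorem prj_meas : Measurable (prj l : (Fin (K + 1) → ℝ) → _) :=
  measurable_pi_lambda _ fun a => by
    unfold prj
    split_ifs <;> fun_prop

theorem prj_neg (ω : Fin (K + 1) → ℝ) : prj l (-ω) = -prj l ω := by
  funext a
  simp only [prj, Pi.neg_apply]
  split_ifs <;> simp

theorem comp_prj {l' : ℕ} (h : Trig F l' p) : Trig F l fun ω => p (prj l ω) := by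
  induction h with
  | zero => exact Trig.zero
  | add c ξ _ _ ih =>
    refine of_eq (Trig.add c (prj l ξ) (fun a h => if_neg (by omega)) ih) fun ω => ?_
    have e : ∑ a, ξ a * prj l ω a = ∑ a, prj l ξ a * ω a := Finset.sum_congr rfl fun a _ => by
      simp only [prj]
      split_ifs <;> simp
    simp only [e]

theorem uniq (ν : Measure (Fin (K + 1) → ℝ)) [IsFiniteMeasure ν] {f : (Fin (K + 1) → ℝ) → ℝ}
    (hf : Integrable f ν)
    (hc : ∀ ξ : Fin (K + 1) → ℝ, ∫ ω, f ω * Real.cos (∑ a, ξ a * ω a) ∂ν = 0)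
    (hs : ∀ ξ : Fin (K + 1) → ℝ, ∫ ω, f ω * Real.sin (∑ a, ξ a * ω a) ∂ν = 0) : f =ᵐ[ν] 0 := by
  have i1 := isFiniteMeasure_withDensity_ofReal hf.2
  have i2 := isFiniteMeasure_withDensity_ofReal hf.neg.2
  have m1 : AEMeasurable (fun ω => ENNReal.ofReal (f ω)) ν := hf.aemeasurable.ennreal_ofReal
  have m2 : AEMeasurable (fun ω => ENNReal.ofReal ((-f) ω)) ν := hf.neg.aemeasurable.ennreal_ofReal
  have key : (ν.withDensity fun ω => ENNReal.ofReal (f ω)) =
      ν.withDensity fun ω => ENNReal.ofReal ((-f) ω) := by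
    refine Measure.ext_of_charFunDual (funext fun L => ?_)
    have hL : ∀ ω, L ω = ∑ a, L (Pi.single a 1) * ω a := fun ω => by
      conv_lhs => rw [pi_eq_sum_univ' ω, map_sum]
      exact Finset.sum_congr rfl fun a _ => by rw [map_smul, smul_eq_mul, mul_comm]
    have hb : ∀ {g : (Fin (K + 1) → ℝ) → ℝ}, Integrable g ν →
        Integrable (fun ω => g ω • cexp (L ω * I)) ν := fun hg =>
      hg.smul_bdd 1 (by fun_prop) (ae_of_all _ fun ω => by rw [norm_exp_ofReal_mul_I])
    have hb' : ∀ G : ℝ → ℝ, Continuous G → (∀ x, |G x| ≤ 1) →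
        Integrable (fun ω => ((f ω * G (L ω) : ℝ) : ℂ)) ν := fun G hG h1 =>
      (hf.mul_bdd (c := 1) (by fun_prop) (ae_of_all _ fun ω => h1 _)).ofReal
    rw [charFunDual_apply, charFunDual_apply,
      integral_withDensity_eq_integral_toReal_smul₀ m1 (ae_of_all _ fun _ => ENNReal.ofReal_lt_top),
      integral_withDensity_eq_integral_toReal_smul₀ m2 (ae_of_all _ fun _ => ENNReal.ofReal_lt_top),
      ← sub_eq_zero]
    simp only [ENNReal.toReal_ofReal']
    rw [← integral_sub (hb hf.pos_part) (hb hf.neg.pos_part)]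
    have e : ∀ ω, max (f ω) 0 • cexp (L ω * I) - max ((-f) ω) 0 • cexp (L ω * I) =
        ((f ω * Real.cos (L ω) : ℝ) : ℂ) + ((f ω * Real.sin (L ω) : ℝ) : ℂ) * I := fun ω => by
      rw [← sub_smul, Pi.neg_apply, max_zero_sub_max_neg_zero_eq_self, exp_mul_I, real_smul]
      push_cast
      ring
    simp only [e]
    rw [integral_add (hb' _ Real.continuous_cos Real.abs_cos_le_one)
      ((hb' _ Real.continuous_sin Real.abs_sin_le_one).mul_const _), integral_mul_const,
      integral_complex_ofReal, integral_complex_ofReal]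
    have c1 := hc fun a => L (Pi.single a 1)
    have s1 := hs fun a => L (Pi.single a 1)
    simp only [← hL] at c1 s1
    simp only [c1, s1, ofReal_zero, zero_mul, add_zero]
  filter_upwards [(withDensity_eq_iff_of_sigmaFinite m1 m2).1 key] with ω h
  have h2 := congrArg ENNReal.toReal h
  simp only [ENNReal.toReal_ofReal', Pi.neg_apply] at h2
  rw [← max_zero_sub_max_neg_zero_eq_self (f ω), h2, sub_self, Pi.zero_apply]

/-- Trigonometric polynomials in `L²`. -/
def V (ν : Measure (Fin (K + 1) → ℝ)) : Submodule ℝ (Lp ℝ 2 ν) where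
  carrier := {g | ∃ c s, Trig Real.cos K c ∧ Trig Real.sin K s ∧ g =ᵐ[ν] fun ω => c ω + s ω}
  add_mem' := by
    rintro g g' ⟨c, s, hc, hs, e⟩ ⟨c', s', hc', hs', e'⟩
    refine ⟨_, _, add' hc hc', add' hs hs', ?_⟩
    filter_upwards [Lp.coeFn_add g g', e, e'] with ω h1 h2 h3
    rw [h1, Pi.add_apply, h2, h3]
    ring
  zero_mem' := ⟨_, _, Trig.zero, Trig.zero, by
    filter_upwards [Lp.coeFn_zero ℝ 2 ν] with ω h
    rw [h, Pi.zero_apply, add_zero]⟩
  smul_mem' := by
    rintro r g ⟨c, s, hc, hs, e⟩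
    refine ⟨_, _, smul' r hc, smul' r hs, ?_⟩
    filter_upwards [Lp.coeFn_smul r g, e] with ω h1 h2
    rw [h1, Pi.smul_apply, h2, smul_eq_mul]
    ring

theorem dense_V (ν : Measure (Fin (K + 1) → ℝ)) [IsFiniteMeasure ν] :
    Dense (V ν : Set (Lp ℝ 2 ν)) := by
  rw [Submodule.dense_iff_topologicalClosure_eq_top, Submodule.topologicalClosure_eq_top_iff,
    Submodule.eq_bot_iff]
  intro f hf
  have key : ∀ G : (Fin (K + 1) → ℝ) → ℝ, Measurable G → (∀ ω, |G ω| ≤ 1) →
      (∃ c s, Trig Real.cos K c ∧ Trig Real.sin K s ∧ ∀ ω, G ω = c ω + s ω) →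
      ∫ ω, f ω * G ω ∂ν = 0 := by
    rintro G hG h1 ⟨c, s, hc, hs, e⟩
    have hm : MemLp G 2 ν := MemLp.of_bound hG.aestronglyMeasurable 1 (ae_of_all _ h1)
    have h := (Submodule.mem_orthogonal _ _).1 hf (hm.toLp G)
      ⟨c, s, hc, hs, hm.coeFn_toLp.trans (ae_of_all _ e)⟩
    rw [L2.inner_def] at h
    rw [← h]
    refine integral_congr_ae ?_
    filter_upwards [hm.coeFn_toLp] with ω h2
    rw [h2]
    simp
  refine Lp.eq_zero_iff_ae_eq_zero.2 (uniq ν ((Lp.memLp f).integrable one_le_two)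
    (fun ξ => key _ (by fun_prop) (fun ω => Real.abs_cos_le_one _)
      ⟨_, _, single _ ξ, Trig.zero, fun ω => (add_zero _).symm⟩)
    fun ξ => key _ (by fun_prop) (fun ω => Real.abs_sin_le_one _)
      ⟨_, _, Trig.zero, single _ ξ, fun ω => (zero_add _).symm⟩)

theorem approx (ν : Measure (Fin (K + 1) → ℝ)) [IsFiniteMeasure ν] {θ : (Fin (K + 1) → ℝ) → ℝ}
    (hm : Measurable θ) : ∃ c s : ℕ → (Fin (K + 1) → ℝ) → ℝ, (∀ n, Trig Real.cos K (c n)) ∧
      (∀ n, Trig Real.sin K (s n)) ∧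
      ∀ᵐ ω ∂ν, Tendsto (fun n => c n ω + s n ω) atTop (𝓝 (θ ω)) := by
  have hM : ∀ n : ℕ, MemLp (fun ω => max (-(n : ℝ)) (min (θ ω) n)) 2 ν := fun n =>
    MemLp.of_bound (by fun_prop) n (ae_of_all _ fun ω => by
      rw [Real.norm_eq_abs, abs_le]
      exact ⟨le_max_left _ _, max_le (by simp) (min_le_right _ _)⟩)
  choose g hg hd using fun n : ℕ =>
    (dense_V ν).exists_dist_lt ((hM n).toLp _) (Nat.one_div_pos_of_nat (α := ℝ) (n := n))
  choose c s hc hs e using hg
  have h0 : Tendsto (fun n => (hM n).toLp _ - g n) atTop (𝓝 0) := by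
    rw [tendsto_zero_iff_norm_tendsto_zero]
    exact squeeze_zero (fun n => norm_nonneg _) (fun n => by rw [← dist_eq_norm]; exact (hd n).le)
      tendsto_one_div_add_atTop_nhds_zero_nat
  obtain ⟨ns, hns, h1⟩ := (tendstoInMeasure_of_tendsto_Lp h0).exists_seq_tendsto_ae
  refine ⟨fun n => c (ns n), fun n => s (ns n), fun n => hc _, fun n => hs _, ?_⟩
  filter_upwards [h1, Lp.coeFn_zero ℝ 2 ν, ae_all_iff.2 e, ae_all_iff.2 fun n => (hM n).coeFn_toLp,
    ae_all_iff.2 fun n => Lp.coeFn_sub ((hM n).toLp _) (g n)] with ω h2 h3 h4 h5 h6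
  simp only [h6, Pi.sub_apply, h5, h4, h3, Pi.zero_apply] at h2
  have h7 : ∀ᶠ n in atTop, θ ω = max (-(ns n : ℝ)) (min (θ ω) (ns n)) := by
    filter_upwards [(tendsto_natCast_atTop_atTop (R := ℝ).comp hns.tendsto_atTop).eventually_ge_atTop
      |θ ω|] with n hn
    obtain ⟨a1, a2⟩ := abs_le.1 (show |θ ω| ≤ (ns n : ℝ) from hn)
    rw [min_eq_left a2, max_eq_right a1]
  have h8 := (tendsto_const_nhds.congr' h7).sub h2
  simpa using h8

theorem gam_neg : MeasurePreserving (fun ω : Fin (K + 1) → ℝ => -ω) (gam K) (gam K) :=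
  measurePreserving_pi (fun _ => γ1) (fun _ => γ1) (f := fun _ x => -x)
    fun _ => ⟨measurable_neg, by simp [gaussianReal_map_neg]⟩

theorem approx' {θ : (Fin (K + 1) → ℝ) → ℝ} (hm : Measurable θ) (hl : Lvl l θ) :
    ∃ c s : ℕ → (Fin (K + 1) → ℝ) → ℝ, (∀ n, Trig Real.cos l (c n)) ∧
      (∀ n, Trig Real.sin l (s n)) ∧
      ∀ᵐ ω ∂gam K, Tendsto (fun n => c n ω + s n ω) atTop (𝓝 (θ ω)) ∧
        Tendsto (fun n => c n ω - s n ω) atTop (𝓝 (θ (-ω))) := by
  obtain ⟨c, s, hc, hs, h⟩ := approx ((gam K).map (prj l)) hm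
  have h1 : ∀ᵐ ω ∂gam K, Tendsto (fun n => c n (prj l ω) + s n (prj l ω)) atTop (𝓝 (θ ω)) := by
    filter_upwards [ae_of_ae_map prj_meas.aemeasurable h] with ω h2
    rwa [hl (prj l ω) ω fun b hb => if_pos hb] at h2
  refine ⟨_, _, fun n => comp_prj (hc n), fun n => comp_prj (hs n), ?_⟩
  filter_upwards [h1, gam_neg.quasiMeasurePreserving.ae h1] with ω h2 h3
  refine ⟨h2, h3.congr fun n => ?_⟩
  rw [prj_neg, par (ε := 1) (by simp) (hc n), par (ε := -1) (by simp) (hs n)]
  ring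

end QLabTrig

theorem exists_trig_cos {K l : ℕ} {θ : (Fin (K + 1) → ℝ) → ℝ} (hm : Measurable θ) (hl : Lvl l θ)
    (he : ∀ ω, θ (-ω) = θ ω) : ∃ p : ℕ → (Fin (K + 1) → ℝ) → ℝ, (∀ n, Trig Real.cos l (p n)) ∧
      ∀ᵐ ω ∂gam K, Tendsto (fun n => p n ω) atTop (𝓝 (θ ω)) := by
  obtain ⟨c, s, hc, -, h⟩ := QLabTrig.approx' hm hl
  refine ⟨c, hc, h.mono fun ω h2 => ?_⟩
  have h3 := (h2.1.add h2.2).div_const 2
  rw [he, add_self_div_two] at h3
  exact h3.congr fun n => by ring

theorem exists_trig_sin {K l : ℕ} {θ : (Fin (K + 1) → ℝ) → ℝ} (hm : Measurable θ) (hl : Lvl l θ)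
    (ho : ∀ ω, θ (-ω) = -θ ω) : ∃ p : ℕ → (Fin (K + 1) → ℝ) → ℝ, (∀ n, Trig Real.sin l (p n)) ∧
      ∀ᵐ ω ∂gam K, Tendsto (fun n => p n ω) atTop (𝓝 (θ ω)) := by
  obtain ⟨c, s, -, hs, h⟩ := QLabTrig.approx' hm hl
  refine ⟨s, hs, h.mono fun ω h2 => ?_⟩
  have h3 := (h2.1.sub h2.2).div_const 2
  rw [ho, sub_neg_eq_add, add_self_div_two] at h3
  exact h3.congr fun n => by ring

/-- An odd bounded function is a uniform limit of combinations of sign functions: one step. -/
theorem exists_sgn {K l : ℕ} {f : (Fin (K + 1) → ℝ) → ℝ} (hm : Measurable f) (hl : Lvl l f)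
    (ho : ∀ ω, f (-ω) = -f ω) {C : ℝ} (hC : ∀ ω, |f ω| ≤ C) :
    ∃ σ, Label.Sgn l σ ∧ ∀ ω, |f ω - C / 2 * σ ω| ≤ C / 2 := by
  refine ⟨fun ω => if 0 < f ω then 1 else if f ω < 0 then -1 else if 0 < ω 0 then 1 else
    if ω 0 < 0 then -1 else 0, ⟨?_, fun ω ω' h => ?_, fun ω => ?_, fun ω => ?_, ?_⟩, fun ω => ?_⟩
  · exact Measurable.ite (measurableSet_lt measurable_const hm) measurable_const
      (Measurable.ite (measurableSet_lt hm measurable_const) measurable_const
        (Measurable.ite (measurableSet_lt measurable_const (measurable_pi_apply 0))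
          measurable_const (Measurable.ite
            (measurableSet_lt (measurable_pi_apply 0) measurable_const) measurable_const
              measurable_const)))
  · simp only [hl ω ω' h, h 0 (Nat.zero_le _)]
  · simp only [ho, Pi.neg_apply]
    split_ifs <;> first | rfl | linarith
  · split_ifs <;> simp
  · filter_upwards [ae_coord_ne_zero 0] with ω h
    split_ifs with h1 h2 h3 h4
    · simp
    · simp
    · simp
    · simp
    · exact absurd (le_antisymm (not_lt.1 h3) (not_lt.1 h4)) h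
  · obtain ⟨h1, h2⟩ := abs_le.1 (hC ω)
    simp only [abs_le]
    split_ifs <;> constructor <;> linarith

end Crest.Agent.R339
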