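import Crest.Agent.R339.QLabReach
import Crest.Agent.R339.QLabTrig

/-! # Row 339: universality of the elementary gates -/

set_option autoImplicit false

namespace Crest.Agent.R339

open MeasureTheory ProbabilityTheory Complex Filter Topology
open scoped InnerProductSpace

variable {H : Type} [NormedAddCommGroup H] [InnerProductSpace ℂ H] [CompleteSpace H]

namespace Label

variable {K : ℕ} {A : AMP K} {𝓛 : Label A H} {l : ℕ}

theorem approx_gen_mul {U V : H →L[ℂ] H} (h : Approx {W | 𝓛.Gen l W} U)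
    (h' : Approx {W | 𝓛.Gen l W} V) : Approx {W | 𝓛.Gen l W} (U * V) := by
  exact h.mul_right fun _ hg => h'.mul_left fun _ hV => Approx.of_mem (Gen.mul hg hV)

theorem gen_rot_Z {ξ : Fin (K + 1) → ℝ} (hξ : ∀ a, l < a.val → ξ a = 0) :
    𝓛.Gen l (𝓛.rot 𝓛.Z fun ω => ∑ a, ξ a * ω a) := by
  classical
  have key : ∀ s : Finset (Fin (K + 1)), 𝓛.Gen l (𝓛.rot 𝓛.Z fun ω => ∑ a ∈ s, ξ a * ω a) := by
    intro s
    induction s using Finset.induction_on with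
    | empty => simpa [rot_zero] using Gen.one
    | insert a s ha ih =>
      simp only [Finset.sum_insert ha]
      by_cases h : a.val ≤ l
      · rw [rot_add linv_Z (by fun_prop) (by fun_prop)]
        exact Gen.E a (ξ a) h ih
      · simpa [hξ a (not_le.1 h)] using ih
  exact key Finset.univ

theorem QLabGates_gen_B (β : ℝ) : 𝓛.Gen l (𝓛.B β) := by
  simpa using Gen.B β (Gen.one (𝓛 := 𝓛) (l := l))

theorem QLabGates_gen_pow {V : H →L[ℂ] H} (h : 𝓛.Gen l V) (n : ℕ) : 𝓛.Gen l (V ^ n) := by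
  induction n with
  | zero => simpa using Gen.one
  | succ n ih => rw [pow_succ]; exact ih.mul h

theorem QLabGates_rot_pow {Q : H →L[ℂ] H} (hQ : 𝓛.LInv Q) {θ : (Fin (K + 1) → ℝ) → ℝ}
    (h : Measurable θ) (n : ℕ) : 𝓛.rot Q (fun ω => (n : ℝ) * θ ω) = 𝓛.rot Q θ ^ n := by
  induction n with
  | zero => simp [rot_zero]
  | succ n ih =>
    rw [pow_succ, ← ih, ← rot_add hQ (by fun_prop) h]
    congr 1
    funext ω
    push_cast
    ring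

theorem QLabGates_sin (x : ℝ) : |Real.sin x - x| ≤ 2 * x ^ 2 := by
  rw [← sq_abs x]
  rcases le_total |x| 1 with h | h
  · have h1 := Real.abs_sub_sin_le x
    rw [abs_sub_comm] at h1
    nlinarith [abs_nonneg x, sq_nonneg |x|]
  · have h1 := abs_sub (Real.sin x) x
    have h2 := Real.abs_sin_le_one x
    nlinarith

theorem QLabGates_cos (x : ℝ) : |Real.cos x - 1| ≤ x ^ 2 := by
  have h1 := Real.one_sub_sq_div_two_le_cos (x := x)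
  have h2 := Real.cos_le_one x
  rw [abs_le]
  constructor <;> nlinarith [sq_nonneg x]

/-- first order expansion of a rotation -/
theorem QLabGates_first {Q : H →L[ℂ] H} (hQ : 𝓛.LInv Q) {θ : (Fin (K + 1) → ℝ) → ℝ}
    (h : Measurable θ) {δ : ℝ} (hδ : ∀ ω, |θ ω| ≤ δ) :
    ‖𝓛.rot Q θ - (1 - I • (𝓛.Mr θ * Q))‖ ≤ 3 * δ ^ 2 := by
  have hsq : ∀ ω, θ ω ^ 2 ≤ δ ^ 2 := fun ω => by
    rw [← sq_abs (θ ω)]
    exact pow_le_pow_left₀ (abs_nonneg _) (hδ ω) 2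
  have e : 𝓛.rot Q θ - (1 - I • (𝓛.Mr θ * Q)) =
      𝓛.Mr (fun ω => Real.cos (θ ω) - 1) - I • (𝓛.Mr (fun ω => Real.sin (θ ω) - θ ω) * Q) := by
    rw [Mr_sub (BR.cos h) (BR.const 1), Mr_sub (BR.sin h) (BR.of h hδ), Mr_const, rot, sub_mul,
      smul_sub]
    simp only [ofReal_one, one_smul]
    abel
  have h1 : ‖𝓛.Mr (fun ω => Real.cos (θ ω) - 1)‖ ≤ δ ^ 2 :=
    norm_Mr_le (by fun_prop) fun ω => (QLabGates_cos _).trans (hsq ω)
  have h2 : ‖𝓛.Mr (fun ω => Real.sin (θ ω) - θ ω)‖ ≤ 2 * δ ^ 2 :=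
    norm_Mr_le (by fun_prop) fun ω => (QLabGates_sin _).trans (by linarith [hsq ω])
  have h3 : ‖Q‖ ≤ 1 := norm_le_one_of_unitary hQ.inv.mem_unitary
  have h4 : ‖I • (𝓛.Mr (fun ω => Real.sin (θ ω) - θ ω) * Q)‖ ≤ 2 * δ ^ 2 := by
    rw [norm_smul, norm_I, one_mul]
    exact (norm_mul_le _ _).trans ((mul_le_of_le_one_right (norm_nonneg _) h3).trans h2)
  rw [e]
  exact (norm_sub_le _ _).trans (by linarith)

omit [CompleteSpace H] in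
theorem QLabGates_tele {P R : H →L[ℂ] H} (hP : ‖P‖ ≤ 1) (hR : ‖R‖ ≤ 1) (n : ℕ) :
    ‖P ^ n - R ^ n‖ ≤ n * ‖P - R‖ := by
  induction n with
  | zero => simp
  | succ n ih =>
    have e : P ^ (n + 1) - R ^ (n + 1) = P * (P ^ n - R ^ n) + (P - R) * R ^ n := by
      rw [pow_succ', pow_succ']
      noncomm_ring
    have hRn : ‖R ^ n‖ ≤ 1 := by
      rcases Nat.eq_zero_or_pos n with rfl | hn
      · exact ContinuousLinearMap.norm_id_le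
      · exact (norm_pow_le' R hn).trans (pow_le_one₀ (norm_nonneg _) hR)
    have h1 : ‖P * (P ^ n - R ^ n)‖ ≤ ‖P ^ n - R ^ n‖ :=
      (norm_mul_le _ _).trans (mul_le_of_le_one_left (norm_nonneg _) hP)
    have h2 : ‖(P - R) * R ^ n‖ ≤ ‖P - R‖ :=
      (norm_mul_le _ _).trans (mul_le_of_le_one_right (norm_nonneg _) hRn)
    rw [e]
    refine (norm_add_le _ _).trans ?_
    push_cast
    linarith

/-- one Trotter step -/
theorem QLabGates_step {Q₁ Q₂ Q : H →L[ℂ] H} (h₁ : 𝓛.LInv Q₁) (h₂ : 𝓛.LInv Q₂) (hQ : 𝓛.LInv Q)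
    {s₁ s₂ δ : ℝ} {θ : (Fin (K + 1) → ℝ) → ℝ} (h : Measurable θ) (hδ : ∀ ω, |θ ω| ≤ δ)
    (hs₁ : |s₁| ≤ δ) (hs₂ : |s₂| ≤ δ) (e : (s₁ : ℂ) • Q₁ + (s₂ : ℂ) • Q₂ = 𝓛.Mr θ * Q) :
    ‖𝓛.rot Q₁ (fun _ => s₁) * 𝓛.rot Q₂ (fun _ => s₂) - 𝓛.rot Q θ‖ ≤ 11 * δ ^ 2 := by
  have f₁ := QLabGates_first h₁ (θ := fun _ => s₁) measurable_const fun _ => hs₁
  have f₂ := QLabGates_first h₂ (θ := fun _ => s₂) measurable_const fun _ => hs₂
  have f := QLabGates_first hQ h hδ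
  rw [Mr_const, smul_mul_assoc, one_mul] at f₁ f₂
  rw [← e, smul_add] at f
  have g₂ : ‖𝓛.rot Q₂ (fun _ => s₂) - 1‖ ≤ 2 * δ := by
    rw [← rot_zero (𝓛 := 𝓛) Q₂]
    exact norm_rot_sub h₂ measurable_const measurable_const fun _ => by simpa using hs₂
  have u₂ : ‖𝓛.rot Q₂ (fun _ => s₂)‖ ≤ 1 :=
    norm_le_one_of_unitary (rot_unitary h₂ measurable_const)
  have a₁ : ‖I • (s₁ : ℂ) • Q₁‖ ≤ δ := by
    rw [norm_smul, norm_I, one_mul, norm_smul, norm_real, Real.norm_eq_abs]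
    exact (mul_le_of_le_one_right (abs_nonneg _)
      (norm_le_one_of_unitary h₁.inv.mem_unitary)).trans hs₁
  have hδ0 : 0 ≤ δ := (abs_nonneg _).trans hs₁
  generalize 𝓛.rot Q₁ (fun _ => s₁) = E₁ at *
  generalize 𝓛.rot Q₂ (fun _ => s₂) = E₂ at *
  generalize 𝓛.rot Q θ = R at *
  generalize I • (s₁ : ℂ) • Q₁ = b₁ at *
  generalize I • (s₂ : ℂ) • Q₂ = b₂ at *
  have id : E₁ * E₂ - R = (E₁ - (1 - b₁)) * E₂ + (E₂ - (1 - b₂)) - b₁ * (E₂ - 1) -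
      (R - (1 - (b₁ + b₂))) := by noncomm_ring
  have t₁ : ‖(E₁ - (1 - b₁)) * E₂‖ ≤ 3 * δ ^ 2 :=
    (norm_mul_le _ _).trans ((mul_le_of_le_one_right (norm_nonneg _) u₂).trans f₁)
  have t₂ : ‖b₁ * (E₂ - 1)‖ ≤ δ * (2 * δ) :=
    (norm_mul_le _ _).trans (mul_le_mul a₁ g₂ (norm_nonneg _) hδ0)
  rw [id]
  have n₁ := norm_sub_le ((E₁ - (1 - b₁)) * E₂ + (E₂ - (1 - b₂)) - b₁ * (E₂ - 1))
    (R - (1 - (b₁ + b₂)))
  have n₂ := norm_sub_le ((E₁ - (1 - b₁)) * E₂ + (E₂ - (1 - b₂))) (b₁ * (E₂ - 1))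
  have n₃ := norm_add_le ((E₁ - (1 - b₁)) * E₂) (E₂ - (1 - b₂))
  nlinarith

/-- the Trotter product formula -/
theorem QLabGates_trotter {Q₁ Q₂ Q : H →L[ℂ] H} (h₁ : 𝓛.LInv Q₁) (h₂ : 𝓛.LInv Q₂) (hQ : 𝓛.LInv Q)
    (g₁ : ∀ b : ℝ, 𝓛.Gen l (𝓛.rot Q₁ fun _ => b)) (g₂ : ∀ b : ℝ, 𝓛.Gen l (𝓛.rot Q₂ fun _ => b))
    {s₁ s₂ C : ℝ} {θ : (Fin (K + 1) → ℝ) → ℝ} (h : Measurable θ) (hC : ∀ ω, |θ ω| ≤ C)
    (e : (s₁ : ℂ) • Q₁ + (s₂ : ℂ) • Q₂ = 𝓛.Mr θ * Q) : Approx {W | 𝓛.Gen l W} (𝓛.rot Q θ) := by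
  set D : ℝ := max C (max |s₁| |s₂|) with hD
  let V : ℕ → H →L[ℂ] H := fun n =>
    (𝓛.rot Q₁ (fun _ => ((n : ℝ) + 1)⁻¹ * s₁) * 𝓛.rot Q₂ (fun _ => ((n : ℝ) + 1)⁻¹ * s₂)) ^ (n + 1)
  have hb : ∀ n : ℕ, ‖V n - 𝓛.rot Q θ‖ ≤ 11 * D ^ 2 * ((n : ℝ) + 1)⁻¹ := by
    intro n
    have hn : (0 : ℝ) < (n : ℝ) + 1 := by positivity
    have hsc : ∀ x : ℝ, |x| ≤ D → |((n : ℝ) + 1)⁻¹ * x| ≤ ((n : ℝ) + 1)⁻¹ * D := fun x hx => by
      rw [abs_mul, abs_of_pos (inv_pos.2 hn)]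
      exact mul_le_mul_of_nonneg_left hx (inv_pos.2 hn).le
    have hm : Measurable fun ω => ((n : ℝ) + 1)⁻¹ * θ ω := by fun_prop
    have st := QLabGates_step h₁ h₂ hQ (s₁ := ((n : ℝ) + 1)⁻¹ * s₁) (s₂ := ((n : ℝ) + 1)⁻¹ * s₂)
      hm (fun ω => hsc _ ((hC ω).trans (le_max_left _ _)))
      (hsc _ ((le_max_left _ _).trans (le_max_right _ _)))
      (hsc _ ((le_max_right _ _).trans (le_max_right _ _))) (by
        rw [Mr_smul _ (BR.of h hC), smul_mul_assoc, ← e, smul_add, smul_smul, smul_smul,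
          ofReal_mul, ofReal_mul])
    have e2 : 𝓛.rot Q θ = 𝓛.rot Q (fun ω => ((n : ℝ) + 1)⁻¹ * θ ω) ^ (n + 1) := by
      rw [← QLabGates_rot_pow hQ hm]
      congr 1
      funext ω
      push_cast
      rw [← mul_assoc, mul_inv_cancel₀ hn.ne', one_mul]
    rw [e2]
    refine (QLabGates_tele (norm_le_one_of_unitary (mul_mem (rot_unitary h₁ measurable_const)
      (rot_unitary h₂ measurable_const))) (norm_le_one_of_unitary (rot_unitary hQ hm)) _).trans ?_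
    refine (mul_le_mul_of_nonneg_left st (Nat.cast_nonneg _)).trans (le_of_eq ?_)
    push_cast
    field_simp
  have hlim : Tendsto V atTop (𝓝 (𝓛.rot Q θ)) := by
    rw [tendsto_iff_norm_sub_tendsto_zero]
    refine squeeze_zero (fun _ => norm_nonneg _) hb ?_
    have := (tendsto_one_div_add_atTop_nhds_zero_nat (𝕜 := ℝ)).const_mul (11 * D ^ 2)
    simpa using this
  refine Approx.of_tendsto (F := atTop) (V := V) (Eventually.of_forall fun n =>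
    Approx.of_mem (QLabGates_gen_pow ((g₁ _).mul (g₂ _)) _)) fun ξ => ?_
  exact ((ContinuousLinearMap.apply ℂ H ξ).continuous.tendsto _).comp hlim

theorem QLabGates_conj {ξ : Fin (K + 1) → ℝ} (hξ : ∀ a, l < a.val → ξ a = 0) :
    ∃ M : H →L[ℂ] H, 𝓛.LInv M ∧ (∀ b : ℝ, 𝓛.Gen l (𝓛.rot M fun _ => b)) ∧
      M = 𝓛.Mr (fun ω => Real.cos (∑ a, ξ a * ω a)) * 𝓛.X -
        𝓛.Mr (fun ω => Real.sin (∑ a, ξ a * ω a)) * 𝓛.Y := by
  have hm : Measurable fun ω : Fin (K + 1) → ℝ => ∑ a, ξ a * ω a := by fun_prop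
  have hm2 : Measurable fun ω : Fin (K + 1) → ℝ => ∑ a, ξ a / 2 * ω a := by fun_prop
  have hG : 𝓛.Gen l (𝓛.rot 𝓛.Z fun ω => ∑ a, ξ a / 2 * ω a) :=
    gen_rot_Z fun a ha => by rw [hξ a ha, zero_div]
  have hG' : 𝓛.Gen l (star (𝓛.rot 𝓛.Z fun ω => ∑ a, ξ a / 2 * ω a)) := by
    rw [rot_star linv_Z hm2]
    have := gen_rot_Z (𝓛 := 𝓛) (l := l) (ξ := fun a => -(ξ a / 2))
      fun a ha => by rw [hξ a ha, zero_div, neg_zero]
    simpa using this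
  have hu := rot_unitary (𝓛 := 𝓛) linv_Z hm2
  have hc := rot_cm (𝓛 := 𝓛) linv_Z hm2
  refine ⟨star (𝓛.rot 𝓛.Z fun ω => ∑ a, ξ a / 2 * ω a) * 𝓛.X *
    𝓛.rot 𝓛.Z fun ω => ∑ a, ξ a / 2 * ω a,
    ⟨𝓛.invol_X.conj hu (rot_cw linv_Z hm2), (hc.star.mul cm_X).mul hc⟩, fun b => ?_, ?_⟩
  · rw [← rot_conj measurable_const hu hc, rot_X_const]
    exact (hG'.mul (QLabGates_gen_B b)).mul hG
  · rw [rot_conj_anticomm linv_Z hm2 cm_X 𝓛.XZ]
    have e : (fun ω : Fin (K + 1) → ℝ => 2 * ∑ a, ξ a / 2 * ω a) = fun ω => ∑ a, ξ a * ω a := by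
      funext ω
      rw [Finset.mul_sum]
      exact Finset.sum_congr rfl fun a _ => by ring
    rw [e, rot, mul_sub, mul_smul_comm, ← mul_assoc, ← cm_X.Mr (BR.cos hm), ← cm_X.Mr (BR.sin hm),
      Weyl.Y, mul_smul_comm, mul_assoc]

theorem QLabGates_pair {ξ : Fin (K + 1) → ℝ} (hξ : ∀ a, l < a.val → ξ a = 0) :
    ∃ P M : H →L[ℂ] H, 𝓛.LInv P ∧ 𝓛.LInv M ∧ (∀ b : ℝ, 𝓛.Gen l (𝓛.rot P fun _ => b)) ∧
      (∀ b : ℝ, 𝓛.Gen l (𝓛.rot M fun _ => b)) ∧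
      P = 𝓛.Mr (fun ω => Real.cos (∑ a, ξ a * ω a)) * 𝓛.X +
        𝓛.Mr (fun ω => Real.sin (∑ a, ξ a * ω a)) * 𝓛.Y ∧
      M = 𝓛.Mr (fun ω => Real.cos (∑ a, ξ a * ω a)) * 𝓛.X -
        𝓛.Mr (fun ω => Real.sin (∑ a, ξ a * ω a)) * 𝓛.Y := by
  have hm : Measurable fun ω : Fin (K + 1) → ℝ => ∑ a, ξ a * ω a := by fun_prop
  obtain ⟨M, hM, gM, eM⟩ := QLabGates_conj (𝓛 := 𝓛) hξ
  obtain ⟨P, hP, gP, eP⟩ := QLabGates_conj (𝓛 := 𝓛) (l := l) (ξ := fun a => -ξ a)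
    fun a ha => by rw [hξ a ha, neg_zero]
  refine ⟨P, M, hP, hM, gP, gM, ?_, eM⟩
  simp only [neg_mul, Finset.sum_neg_distrib, Real.cos_neg, Real.sin_neg] at eP
  rw [eP, Mr_neg (BR.sin hm), neg_mul, sub_neg_eq_add]

theorem approx_rot_cos (c : ℝ) {ξ : Fin (K + 1) → ℝ} (hξ : ∀ a, l < a.val → ξ a = 0) :
    Approx {W | 𝓛.Gen l W} (𝓛.rot 𝓛.X fun ω => c * Real.cos (∑ a, ξ a * ω a)) := by
  obtain ⟨P, M, hP, hM, gP, gM, eP, eM⟩ := QLabGates_pair (𝓛 := 𝓛) hξ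
  have hm : Measurable fun ω : Fin (K + 1) → ℝ => ∑ a, ξ a * ω a := by fun_prop
  refine QLabGates_trotter hP hM linv_X gP gM (s₁ := c / 2) (s₂ := c / 2) (C := |c|)
    (by fun_prop) (fun ω => ?_) ?_
  · rw [abs_mul]
    exact mul_le_of_le_one_right (abs_nonneg c) (Real.abs_cos_le_one _)
  · rw [eP, eM, Mr_smul c (BR.cos hm), smul_mul_assoc]
    push_cast
    module

theorem approx_rot_sin (c : ℝ) {ξ : Fin (K + 1) → ℝ} (hξ : ∀ a, l < a.val → ξ a = 0) :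
    Approx {W | 𝓛.Gen l W} (𝓛.rot 𝓛.Z fun ω => c * Real.sin (∑ a, ξ a * ω a)) := by
  obtain ⟨P, M, hP, hM, gP, gM, eP, eM⟩ := QLabGates_pair (𝓛 := 𝓛) hξ
  have hm : Measurable fun ω : Fin (K + 1) → ℝ => ∑ a, ξ a * ω a := by fun_prop
  have hm' : Measurable fun ω : Fin (K + 1) → ℝ => c * Real.sin (∑ a, ξ a * ω a) := by fun_prop
  have hY : Approx {W | 𝓛.Gen l W} (𝓛.rot 𝓛.Y fun ω => c * Real.sin (∑ a, ξ a * ω a)) := by
    refine QLabGates_trotter hP hM linv_Y gP gM (s₁ := c / 2) (s₂ := -(c / 2)) (C := |c|)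
      hm' (fun ω => ?_) ?_
    · rw [abs_mul]
      exact mul_le_of_le_one_right (abs_nonneg c) (Real.abs_sin_le_one _)
    · rw [eP, eM, Mr_smul c (BR.sin hm), smul_mul_assoc]
      push_cast
      module
  have hB := approx_gen_mul (approx_gen_mul (Approx.of_mem (QLabGates_gen_B (Real.pi / 4))) hY)
    (Approx.of_mem (QLabGates_gen_B (-(Real.pi / 4))))
  have e1 : 𝓛.B (Real.pi / 4) * 𝓛.B (-(Real.pi / 4)) = 1 := by
    rw [← Weyl.B_add, add_neg_cancel, Weyl.B_zero]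
  rw [rot_Y_eq hm', Weyl.B_star, ← mul_assoc, ← mul_assoc, e1, one_mul, mul_assoc, e1,
    mul_one] at hB
  exact hB

theorem QLabGates_trig {Q : H →L[ℂ] H} (hQ : 𝓛.LInv Q) {F : ℝ → ℝ} (hF : Measurable F)
    (h : ∀ (c : ℝ) (ξ : Fin (K + 1) → ℝ), (∀ a, l < a.val → ξ a = 0) →
      Approx {W | 𝓛.Gen l W} (𝓛.rot Q fun ω => c * F (∑ a, ξ a * ω a)))
    {p : (Fin (K + 1) → ℝ) → ℝ} (hp : Trig F l p) : Approx {W | 𝓛.Gen l W} (𝓛.rot Q p) := by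
  induction hp with
  | zero =>
    rw [rot_zero]
    exact Approx.of_mem Gen.one
  | add c ξ hξ hp ih =>
    rw [rot_add hQ (by fun_prop) (hp.measurable hF)]
    exact approx_gen_mul (h c ξ hξ) ih

theorem Gate.approx_gen {G : H →L[ℂ] H} (h : 𝓛.Gate l G) : Approx {W | 𝓛.Gen l W} G := by
  cases h with
  | X θ hm hl he =>
    obtain ⟨p, hp, hlim⟩ := exists_trig_cos hm hl he
    exact Approx.of_tendsto (F := atTop) (Eventually.of_forall fun n =>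
      QLabGates_trig linv_X Real.measurable_cos (fun c _ hξ => approx_rot_cos c hξ) (hp n))
      (rot_tendsto 𝓛.X (fun n => (hp n).measurable Real.measurable_cos) hm hlim)
  | Z θ hm hl ho =>
    obtain ⟨p, hp, hlim⟩ := exists_trig_sin hm hl ho
    exact Approx.of_tendsto (F := atTop) (Eventually.of_forall fun n =>
      QLabGates_trig linv_Z Real.measurable_sin (fun c _ hξ => approx_rot_sin c hξ) (hp n))
      (rot_tendsto 𝓛.Z (fun n => (hp n).measurable Real.measurable_sin) hm hlim)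

end Label

end Crest.Agent.R339
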