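import Crest.Agent.R339.QLabWeak

/-! # Row 339: polarised ancillas -/

set_option autoImplicit false

namespace Crest.Agent.R339

open MeasureTheory ProbabilityTheory Complex Filter Topology
open scoped InnerProductSpace

variable {H : Type} [NormedAddCommGroup H] [InnerProductSpace ℂ H] [CompleteSpace H]

/-- The ancilla sets. -/
def Nr (K : ℕ) (r : ℝ) : Set (Fin (K + 1) → ℝ) := {ω | |ω 0| ≤ r}

theorem anc_Nr (K : ℕ) (r : ℝ) : Label.Anc (Nr K r) := by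
  refine ⟨measurableSet_le (measurable_pi_apply 0).abs measurable_const, ?_, ?_⟩
  · intro ω ω' h
    have h0 : ω 0 = ω' 0 := h 0 le_rfl
    simp only [Nr, Set.mem_ofPred_eq, h0]
  · intro ω
    simp only [Nr, Set.mem_ofPred_eq, Pi.neg_apply, abs_neg]

theorem QLabND_notMem {K : ℕ} {ω : Fin (K + 1) → ℝ} (h : ω 0 ≠ 0) :
    ∀ᶠ r in 𝓝[>] (0 : ℝ), ω ∉ Nr K r := by
  have h1 : ∀ᶠ r in 𝓝 (0 : ℝ), r < |ω 0| := eventually_lt_nhds (abs_pos.mpr h)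
  filter_upwards [nhdsWithin_le_nhds h1] with r hr
  simpa only [Nr, Set.mem_ofPred_eq, not_le] using hr

omit [CompleteSpace H] in
theorem QLabND_mul_tendsto {ι : Type} {F : Filter ι} {G V : ι → H →L[ℂ] H} {G₀ V₀ : H →L[ℂ] H}
    (hG : ∀ i, ‖G i‖ ≤ 1) (h : ∀ ξ, Tendsto (fun i => G i ξ) F (𝓝 (G₀ ξ)))
    (h' : ∀ ξ, Tendsto (fun i => V i ξ) F (𝓝 (V₀ ξ))) (ξ : H) :
    Tendsto (fun i => (G i * V i) ξ) F (𝓝 ((G₀ * V₀) ξ)) := by
  have h1 : Tendsto (fun i => G i (V i ξ - V₀ ξ)) F (𝓝 0) := by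
    refine squeeze_zero_norm (fun i => ?_) (tendsto_iff_norm_sub_tendsto_zero.mp (h' ξ))
    calc ‖G i (V i ξ - V₀ ξ)‖ ≤ ‖G i‖ * ‖V i ξ - V₀ ξ‖ := (G i).le_opNorm _
      _ ≤ 1 * ‖V i ξ - V₀ ξ‖ := mul_le_mul_of_nonneg_right (hG i) (norm_nonneg _)
      _ = _ := one_mul _
  have h2 := h1.add (h (V₀ ξ))
  rw [zero_add] at h2
  refine h2.congr fun i => ?_
  simp only [map_sub, mul_apply_eq_comp, sub_add_cancel]

/-- one-dimensional factor. -/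
theorem QLabND_one {a r : ℝ} (hr : 0 < r) (h : |a| * r ≤ 1) :
    0 < (∫ x, (((Set.Icc (-r) r).indicator (fun _ => (1 : ℝ)) x : ℝ) : ℂ) *
      exp (I * (a * x : ℝ)) ∂γ1).re := by
  have hm : Measurable fun x : ℝ => (((Set.Icc (-r) r).indicator (fun _ => (1 : ℝ)) x : ℝ) : ℂ) *
      exp (I * (a * x : ℝ)) := by
    refine Measurable.mul (measurable_ofReal.comp (measurable_const.indicator measurableSet_Icc)) ?_
    fun_prop
  have hi : Integrable (fun x : ℝ => (((Set.Icc (-r) r).indicator (fun _ => (1 : ℝ)) x : ℝ) : ℂ) *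
      exp (I * (a * x : ℝ))) γ1 := by
    refine Integrable.of_bound hm.aestronglyMeasurable 1 (ae_of_all _ fun x => ?_)
    rw [norm_mul, mul_comm I, norm_exp_ofReal_mul_I, mul_one, Complex.norm_real]
    by_cases hx : x ∈ Set.Icc (-r) r
    · simp [hx]
    · simp [hx]
  have e := integral_re hi
  simp only [RCLike.re_to_complex] at e
  rw [← e]
  have hpos : 0 < γ1.real (Set.Icc (-r) r) := by
    rw [Measure.real, ENNReal.toReal_pos_iff]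
    refine ⟨?_, measure_lt_top _ _⟩
    rw [pos_iff_ne_zero]
    intro h0
    have h1 := gaussianReal_absolutelyContinuous' 0 (v := 1) one_ne_zero h0
    rw [Real.volume_Icc, ENNReal.ofReal_eq_zero] at h1
    linarith
  have hc : 0 < Real.cos 1 := Real.cos_one_pos
  calc 0 < γ1.real (Set.Icc (-r) r) * Real.cos 1 := mul_pos hpos hc
    _ = ∫ x, (Set.Icc (-r) r).indicator (fun _ => Real.cos 1) x ∂γ1 := by
        rw [integral_indicator_const _ measurableSet_Icc, smul_eq_mul]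
    _ ≤ _ := by
        refine integral_mono ((integrable_const _).indicator measurableSet_Icc) hi.re fun x => ?_
        by_cases hx : x ∈ Set.Icc (-r) r
        · simp only [Set.indicator_of_mem hx, ofReal_one, one_mul]
          rw [mul_comm I, exp_ofReal_mul_I_re, ← Real.cos_abs (a * x)]
          have h1 : |a * x| ≤ 1 := by
            rw [abs_mul]
            exact (mul_le_mul_of_nonneg_left (abs_le.mpr hx) (abs_nonneg a)).trans h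
          exact Real.cos_le_cos_of_nonneg_of_le_pi (abs_nonneg _) (by linarith [Real.pi_gt_three])
            h1
        · simp only [Set.indicator_of_notMem hx, ofReal_zero, zero_mul, zero_re, le_refl]

theorem QLabND_char (a : ℝ) :
    ∫ x, exp (I * (a * x : ℝ)) ∂γ1 = ((Real.exp (-(a ^ 2 / 2)) : ℝ) : ℂ) := by
  have h := charFun_gaussianReal (μ := 0) (v := 1) a
  rw [charFun_apply_real] at h
  have e : (fun x : ℝ => exp (I * (a * x : ℝ))) = fun x : ℝ => exp (a * x * I) := by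
    funext x
    push_cast
    rw [mul_comm I]
  rw [e, h]
  push_cast
  congr 1
  simp

theorem QLabND_int {K : ℕ} (a : Fin (K + 1) → ℝ) {r : ℝ} (hr : 0 < r) (h : |a 0| * r ≤ 1) :
    0 < (∫ ω, (((Nr K r).indicator (fun _ => (1 : ℝ)) ω : ℝ) : ℂ) *
      exp (I * (∑ b, a b * ω b : ℝ)) ∂gam K).re := by
  classical
  let F : Fin (K + 1) → ℝ → ℂ := fun b x =>
    (if b = 0 then (((Set.Icc (-r) r).indicator (fun _ => (1 : ℝ)) x : ℝ) : ℂ) else 1) *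
      exp (I * (a b * x : ℝ))
  have e : ∀ ω : Fin (K + 1) → ℝ, (((Nr K r).indicator (fun _ => (1 : ℝ)) ω : ℝ) : ℂ) *
      exp (I * (∑ b, a b * ω b : ℝ)) = ∏ b, F b (ω b) := by
    intro ω
    simp only [F, Finset.prod_mul_distrib, Finset.prod_ite_eq', Finset.mem_univ, if_true]
    rw [← Complex.exp_sum, ← Finset.mul_sum, ofReal_sum]
    congr 1
    congr 1
    have hiff : ω ∈ Nr K r ↔ ω 0 ∈ Set.Icc (-r) r := abs_le (a := ω 0) (b := r)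
    by_cases hω : ω ∈ Nr K r
    · rw [Set.indicator_of_mem hω, Set.indicator_of_mem (hiff.mp hω)]
    · rw [Set.indicator_of_notMem hω, Set.indicator_of_notMem fun h' => hω (hiff.mpr h')]
  simp only [e]
  rw [integral_fintype_prod_eq_prod F, Fin.prod_univ_succ]
  have e2 : ∏ b : Fin K, ∫ x, F b.succ x ∂γ1 =
      ((∏ b : Fin K, Real.exp (-(a b.succ ^ 2 / 2)) : ℝ) : ℂ) := by
    rw [ofReal_prod]
    refine Finset.prod_congr rfl fun b _ => ?_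
    simp only [F, if_neg (Fin.succ_ne_zero b), one_mul]
    exact QLabND_char _
  rw [e2, re_mul_ofReal]
  refine mul_pos ?_ (Finset.prod_pos fun b _ => Real.exp_pos _)
  simp only [F, if_true]
  exact QLabND_one hr h

namespace Label

variable {K : ℕ} {A : AMP K} {𝓛 : Label A H} {l : ℕ}

theorem Ind_Nr_tendsto (ξ : H) : Tendsto (fun r => 𝓛.Ind (Nr K r) ξ) (𝓝[>] 0) (𝓝 0) := by
  have h := M_tendsto (𝓛 := 𝓛) (F := 𝓝[>] (0 : ℝ))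
    (φ := fun r ω => (((Nr K r).indicator (fun _ => (1 : ℝ)) ω : ℝ) : ℂ)) (χ := fun _ => 0) (c := 1)
    (fun r => measurable_ofReal.comp (measurable_const.indicator (anc_Nr K r).meas)) (BM.const 0)
    (fun r ω => by
      by_cases hω : ω ∈ Nr K r
      · simp [hω]
      · simp [hω])
    (by
      filter_upwards [ae_coord_ne_zero (K := K) 0] with ω hω
      refine tendsto_const_nhds.congr' ?_
      filter_upwards [QLabND_notMem hω] with r hr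
      simp [hr]) ξ
  rw [M_zero] at h
  exact h

theorem QLabND_Ind_rot {N : Set (Fin (K + 1) → ℝ)} (hN : MeasurableSet N) (Q : H →L[ℂ] H)
    {θ : (Fin (K + 1) → ℝ) → ℝ} (hθ : Measurable θ) :
    𝓛.Ind N * 𝓛.rot Q (Nᶜ.indicator θ) = 𝓛.Ind N := by
  rw [rot_indicator Q hθ hN.compl, compl_compl, mul_add, ← mul_assoc, Ind_mul_compl hN, zero_mul,
    zero_add, Ind_sq hN]

theorem QLabND_rot_tendsto (Q : H →L[ℂ] H) {θ : (Fin (K + 1) → ℝ) → ℝ} (hθ : Measurable θ)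
    (ξ : H) : Tendsto (fun r => 𝓛.rot Q ((Nr K r)ᶜ.indicator θ) ξ) (𝓝[>] 0)
      (𝓝 (𝓛.rot Q θ ξ)) := by
  refine rot_tendsto Q (fun r => hθ.indicator (anc_Nr K r).meas.compl) hθ ?_ ξ
  filter_upwards [ae_coord_ne_zero (K := K) 0] with ω hω
  refine tendsto_const_nhds.congr' ?_
  filter_upwards [QLabND_notMem hω] with r hr
  rw [Set.indicator_of_mem (Set.mem_compl hr)]

theorem QLabND_gate {G : H →L[ℂ] H} (hG : 𝓛.Gate l G) :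
    ∃ G' : ℝ → H →L[ℂ] H, (∀ r, 𝓛.Gate l (G' r)) ∧ (∀ r, 𝓛.Ind (Nr K r) * G' r = 𝓛.Ind (Nr K r)) ∧
      ∀ ξ, Tendsto (fun r => G' r ξ) (𝓝[>] 0) (𝓝 (G ξ)) := by
  cases hG with
  | X θ hm hl he =>
    refine ⟨fun r => 𝓛.rot 𝓛.X ((Nr K r)ᶜ.indicator θ), fun r => ?_,
      fun r => QLabND_Ind_rot (anc_Nr K r).meas _ hm, QLabND_rot_tendsto _ hm⟩
    refine Gate.X _ (hm.indicator (anc_Nr K r).meas.compl) ((anc_Nr K r).compl.lvl_indicator hl)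
      fun ω => ?_
    by_cases hω : ω ∈ (Nr K r)ᶜ
    · rw [Set.indicator_of_mem hω, Set.indicator_of_mem (((anc_Nr K r).compl.even ω).mpr hω), he]
    · rw [Set.indicator_of_notMem hω,
        Set.indicator_of_notMem fun h => hω (((anc_Nr K r).compl.even ω).mp h)]
  | Z θ hm hl he =>
    refine ⟨fun r => 𝓛.rot 𝓛.Z ((Nr K r)ᶜ.indicator θ), fun r => ?_,
      fun r => QLabND_Ind_rot (anc_Nr K r).meas _ hm, QLabND_rot_tendsto _ hm⟩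
    refine Gate.Z _ (hm.indicator (anc_Nr K r).meas.compl) ((anc_Nr K r).compl.lvl_indicator hl)
      fun ω => ?_
    by_cases hω : ω ∈ (Nr K r)ᶜ
    · rw [Set.indicator_of_mem hω, Set.indicator_of_mem (((anc_Nr K r).compl.even ω).mpr hω), he]
    · rw [Set.indicator_of_notMem hω,
        Set.indicator_of_notMem fun h => hω (((anc_Nr K r).compl.even ω).mp h), neg_zero]

/-- Switch the gates off on the ancillas. -/
theorem LReach.exists_off {V : H →L[ℂ] H} (h : 𝓛.LReach l V) :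
    ∃ (V' : ℝ → H →L[ℂ] H) (Γ : ℝ), (∀ r, 𝓛.LReach l (V' r)) ∧
      (∀ r, ∃ u ∈ 𝓛.R, ∃ c : ℂ, ‖c‖ = 1 ∧ ‖u‖ ≤ Γ ∧
        𝓛.Ind (Nr K r) * V' r = c • (𝓛.Ind (Nr K r) * 𝓛.WZ u)) ∧
      ∀ ξ, Tendsto (fun r => V' r ξ) (𝓝[>] 0) (𝓝 (V ξ)) := by
  induction h with
  | one =>
    refine ⟨fun _ => 1, 0, fun _ => LReach.one, fun r => ⟨0, 𝓛.R.zero_mem, 1, norm_one,
      norm_zero.le, ?_⟩, fun ξ => tendsto_const_nhds⟩
    rw [Weyl.QBase_WZ_zero, one_smul]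
  | gate hG hU ih =>
    obtain ⟨V', Γ, h1, h2, h3⟩ := ih
    obtain ⟨G', g1, g2, g3⟩ := QLabND_gate hG
    refine ⟨fun r => G' r * V' r, Γ, fun r => LReach.gate (g1 r) (h1 r), fun r => ?_,
      QLabND_mul_tendsto (fun r => norm_le_one_of_unitary (g1 r).unitary) g3 h3⟩
    obtain ⟨u, hu, c, hc, hΓ, e⟩ := h2 r
    exact ⟨u, hu, c, hc, hΓ, by rw [← mul_assoc, g2, e]⟩
  | C γ hU ih =>
    obtain ⟨V', Γ, h1, h2, h3⟩ := ih
    refine ⟨fun r => 𝓛.C γ (V' r), |γ| + Γ, fun r => LReach.C γ (h1 r), fun r => ?_,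
      Weyl.C_tendsto 𝓛.regu_dense (fun r => (h1 r).unitary) hU.unitary (fun r => (h1 r).br_mem)
        hU.br_mem h3 γ⟩
    obtain ⟨u, hu, c, hc, hΓ, e⟩ := h2 r
    have hg : -(γ • 𝓛.br (V' r) 𝓛.Z) ∈ 𝓛.R := 𝓛.R.neg_mem (𝓛.R.smul_mem γ (h1 r).br_mem)
    have hn : ‖-(γ • 𝓛.br (V' r) 𝓛.Z)‖ = |γ| := by
      rw [norm_neg, norm_smul, 𝓛.norm_br_invol (h1 r).unitary 𝓛.invol_Z, mul_one, Real.norm_eq_abs]
    have hcm := (cm_WQ (𝓛 := 𝓛) cm_Z hg).Ind (anc_Nr K r).meas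
    refine ⟨-(γ • 𝓛.br (V' r) 𝓛.Z) + u, 𝓛.R.add_mem hg hu,
      c * exp (-(I * (⟪-(γ • 𝓛.br (V' r) 𝓛.Z), u⟫_ℂ).im)), ?_, ?_, ?_⟩
    · rw [norm_mul, hc, Weyl.QBase_norm_phase, one_mul]
    · exact (norm_add_le _ _).trans (by rw [hn]; linarith)
    · show 𝓛.Ind (Nr K r) * (𝓛.WZ (-(γ • 𝓛.br (V' r) 𝓛.Z)) * V' r) = _
      rw [← mul_assoc, hcm, mul_assoc, e, mul_smul_comm, ← mul_assoc, ← hcm, mul_assoc,
        𝓛.QBase_WZ_mul hg hu, mul_smul_comm, smul_smul]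

theorem QLabND_W_pos {g : H} (hg : g ∈ 𝓛.R) {r : ℝ} (hr : 0 < r) (h : ‖g‖ * r ≤ 1) :
    0 < (⟪𝓛.Ω, 𝓛.Ind (Nr K r) (𝓛.W g 𝓛.Ω)⟫_ℂ).re := by
  have hB : BR ((Nr K r).indicator fun _ => (1 : ℝ)) := (BR.const 1).indicator (anc_Nr K r).meas
  have e := 𝓛.vacM _ hB g hg
  have e' : ⟪𝓛.Ω, 𝓛.Ind (Nr K r) (𝓛.W g 𝓛.Ω)⟫_ℂ = _ := e
  rw [e', ← ofReal_neg, ← ofReal_exp, re_mul_ofReal]
  refine mul_pos (QLabND_int _ hr (le_trans (mul_le_mul_of_nonneg_right ?_ hr.le) h))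
    (Real.exp_pos _)
  have e0 : 𝓛.M (fun ω => (A.f 0 ω : ℂ)) = 1 := Mr_f_zero
  rw [e0, one_apply_eq_self]
  have := Weyl.QReg_re_le 𝓛.Ω g
  rwa [𝓛.Ω_norm, one_mul] at this

theorem xA_WZ_pos {u : H} (hu : u ∈ 𝓛.R) {r : ℝ} (hr : 0 < r) (h : 2 * ‖u‖ * r ≤ 1) :
    0 < 𝓛.xA (Nr K r) (𝓛.WZ u) := by
  have hN := (anc_Nr K r).meas
  have hB : BR ((Nr K r).indicator fun _ => (1 : ℝ)) := (BR.const 1).indicator hN
  have hu' : -u ∈ 𝓛.R := 𝓛.R.neg_mem hu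
  have hg : -u + -u ∈ 𝓛.R := 𝓛.R.add_mem hu' hu'
  have hg' : -(-u + -u) ∈ 𝓛.R := 𝓛.R.neg_mem hg
  have hn : ‖-u + -u‖ * r ≤ 1 := by
    refine le_trans (mul_le_mul_of_nonneg_right ?_ hr.le) h
    refine (norm_add_le _ _).trans ?_
    rw [norm_neg, two_mul]
  have him : (⟪-u, -u⟫_ℂ).im = 0 := inner_self_im (𝕜 := ℂ) (-u)
  have e1 : star (𝓛.WZ u) * (𝓛.X * (𝓛.Ind (Nr K r) * 𝓛.WZ u)) =
      𝓛.Ind (Nr K r) * 𝓛.WZ (-u + -u) * 𝓛.X := by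
    rw [Weyl.WQ_star 𝓛.invol_Z hu, ← mul_assoc 𝓛.X, ← cm_X.Ind hN, mul_assoc (𝓛.Ind _),
      Weyl.WQ_anticomm 𝓛.invol_Z 𝓛.invol_X.cw 𝓛.XZ hu, ← mul_assoc,
      ← (cm_WQ (𝓛 := 𝓛) cm_Z hu').Ind hN, mul_assoc, ← mul_assoc (𝓛.WQ _ _),
      𝓛.QBase_WZ_mul hu' hu', him, mul_assoc]
    simp
  have e2 : ⟪𝓛.WZ u 𝓛.Ω, 𝓛.X (𝓛.Ind (Nr K r) (𝓛.WZ u 𝓛.Ω))⟫_ℂ =
      ⟪𝓛.Ω, 𝓛.Ind (Nr K r) (𝓛.WZ (-u + -u) 𝓛.Ω)⟫_ℂ := by
    rw [← ContinuousLinearMap.adjoint_inner_right, ← ContinuousLinearMap.star_eq_adjoint]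
    have := congrArg (fun T : H →L[ℂ] H => T 𝓛.Ω) e1
    simp only [mul_apply_eq_comp, 𝓛.XΩ] at this
    rw [this]
  have z : ∀ g ∈ 𝓛.R, ⟪𝓛.Ω, 𝓛.Ind (Nr K r) (𝓛.Z (𝓛.W g 𝓛.Ω))⟫_ℂ = 0 := by
    intro g hg
    have := congrArg (fun T : H →L[ℂ] H => T (𝓛.W g 𝓛.Ω)) (cm_Z.Ind (𝓛 := 𝓛) hN)
    simp only [mul_apply_eq_comp] at this
    rw [this]
    exact inner_Z_M_W hB hg
  have e3 : ⟪𝓛.Ω, 𝓛.Ind (Nr K r) (𝓛.WZ (-u + -u) 𝓛.Ω)⟫_ℂ =
      ((1 / 2 : ℝ) : ℂ) * (⟪𝓛.Ω, 𝓛.Ind (Nr K r) (𝓛.W (-u + -u) 𝓛.Ω)⟫_ℂ +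
        ⟪𝓛.Ω, 𝓛.Ind (Nr K r) (𝓛.W (-(-u + -u)) 𝓛.Ω)⟫_ℂ) := by
    simp only [Weyl.WZ, Weyl.WQ, Weyl.cosW, Weyl.sinW, add_apply,
      smul_apply, mul_apply_eq_comp, sub_apply,
      map_add, map_smul, map_sub, inner_add_right, inner_smul_right, inner_sub_right, z _ hg,
      z _ hg']
    push_cast
    ring
  unfold xA
  rw [e2, e3, re_ofReal_mul, add_re]
  have p1 := QLabND_W_pos hg hr hn
  have p2 := QLabND_W_pos hg' hr (by rwa [norm_neg])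
  positivity

theorem QLabND_xA_congr {N : Set (Fin (K + 1) → ℝ)} (hN : MeasurableSet N) {U U' : H →L[ℂ] H}
    (e : 𝓛.Ind N * U = 𝓛.Ind N * U') : 𝓛.xA N U = 𝓛.xA N U' := by
  have key : ∀ ζ : H, ⟪ζ, 𝓛.X (𝓛.Ind N ζ)⟫_ℂ = ⟪𝓛.Ind N ζ, 𝓛.X (𝓛.Ind N ζ)⟫_ℂ := by
    intro ζ
    have e1 : star (𝓛.Ind N) * (𝓛.X * 𝓛.Ind N) = 𝓛.X * 𝓛.Ind N := by
      rw [Ind_star hN, ← mul_assoc, cm_X.Ind hN, mul_assoc, Ind_sq hN]
    have := congrArg (fun T : H →L[ℂ] H => T ζ) e1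
    simp only [mul_apply_eq_comp] at this
    rw [← ContinuousLinearMap.adjoint_inner_right (𝓛.Ind N), ← ContinuousLinearMap.star_eq_adjoint,
      this]
  have e' := congrArg (fun T : H →L[ℂ] H => T 𝓛.Ω) e
  simp only [mul_apply_eq_comp] at e'
  unfold xA
  rw [key, key (U' _), e']

theorem LReach.exists_anc {V : H →L[ℂ] H} (h : 𝓛.LReach l V) (F : Finset H) {ε : ℝ} (hε : 0 < ε) :
    ∃ V' N, 𝓛.LReach l V' ∧ Anc N ∧ 0 < 𝓛.xA N V' ∧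
      ∀ ζ ∈ F, ‖V ζ - V' ζ‖ < ε ∧ ‖𝓛.Ind N ζ‖ < ε := by
  obtain ⟨V', Γ, h1, h2, h3⟩ := h.exists_off
  have a1 : ∀ᶠ r in 𝓝[>] (0 : ℝ), 2 * Γ * r < 1 := by
    have : Tendsto (fun r : ℝ => 2 * Γ * r) (𝓝 0) (𝓝 (2 * Γ * 0)) :=
      tendsto_const_nhds.mul tendsto_id
    rw [mul_zero] at this
    exact nhdsWithin_le_nhds (this.eventually_lt_const one_pos)
  have a2 : ∀ᶠ r in 𝓝[>] (0 : ℝ), ∀ ζ ∈ F, ‖V ζ - V' r ζ‖ < ε ∧ ‖𝓛.Ind (Nr K r) ζ‖ < ε := by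
    rw [eventually_all_finset]
    intro ζ _
    have b1 := (tendsto_iff_norm_sub_tendsto_zero.mp (h3 ζ)).eventually_lt_const hε
    have b2 := (tendsto_zero_iff_norm_tendsto_zero.mp
      (Ind_Nr_tendsto (𝓛 := 𝓛) ζ)).eventually_lt_const hε
    filter_upwards [b1, b2] with r c1 c2
    exact ⟨by rwa [norm_sub_rev], c2⟩
  obtain ⟨r, ⟨hr1, hr2⟩, hr⟩ := ((a1.and a2).and self_mem_nhdsWithin).exists
  have hr' : 0 < r := hr
  obtain ⟨u, hu, c, hc, hΓ, e⟩ := h2 r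
  refine ⟨V' r, Nr K r, h1 r, anc_Nr K r, ?_, hr2⟩
  rw [QLabND_xA_congr (anc_Nr K r).meas (U' := c • 𝓛.WZ u) (by rw [e, mul_smul_comm]),
    xA_smul hc]
  refine xA_WZ_pos hu hr' ?_
  nlinarith

end Label

end Crest.Agent.R339
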