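import Crest.Agent.R339.QLabOscAux1

/-! # Row 339: oscillating labels and fresh fields -/

set_option autoImplicit false

namespace Crest.Agent.R339

open MeasureTheory ProbabilityTheory Complex Filter Topology
open scoped InnerProductSpace

variable {H : Type} [NormedAddCommGroup H] [InnerProductSpace ℂ H] [CompleteSpace H]

namespace Label

variable {K : ℕ} {A : AMP K} (𝓛 : Label A H)

/-- Riemann-Lebesgue. -/
theorem osc_exp {ψ : (Fin (K + 1) → ℝ) → ℂ} (hψ : BM ψ) {c : ℝ} (hc : c ≠ 0) :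
    𝓛.Osc fun s => 𝓛.M fun ω => ψ ω * exp (I * (c * s * ω 0 : ℝ)) := by
  rintro u ⟨hu, D, hD⟩
  obtain ⟨C, hC⟩ := hψ.2
  have hb : ∀ s : ℝ, BM fun ω : Fin (K + 1) → ℝ => ψ ω * exp (I * (c * s * ω 0 : ℝ)) :=
    fun s => hψ.mul (BM.cexp (by fun_prop))
  refine 𝓛.qlo_wlim (C := C) (fun s => ?_) (fun s => ?_) (fun s => ?_)
    (fun s => (cm_M (hb s)).mul (cm_W (hu s))) fun χ hχ g hg g' hg' => ?_
  · have h1 : ‖𝓛.M fun ω => ψ ω * exp (I * (c * s * ω 0 : ℝ))‖ ≤ C :=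
      𝓛.M_norm _ C (hb s).1 fun ω => by
        rw [norm_mul, mul_comm I, norm_exp_ofReal_mul_I, mul_one]
        exact hC ω
    exact (norm_mul_le _ _).trans ((mul_le_of_le_one_right (norm_nonneg _)
      (norm_le_one_of_unitary (𝓛.W_unitary (hu s)))).trans h1)
  · rw [← mul_assoc, ← 𝓛.M_X _ (hb s), mul_assoc, 𝓛.X_W _ (hu s), mul_assoc]
  · rw [← mul_assoc, ← 𝓛.M_Z _ (hb s), mul_assoc, 𝓛.Z_W _ (hu s), mul_assoc]
  · have e : ∀ s, 𝓛.M χ (((𝓛.M fun ω => ψ ω * exp (I * (c * s * ω 0 : ℝ))) * 𝓛.W (u s))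
        (𝓛.W g 𝓛.Ω)) = 𝓛.M (fun ω => (χ ω * ψ ω) * exp (I * (c * s * ω 0 : ℝ)))
          (𝓛.W (u s) (𝓛.W g 𝓛.Ω)) := by
      intro s
      simp only [mul_assoc (χ _)]
      rw [𝓛.M_mul _ _ hχ (hb s)]
      rfl
    have hv : ∀ s, ‖-g' + (u s + g)‖ ≤ ‖g'‖ + (D + ‖g‖) := fun s =>
      (norm_add_le _ _).trans (add_le_add (norm_neg g').le
        ((norm_add_le _ _).trans (add_le_add (hD s) le_rfl)))
    have ha : ∀ s a, |𝓛.qloA (-g' + (u s + g)) a| ≤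
        ‖𝓛.M (fun ω => (A.f a ω : ℂ)) 𝓛.Ω‖ * (‖g'‖ + (D + ‖g‖)) := fun s a =>
      (𝓛.qloA_abs_le _ a).trans (mul_le_mul_of_nonneg_left (hv s) (norm_nonneg _))
    have h0 : Tendsto (fun s => qloF (fun ω => χ ω * ψ ω)
        (𝓛.qloA (-g' + (u s + g)) + Pi.single 0 (c * s))) atTop (𝓝 0) := by
      refine qloF_tendsto _ ?_
      refine tendsto_atTop_mono (f := fun s => |c| * s +
        -(‖𝓛.M (fun ω => (A.f 0 ω : ℂ)) 𝓛.Ω‖ * (‖g'‖ + (D + ‖g‖)))) (fun s => ?_)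
        (tendsto_atTop_add_const_right _ _ (tendsto_id.const_mul_atTop (abs_pos.2 hc)))
      have h1 := ha s 0
      have h2 : |c| * s ≤ |c * s| := by
        rw [abs_mul]
        exact mul_le_mul_of_nonneg_left (le_abs_self s) (abs_nonneg c)
      have h3 := abs_sub_abs_le_abs_add (c * s) (𝓛.qloA (-g' + (u s + g)) 0)
      simp only [Pi.add_apply, Pi.single_eq_same]
      rw [add_comm (𝓛.qloA _ 0)]
      linarith
    refine squeeze_zero_norm (a := fun s => ‖qloF (fun ω => χ ω * ψ ω)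
        (𝓛.qloA (-g' + (u s + g)) + Pi.single 0 (c * s))‖ *
      Real.exp ((∑ a, (‖𝓛.M (fun ω => (A.f a ω : ℂ)) 𝓛.Ω‖ * (‖g'‖ + (D + ‖g‖))) ^ 2) / 2))
      (fun s => ?_) (by simpa using h0.norm.mul_const _)
    rw [e, 𝓛.qlo_elem ((hχ.mul hψ).mul (BM.cexp (by fun_prop))) (hu s) hg hg', qloF_shift,
      norm_mul, norm_mul, Weyl.QBase_norm_phase, Weyl.QBase_norm_phase, one_mul, one_mul, norm_mul,
      ← ofReal_neg, ← ofReal_exp, norm_real, Real.norm_eq_abs, abs_of_pos (Real.exp_pos _)]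
    refine mul_le_mul_of_nonneg_left (Real.exp_le_exp.2 ?_) (norm_nonneg _)
    have h1 : ∑ a, 𝓛.qloA (-g' + (u s + g)) a ^ 2 ≤
        ∑ a, (‖𝓛.M (fun ω => (A.f a ω : ℂ)) 𝓛.Ω‖ * (‖g'‖ + (D + ‖g‖))) ^ 2 :=
      Finset.sum_le_sum fun a _ => sq_le_sq' (abs_le.1 (ha s a)).1 (abs_le.1 (ha s a)).2
    have h2 := sq_nonneg ‖-g' + (u s + g)‖
    linarith

theorem qlo_osc_sin {ψ : (Fin (K + 1) → ℝ) → ℂ} (hψ : BM ψ) (c : ℝ) :
    𝓛.Osc fun s => 𝓛.M fun ω => ψ ω * (Real.sin (c * (s * ω 0)) : ℝ) := by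
  rcases eq_or_ne c 0 with rfl | hc
  · intro u _
    refine (wlim_const 0).congr fun s => ?_
    simp only [zero_mul, Real.sin_zero, ofReal_zero, mul_zero, M_zero]
  · have hψ' : BM fun ω => ψ ω * (I / 2) := hψ.mul (BM.const _)
    refine ((𝓛.osc_exp hψ' (neg_ne_zero.2 hc)).sub (𝓛.osc_exp hψ' hc)).congr fun s => ?_
    rw [← M_sub (hψ'.mul (BM.cexp (by fun_prop))) (hψ'.mul (BM.cexp (by fun_prop)))]
    congr 1
    funext ω
    rw [ofReal_sin, Complex.sin]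
    push_cast
    ring_nf

theorem osc_cos {c : ℝ} (hc : c ≠ 0) : 𝓛.Osc fun s => 𝓛.Mr fun ω => Real.cos (c * (s * ω 0)) := by
  have hψ : BM fun _ : Fin (K + 1) → ℝ => (1 / 2 : ℂ) := BM.const _
  refine ((𝓛.osc_exp hψ hc).add (𝓛.osc_exp hψ (neg_ne_zero.2 hc))).congr fun s => ?_
  rw [← 𝓛.M_add _ _ (hψ.mul (BM.cexp (by fun_prop))) (hψ.mul (BM.cexp (by fun_prop))), Mr]
  congr 1
  funext ω
  rw [ofReal_cos, Complex.cos]
  push_cast
  ring_nf

theorem osc_sin (c : ℝ) : 𝓛.Osc fun s => 𝓛.Mr fun ω => Real.sin (c * (s * ω 0)) := by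
  refine (𝓛.qlo_osc_sin (BM.const 1) c).congr fun s => ?_
  simp only [one_mul, Mr]

theorem osc_sin_abs (c : ℝ) : 𝓛.Osc fun s => 𝓛.Mr fun ω => Real.sin (c * (s * |ω 0|)) := by
  have hψ : BR fun ω : Fin (K + 1) → ℝ => if 0 ≤ ω 0 then (1 : ℝ) else -1 := by
    refine BR.of (C := 1) (Measurable.ite (measurableSet_le measurable_const (by fun_prop))
      measurable_const measurable_const) fun ω => ?_
    split_ifs <;> simp
  refine (𝓛.qlo_osc_sin hψ c).congr fun s => ?_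
  rw [Mr]
  congr 1
  funext ω
  rw [← ofReal_mul]
  congr 1
  beta_reduce
  split_ifs with h
  · rw [abs_of_nonneg h, one_mul]
  · rw [abs_of_neg (not_le.1 h), mul_neg, mul_neg, Real.sin_neg, neg_one_mul]

theorem osc_rot {Q : H →L[ℂ] H} (hQ : 𝓛.LInv Q) {c : ℝ} (hc : c ≠ 0) :
    𝓛.Osc fun s => 𝓛.rot Q fun ω => c * (s * ω 0) :=
  (𝓛.osc_cos hc).sub (((𝓛.osc_sin c).mul_right hQ.inv.cw).smul (a := fun _ => I) (C := 1)
    fun _ => norm_I.le)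

theorem osc_rot_abs {Q : H →L[ℂ] H} (hQ : 𝓛.LInv Q) {c : ℝ} (hc : c ≠ 0) :
    𝓛.Osc fun s => 𝓛.rot Q fun ω => c * (s * |ω 0|) := by
  refine ((𝓛.osc_cos hc).sub (((𝓛.osc_sin_abs c).mul_right hQ.inv.cw).smul (a := fun _ => I)
    (C := 1) fun _ => norm_I.le)).congr fun s => ?_
  have e : ∀ x : ℝ, Real.cos (c * (s * |x|)) = Real.cos (c * (s * x)) := fun x => by
    rcases abs_choice x with h | h
    · rw [h]
    · rw [h, mul_neg, mul_neg, Real.cos_neg]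
  simp only [rot, e]

/-- The part of a field vector which escapes weakly acts as an independent Gaussian. -/
theorem fresh {u : ℝ → H} (hu : 𝓛.Fam u) {w : H} (hw : w ∈ 𝓛.R) (h : VLim u w) :
    WLim (fun s => 𝓛.W (u s) - ((Real.exp (-(‖u s - w‖ ^ 2 / 2)) : ℝ) : ℂ) • 𝓛.W w) 0 := by
  obtain ⟨hu, -⟩ := hu
  have he : ∀ s, ‖((Real.exp (-(‖u s - w‖ ^ 2 / 2)) : ℝ) : ℂ)‖ ≤ 1 := fun s => by
    rw [norm_real, Real.norm_eq_abs, abs_of_pos (Real.exp_pos _), Real.exp_le_one_iff]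
    exact neg_nonpos.2 (by positivity)
  refine 𝓛.qlo_wlim (C := 1 + 1) (fun s => ?_) (fun s => ?_) (fun s => ?_)
    (fun s => (cm_W (hu s)).sub ((cm_W hw).smul _)) fun χ hχ g hg g' hg' => ?_
  · refine (norm_sub_le _ _).trans (add_le_add (norm_le_one_of_unitary (𝓛.W_unitary (hu s))) ?_)
    rw [norm_smul]
    exact mul_le_one₀ (he s) (norm_nonneg _) (norm_le_one_of_unitary (𝓛.W_unitary hw))
  · rw [mul_sub, sub_mul, mul_smul_comm, smul_mul_assoc, 𝓛.X_W _ (hu s), 𝓛.X_W _ hw]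
  · rw [mul_sub, sub_mul, mul_smul_comm, smul_mul_assoc, 𝓛.Z_W _ (hu s), 𝓛.Z_W _ hw]
  · let Φ : H → ℂ := fun y => exp (-(I * (⟪y, g⟫_ℂ).im)) * exp (-(I * (⟪-g', y + g⟫_ℂ).im)) *
      (qloF χ (𝓛.qloA (-g' + (y + g))) *
        exp (-(((2 * (⟪-g' + (w + g), y - w⟫_ℂ).re + ‖-g' + (w + g)‖ ^ 2 -
          ∑ a, 𝓛.qloA (-g' + (y + g)) a ^ 2) / 2 : ℝ) : ℂ)))
    have e1 : ∀ y ∈ 𝓛.R, ⟪𝓛.W g' 𝓛.Ω, 𝓛.M χ (𝓛.W y (𝓛.W g 𝓛.Ω))⟫_ℂ =
        ((Real.exp (-(‖y - w‖ ^ 2 / 2)) : ℝ) : ℂ) * Φ y := by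
      intro y hy
      have e : ‖-g' + (y + g)‖ ^ 2 =
          ‖-g' + (w + g)‖ ^ 2 + 2 * (⟪-g' + (w + g), y - w⟫_ℂ).re + ‖y - w‖ ^ 2 := by
        rw [show -g' + (y + g) = -g' + (w + g) + (y - w) by abel]
        exact norm_add_sq (𝕜 := ℂ) _ _
      have e' : ∀ a b c d : ℝ, exp (-(((a + b + c - d) / 2 : ℝ) : ℂ)) =
          ((Real.exp (-(c / 2)) : ℝ) : ℂ) * exp (-(((b + a - d) / 2 : ℝ) : ℂ)) := by
        intro a b c d
        rw [ofReal_exp, ← Complex.exp_add]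
        congr 1
        push_cast
        ring
      rw [𝓛.qlo_elem hχ hy hg hg', e, e']
      simp only [Φ]
      ring
    have hA : Tendsto (fun s => 𝓛.qloA (-g' + (u s + g))) atTop (𝓝 (𝓛.qloA (-g' + (w + g)))) := by
      refine tendsto_pi_nhds.2 fun a => (continuous_re.tendsto _).comp ?_
      simp only [inner_add_right]
      exact ((h _).add_const _).const_add _
    have h1 : Tendsto (fun s => ⟪u s, g⟫_ℂ) atTop (𝓝 ⟪w, g⟫_ℂ) := by
      simpa only [Function.comp_def, inner_conj_symm] using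
        (continuous_conj.tendsto _).comp (h g)
    have h2 : Tendsto (fun s => ⟪-g', u s + g⟫_ℂ) atTop (𝓝 ⟪-g', w + g⟫_ℂ) := by
      simp only [inner_add_right]
      exact (h _).add_const _
    have h3 : Tendsto (fun s => ⟪-g' + (w + g), u s - w⟫_ℂ) atTop
        (𝓝 ⟪-g' + (w + g), w - w⟫_ℂ) := by
      simp only [inner_sub_right]
      exact (h _).sub_const _
    have hF := qloF_continuous hχ
    have hc : Continuous fun p : (ℂ × ℂ) × ℂ × (Fin (K + 1) → ℝ) =>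
        exp (-(I * p.1.1.im)) * exp (-(I * p.1.2.im)) * (qloF χ p.2.2 *
          exp (-(((2 * p.2.1.re + ‖-g' + (w + g)‖ ^ 2 - ∑ a, p.2.2 a ^ 2) / 2 : ℝ) : ℂ))) := by
      fun_prop
    have hΦ : Tendsto (fun s => Φ (u s)) atTop (𝓝 (Φ w)) := by
      have := (hc.tendsto _).comp ((h1.prodMk_nhds h2).prodMk_nhds (h3.prodMk_nhds hA))
      simp only [Function.comp_def] at this
      exact this
    refine squeeze_zero_norm (a := fun s => ‖Φ (u s) - Φ w‖) (fun s => ?_)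
      (tendsto_iff_norm_sub_tendsto_zero.1 hΦ)
    rw [sub_apply, smul_apply, map_sub, map_smul, inner_sub_right, inner_smul_right, e1 _ (hu s),
      e1 _ hw, sub_self, norm_zero, zero_pow two_ne_zero, zero_div, neg_zero, Real.exp_zero,
      ofReal_one, one_mul, ← mul_sub, norm_mul]
    exact mul_le_of_le_one_left (norm_nonneg _) (he s)

theorem fresh' {u : ℝ → H} (hu : 𝓛.Fam u) {w : H} (hw : w ∈ 𝓛.R) (h : VLim u w) {r : ℝ}
    (hr : Tendsto (fun s => ‖u s - w‖ ^ 2) atTop (𝓝 r)) :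
    WLim (fun s => 𝓛.W (u s)) (((Real.exp (-(r / 2)) : ℝ) : ℂ) • 𝓛.W w) := by
  have h1 : Tendsto (fun s => ((Real.exp (-(‖u s - w‖ ^ 2 / 2)) : ℝ) : ℂ)) atTop
      (𝓝 ((Real.exp (-(r / 2)) : ℝ) : ℂ)) :=
    (continuous_ofReal.tendsto _).comp ((Real.continuous_exp.tendsto _).comp (hr.div_const 2).neg)
  have h2 := (𝓛.fresh hu hw h).add ((wlim_const (𝓛.W w)).smul h1)
  rw [zero_add] at h2
  exact h2.congr fun s => sub_add_cancel _ _

end Label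

end Crest.Agent.R339
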