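import Crest.Agent.R339.QLabWeak

/-! # Row 339: Riemann-Lebesgue lemma for the Gaussian labels, matrix elements -/

set_option autoImplicit false

namespace Crest.Agent.R339

open MeasureTheory ProbabilityTheory Complex Filter Topology
open scoped InnerProductSpace FourierTransform

theorem qlo_ac (n : ℕ) : (Measure.pi fun _ : Fin n => γ1) ≪ (volume : Measure (Fin n → ℝ)) := by
  induction n with
  | zero => rw [volume_pi, Measure.pi_of_empty, Measure.pi_of_empty]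
  | succ n ih =>
    have h1 := (measurePreserving_piFinSuccAbove (fun _ : Fin (n + 1) => γ1) 0).symm
    have h2 := (volume_preserving_piFinSuccAbove (fun _ : Fin (n + 1) => ℝ) 0).symm
    rw [← h1.map_eq, ← h2.map_eq]
    exact ((gaussianReal_absolutelyContinuous 0 one_ne_zero).prod ih).map
      (MeasurableEquiv.measurable _)

/-- the Fourier transform of `φ dγ` -/
noncomputable def qloF {K : ℕ} (φ : (Fin (K + 1) → ℝ) → ℂ) (x : Fin (K + 1) → ℝ) : ℂ :=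
  ∫ ω, φ ω * exp (I * (∑ a, x a * ω a : ℝ)) ∂gam K

theorem qloF_continuous {K : ℕ} {φ : (Fin (K + 1) → ℝ) → ℂ} (h : BM φ) : Continuous (qloF φ) := by
  refine continuous_of_dominated (bound := fun ω => ‖φ ω‖) (fun x => ?_) (fun x => ?_)
    h.integrable.norm (Eventually.of_forall fun ω => by fun_prop)
  · have := h.1
    exact Measurable.aestronglyMeasurable (by fun_prop)
  · refine Eventually.of_forall fun ω => le_of_eq ?_
    rw [norm_mul, mul_comm I, norm_exp_ofReal_mul_I, mul_one]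

theorem qloF_tendsto {K : ℕ} (φ : (Fin (K + 1) → ℝ) → ℂ) {x : ℝ → Fin (K + 1) → ℝ}
    (hx : Tendsto (fun s => |x s 0|) atTop atTop) : Tendsto (fun s => qloF φ (x s)) atTop (𝓝 0) := by
  let w : ℝ → StrongDual ℝ (Fin (K + 1) → ℝ) := fun s =>
    ∑ a, (-(x s a) / (2 * Real.pi)) • ContinuousLinearMap.proj a
  have hw : ∀ s ω, w s ω = -(∑ a, x s a * ω a) / (2 * Real.pi) := by
    intro s ω
    simp only [w, sum_apply, smul_apply,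
      ContinuousLinearMap.proj_apply, smul_eq_mul]
    rw [← Finset.sum_neg_distrib, Finset.sum_div]
    exact Finset.sum_congr rfl fun a _ => by ring
  have h1 : Tendsto w atTop (cocompact _) := by
    have hp : Continuous fun v : StrongDual ℝ (Fin (K + 1) → ℝ) => v (Pi.single 0 1) := by
      fun_prop
    refine Tendsto.mono_right (tendsto_comap_iff.2 ?_) (comap_cocompact_le hp)
    refine tendsto_cocompact_of_tendsto_dist_comp_atTop 0 ?_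
    refine (hx.atTop_div_const Real.two_pi_pos).congr fun s => ?_
    simp [hw, Pi.single_apply, abs_of_pos Real.pi_pos]
  refine ((tendsto_integral_exp_smul_cocompact
    (fun ω => ((gam K).rnDeriv volume ω).toReal • φ ω) volume).comp h1).congr fun s => ?_
  rw [Function.comp_apply, qloF, ← integral_rnDeriv_smul (qlo_ac (K + 1))]
  refine integral_congr_ae (Eventually.of_forall fun ω => ?_)
  have e : (2 * Real.pi * -w s ω : ℝ) = ∑ a, x s a * ω a := by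
    rw [hw]
    field_simp
  simp only [Circle.smul_def, Real.fourierChar_apply, e, smul_eq_mul, real_smul]
  ring_nf

variable {H : Type} [NormedAddCommGroup H] [InnerProductSpace ℂ H] [CompleteSpace H]

namespace Label

variable {K : ℕ} {A : AMP K} (𝓛 : Label A H)

/-- the label coordinates of a field vector -/
noncomputable def qloA (v : H) : Fin (K + 1) → ℝ :=
  fun a => (⟪𝓛.M (fun ω => (A.f a ω : ℂ)) 𝓛.Ω, v⟫_ℂ).re

theorem qlo_star_inner (T : H →L[ℂ] H) (x y : H) : ⟪T x, y⟫_ℂ = ⟪x, star T y⟫_ℂ := by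
  rw [ContinuousLinearMap.star_eq_adjoint, ContinuousLinearMap.adjoint_inner_right]

theorem qlo_elem {χ : (Fin (K + 1) → ℝ) → ℂ} (hχ : BM χ) {u g g' : H} (hu : u ∈ 𝓛.R)
    (hg : g ∈ 𝓛.R) (hg' : g' ∈ 𝓛.R) :
    ⟪𝓛.W g' 𝓛.Ω, 𝓛.M χ (𝓛.W u (𝓛.W g 𝓛.Ω))⟫_ℂ =
      exp (-(I * (⟪u, g⟫_ℂ).im)) * exp (-(I * (⟪-g', u + g⟫_ℂ).im)) *
        (qloF χ (𝓛.qloA (-g' + (u + g))) *
          exp (-(((‖-g' + (u + g)‖ ^ 2 - ∑ a, 𝓛.qloA (-g' + (u + g)) a ^ 2) / 2 : ℝ) : ℂ))) := by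
  have h1 : 𝓛.W (-g') * 𝓛.M χ * (𝓛.W u * 𝓛.W g) =
      (exp (-(I * (⟪u, g⟫_ℂ).im)) * exp (-(I * (⟪-g', u + g⟫_ℂ).im))) •
        (𝓛.M χ * 𝓛.W (-g' + (u + g))) := by
    rw [← 𝓛.M_W χ hχ _ (neg_mem hg'), 𝓛.W_mul u hu g hg, mul_smul_comm, mul_assoc,
      𝓛.W_mul _ (neg_mem hg') _ (add_mem hu hg), mul_smul_comm, smul_smul]
  have h2 := congrArg (fun T : H →L[ℂ] H => ⟪𝓛.Ω, T 𝓛.Ω⟫_ℂ) h1
  simp only [mul_apply_eq_comp, smul_apply, inner_smul_right] at h2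
  rw [qlo_star_inner, 𝓛.W_star g' hg', h2,
    𝓛.vacM χ hχ _ (add_mem (neg_mem hg') (add_mem hu hg))]
  rfl

theorem qlo_wlim {B : ℝ → H →L[ℂ] H} {C : ℝ} (hB : ∀ s, ‖B s‖ ≤ C)
    (hX : ∀ s, 𝓛.X * B s = B s * 𝓛.X) (hZ : ∀ s, 𝓛.Z * B s = B s * 𝓛.Z) (hM : ∀ s, 𝓛.CM (B s))
    (h : ∀ χ, BM χ → ∀ g ∈ 𝓛.R, ∀ g' ∈ 𝓛.R,
      Tendsto (fun s => ⟪𝓛.W g' 𝓛.Ω, 𝓛.M χ (B s (𝓛.W g 𝓛.Ω))⟫_ℂ) atTop (𝓝 0)) : WLim B 0 := by
  have ap : ∀ {S T S' T' : H →L[ℂ] H}, S * T = S' * T' → ∀ x, S (T x) = S' (T' x) :=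
    fun e x => congrArg (fun T : H →L[ℂ] H => T x) e
  have hXW : ∀ g ∈ 𝓛.R, 𝓛.X (𝓛.W g 𝓛.Ω) = 𝓛.W g 𝓛.Ω := fun g hg => by
    rw [ap (𝓛.X_W g hg), 𝓛.XΩ]
  have red : ∀ χ χ', BM χ → BM χ' → ∀ s x y, ⟪𝓛.M χ' x, B s (𝓛.M χ y)⟫_ℂ =
      ⟪x, 𝓛.M (fun ω => (starRingEnd ℂ) (χ' ω) * χ ω) (B s y)⟫_ℂ := by
    intro χ χ' hχ hχ' s x y
    rw [qlo_star_inner, 𝓛.M_star χ' hχ', 𝓛.M_mul _ _ hχ'.conj hχ, ← ap (hM s χ hχ)]
    rfl
  have one : ∀ χ, BM χ → ∀ g ∈ 𝓛.R, ∀ g' ∈ 𝓛.R, ∀ s,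
      ⟪𝓛.W g' 𝓛.Ω, 𝓛.M χ (B s (𝓛.Z (𝓛.W g 𝓛.Ω)))⟫_ℂ = 0 := by
    intro χ hχ g hg g' hg' s
    have e : 𝓛.X (𝓛.Z (𝓛.W g 𝓛.Ω)) = -𝓛.Z (𝓛.W g 𝓛.Ω) := by
      have := congrArg (fun T : H →L[ℂ] H => T (𝓛.W g 𝓛.Ω)) 𝓛.XZ
      simpa only [mul_apply_eq_comp, neg_apply, hXW g hg] using this
    refine self_eq_neg.1 ?_
    conv_lhs => rw [← hXW g' hg', qlo_star_inner, 𝓛.X_star, ← ap (𝓛.M_X χ hχ), ap (hX s), e,
      map_neg, map_neg, inner_neg_right]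
  have hZZ : ∀ x, 𝓛.Z (𝓛.Z x) = x := fun x => congrArg (fun T : H →L[ℂ] H => T x) 𝓛.Z_sq
  refine WLim.of_total 𝓛.total hB ?_
  rintro ξ ⟨χ', g', hχ', hg', rfl | rfl⟩ ζ ⟨χ, g, hχ, hg, rfl | rfl⟩ <;>
    simp only [red χ χ' hχ hχ', zero_apply, inner_zero_right]
  · exact h _ (hχ'.conj.mul hχ) g hg g' hg'
  · simp only [one _ (hχ'.conj.mul hχ) g hg g' hg', tendsto_const_nhds]
  · simp only [qlo_star_inner 𝓛.Z, 𝓛.Z_star, ← ap (𝓛.M_Z _ (hχ'.conj.mul hχ)), ap (hZ _),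
      one _ (hχ'.conj.mul hχ) g hg g' hg', tendsto_const_nhds]
  · simp only [qlo_star_inner 𝓛.Z, 𝓛.Z_star, ← ap (𝓛.M_Z _ (hχ'.conj.mul hχ)), ap (hZ _), hZZ]
    exact h _ (hχ'.conj.mul hχ) g hg g' hg'

theorem qloA_abs_le (v : H) (a : Fin (K + 1)) :
    |𝓛.qloA v a| ≤ ‖𝓛.M (fun ω => (A.f a ω : ℂ)) 𝓛.Ω‖ * ‖v‖ :=
  (abs_re_le_norm _).trans (norm_inner_le_norm _ _)

theorem qloF_shift (φ : (Fin (K + 1) → ℝ) → ℂ) (t : ℝ) (x : Fin (K + 1) → ℝ) :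
    qloF (fun ω => φ ω * exp (I * (t * ω 0 : ℝ))) x = qloF φ (x + Pi.single 0 t) := by
  refine integral_congr_ae (Eventually.of_forall fun ω => ?_)
  have e : ∑ a, (x + Pi.single 0 t : Fin (K + 1) → ℝ) a * ω a = t * ω 0 + ∑ a, x a * ω a := by
    simp [add_mul, Finset.sum_add_distrib, Pi.single_apply, add_comm]
  simp only [e]
  rw [mul_assoc, ← Complex.exp_add, ← mul_add, ← ofReal_add]

end Label

end Crest.Agent.R339
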