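import Crest.Agent.R339.QLabBase

/-! # Row 339: reachable states of the label model, back-reaction unitaries, strong closure -/

set_option autoImplicit false

set_option linter.unusedSectionVars false
set_option linter.unusedVariables false

namespace Crest.Agent.R339

open MeasureTheory ProbabilityTheory Complex Filter Topology
open scoped InnerProductSpace

variable {H : Type} [NormedAddCommGroup H] [InnerProductSpace ℂ H] [CompleteSpace H]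

section Approx

variable {S S' G : Set (H →L[ℂ] H)} {U g : H →L[ℂ] H}

theorem Approx.of_mem (h : U ∈ S) : Approx S U := by
  exact fun F ε hε => ⟨U, h, fun ψ _ => by simpa using hε⟩
theorem Approx.mono (h : Approx S U) (hS : S ⊆ S') : Approx S' U := by
  intro F ε hε
  obtain ⟨V, hV, h1⟩ := h F ε hε
  exact ⟨V, hS hV, h1⟩
theorem Approx.trans (h : Approx S U) (hS : ∀ V ∈ S, Approx S' V) : Approx S' U := by
  intro F ε hε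
  obtain ⟨V, hV, h1⟩ := h F (ε / 2) (half_pos hε)
  obtain ⟨W, hW, h2⟩ := hS V hV F (ε / 2) (half_pos hε)
  refine ⟨W, hW, fun ψ hψ => ?_⟩
  have := norm_sub_le_norm_sub_add_norm_sub (U ψ) (V ψ) (W ψ)
  linarith [h1 ψ hψ, h2 ψ hψ]
theorem Approx.mul_left (h : Approx S U) (hg : ∀ V ∈ S, Approx S' (g * V)) : Approx S' (g * U) := by
  intro F ε hε
  have hg0 : 0 < ‖g‖ + 1 := by positivity
  obtain ⟨V, hV, h1⟩ := h F (ε / 2 / (‖g‖ + 1)) (by positivity)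
  obtain ⟨W, hW, h2⟩ := hg V hV F (ε / 2) (half_pos hε)
  refine ⟨W, hW, fun ψ hψ => ?_⟩
  have h3 := norm_sub_le_norm_sub_add_norm_sub ((g * U) ψ) ((g * V) ψ) (W ψ)
  have h4 : ‖(g * U) ψ - (g * V) ψ‖ ≤ ‖g‖ * ‖U ψ - V ψ‖ := by
    rw [mul_apply_eq_comp, mul_apply_eq_comp, ← map_sub]
    exact g.le_opNorm _
  have h5 := (lt_div_iff₀ hg0).1 (h1 ψ hψ)
  have h6 := norm_nonneg (U ψ - V ψ)
  linarith [h2 ψ hψ]
theorem Approx.mul_right (h : Approx G g) (hg : ∀ g' ∈ G, Approx S' (g' * U)) :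
    Approx S' (g * U) := by
  classical
  intro F ε hε
  obtain ⟨V, hV, h1⟩ := h (F.image U) (ε / 2) (half_pos hε)
  obtain ⟨W, hW, h2⟩ := hg V hV F (ε / 2) (half_pos hε)
  refine ⟨W, hW, fun ψ hψ => ?_⟩
  have h3 := norm_sub_le_norm_sub_add_norm_sub ((g * U) ψ) ((V * U) ψ) (W ψ)
  have h4 : ‖(g * U) ψ - (V * U) ψ‖ < ε / 2 := h1 _ (Finset.mem_image_of_mem _ hψ)
  linarith [h2 ψ hψ]
theorem Approx.of_tendsto {ι : Type} {F : Filter ι} [F.NeBot] {V : ι → H →L[ℂ] H}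
    (hV : ∀ᶠ i in F, Approx S (V i)) (hl : ∀ ξ, Tendsto (fun i => V i ξ) F (𝓝 (U ξ))) :
    Approx S U := by
  intro D ε hε
  have h1 : ∀ᶠ i in F, ∀ ψ ∈ D, ‖U ψ - V i ψ‖ < ε / 2 :=
    (Filter.eventually_all_finset D).2 fun ψ _ => by
      have := Metric.tendsto_nhds.1 (hl ψ) (ε / 2) (half_pos hε)
      simpa only [dist_eq_norm'] using this
  obtain ⟨i, hi, h1⟩ := (hV.and h1).exists
  obtain ⟨W, hW, h2⟩ := hi D (ε / 2) (half_pos hε)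
  refine ⟨W, hW, fun ψ hψ => ?_⟩
  have := norm_sub_le_norm_sub_add_norm_sub (U ψ) (V i ψ) (W ψ)
  linarith [h1 ψ hψ, h2 ψ hψ]
/-- It suffices to test on a dense set. -/
theorem Approx.of_dense {D : Set H} (hD : Dense D) (hS : ∀ V ∈ S, ‖V‖ ≤ 1) (hU : ‖U‖ ≤ 1)
    (h : ∀ (F : Finset H) (ε : ℝ), (∀ ψ ∈ F, ψ ∈ D) → 0 < ε → ∃ V ∈ S, ∀ ψ ∈ F, ‖U ψ - V ψ‖ < ε) :
    Approx S U := by
  classical
  intro F ε hε
  choose d hd1 hd2 using fun ψ : H => hD.exists_dist_lt ψ (show 0 < ε / 3 by positivity)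
  obtain ⟨V, hV, h1⟩ := h (F.image d) (ε / 3) (fun ψ hψ => by
    obtain ⟨x, -, rfl⟩ := Finset.mem_image.1 hψ
    exact hd1 x) (by positivity)
  refine ⟨V, hV, fun ψ hψ => ?_⟩
  have h2 := h1 _ (Finset.mem_image_of_mem d hψ)
  have h3 := hd2 ψ
  rw [dist_eq_norm] at h3
  have h4 := Weyl.QReg_le_of hU (ψ - d ψ)
  have h5 := Weyl.QReg_le_of (hS V hV) (ψ - d ψ)
  have e : U ψ - V ψ = U (ψ - d ψ) + (U (d ψ) - V (d ψ)) - V (ψ - d ψ) := by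
    rw [map_sub, map_sub]
    abel
  have h6 := norm_sub_le (U (ψ - d ψ) + (U (d ψ) - V (d ψ))) (V (ψ - d ψ))
  have h7 := norm_add_le (U (ψ - d ψ)) (U (d ψ) - V (d ψ))
  rw [e]
  linarith
theorem norm_le_one_of_unitary (hU : U ∈ unitary (H →L[ℂ] H)) : ‖U‖ ≤ 1 := by
  exact U.opNorm_le_bound zero_le_one fun x => by rw [Weyl.QReg_norm_unit hU, one_mul]
theorem smul_mem_unitary {c : ℂ} (hc : ‖c‖ = 1) (hU : U ∈ unitary (H →L[ℂ] H)) :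
    c • U ∈ unitary (H →L[ℂ] H) := by
  have h1 : star c * c = 1 := by
    rw [Complex.star_def, Complex.conj_mul', hc]
    simp
  refine ⟨?_, ?_⟩
  · rw [star_smul, smul_mul_smul_comm, h1, hU.1, one_smul]
  · rw [star_smul, smul_mul_smul_comm, mul_comm c, h1, hU.2, one_smul]

theorem QLabReach_adj (B : H →L[ℂ] H) (x y : H) : ⟪x, B y⟫_ℂ = ⟪(star B) x, y⟫_ℂ := by
  rw [ContinuousLinearMap.star_eq_adjoint, ContinuousLinearMap.adjoint_inner_left]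
theorem QLabReach_adj' (B : H →L[ℂ] H) (x y : H) : ⟪x, (star B) y⟫_ℂ = ⟪B x, y⟫_ℂ := by
  rw [QLabReach_adj, star_star]
theorem QLabReach_im {B : H →L[ℂ] H} (hB : star B = B) (x : H) : (⟪x, B x⟫_ℂ).im = 0 := by
  have h1 := Weyl.QBase_im_symm x (B x)
  rw [← QLabReach_adj' B x x, hB] at h1
  linarith
theorem QLabReach_inv {c : ℂ} (hc : ‖c‖ = 1) (U : H →L[ℂ] H) : U = c⁻¹ • c • U := by
  have hc0 : c ≠ 0 := by
    rintro rfl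
    simp at hc
  rw [inv_smul_smul₀ hc0]

end Approx

namespace Label

variable {K : ℕ} {A : AMP K} {𝓛 : Label A H} {θ : (Fin (K + 1) → ℝ) → ℝ}
  {G O T T' U V : H →L[ℂ] H} {u v : H} {l : ℕ}

theorem RealL.mem_R (h : 𝓛.RealL u) : u ∈ 𝓛.R := by
  exact (𝓛.mem_R u).2 fun a => h (A.f a) (A.br a)
theorem RealL.add (h : 𝓛.RealL u) (h' : 𝓛.RealL v) : 𝓛.RealL (u + v) := by
  intro f hf
  rw [inner_add_right, add_im, h f hf, h' f hf, add_zero]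
theorem RealL.sub (h : 𝓛.RealL u) (h' : 𝓛.RealL v) : 𝓛.RealL (u - v) := by
  intro f hf
  rw [inner_sub_right, sub_im, h f hf, h' f hf, sub_zero]
theorem RealL.smul (h : 𝓛.RealL u) (c : ℝ) : 𝓛.RealL (c • u) := by
  intro f hf
  rw [← Complex.coe_smul, inner_smul_right, im_ofReal_mul, h f hf, mul_zero]
theorem RealL.neg (h : 𝓛.RealL u) : 𝓛.RealL (-u) := by
  intro f hf
  rw [inner_neg_right, neg_im, h f hf, neg_zero]
theorem realL_br (hU : U ∈ unitary (H →L[ℂ] H)) (hc : 𝓛.CM U) (hO : star O = O) (hO' : 𝓛.CM O) :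
    𝓛.RealL (𝓛.br U O) := by
  intro f hf
  have h1 : U (𝓛.Mr f 𝓛.Ω) = 𝓛.Mr f (U 𝓛.Ω) := (congrArg (fun B => B 𝓛.Ω) (hc.Mr hf)).symm
  rw [Weyl.br, QLabReach_adj, star_star, h1, ← QLabReach_adj', Mr_star hf]
  exact QLabReach_im (B := 𝓛.Mr f * O) (by rw [star_mul, Mr_star hf, hO, hO'.Mr hf]) _
theorem realL_Mr (h : BR θ) : 𝓛.RealL (𝓛.Mr θ 𝓛.Ω) := by
  intro f hf
  rw [inner_Mr_Mr hf h, ofReal_im]
theorem Ω_mem_R : 𝓛.Ω ∈ 𝓛.R := by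
  have := (realL_Mr (𝓛 := 𝓛) (BR.const 1)).mem_R
  rw [Mr_const] at this
  simpa using this
theorem br_Mr (hU : U ∈ unitary (H →L[ℂ] H)) (hc : 𝓛.CM U) (h : BR θ) :
    𝓛.br U (𝓛.Mr θ) = 𝓛.Mr θ 𝓛.Ω := by
  have h1 : star U * (𝓛.Mr θ * U) = 𝓛.Mr θ := by rw [hc.Mr h, ← mul_assoc, hU.1, one_mul]
  exact congrArg (fun B => B 𝓛.Ω) h1

theorem Gate.unitary (h : 𝓛.Gate l G) : G ∈ unitary (H →L[ℂ] H) := by
  cases h with
  | X θ h _ _ => exact rot_unitary linv_X h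
  | Z θ h _ _ => exact rot_unitary linv_Z h
theorem Gate.cw (h : 𝓛.Gate l G) : 𝓛.CW G := by
  cases h with
  | X θ h _ _ => exact rot_cw linv_X h
  | Z θ h _ _ => exact rot_cw linv_Z h
theorem Gate.cm (h : 𝓛.Gate l G) : 𝓛.CM G := by
  cases h with
  | X θ h _ _ => exact rot_cm linv_X h
  | Z θ h _ _ => exact rot_cm linv_Z h
theorem Gate.star (h : 𝓛.Gate l G) : 𝓛.Gate l (star G) := by
  cases h with
  | X θ h h1 h2 =>
    rw [rot_star linv_X h]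
    exact Gate.X _ h.neg (fun ω ω' e => by rw [h1 ω ω' e]) fun ω => by rw [h2]
  | Z θ h h1 h2 =>
    rw [rot_star linv_Z h]
    exact Gate.Z _ h.neg (fun ω ω' e => by rw [h1 ω ω' e]) fun ω => by rw [h2]
theorem Gate.mono {l' : ℕ} (h : 𝓛.Gate l G) (hl : l ≤ l') : 𝓛.Gate l' G := by
  cases h with
  | X θ h h1 h2 => exact Gate.X _ h (h1.mono hl) h2
  | Z θ h h1 h2 => exact Gate.Z _ h (h1.mono hl) h2
theorem gate_B (β : ℝ) : 𝓛.Gate l (𝓛.B β) := by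
  rw [← rot_X_const]
  exact Gate.X _ measurable_const (fun _ _ _ => rfl) fun _ => rfl
theorem gate_E (a : Fin (K + 1)) (ha : a.val ≤ l) (t : ℝ) :
    𝓛.Gate l (𝓛.rot 𝓛.Z fun ω => t * ω a) := by
  exact Gate.Z _ (by fun_prop) (fun ω ω' e => by rw [e a ha]) fun ω => by simp

theorem Gate.loc (h : 𝓛.Gate l G) : 𝓛.Loc l G := by
  simpa using Loc.gate h Loc.one
theorem Loc.mul (h : 𝓛.Loc l U) (h' : 𝓛.Loc l V) : 𝓛.Loc l (U * V) := by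
  induction h with
  | one => rwa [one_mul]
  | gate hG _ ih =>
    rw [mul_assoc]
    exact Loc.gate hG ih
theorem Loc.star (h : 𝓛.Loc l U) : 𝓛.Loc l (star U) := by
  induction h with
  | one =>
    rw [star_one]
    exact Loc.one
  | gate hG _ ih =>
    rw [star_mul]
    exact ih.mul hG.star.loc
theorem Loc.unitary (h : 𝓛.Loc l U) : U ∈ unitary (H →L[ℂ] H) := by
  induction h with
  | one => exact one_mem _
  | gate hG _ ih => exact mul_mem hG.unitary ih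
theorem Loc.cw (h : 𝓛.Loc l U) : 𝓛.CW U := by
  induction h with
  | one => exact 𝓛.cw_one
  | gate hG _ ih => exact hG.cw.mul ih
theorem Loc.cm (h : 𝓛.Loc l U) : 𝓛.CM U := by
  induction h with
  | one => exact cm_one
  | gate hG _ ih => exact hG.cm.mul ih
theorem loc_rot_Y (h : Measurable θ) (hl : Lvl l θ) (ho : ∀ ω, θ (-ω) = -θ ω) :
    𝓛.Loc l (𝓛.rot 𝓛.Y θ) := by
  rw [rot_Y_eq h]
  exact ((gate_B _).star.loc.mul (Gate.Z _ h hl ho).loc).mul (gate_B _).loc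
theorem Gen.loc (h : 𝓛.Gen l U) : 𝓛.Loc l U := by
  induction h with
  | one => exact Loc.one
  | B β _ ih => exact Loc.gate (gate_B β) ih
  | E a t ha _ ih => exact Loc.gate (gate_E a ha t) ih
theorem Gen.mul (h : 𝓛.Gen l U) (h' : 𝓛.Gen l V) : 𝓛.Gen l (U * V) := by
  induction h with
  | one => rwa [one_mul]
  | B β _ ih =>
    rw [mul_assoc]
    exact Gen.B β ih
  | E a t ha _ ih =>
    rw [mul_assoc]
    exact Gen.E a t ha ih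

theorem QLabReach_joint (h : 𝓛.LReach l U) : U ∈ unitary (H →L[ℂ] H) ∧ 𝓛.CM U := by
  induction h with
  | one => exact ⟨one_mem _, cm_one⟩
  | gate hG _ ih => exact ⟨mul_mem hG.unitary ih.1, hG.cm.mul ih.2⟩
  | C γ _ ih =>
    have h1 := neg_mem (𝓛.R.smul_mem γ (realL_br ih.1 ih.2 𝓛.Z_star cm_Z).mem_R)
    exact ⟨mul_mem (Weyl.WQ_unitary 𝓛.invol_Z h1) ih.1, (cm_WQ cm_Z h1).mul ih.2⟩
theorem LReach.unitary (h : 𝓛.LReach l U) : U ∈ unitary (H →L[ℂ] H) := by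
  exact (QLabReach_joint h).1
theorem LReach.cm (h : 𝓛.LReach l U) : 𝓛.CM U := by
  exact (QLabReach_joint h).2
theorem LReach.loc (hG : 𝓛.Loc l G) (h : 𝓛.LReach l U) : 𝓛.LReach l (G * U) := by
  induction hG with
  | one => rwa [one_mul]
  | gate hG _ ih =>
    rw [mul_assoc]
    exact LReach.gate hG ih
theorem LReach.pr (h : 𝓛.LReach l U) : 𝓛.PR l U := by
  exact ⟨1, norm_one, by rwa [one_smul]⟩
theorem LReach.br_mem (h : 𝓛.LReach l U) : 𝓛.br U 𝓛.Z ∈ 𝓛.R := by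
  exact (realL_br h.unitary h.cm 𝓛.Z_star cm_Z).mem_R
theorem lreach_of_ereach (h : 𝓛.EReach U) : 𝓛.LReach 0 U := by
  induction h with
  | one => exact LReach.one
  | B β _ ih => exact LReach.gate (gate_B β) ih
  | C γ _ ih => exact LReach.C γ ih
  | E τ _ ih =>
    have e := rot_Z_coord (𝓛 := 𝓛) 0 τ
    rw [Mr_f_zero, one_apply_eq_self] at e
    rw [← e]
    exact LReach.gate (gate_E 0 le_rfl τ) ih
theorem eClosed : 𝓛.EClosed := by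
  exact ⟨Ω_mem_R, fun U h => (lreach_of_ereach h).br_mem⟩

theorem PR.unitary (h : 𝓛.PR l U) : U ∈ unitary (H →L[ℂ] H) := by
  obtain ⟨c, hc, h⟩ := h
  rw [QLabReach_inv hc U]
  exact smul_mem_unitary (by rw [norm_inv, hc, inv_one]) h.unitary
theorem PR.cm (h : 𝓛.PR l U) : 𝓛.CM U := by
  obtain ⟨c, hc, h⟩ := h
  rw [QLabReach_inv hc U]
  exact h.cm.smul _
theorem QLabReach_regu (h : 𝓛.LReach l U) {ψ : H} (hψ : 𝓛.Regu ψ) : 𝓛.Regu (U ψ) := by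
  induction h with
  | one => exact hψ
  | gate hG _ ih =>
    obtain ⟨a, ha⟩ := ih
    exact ⟨_, (ha.cw hG.cw :)⟩
  | C γ h ih =>
    obtain ⟨a, ha⟩ := ih
    exact ⟨_, ha.WQ 𝓛.invol_Z (neg_mem (𝓛.R.smul_mem γ h.br_mem))⟩
theorem PR.regu (h : 𝓛.PR l U) {ψ : H} (hψ : 𝓛.Regu ψ) : 𝓛.Regu (U ψ) := by
  obtain ⟨c, hc, h⟩ := h
  obtain ⟨a, ha⟩ := QLabReach_regu h hψ
  rw [QLabReach_inv hc U]
  exact ⟨_, ha.smul c⁻¹⟩
theorem PR.smul (h : 𝓛.PR l U) {c : ℂ} (hc : ‖c‖ = 1) : 𝓛.PR l (c • U) := by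
  obtain ⟨a, ha, h⟩ := h
  have hc0 : c ≠ 0 := by
    rintro rfl
    simp at hc
  refine ⟨a * c⁻¹, by rw [norm_mul, norm_inv, ha, hc, inv_one, one_mul], ?_⟩
  rwa [smul_smul, inv_mul_cancel_right₀ hc0]
theorem PR.loc (hG : 𝓛.Loc l G) (h : 𝓛.PR l U) : 𝓛.PR l (G * U) := by
  obtain ⟨a, ha, h⟩ := h
  refine ⟨a, ha, ?_⟩
  rw [← mul_smul_comm]
  exact h.loc hG
theorem PR.C (h : 𝓛.PR l U) (γ : ℝ) : 𝓛.PR l (𝓛.C γ U) := by
  obtain ⟨a, ha, h⟩ := h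
  refine ⟨a, ha, ?_⟩
  rw [← Weyl.QBase_C_smul _ ha]
  exact LReach.C γ h
/-- The cost rotation in a rotated frame. -/
theorem PR.WQ (hG : 𝓛.Loc l G) (h : 𝓛.PR l U) (γ : ℝ) :
    𝓛.PR l (𝓛.WQ (star G * 𝓛.Z * G) (-(γ • 𝓛.br U (star G * 𝓛.Z * G))) * U) := by
  have h1 := h.loc hG
  have h2 : 𝓛.br (G * U) 𝓛.Z ∈ 𝓛.R := (realL_br h1.unitary h1.cm 𝓛.Z_star cm_Z).mem_R
  have h3 := (h1.C γ).loc hG.star
  rw [← Weyl.br_mul, ← Weyl.WQ_conj 𝓛.invol_Z hG.unitary hG.cw (neg_mem (𝓛.R.smul_mem γ h2)),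
    mul_assoc, mul_assoc]
  exact h3

theorem isT_one : 𝓛.IsT l 1 := by
  refine ⟨one_mem _, by simp, by simp, cm_one, fun g _ => ⟨fun _ => 0, measurable_const,
    fun _ _ _ => rfl, fun _ => by simp, fun c => ?_⟩, fun f _ => by simp⟩
  simp [M_one]
theorem IsT.mul (h : 𝓛.IsT l T) (h' : 𝓛.IsT l T') : 𝓛.IsT l (T * T') := by
  refine ⟨mul_mem h.unit h'.unit, by rw [← mul_assoc, h.cX, mul_assoc, h'.cX, mul_assoc],
    by rw [← mul_assoc, h.cZ, mul_assoc, h'.cZ, mul_assoc], h.cM.mul h'.cM, fun g hg => ?_,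
    fun f hf => by rw [← mul_assoc, h.cV f hf, mul_assoc, h'.cV f hf, mul_assoc]⟩
  obtain ⟨a, a1, a2, a3, a4⟩ := h.cW g hg
  obtain ⟨b, b1, b2, b3, b4⟩ := h'.cW g hg
  refine ⟨fun ω => a ω + b ω, a1.add b1, fun ω ω' e => by simp only [a2 ω ω' e, b2 ω ω' e],
    fun ω => by simp only [a3, b3, neg_add], fun c => ?_⟩
  have ha : BM fun ω => exp (I * (c * a ω : ℝ)) := BM.cexp (a1.const_mul c)
  have hb : BM fun ω => exp (I * (c * b ω : ℝ)) := BM.cexp (b1.const_mul c)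
  have e : (fun ω => exp (I * (c * (a ω + b ω) : ℝ))) =
      fun ω => exp (I * (c * a ω : ℝ)) * exp (I * (c * b ω : ℝ)) := by
    funext ω
    rw [← Complex.exp_add]
    congr 1
    push_cast
    ring
  rw [e, 𝓛.M_mul _ _ ha hb, ← mul_assoc, a4, mul_assoc _ _ T', b4, ← mul_assoc, ← mul_assoc,
    mul_assoc T, h'.cM _ ha]
  simp only [mul_assoc]
theorem IsT.smul (h : 𝓛.IsT l T) {c : ℂ} (hc : ‖c‖ = 1) : 𝓛.IsT l (c • T) := by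
  refine ⟨smul_mem_unitary hc h.unit, by rw [mul_smul_comm, h.cX, smul_mul_assoc],
    by rw [mul_smul_comm, h.cZ, smul_mul_assoc], h.cM.smul c, fun g hg => ?_,
    fun f hf => by rw [mul_smul_comm, h.cV f hf, smul_mul_assoc]⟩
  obtain ⟨a, a1, a2, a3, a4⟩ := h.cW g hg
  exact ⟨a, a1, a2, a3, fun t => by rw [mul_smul_comm, a4, smul_mul_assoc, smul_mul_assoc]⟩
theorem QLabReach_sgn (hθ : Sgn l θ) (a : ℝ) :
    ((Real.cos a : ℝ) : ℂ) • (1 : H →L[ℂ] H) - (I * ((Real.sin a : ℝ) : ℂ)) • 𝓛.Mr θ =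
      𝓛.M fun ω => exp (I * (-a * θ ω : ℝ)) := by
  have hb : BM fun ω => (I * ((Real.sin a : ℝ) : ℂ)) * (θ ω : ℂ) := (BM.const _).mul hθ.br
  rw [← 𝓛.M_const, Mr, ← M_smul _ hθ.br, ← M_sub (BM.const _) hb]
  refine M_congr ((BM.const _).sub hb) (BM.cexp (hθ.meas.const_mul _)) ?_
  filter_upwards [hθ.sq] with ω hω
  rw [mul_comm I ((_ : ℝ) : ℂ), mul_comm I ((_ : ℝ) : ℂ), exp_mul_I]
  rcases sq_eq_one_iff.1 hω with h | h <;> rw [h] <;> simp [sub_eq_add_neg]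
theorem QLabReach_euler (h : Measurable θ) : (𝓛.M fun ω => exp (I * (θ ω : ℝ))) =
    𝓛.Mr (fun ω => Real.cos (θ ω)) + I • 𝓛.Mr fun ω => Real.sin (θ ω) := by
  rw [Mr, Mr, ← M_smul _ (BR.sin h), ← 𝓛.M_add _ _ (BR.cos h) ((BM.const _).mul (BR.sin h))]
  congr 1
  funext ω
  rw [mul_comm I, exp_mul_I, ofReal_cos, ofReal_sin, mul_comm I]
theorem isT_WQ (hθ : Sgn l θ) (hu : 𝓛.RealL u) : 𝓛.IsT l (𝓛.WQ (𝓛.Mr θ) u) := by
  have hQ := (linv_sgn (𝓛 := 𝓛) hθ).inv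
  have hcm : 𝓛.CM (𝓛.WQ (𝓛.Mr θ) u) := cm_WQ (linv_sgn hθ).cm hu.mem_R
  refine ⟨Weyl.WQ_unitary hQ hu.mem_R,
    Weyl.WQ_comm hQ 𝓛.invol_X.cw (cm_X.Mr hθ.br).symm hu.mem_R,
    Weyl.WQ_comm hQ 𝓛.invol_Z.cw (cm_Z.Mr hθ.br).symm hu.mem_R, hcm, fun g hg => ?_,
    fun f hf => ?_⟩
  · refine ⟨fun ω => 2 * (⟪u, g⟫_ℂ).im * θ ω, hθ.meas.const_mul _,
      fun ω ω' e => by simp only [hθ.lvl ω ω' e], fun ω => by simp only [hθ.odd, mul_neg],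
      fun c => ?_⟩
    have hv := 𝓛.R.smul_mem c hg
    have h1 := Weyl.WQ_W hQ hu.mem_R hv
    have ha : BM fun ω => exp (I * (c * (2 * (⟪u, g⟫_ℂ).im * θ ω) : ℝ)) :=
      BM.cexp ((hθ.meas.const_mul _).const_mul c)
    have h2 : (⟪u, c • g⟫_ℂ).im = c * (⟪u, g⟫_ℂ).im := by
      rw [← Complex.coe_smul, inner_smul_right, im_ofReal_mul]
    rw [← hcm _ ha, mul_assoc, h1, ← mul_assoc, 𝓛.M_W _ ha _ hv, mul_assoc, ← mul_assoc (𝓛.M _),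
      h2, QLabReach_sgn hθ, ← 𝓛.M_mul _ _ ha (BM.cexp (hθ.meas.const_mul _))]
    have e : (fun ω => exp (I * (c * (2 * (⟪u, g⟫_ℂ).im * θ ω) : ℝ)) *
        exp (I * (-(2 * (c * (⟪u, g⟫_ℂ).im)) * θ ω : ℝ))) = fun _ => 1 := by
      funext ω
      rw [← Complex.exp_add, ← Complex.exp_zero]
      congr 1
      push_cast
      ring
    rw [e, M_one, one_mul]
  · rw [Weyl.WQ_W hQ hu.mem_R (realL_Mr hf).mem_R, Weyl.QBase_im_symm, hu f hf]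
    simp
theorem IsT.gate (h : 𝓛.IsT l T) {l' : ℕ} (hG : 𝓛.Gate l' G) : G * T = T * G := by
  cases hG with
  | X θ h1 _ _ => exact (rot_comm h1 h.cM h.cX.symm).symm
  | Z θ h1 _ _ => exact (rot_comm h1 h.cM h.cZ.symm).symm
theorem IsT.br (h : 𝓛.IsT l T) (V : H →L[ℂ] H) : 𝓛.br (T * V) 𝓛.Z = 𝓛.br V 𝓛.Z := by
  rw [Weyl.br_mul, mul_assoc, h.cZ, ← mul_assoc, h.unit.1, one_mul]
theorem IsT.WZ_Mr (h : 𝓛.IsT l T) (hθ : BR θ) (t : ℝ) :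
    𝓛.WZ (t • 𝓛.Mr θ 𝓛.Ω) * T = T * 𝓛.WZ (t • 𝓛.Mr θ 𝓛.Ω) := by
  have h1 : 𝓛.W (t • 𝓛.Mr θ 𝓛.Ω) * T = T * 𝓛.W (t • 𝓛.Mr θ 𝓛.Ω) := by
    rw [← Mr_smul_apply t hθ]
    exact h.cV _ ((BR.const t).mul hθ)
  have h2 : 𝓛.W (-(t • 𝓛.Mr θ 𝓛.Ω)) * T = T * 𝓛.W (-(t • 𝓛.Mr θ 𝓛.Ω)) := by
    rw [← neg_smul, ← Mr_smul_apply (-t) hθ]
    exact h.cV _ ((BR.const (-t)).mul hθ)
  have h3 : (1 + 𝓛.Z) * T = T * (1 + 𝓛.Z) := by rw [add_mul, mul_add, h.cZ, one_mul, mul_one]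
  have h4 : (1 - 𝓛.Z) * T = T * (1 - 𝓛.Z) := by rw [sub_mul, mul_sub, h.cZ, one_mul, mul_one]
  rw [Weyl.WZ, Weyl.WQ_eq 𝓛.invol_Z, add_mul, mul_add, smul_mul_assoc, smul_mul_assoc,
    mul_smul_comm, mul_smul_comm, mul_assoc, mul_assoc, h1, h2, ← mul_assoc, ← mul_assoc, h3, h4,
    mul_assoc, mul_assoc]
theorem IsT.WZ (h : 𝓛.IsT l T) (hu : u ∈ 𝓛.R) :
    ∃ G, 𝓛.Gate l G ∧ 𝓛.WZ u * T = T * (G * 𝓛.WZ u) := by
  obtain ⟨a, a1, a2, a3, a4⟩ := h.cW u hu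
  refine ⟨𝓛.rot 𝓛.Z fun ω => -a ω, Gate.Z _ a1.neg (fun ω ω' e => by rw [a2 ω ω' e])
    fun ω => by rw [a3], ?_⟩
  have h1 := a4 1
  have h2 := a4 (-1)
  simp only [one_smul, one_mul, neg_smul, neg_mul] at h1 h2
  rw [QLabReach_euler a1] at h1
  rw [QLabReach_euler (θ := fun ω => -a ω) a1.neg] at h2
  have h3 : (1 + 𝓛.Z) * T = T * (1 + 𝓛.Z) := by rw [add_mul, mul_add, h.cZ, one_mul, mul_one]
  have h4 : (1 - 𝓛.Z) * T = T * (1 - 𝓛.Z) := by rw [sub_mul, mul_sub, h.cZ, one_mul, mul_one]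
  have e1 : 𝓛.Mr (fun ω => Real.sin (-a ω)) = -𝓛.Mr fun ω => Real.sin (a ω) := by
    simp only [Real.sin_neg]
    exact Mr_neg (BR.sin a1)
  have hC := cm_Z (𝓛 := 𝓛).Mr (BR.cos a1)
  have hS := cm_Z (𝓛 := 𝓛).Mr (BR.sin a1)
  rw [rot]
  simp only [Real.cos_neg, e1] at h2 ⊢
  generalize (𝓛.Mr fun ω => Real.cos (a ω)) = C at *
  generalize (𝓛.Mr fun ω => Real.sin (a ω)) = S at *
  have hZ : S * 𝓛.Z * 𝓛.Z = S := by rw [mul_assoc, 𝓛.Z_sq, mul_one]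
  have h5 : (1 + 𝓛.Z) * (C + I • S) = (C - I • (-S * 𝓛.Z)) * (1 + 𝓛.Z) := by
    simp only [add_mul, mul_add, sub_mul, one_mul, mul_one, mul_smul_comm, smul_mul_assoc, neg_mul,
      smul_neg, hZ, ← hC, ← hS]
    module
  have h6 : (1 - 𝓛.Z) * (C + I • -S) = (C - I • (-S * 𝓛.Z)) * (1 - 𝓛.Z) := by
    simp only [mul_add, mul_sub, sub_mul, one_mul, mul_one, mul_smul_comm, smul_mul_assoc, neg_mul,
      mul_neg, smul_neg, hZ, ← hC, ← hS]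
    module
  rw [Weyl.WZ, Weyl.WQ_eq 𝓛.invol_Z, add_mul, mul_add, mul_add, smul_mul_assoc, smul_mul_assoc,
    mul_smul_comm, mul_smul_comm, mul_smul_comm, mul_smul_comm, mul_assoc, mul_assoc, h1, h2,
    ← mul_assoc, ← mul_assoc, ← mul_assoc, ← mul_assoc, h3, h4, mul_assoc T (1 + _),
    mul_assoc T (1 - _), h5, h6]
  simp only [mul_assoc]
theorem mem_TL (h : 𝓛.IsT l T) (hU : 𝓛.PR l U) : T * U ∈ 𝓛.TL l := by
  obtain ⟨c, hc, hU⟩ := hU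
  refine ⟨c⁻¹ • T, c • U, h.smul (by rw [norm_inv, hc, inv_one]), hU, ?_⟩
  rw [smul_mul_assoc, ← mul_smul_comm, ← QLabReach_inv hc U]
theorem TL_mul (h : 𝓛.IsT l T) (hU : U ∈ 𝓛.TL l) : T * U ∈ 𝓛.TL l := by
  obtain ⟨T', V, h1, h2, rfl⟩ := hU
  exact ⟨T * T', V, h.mul h1, h2, (mul_assoc _ _ _).symm⟩
theorem TL_unitary (hU : U ∈ 𝓛.TL l) : U ∈ unitary (H →L[ℂ] H) := by
  obtain ⟨T', V, h1, h2, rfl⟩ := hU
  exact mul_mem h1.unit h2.unitary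
theorem TL_br_mem (hU : U ∈ 𝓛.TL l) : 𝓛.br U 𝓛.Z ∈ 𝓛.R := by
  obtain ⟨T', V, h1, h2, rfl⟩ := hU
  rw [h1.br]
  exact h2.br_mem
theorem TL_gate (hG : 𝓛.Gate l G) (hU : U ∈ 𝓛.TL l) : G * U ∈ 𝓛.TL l := by
  obtain ⟨T', V, h1, h2, rfl⟩ := hU
  exact ⟨T', G * V, h1, LReach.gate hG h2, by rw [← mul_assoc, h1.gate hG, mul_assoc]⟩
theorem TL_C (hU : U ∈ 𝓛.TL l) (γ : ℝ) : 𝓛.C γ U ∈ 𝓛.TL l := by
  obtain ⟨T', V, h1, h2, rfl⟩ := hU
  obtain ⟨G, hG, e⟩ := h1.WZ (neg_mem (𝓛.R.smul_mem γ h2.br_mem))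
  refine ⟨T', G * 𝓛.C γ V, h1, LReach.gate hG (LReach.C γ h2), ?_⟩
  rw [Weyl.C, Weyl.C, h1.br, ← mul_assoc, e]
  simp only [mul_assoc]

theorem xA_smul {c : ℂ} (hc : ‖c‖ = 1) (S : Set (Fin (K + 1) → ℝ)) (U : H →L[ℂ] H) :
    𝓛.xA S (c • U) = 𝓛.xA S U := by
  have h1 : (starRingEnd ℂ) c * c = 1 := by
    rw [Complex.conj_mul', hc]
    simp
  simp only [xA, smul_apply, map_smul, inner_smul_left, inner_smul_right]
  rw [← mul_assoc, mul_comm c, h1, one_mul]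
theorem abs_xA_le {S : Set (Fin (K + 1) → ℝ)} (hS : MeasurableSet S)
    (hU : U ∈ unitary (H →L[ℂ] H)) : |𝓛.xA S U| ≤ 1 := by
  have h1 : ‖U 𝓛.Ω‖ = 1 := by rw [Weyl.QReg_norm_unit hU, 𝓛.Ω_norm]
  refine (abs_re_le_norm _).trans ((norm_inner_le_norm _ _).trans ?_)
  rw [Weyl.QReg_norm_unit 𝓛.invol_X.mem_unitary, h1, one_mul, ← h1]
  exact Weyl.QReg_le_of (norm_Ind_le hS) _
theorem xA_eq {S : Set (Fin (K + 1) → ℝ)} (hS : MeasurableSet S) (U : H →L[ℂ] H) :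
    ⟪U 𝓛.Ω, (𝓛.Ind S * 𝓛.X) (U 𝓛.Ω)⟫_ℂ = (𝓛.xA S U : ℝ) := by
  have h1 := (cm_X (𝓛 := 𝓛)).Ind hS
  have h2 := QLabReach_im (B := 𝓛.Ind S * 𝓛.X)
    (by rw [star_mul, Ind_star hS, 𝓛.X_star, h1]) (U 𝓛.Ω)
  refine Complex.ext ?_ (by rw [h2, ofReal_im])
  rw [h1, ofReal_re]
  rfl

end Label

end Crest.Agent.R339
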