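import Crest.Agent.R339.QLabReach

/-! # Row 339: strong continuity and weak limits in the label model -/

set_option autoImplicit false

namespace Crest.Agent.R339

open MeasureTheory ProbabilityTheory Complex Filter Topology
open scoped InnerProductSpace

variable {H : Type} [NormedAddCommGroup H] [InnerProductSpace ℂ H] [CompleteSpace H]

omit [InnerProductSpace ℂ H] [CompleteSpace H] in
/-- equi-Lipschitz families converge everywhere if they converge on a dense set -/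
theorem QLabWeak_dense {E ι : Type} [NormedAddCommGroup E] {D : Set H} (hD : Dense D)
    {F : Filter ι} {f : ι → H → E} {g : H → E} {c : ℝ} (hc : 0 ≤ c)
    (hf : ∀ i x y, ‖f i x - f i y‖ ≤ c * ‖x - y‖) (hg : Continuous g)
    (h : ∀ x ∈ D, Tendsto (fun i => f i x) F (𝓝 (g x))) (x : H) :
    Tendsto (fun i => f i x) F (𝓝 (g x)) := by
  rw [Metric.tendsto_nhds]
  intro ε hε
  obtain ⟨δ, hδ, h1⟩ := Metric.continuous_iff.1 hg x (ε / 3) (by positivity)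
  obtain ⟨y, hy, hxy⟩ := hD.exists_dist_lt x
    (show 0 < min δ (ε / (3 * (c + 1))) from lt_min hδ (by positivity))
  have h2 := h1 y (by rw [dist_comm]; exact hxy.trans_le (min_le_left _ _))
  have h3 : ‖x - y‖ * (3 * (c + 1)) < ε := by
    rw [← lt_div_iff₀ (by positivity), ← dist_eq_norm]
    exact hxy.trans_le (min_le_right _ _)
  filter_upwards [Metric.tendsto_nhds.1 (h y hy) (ε / 3) (by positivity)] with i hi
  have h4 := hf i x y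
  have h5 := dist_triangle4 (f i x) (f i y) (g y) (g x)
  rw [dist_eq_norm (f i x) (f i y)] at h5
  have h6 := norm_nonneg (x - y)
  nlinarith

omit [CompleteSpace H] in
/-- a filter on `S` along which the operators converge strongly -/
theorem QLabWeak_filter {S : Set (H →L[ℂ] H)} {U : H →L[ℂ] H} (h : Approx S U) :
    ∃ F : Filter S, F.NeBot ∧ ∀ ξ, Tendsto (fun i : S => i.1 ξ) F (𝓝 (U ξ)) := by
  refine ⟨comap (fun (V : S) (ξ : H) => V.1 ξ) (𝓝 fun ξ => U ξ), comap_neBot fun t ht => ?_,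
    fun ξ => tendsto_pi_nhds.1 tendsto_comap ξ⟩
  rw [nhds_pi, mem_pi'] at ht
  obtain ⟨J, s, hs, hsub⟩ := ht
  have h1 : ∀ᶠ ε in 𝓝[>] (0 : ℝ), ∀ ξ ∈ J, Metric.ball (U ξ) ε ⊆ s ξ := by
    rw [eventually_all_finset]
    intro ξ _
    obtain ⟨ε₀, h0, h1⟩ := Metric.mem_nhds_iff.1 (hs ξ)
    filter_upwards [Ioo_mem_nhdsGT h0] with ε hε
    exact (Metric.ball_subset_ball hε.2.le).trans h1
  obtain ⟨ε, h2, h3⟩ := (h1.and self_mem_nhdsWithin).exists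
  obtain ⟨V, hV, h4⟩ := h J ε h3
  refine ⟨⟨V, hV⟩, hsub fun ξ hξ => h2 ξ hξ ?_⟩
  rw [Metric.mem_ball, dist_comm, dist_eq_norm]
  exact h4 ξ hξ

section WLim

variable {A A' : ℝ → H →L[ℂ] H} {B B' : H →L[ℂ] H}

theorem wlim_const (B : H →L[ℂ] H) : WLim (fun _ => B) B := by
  exact fun _ _ => tendsto_const_nhds
theorem WLim.congr (h : WLim A B) (e : ∀ s, A s = A' s) : WLim A' B := by
  intro ξ ζ
  simpa only [← e] using h ξ ζ
theorem WLim.add (h : WLim A B) (h' : WLim A' B') : WLim (fun s => A s + A' s) (B + B') := by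
  intro ξ ζ
  simpa only [ContinuousLinearMap.add_apply, inner_add_right] using (h ξ ζ).add (h' ξ ζ)
theorem WLim.sub (h : WLim A B) (h' : WLim A' B') : WLim (fun s => A s - A' s) (B - B') := by
  intro ξ ζ
  simpa only [ContinuousLinearMap.sub_apply, inner_sub_right] using (h ξ ζ).sub (h' ξ ζ)
theorem WLim.mul_left (h : WLim A B) (T : H →L[ℂ] H) : WLim (fun s => T * A s) (T * B) := by
  intro ξ ζ
  simpa only [ContinuousLinearMap.mul_apply, ContinuousLinearMap.adjoint_inner_left] using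
    h (ContinuousLinearMap.adjoint T ξ) ζ
theorem WLim.mul_right (h : WLim A B) (T : H →L[ℂ] H) : WLim (fun s => A s * T) (B * T) := by
  intro ξ ζ
  simpa only [ContinuousLinearMap.mul_apply] using h ξ (T ζ)
theorem WLim.smul (h : WLim A B) {a : ℝ → ℂ} {a₀ : ℂ} (ha : Tendsto a atTop (𝓝 a₀)) :
    WLim (fun s => a s • A s) (a₀ • B) := by
  intro ξ ζ
  simpa only [ContinuousLinearMap.smul_apply, inner_smul_right] using ha.mul (h ξ ζ)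
theorem WLim.smul_bdd (h : WLim A 0) {a : ℝ → ℂ} {C : ℝ} (ha : ∀ s, ‖a s‖ ≤ C) :
    WLim (fun s => a s • A s) 0 := by
  intro ξ ζ
  have h1 := h ξ ζ
  simp only [ContinuousLinearMap.zero_apply, inner_zero_right, ContinuousLinearMap.smul_apply,
    inner_smul_right] at h1 ⊢
  refine squeeze_zero_norm (a := fun s => C * ‖⟪ξ, A s ζ⟫_ℂ‖) (fun s => ?_) ?_
  · rw [norm_mul]
    exact mul_le_mul_of_nonneg_right (ha s) (norm_nonneg _)
  · simpa using h1.norm.const_mul C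
/-- It suffices to test on a total set. -/
theorem WLim.of_total {D : Set H} (hD : Dense (Submodule.span ℂ D : Set H)) {C : ℝ}
    (hA : ∀ s, ‖A s‖ ≤ C)
    (h : ∀ ξ ∈ D, ∀ ζ ∈ D, Tendsto (fun s => ⟪ξ, A s ζ⟫_ℂ) atTop (𝓝 ⟪ξ, B ζ⟫_ℂ)) : WLim A B := by
  have h1 : ∀ ξ ∈ D, ∀ ζ ∈ Submodule.span ℂ D,
      Tendsto (fun s => ⟪ξ, A s ζ⟫_ℂ) atTop (𝓝 ⟪ξ, B ζ⟫_ℂ) := by
    intro ξ hξ ζ hζ
    induction hζ using Submodule.span_induction with
    | mem x hx => exact h ξ hξ x hx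
    | zero => simp
    | add x y _ _ hx hy => simpa only [map_add, inner_add_right] using hx.add hy
    | smul a x _ hx => simpa only [map_smul, inner_smul_right] using hx.const_mul a
  have h2 : ∀ ξ ∈ Submodule.span ℂ D, ∀ ζ ∈ Submodule.span ℂ D,
      Tendsto (fun s => ⟪ξ, A s ζ⟫_ℂ) atTop (𝓝 ⟪ξ, B ζ⟫_ℂ) := by
    intro ξ hξ ζ hζ
    induction hξ using Submodule.span_induction with
    | mem x hx => exact h1 x hx ζ hζ
    | zero => simp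
    | add x y _ _ hx hy => simpa only [inner_add_left] using hx.add hy
    | smul a x _ hx => simpa only [inner_smul_left] using hx.const_mul _
  have hC : 0 ≤ C := (norm_nonneg _).trans (hA 0)
  have h3 : ∀ ξ ∈ Submodule.span ℂ D, ∀ ζ : H,
      Tendsto (fun s => ⟪ξ, A s ζ⟫_ℂ) atTop (𝓝 ⟪ξ, B ζ⟫_ℂ) := by
    intro ξ hξ ζ
    refine QLabWeak_dense hD (f := fun s ζ => ⟪ξ, A s ζ⟫_ℂ) (g := fun ζ => ⟪ξ, B ζ⟫_ℂ)
      (c := ‖ξ‖ * C) (by positivity) (fun s x y => ?_) (by fun_prop) (h2 ξ hξ) ζ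
    rw [← inner_sub_right, ← map_sub, mul_assoc]
    refine (norm_inner_le_norm _ _).trans (mul_le_mul_of_nonneg_left ?_ (norm_nonneg _))
    exact ((A s).le_opNorm _).trans (mul_le_mul_of_nonneg_right (hA s) (norm_nonneg _))
  intro ξ ζ
  refine QLabWeak_dense hD (f := fun s ξ => ⟪ξ, A s ζ⟫_ℂ) (g := fun ξ => ⟪ξ, B ζ⟫_ℂ)
    (c := C * ‖ζ‖) (by positivity) (fun s x y => ?_) (by fun_prop) (fun x hx => h3 x hx ζ) ξ
  rw [← inner_sub_left, mul_comm]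
  refine (norm_inner_le_norm _ _).trans (mul_le_mul_of_nonneg_left ?_ (norm_nonneg _))
  exact ((A s).le_opNorm _).trans (mul_le_mul_of_nonneg_right (hA s) (norm_nonneg _))
theorem WLim.br (𝓜 : Weyl H) (h : WLim A B) (U : H →L[ℂ] H) :
    VLim (fun s => 𝓜.br U (A s)) (𝓜.br U B) := by
  intro ξ
  simpa only [Weyl.br, ContinuousLinearMap.star_eq_adjoint,
    ContinuousLinearMap.adjoint_inner_right] using h (U ξ) (U 𝓜.Ω)
theorem VLim.norm_le {u : ℝ → H} {w : H} (h : VLim u w) {C : ℝ} (hC : ∀ s, ‖u s‖ ≤ C) :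
    ‖w‖ ≤ C := by
  have hC0 : 0 ≤ C := (norm_nonneg _).trans (hC 0)
  have h1 : ‖⟪w, w⟫_ℂ‖ ≤ ‖w‖ * C := le_of_tendsto' (h w).norm fun s =>
    (norm_inner_le_norm _ _).trans (mul_le_mul_of_nonneg_left (hC s) (norm_nonneg _))
  rw [inner_self_eq_norm_sq_to_K, norm_pow, RCLike.norm_ofReal, abs_norm] at h1
  rcases (norm_nonneg w).eq_or_lt with h0 | h0
  · linarith
  · nlinarith

end WLim

namespace Weyl

variable {𝓜 : Weyl H} {A A' : ℝ → H →L[ℂ] H}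

theorem Osc.congr (h : 𝓜.Osc A) (e : ∀ s, A s = A' s) : 𝓜.Osc A' := by
  intro u hu
  exact (h u hu).congr fun s => by rw [e]
theorem Osc.add (h : 𝓜.Osc A) (h' : 𝓜.Osc A') : 𝓜.Osc fun s => A s + A' s := by
  intro u hu
  have := (h u hu).add (h' u hu)
  rw [add_zero] at this
  exact this.congr fun s => (add_mul _ _ _).symm
theorem Osc.sub (h : 𝓜.Osc A) (h' : 𝓜.Osc A') : 𝓜.Osc fun s => A s - A' s := by
  intro u hu
  have := (h u hu).sub (h' u hu)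
  rw [sub_zero] at this
  exact this.congr fun s => (sub_mul _ _ _).symm
theorem Osc.smul (h : 𝓜.Osc A) {a : ℝ → ℂ} {C : ℝ} (ha : ∀ s, ‖a s‖ ≤ C) :
    𝓜.Osc fun s => a s • A s := by
  intro u hu
  exact ((h u hu).smul_bdd ha).congr fun s => (smul_mul_assoc _ _ _).symm
theorem Osc.mul_left (h : 𝓜.Osc A) (T : H →L[ℂ] H) : 𝓜.Osc fun s => T * A s := by
  intro u hu
  have := (h u hu).mul_left T
  rw [mul_zero] at this
  exact this.congr fun s => (mul_assoc _ _ _).symm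
theorem Osc.mul_right (h : 𝓜.Osc A) {T : H →L[ℂ] H} (hT : 𝓜.CW T) : 𝓜.Osc fun s => A s * T := by
  intro u hu
  have := (h u hu).mul_right T
  rw [zero_mul] at this
  exact this.congr fun s => by rw [mul_assoc, mul_assoc, hT _ (hu.1 s)]
theorem Osc.mul_W (h : 𝓜.Osc A) {u : ℝ → H} (hu : 𝓜.Fam u) : 𝓜.Osc fun s => A s * 𝓜.W (u s) := by
  intro v hv
  obtain ⟨hu1, C, hu2⟩ := hu
  obtain ⟨hv1, C', hv2⟩ := hv
  have h1 := h (fun s => u s + v s) ⟨fun s => 𝓜.R.add_mem (hu1 s) (hv1 s), C + C', fun s =>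
    (norm_add_le _ _).trans (add_le_add (hu2 s) (hv2 s))⟩
  refine (h1.smul_bdd (a := fun s => exp (-(I * (⟪u s, v s⟫_ℂ).im))) (C := 1)
    fun s => (QReg_phase_norm _).le).congr fun s => ?_
  rw [mul_assoc, 𝓜.W_mul _ (hu1 s) _ (hv1 s), mul_smul_comm]
theorem Osc.mul_cosW (h : 𝓜.Osc A) {u : ℝ → H} (hu : 𝓜.Fam u) :
    𝓜.Osc fun s => A s * 𝓜.cosW (u s) := by
  have hu' : 𝓜.Fam fun s => -u s :=
    ⟨fun s => 𝓜.R.neg_mem (hu.1 s), by simpa only [norm_neg] using hu.2⟩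
  refine (((h.mul_W hu).add (h.mul_W hu')).smul (a := fun _ => (1 / 2 : ℂ))
    fun _ => le_rfl).congr fun s => ?_
  rw [cosW, mul_smul_comm, mul_add]
theorem Osc.mul_sinW (h : 𝓜.Osc A) {u : ℝ → H} (hu : 𝓜.Fam u) :
    𝓜.Osc fun s => A s * 𝓜.sinW (u s) := by
  have hu' : 𝓜.Fam fun s => -u s :=
    ⟨fun s => 𝓜.R.neg_mem (hu.1 s), by simpa only [norm_neg] using hu.2⟩
  refine (((h.mul_W hu).sub (h.mul_W hu')).smul (a := fun _ => (1 / (2 * I) : ℂ))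
    fun _ => le_rfl).congr fun s => ?_
  rw [sinW, mul_smul_comm, mul_sub]
theorem Osc.wlim (h : 𝓜.Osc A) : WLim A 0 := by
  refine (h (fun _ => 0) ⟨fun _ => 𝓜.R.zero_mem, 0, fun _ => by simp⟩).congr fun s => ?_
  rw [𝓜.W_zero, mul_one]

/-- Strong continuity from the density of the regular vectors. -/
theorem W_tendsto (hD : Dense {ψ | 𝓜.Regu ψ}) {ι : Type} {F : Filter ι} {u : ι → H} {w : H}
    (hu : ∀ i, u i ∈ 𝓜.R) (hw : w ∈ 𝓜.R) (hl : Tendsto u F (𝓝 w)) (ξ : H) :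
    Tendsto (fun i => 𝓜.W (u i) ξ) F (𝓝 (𝓜.W w ξ)) := by
  refine QLabWeak_dense hD (f := fun i ξ => 𝓜.W (u i) ξ) (g := fun ξ => 𝓜.W w ξ) (c := 1)
    zero_le_one (fun i x y => ?_) (by fun_prop) (fun x hx => ?_) ξ
  · rw [← map_sub, QReg_norm_W (hu i), one_mul]
  · obtain ⟨c, hc⟩ := hx
    rw [tendsto_iff_norm_sub_tendsto_zero]
    refine squeeze_zero (fun _ => norm_nonneg _) (fun i => hc.2.1.norm_W_sub_W (hu i) hw) ?_
    simpa using (tendsto_iff_norm_sub_tendsto_zero.1 hl).const_mul (c + ‖w‖ * ‖x‖)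
theorem WQ_tendsto (hD : Dense {ψ | 𝓜.Regu ψ}) (Q : H →L[ℂ] H) {ι : Type} {F : Filter ι}
    {u : ι → H} {w : H} (hu : ∀ i, u i ∈ 𝓜.R) (hw : w ∈ 𝓜.R) (hl : Tendsto u F (𝓝 w)) (ξ : H) :
    Tendsto (fun i => 𝓜.WQ Q (u i) ξ) F (𝓝 (𝓜.WQ Q w ξ)) := by
  have h1 := W_tendsto hD hu hw hl ξ
  have h2 := W_tendsto hD (fun i => 𝓜.R.neg_mem (hu i)) (𝓜.R.neg_mem hw) hl.neg ξ
  have h3 := ((h1.add h2).const_smul (1 / 2 : ℂ)).add
    (((Q.continuous.tendsto _).comp ((h1.sub h2).const_smul (1 / (2 * I) : ℂ))).const_smul I)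
  simpa only [WQ, cosW, sinW, ContinuousLinearMap.add_apply, ContinuousLinearMap.smul_apply,
    ContinuousLinearMap.mul_apply, ContinuousLinearMap.sub_apply, Function.comp] using h3
theorem br_tendsto {ι : Type} {F : Filter ι} {V : ι → H →L[ℂ] H} {U : H →L[ℂ] H}
    (hV : ∀ i, V i ∈ unitary (H →L[ℂ] H)) (hU : U ∈ unitary (H →L[ℂ] H))
    (hl : ∀ ξ, Tendsto (fun i => V i ξ) F (𝓝 (U ξ))) (O : H →L[ℂ] H) :
    Tendsto (fun i => 𝓜.br (V i) O) F (𝓝 (𝓜.br U O)) := by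
  rw [tendsto_iff_norm_sub_tendsto_zero]
  refine squeeze_zero (fun _ => norm_nonneg _) (fun i => 𝓜.norm_br_sub_le (hV i) hU O) ?_
  simpa using ((tendsto_iff_norm_sub_tendsto_zero.1 (hl 𝓜.Ω)).const_mul ‖O‖).add
    (tendsto_iff_norm_sub_tendsto_zero.1 (hl (𝓜.br U O)))
theorem C_tendsto (hD : Dense {ψ | 𝓜.Regu ψ}) {ι : Type} {F : Filter ι} {V : ι → H →L[ℂ] H}
    {U : H →L[ℂ] H} (hV : ∀ i, V i ∈ unitary (H →L[ℂ] H)) (hU : U ∈ unitary (H →L[ℂ] H))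
    (hV' : ∀ i, 𝓜.br (V i) 𝓜.Z ∈ 𝓜.R) (hU' : 𝓜.br U 𝓜.Z ∈ 𝓜.R)
    (hl : ∀ ξ, Tendsto (fun i => V i ξ) F (𝓝 (U ξ))) (γ : ℝ) (ξ : H) :
    Tendsto (fun i => 𝓜.C γ (V i) ξ) F (𝓝 (𝓜.C γ U ξ)) := by
  have h1 := ((br_tendsto (𝓜 := 𝓜) hV hU hl 𝓜.Z).const_smul γ).neg
  have hm : ∀ i, -(γ • 𝓜.br (V i) 𝓜.Z) ∈ 𝓜.R := fun i => 𝓜.R.neg_mem (𝓜.R.smul_mem γ (hV' i))
  have h2 := WQ_tendsto hD 𝓜.Z hm (𝓜.R.neg_mem (𝓜.R.smul_mem γ hU')) h1 (U ξ)
  have h3 : Tendsto (fun i => 𝓜.WQ 𝓜.Z (-(γ • 𝓜.br (V i) 𝓜.Z)) (V i ξ - U ξ)) F (𝓝 0) := by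
    rw [tendsto_zero_iff_norm_tendsto_zero]
    refine (tendsto_iff_norm_sub_tendsto_zero.1 (hl ξ)).congr fun i => ?_
    rw [QReg_norm_unit (WQ_unitary 𝓜.invol_Z (hm i))]
  have h4 := h2.add h3
  rw [add_zero] at h4
  refine h4.congr fun i => ?_
  rw [← map_add, add_sub_cancel]
  rfl
theorem approx_C (hD : Dense {ψ | 𝓜.Regu ψ}) {S S' : Set (H →L[ℂ] H)} {U : H →L[ℂ] H}
    (hS : ∀ V ∈ S, V ∈ unitary (H →L[ℂ] H) ∧ 𝓜.br V 𝓜.Z ∈ 𝓜.R) (hU : U ∈ unitary (H →L[ℂ] H))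
    (hU' : 𝓜.br U 𝓜.Z ∈ 𝓜.R) (h : Approx S U) (γ : ℝ) (hC : ∀ V ∈ S, 𝓜.C γ V ∈ S') :
    Approx S' (𝓜.C γ U) := by
  obtain ⟨F, hF, hl⟩ := QLabWeak_filter h
  have h1 := C_tendsto hD (F := F) (V := fun i : S => i.1) (fun i => (hS i.1 i.2).1) hU
    (fun i => (hS i.1 i.2).2) hU' hl γ
  exact Approx.of_tendsto (F := F) (V := fun i : S => 𝓜.C γ i.1)
    (Eventually.of_forall fun i => Approx.of_mem (hC i.1 i.2)) h1
theorem approx_energy {S : Set (H →L[ℂ] H)} {U : H →L[ℂ] H}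
    (hS : ∀ V ∈ S, V ∈ unitary (H →L[ℂ] H) ∧ 𝓜.br V 𝓜.Z ∈ 𝓜.R) (hU : U ∈ unitary (H →L[ℂ] H))
    (hU' : 𝓜.br U 𝓜.Z ∈ 𝓜.R) (h : Approx S U) {ε : ℝ} (hε : 0 < ε) :
    ∃ V ∈ S, 𝓜.energy (𝓜.br U 𝓜.Z) - ε ≤ 𝓜.energy (𝓜.br V 𝓜.Z) := by
  obtain ⟨F, hF, hl⟩ := QLabWeak_filter h
  have h1 := br_tendsto (𝓜 := 𝓜) (F := F) (V := fun i : S => i.1) (fun i => (hS i.1 i.2).1) hU hl
    𝓜.Z
  have h2 := (tendsto_iff_norm_sub_tendsto_zero.1 h1).eventually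
    (gt_mem_nhds (show (0 : ℝ) < ε / 2 by positivity))
  obtain ⟨V, hV⟩ := h2.exists
  refine ⟨V.1, V.2, ?_⟩
  have h3 := abs_energy_sub_le (hS V.1 V.2).2 hU'
  rw [𝓜.norm_br_invol (hS V.1 V.2).1 𝓜.invol_Z, 𝓜.norm_br_invol hU 𝓜.invol_Z] at h3
  have h4 := (abs_le.1 h3).1
  linarith

end Weyl

namespace Label

variable {K : ℕ} {A : AMP K} (𝓛 : Label A H)

theorem regu_dense : Dense {ψ | 𝓛.Regu ψ} := by
  refine 𝓛.total.mono fun ξ hξ => ?_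
  induction hξ using Submodule.span_induction with
  | mem x hx =>
    obtain ⟨ψ, g, hψ, hg, h⟩ := hx
    obtain ⟨c, hc⟩ := (Weyl.regu_Ω : 𝓛.Regu 𝓛.Ω)
    rcases h with rfl | rfl
    · exact ⟨_, (hc.W hg).cw (M_cw hψ)⟩
    · exact ⟨_, ((hc.W hg).cw 𝓛.invol_Z.cw).cw (M_cw hψ)⟩
  | zero =>
    obtain ⟨c, hc⟩ := (Weyl.regu_Ω : 𝓛.Regu 𝓛.Ω)
    have := hc.smul 0
    rw [zero_smul] at this
    exact ⟨_, this⟩
  | add x y _ _ hx hy =>
    obtain ⟨c, hc⟩ := hx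
    obtain ⟨c', hc'⟩ := hy
    exact ⟨_, hc.add hc'⟩
  | smul a x _ hx =>
    obtain ⟨c, hc⟩ := hx
    exact ⟨_, hc.smul a⟩

end Label

end Crest.Agent.R339
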