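import Crest.Agent.R339.QLoopStep
import Crest.Agent.R339.QLabND

/-! # Row 339: simulation of the field of a sign function -/

set_option autoImplicit false

namespace Crest.Agent.R339

open MeasureTheory ProbabilityTheory Complex Filter Topology
open scoped InnerProductSpace

variable {H : Type} [NormedAddCommGroup H] [InnerProductSpace ℂ H] [CompleteSpace H]

namespace Label

variable {K : ℕ} {A : AMP K} {𝓛 : Label A H} {l : ℕ} {f : (Fin (K + 1) → ℝ) → ℝ}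
  {N : Set (Fin (K + 1) → ℝ)} {V : H →L[ℂ] H}

theorem QLevel_unif (F : Finset H) (g : H → H) (h : ∀ ζ ∈ F, 𝓛.Regu (g ζ)) :
    ∃ c : ℝ, 1 ≤ c ∧ ∀ ζ ∈ F, 𝓛.P (g ζ) c := by
  classical
  induction F using Finset.induction_on with
  | empty => exact ⟨1, le_rfl, fun ζ hζ => absurd hζ (Finset.notMem_empty _)⟩
  | insert a F _ ih =>
    obtain ⟨c, hc, hF⟩ := ih fun ζ hζ => h ζ (Finset.mem_insert_of_mem hζ)
    obtain ⟨c', hc'⟩ := h a (Finset.mem_insert_self _ _)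
    refine ⟨max c c', le_max_of_le_left hc, fun ζ hζ => ?_⟩
    rcases Finset.mem_insert.1 hζ with rfl | hζ
    · exact hc'.mono (le_max_right _ _)
    · exact (hF ζ hζ).mono (le_max_left _ _)

theorem QLevel_im_smul (w : H) (a b : ℝ) : (⟪-(a • w), -(b • w)⟫_ℂ).im = 0 := by
  rw [inner_neg_neg, ← Complex.coe_smul, ← Complex.coe_smul, inner_smul_left, inner_smul_right,
    inner_self_eq_norm_sq_to_K]
  simp only [Complex.conj_ofReal, Complex.coe_algebraMap]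
  rw [← Complex.ofReal_pow, ← Complex.ofReal_mul, ← Complex.ofReal_mul, Complex.ofReal_im]

theorem QLevel_WZ_add {w : H} (hw : w ∈ 𝓛.R) (a b : ℝ) :
    𝓛.WZ (-(a • w)) * 𝓛.WZ (-(b • w)) = 𝓛.WZ (-((a + b) • w)) := by
  rw [𝓛.QBase_WZ_mul (𝓛.R.neg_mem (𝓛.R.smul_mem a hw)) (𝓛.R.neg_mem (𝓛.R.smul_mem b hw)),
    QLevel_im_smul, add_smul, neg_add]
  simp

/-- The back-reaction of one reference step. -/
theorem QLevel_back {U T : H →L[ℂ] H} (hy : 𝓛.Hyp l f N U) (hT : 𝓛.IsT l T) (h : ℝ) :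
    ∃ T', 𝓛.IsT l T' ∧ T' * 𝓛.Gref f N U h = 𝓛.WZ (-(h • 𝓛.Mf f N 𝓛.Ω)) * T := by
  have hg : 𝓛.RealL (h • 𝓛.gS N U) := hy.gS_real.smul h
  refine ⟨T * 𝓛.WQ (𝓛.Mr f) (h • 𝓛.gS N U), hT.mul (isT_WQ hy.sgn hg), ?_⟩
  have hQ := (linv_sgn (𝓛 := 𝓛) hy.sgn).inv
  have h1 : 𝓛.WQ (𝓛.Mr f) (h • 𝓛.gS N U) * 𝓛.WQ (𝓛.Mr f) (-(h • 𝓛.gS N U)) = 1 := by
    rw [← Weyl.WQ_star hQ hg.mem_R]
    exact (Unitary.mem_iff.1 (Weyl.WQ_unitary hQ hg.mem_R)).2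
  have h2 := hT.WZ_Mr (Mf_br hy.sgn hy.anc) (-h)
  rw [neg_smul] at h2
  calc T * 𝓛.WQ (𝓛.Mr f) (h • 𝓛.gS N U) * 𝓛.Gref f N U h
      = T * (𝓛.WQ (𝓛.Mr f) (h • 𝓛.gS N U) * 𝓛.WQ (𝓛.Mr f) (-(h • 𝓛.gS N U))) *
          𝓛.WZ (-(h • 𝓛.Mf f N 𝓛.Ω)) := by simp only [Gref, mul_assoc]
    _ = T * 𝓛.WZ (-(h • 𝓛.Mf f N 𝓛.Ω)) := by rw [h1, mul_one]
    _ = _ := h2.symm

theorem QLevel_bL_pos {τ : ℝ} (hτ : 0 < τ) : 0 < bL τ := by
  have := muL_pos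
  unfold bL
  positivity

theorem QLevel_ind (hy : 𝓛.Hyp l f N V) {F : Finset H} (hΩ : 𝓛.Ω ∈ F)
    {c₀ c p₀ p₁ τ h e η x : ℝ} {n : ℕ} (hF : ∀ ζ ∈ F, 𝓛.P (V ζ) c₀) (hc : 1 ≤ c)
    (hc₀ : (1 + 2 * |h|) ^ (4 * n) * c₀ ≤ c) (hp₀ : 𝓛.P1 (V 𝓛.Ω) p₀)
    (hp₁ : (p₀ + 1) * (1 + 10000 * e) ^ n ≤ 1 + p₁) (hτ : 0 < τ) (hτ' : τ ≤ 1) (hη : 0 < η)
    (he₀ : 0 ≤ e) (he : e ≤ 1) (hx₀ : 0 ≤ x) (hsin : 0 < Real.sin (bL τ * x))
    (hh : |h| ≤ e * (Real.exp (-2) * Real.sin (bL τ * x) * bL τ))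
    (hx : x + n * (100000 * (1 + p₁) ^ 4 * e ^ 2 + η) ≤ 𝓛.xA N V) (k : ℕ) (hk : k ≤ n) :
    ∃ (U V' T : H →L[ℂ] H) (p : ℝ), 𝓛.PR l U ∧ V' ∈ unitary (H →L[ℂ] H) ∧ 𝓛.IsT l T ∧
      T * V' = 𝓛.WZ (-((k * h) • 𝓛.Mf f N 𝓛.Ω)) * V ∧
      (∀ ζ ∈ F, 𝓛.P (V' ζ) ((1 + 2 * |h|) ^ (4 * k) * c₀)) ∧ 𝓛.P1 (U 𝓛.Ω) p ∧
      p + 1 ≤ (p₀ + 1) * (1 + 10000 * e) ^ k ∧
      𝓛.xA N V - k * (100000 * (1 + p₁) ^ 4 * e ^ 2 + η) ≤ 𝓛.xA N U ∧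
      ∀ ζ ∈ F, ‖𝓛.Ind Nᶜ (U ζ - V' ζ)‖ ^ 2 ≤ (1 + 10 ^ 4 * c ^ 3 * |h|) ^ k * (k *
        (10 ^ 4 * c ^ 3 * |h| * bL τ ^ 2 + 10 ^ 12 * (1 + p₁) ^ 2 * c ^ 2 * e ^ 2 + η)) := by
  have hw : 𝓛.Mf f N 𝓛.Ω ∈ 𝓛.R := (realL_Mr (Mf_br hy.sgn hy.anc)).mem_R
  have hb := QLevel_bL_pos hτ
  induction k with
  | zero =>
    refine ⟨V, V, 1, p₀, hy.reach, hy.reach.unitary, isT_one, ?_, ?_, hp₀, ?_, ?_, ?_⟩
    · simp [𝓛.QBase_WZ_zero]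
    · simpa using hF
    · simp
    · simp
    · simp
  | succ k ih =>
    obtain ⟨U, V', T, p, hU, hV', hT, hTV, hP, hp, hpk, hxk, hE⟩ := ih (by omega)
    have hyU : 𝓛.Hyp l f N U := ⟨hy.sgn, hy.anc, hU⟩
    have hp0 : 0 ≤ p := P1.nonneg hp
    have hp00 : 0 ≤ p₀ := P1.nonneg hp₀
    have hc00 : 0 ≤ c₀ := (hF _ hΩ).nonneg
    have habs := abs_nonneg h
    set δ := 100000 * (1 + p₁) ^ 4 * e ^ 2 + η with hδ
    set β := 10 ^ 4 * c ^ 3 * |h| * bL τ ^ 2 + 10 ^ 12 * (1 + p₁) ^ 2 * c ^ 2 * e ^ 2 + η with hβ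
    set a := 1 + 10 ^ 4 * c ^ 3 * |h| with ha
    have hδ0 : 0 ≤ δ := by positivity
    have hβ0 : 0 ≤ β := by positivity
    have ha1 : 1 ≤ a := by
      have : 0 ≤ 10 ^ 4 * c ^ 3 * |h| := by positivity
      linarith
    have hkn : (k : ℝ) ≤ n := by exact_mod_cast (by omega : k ≤ n)
    have hpp : 1 + p ≤ 1 + p₁ := by
      have h1 : (1 + 10000 * e) ^ k ≤ (1 + 10000 * e) ^ n :=
        pow_le_pow_right₀ (by linarith) (by omega)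
      have h2 := mul_le_mul_of_nonneg_left h1 (by linarith : 0 ≤ p₀ + 1)
      linarith
    have hxU : x ≤ 𝓛.xA N U := by
      have := mul_le_mul_of_nonneg_right hkn hδ0
      linarith
    have hkap := hyU.le_kap τ hτ hτ' hx₀ hxU
    set k₀ := Real.exp (-2) * Real.sin (bL τ * x) with hk₀
    have hk₀0 : 0 < k₀ := mul_pos (Real.exp_pos _) hsin
    have hkp : 0 < 𝓛.kap N U τ := hk₀0.trans_le hkap
    set ε := h / (𝓛.kap N U τ * bL τ) with hε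
    have hεe : |ε| ≤ e := by
      rw [hε, abs_div, abs_of_pos (mul_pos hkp hb), div_le_iff₀ (mul_pos hkp hb)]
      exact hh.trans (mul_le_mul_of_nonneg_left (mul_le_mul_of_nonneg_right hkap hb.le) he₀)
    have hε2 : ε ^ 2 ≤ e ^ 2 := by
      rw [← sq_abs ε]
      exact pow_le_pow_left₀ (abs_nonneg _) hεe 2
    have hhε : h = ε * 𝓛.kap N U τ * bL τ := by
      rw [hε]
      field_simp
    have hPc : ∀ ζ ∈ F, 𝓛.P (V' ζ) c := fun ζ hζ => (hP ζ hζ).mono <| by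
      refine le_trans (mul_le_mul_of_nonneg_right ?_ hc00) hc₀
      exact pow_le_pow_right₀ (by linarith) (by omega)
    have hE0 : 0 ≤ a ^ k * (k * β) := by positivity
    obtain ⟨U', hU', hp', hx', hE'⟩ := hyU.step (E := √(a ^ k * (k * β)))
      (by rw [abs_of_pos hτ]; exact hτ') (hεe.trans he) hη hhε hp hc hV' hΩ hPc
      (fun ζ hζ => Real.le_sqrt_of_sq_le (hE ζ hζ))
    obtain ⟨T', hT', hTG⟩ := QLevel_back hyU hT h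
    refine ⟨U', 𝓛.Gref f N U h * V', T', _, hU', mul_mem (hyU.Gref_unitary h) hV', hT', ?_, ?_,
      hp', ?_, ?_, ?_⟩
    · rw [← mul_assoc, hTG, mul_assoc, hTV, ← mul_assoc, QLevel_WZ_add hw]
      congr 4
      push_cast
      ring
    · intro ζ hζ
      have := hyU.P_Gref h (hP ζ hζ)
      rw [← mul_assoc, ← pow_add, show 4 + 4 * k = 4 * (k + 1) by ring] at this
      exact this
    · have h1 : p + 10000 * |ε| * (1 + p) + 1 ≤ (p + 1) * (1 + 10000 * e) := by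
        have := mul_le_mul_of_nonneg_right hεe (by linarith : 0 ≤ 1 + p)
        nlinarith
      rw [pow_succ, ← mul_assoc]
      exact h1.trans (mul_le_mul_of_nonneg_right hpk (by linarith))
    · have h1 : (1 + p) ^ 4 * ε ^ 2 ≤ (1 + p₁) ^ 4 * e ^ 2 :=
        mul_le_mul (pow_le_pow_left₀ (by linarith) hpp 4) hε2 (sq_nonneg _) (by positivity)
      have h2 := (abs_le.1 hx').1
      push_cast
      linarith
    · intro ζ hζ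
      refine (hE' ζ hζ).trans ?_
      rw [Real.sq_sqrt hE0]
      have h1 : (1 + p) ^ 2 * c ^ 2 * ε ^ 2 ≤ (1 + p₁) ^ 2 * c ^ 2 * e ^ 2 :=
        mul_le_mul (mul_le_mul_of_nonneg_right (pow_le_pow_left₀ (by linarith) hpp 2)
          (sq_nonneg _)) hε2 (sq_nonneg _) (by positivity)
      have h2 : β ≤ a ^ (k + 1) * β := le_mul_of_one_le_left hβ0 (one_le_pow₀ ha1)
      have h3 : a ^ (k + 1) * (((k + 1 : ℕ) : ℝ) * β) = a * (a ^ k * (k * β)) + a ^ (k + 1) * β := by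
        push_cast
        ring
      rw [h3]
      linarith

theorem QLevel_pow_le {a : ℝ} (ha : 0 ≤ a) (n : ℕ) : (1 + a) ^ n ≤ Real.exp (n * a) := by
  rw [Real.exp_nat_mul]
  exact pow_le_pow_left₀ (by linarith) (by linarith [Real.add_one_le_exp a]) n

theorem Hyp.iterate (hy : 𝓛.Hyp l f N V) (hx : 0 < 𝓛.xA N V) (F : Finset H)
    (hF : ∀ ζ ∈ F, 𝓛.Regu ζ) (t : ℝ) {η : ℝ} (hη : 0 < η) :
    ∃ U T, 𝓛.PR l U ∧ 𝓛.IsT l T ∧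
      ∀ ζ ∈ F, ‖𝓛.Ind Nᶜ (T (U ζ) - 𝓛.WZ (-(t • 𝓛.Mf f N 𝓛.Ω)) (V ζ))‖ ≤ η := by
  classical
  obtain ⟨c₀, hc₀, hP⟩ := QLevel_unif (𝓛 := 𝓛) (insert 𝓛.Ω F) V fun ζ hζ => by
    rcases Finset.mem_insert.1 hζ with rfl | hζ
    · exact hy.reach.regu Weyl.regu_Ω
    · exact hy.reach.regu (hF ζ hζ)
  have ht := abs_nonneg t
  set c := c₀ * Real.exp (8 * |t|) with hc
  have hc1 : 1 ≤ c := one_le_mul_of_one_le_of_one_le hc₀ (Real.one_le_exp (by positivity))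
  set C := 10 ^ 4 * c ^ 3 with hC
  have hC0 : 0 ≤ C := by positivity
  set D := Real.exp (C * |t|) with hD
  have hD0 : 0 < D := Real.exp_pos _
  -- the choice of `τ`
  obtain ⟨τ, hτ, hτ', hτb⟩ : ∃ τ : ℝ, 0 < τ ∧ τ ≤ 1 ∧ D * (C * |t| * bL τ ^ 2) ≤ η ^ 2 / 2 := by
    have hm : 0 < 4 * (D * (C * |t|)) + 1 := by positivity
    refine ⟨min 1 (η ^ 2 / (4 * (D * (C * |t|)) + 1)), lt_min one_pos (by positivity),
      min_le_left _ _, ?_⟩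
    set τ := min 1 (η ^ 2 / (4 * (D * (C * |t|)) + 1)) with hτ
    have h0 : 0 < τ := lt_min one_pos (by positivity)
    have h1 : τ ≤ 1 := min_le_left _ _
    have h2 : τ * (4 * (D * (C * |t|)) + 1) ≤ η ^ 2 := (le_div_iff₀ hm).1 (min_le_right _ _)
    have h3 : bL τ ^ 2 ≤ 2 * τ := by
      have h4 := muL_pos
      have h5 := muL_le
      have h6 : muL ^ 2 ≤ 1 / 2 := by nlinarith
      have h7 : τ ^ 2 ≤ τ := by nlinarith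
      calc bL τ ^ 2 = 4 * (τ ^ 2 * muL ^ 2) := by unfold bL; ring
        _ ≤ 4 * (τ * (1 / 2)) := by gcongr
        _ = 2 * τ := by ring
    have h4 : 0 ≤ D * (C * |t|) := by positivity
    calc D * (C * |t| * bL τ ^ 2) = D * (C * |t|) * bL τ ^ 2 := by ring
      _ ≤ D * (C * |t|) * (2 * τ) := mul_le_mul_of_nonneg_left h3 h4
      _ ≤ η ^ 2 / 2 := by nlinarith
  have hb := QLevel_bL_pos hτ
  set x := 𝓛.xA N V / 2 with hxd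
  have hx0 : 0 < x := by positivity
  have hsin : 0 < Real.sin (bL τ * x) := by
    apply Real.sin_pos_of_pos_of_lt_pi (by positivity)
    have h1 := (abs_le.1 (abs_xA_le (𝓛 := 𝓛) hy.anc.meas hy.reach.unitary)).2
    have h2 : bL τ ≤ 2 := by
      have h4 := muL_pos
      have h5 := muL_le
      unfold bL
      nlinarith
    have h3 : bL τ * x ≤ 2 * 1 := mul_le_mul h2 (by linarith) hx0.le (by norm_num)
    linarith [Real.pi_gt_three]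
  set k₀ := Real.exp (-2) * Real.sin (bL τ * x) * bL τ with hk₀
  have hk₀0 : 0 < k₀ := by positivity
  set a := |t| / k₀ with ha
  have ha0 : 0 ≤ a := by positivity
  have hp₀ : 𝓛.P1 (V 𝓛.Ω) c₀ := (hP _ (Finset.mem_insert_self _ _)).2.1
  set p₁ := (c₀ + 1) * Real.exp (10000 * a) - 1 with hp₁
  set A₁ := 100000 * (1 + p₁) ^ 4 * a ^ 2 + 1 with hA₁
  set A₂ := D * (10 ^ 12 * (1 + p₁) ^ 2 * c ^ 2 * a ^ 2 + 1) with hA₂
  obtain ⟨n, hn⟩ := exists_nat_ge (max (max 1 a) (max (A₁ / x) (A₂ / (η ^ 2 / 2))))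
  have hn1 : (1 : ℝ) ≤ n := ((le_max_left _ _).trans (le_max_left _ _)).trans hn
  have hna : a ≤ n := ((le_max_right _ _).trans (le_max_left _ _)).trans hn
  have hnA₁ : A₁ / x ≤ n := ((le_max_left _ _).trans (le_max_right _ _)).trans hn
  have hnA₂ : A₂ / (η ^ 2 / 2) ≤ n := ((le_max_right _ _).trans (le_max_right _ _)).trans hn
  have hn0 : (0 : ℝ) < n := by linarith
  have habs : |t / n| = |t| / n := by rw [abs_div, abs_of_pos hn0]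
  obtain ⟨U, V', T, p, hU, -, hT, hTV, -, -, -, -, hE⟩ := QLevel_ind hy (Finset.mem_insert_self _ F)
    (c := c) (p₁ := p₁) (τ := τ) (h := t / n) (e := a / n) (η := 1 / n ^ 2) (x := x) (n := n)
    hP hc1 (by
      rw [hc, mul_comm c₀]
      refine mul_le_mul_of_nonneg_right ?_ (by linarith)
      refine (QLevel_pow_le (by positivity) _).trans (le_of_eq ?_)
      rw [habs]
      congr 1
      push_cast
      field_simp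
      ring) hp₀ (by
      rw [hp₁, add_sub_cancel]
      refine mul_le_mul_of_nonneg_left ?_ (by linarith)
      refine (QLevel_pow_le (by positivity) _).trans (le_of_eq ?_)
      congr 1
      field_simp) hτ hτ' (by positivity) (by positivity) ((div_le_one hn0).2 hna) hx0.le hsin (by
      rw [habs, ← hk₀, ha]
      apply le_of_eq
      field_simp) (by
      have h1 : (n : ℝ) * (100000 * (1 + p₁) ^ 4 * (a / n) ^ 2 + 1 / n ^ 2) = A₁ / n := by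
        rw [hA₁]
        field_simp
      have h2 : A₁ / n ≤ x := by
        rw [div_le_iff₀ hn0, mul_comm]
        exact (div_le_iff₀ hx0).1 hnA₁
      rw [h1]
      linarith) n le_rfl
  refine ⟨U, T, hU, hT, fun ζ hζ => ?_⟩
  have e1 : (n : ℝ) * (t / n) = t := by field_simp
  rw [e1] at hTV
  have e2 : 𝓛.WZ (-(t • 𝓛.Mf f N 𝓛.Ω)) (V ζ) = T (V' ζ) := by
    rw [← ContinuousLinearMap.mul_apply, ← hTV, ContinuousLinearMap.mul_apply]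
  rw [e2, ← map_sub, norm_Ind_unitary hy.anc.meas.compl hT.unit hT.cM]
  refine (pow_le_pow_iff_left₀ (norm_nonneg _) hη.le two_ne_zero).1 ?_
  refine (hE ζ (Finset.mem_insert_of_mem hζ)).trans ?_
  rw [habs, ← hC]
  have h1 : (1 + C * (|t| / n)) ^ n ≤ D := by
    refine (QLevel_pow_le (by positivity) _).trans (le_of_eq ?_)
    rw [hD]
    congr 1
    field_simp
  have h2 : D * ((n : ℝ) * (C * (|t| / n) * bL τ ^ 2 +
      10 ^ 12 * (1 + p₁) ^ 2 * c ^ 2 * (a / n) ^ 2 + 1 / n ^ 2)) =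
      D * (C * |t| * bL τ ^ 2) + A₂ / n := by
    rw [hA₂]
    field_simp
    ring
  have h3 : A₂ / n ≤ η ^ 2 / 2 := by
    rw [div_le_iff₀ hn0, mul_comm]
    exact (div_le_iff₀ (by positivity)).1 hnA₂
  refine (mul_le_mul_of_nonneg_right h1 (by positivity)).trans ?_
  rw [h2]
  linarith

theorem level_step (hV : 𝓛.LReach l V) (hf : Sgn l f) (t : ℝ) :
    Approx (𝓛.TL l) (𝓛.WZ (-(t • 𝓛.Mr f 𝓛.Ω)) * V) := by
  classical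
  have hw : 𝓛.Mr f 𝓛.Ω ∈ 𝓛.R := (realL_Mr hf.br).mem_R
  have hg : -(t • 𝓛.Mr f 𝓛.Ω) ∈ 𝓛.R := 𝓛.R.neg_mem (𝓛.R.smul_mem t hw)
  have hWu : 𝓛.WZ (-(t • 𝓛.Mr f 𝓛.Ω)) * V ∈ unitary (H →L[ℂ] H) :=
    mul_mem (Weyl.WQ_unitary 𝓛.invol_Z hg) hV.unitary
  have hWc : 𝓛.CM (𝓛.WZ (-(t • 𝓛.Mr f 𝓛.Ω)) * V) := (cm_WQ cm_Z hg).mul hV.cm
  refine Approx.of_dense 𝓛.regu_dense (fun W hW => norm_le_one_of_unitary (TL_unitary hW))
    (norm_le_one_of_unitary hWu) fun F ε hF hε => ?_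
  obtain ⟨c, hc, hP⟩ := QLevel_unif (𝓛 := 𝓛) F V fun ζ hζ => hV.pr.regu (hF ζ hζ)
  have ht := abs_nonneg t
  set B := 2 * (c + |t| * c) * |t| with hB
  have hB0 : 0 ≤ B := by positivity
  set δ := ε / (5 + B) with hδ
  have hδ0 : 0 < δ := by positivity
  obtain ⟨V', N, hV', hN, hx, hA⟩ := hV.exists_anc (insert 𝓛.Ω F) hδ0
  have hy : 𝓛.Hyp l f N V' := ⟨hf, hN, hV'.pr⟩
  obtain ⟨U, T, hU, hT, hE⟩ := hy.iterate hx F hF t hδ0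
  refine ⟨T * U, mem_TL hT hU, fun ζ hζ => ?_⟩
  have hTU : T * U ∈ unitary (H →L[ℂ] H) := mul_mem hT.unit hU.unitary
  have hTUc : 𝓛.CM (T * U) := hT.cM.mul hU.cm
  obtain ⟨hA1, hA2⟩ := hA ζ (Finset.mem_insert_of_mem hζ)
  have hA3 := (hA _ (Finset.mem_insert_self _ _)).2
  have hw' : 𝓛.Mf f N 𝓛.Ω ∈ 𝓛.R := (realL_Mr (Mf_br hf hN)).mem_R
  have hg' : -(t • 𝓛.Mf f N 𝓛.Ω) ∈ 𝓛.R := 𝓛.R.neg_mem (𝓛.R.smul_mem t hw')
  have hsplit : ∀ y : H, y = 𝓛.Ind N y + 𝓛.Ind Nᶜ y := fun y => by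
    rw [← ContinuousLinearMap.add_apply, Ind_add_compl hN.meas, ContinuousLinearMap.one_apply]
  have hdiff : ‖𝓛.Mr f 𝓛.Ω - 𝓛.Mf f N 𝓛.Ω‖ ≤ δ := by
    have h1 : 𝓛.Mr f 𝓛.Ω - 𝓛.Mf f N 𝓛.Ω = 𝓛.Ind N (𝓛.Mr f 𝓛.Ω) := by
      rw [Mf_eq hf hN, ContinuousLinearMap.mul_apply, sub_eq_iff_eq_add]
      exact hsplit _
    rw [h1, norm_Ind_unitary hN.meas (linv_sgn hf).inv.mem_unitary (linv_sgn hf).cm]
    exact hA3.le
  have hn' : ‖-(t • 𝓛.Mf f N 𝓛.Ω)‖ ≤ |t| := by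
    rw [norm_neg, norm_smul, Real.norm_eq_abs]
    refine mul_le_of_le_one_right ht ?_
    have := Weyl.QReg_le_of (norm_Mf_le (𝓛 := 𝓛) hf hN) 𝓛.Ω
    rwa [𝓛.Ω_norm] at this
  have hd' : ‖-(t • 𝓛.Mr f 𝓛.Ω) - -(t • 𝓛.Mf f N 𝓛.Ω)‖ ≤ |t| * δ := by
    rw [neg_sub_neg, ← smul_sub, norm_smul, Real.norm_eq_abs, norm_sub_rev]
    exact mul_le_mul_of_nonneg_left hdiff ht
  have h1 : ‖𝓛.WZ (-(t • 𝓛.Mr f 𝓛.Ω)) (V ζ) - 𝓛.WZ (-(t • 𝓛.Mf f N 𝓛.Ω)) (V ζ)‖ ≤ B * δ := by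
    refine (Weyl.P1.norm_WQ_sub_WQ 𝓛.invol_Z hg hg' (hP ζ hζ).2.1).trans ?_
    have h2 : ‖-(t • 𝓛.Mf f N 𝓛.Ω)‖ * ‖V ζ‖ ≤ |t| * c :=
      mul_le_mul hn' (hP ζ hζ).1 (norm_nonneg _) ht
    calc _ ≤ 2 * (c + |t| * c) * (|t| * δ) :=
          mul_le_mul (by linarith) hd' (norm_nonneg _) (by positivity)
      _ = B * δ := by rw [hB]; ring
  have h2 : ‖𝓛.WZ (-(t • 𝓛.Mf f N 𝓛.Ω)) (V ζ) - 𝓛.WZ (-(t • 𝓛.Mf f N 𝓛.Ω)) (V' ζ)‖ ≤ δ := by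
    rw [← map_sub, Weyl.QReg_norm_unit (Weyl.WQ_unitary 𝓛.invol_Z hg')]
    exact hA1.le
  have h3 := hE ζ hζ
  set y := (𝓛.WZ (-(t • 𝓛.Mr f 𝓛.Ω)) * V) ζ - (T * U) ζ with hyd
  have h4 : ‖𝓛.Ind N y‖ ≤ δ + δ := by
    rw [hyd, map_sub]
    refine (norm_sub_le _ _).trans ?_
    rw [norm_Ind_unitary hN.meas hWu hWc, norm_Ind_unitary hN.meas hTU hTUc]
    linarith
  have h5 : ‖𝓛.Ind Nᶜ y‖ ≤ B * δ + δ + δ := by
    have e : y = (𝓛.WZ (-(t • 𝓛.Mr f 𝓛.Ω)) (V ζ) - 𝓛.WZ (-(t • 𝓛.Mf f N 𝓛.Ω)) (V ζ)) +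
        (𝓛.WZ (-(t • 𝓛.Mf f N 𝓛.Ω)) (V ζ) - 𝓛.WZ (-(t • 𝓛.Mf f N 𝓛.Ω)) (V' ζ)) -
        (T (U ζ) - 𝓛.WZ (-(t • 𝓛.Mf f N 𝓛.Ω)) (V' ζ)) := by
      rw [hyd, ContinuousLinearMap.mul_apply, ContinuousLinearMap.mul_apply]
      abel
    rw [e, map_sub]
    refine (norm_sub_le _ _).trans (add_le_add ?_ h3)
    refine (Weyl.QReg_le_of (norm_Ind_le hN.meas.compl) _).trans ?_
    exact (norm_add_le _ _).trans (add_le_add h1 h2)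
  have h6 : ‖y‖ ≤ ‖𝓛.Ind N y‖ + ‖𝓛.Ind Nᶜ y‖ := by
    conv_lhs => rw [hsplit y]
    exact norm_add_le _ _
  have h7 : δ * (5 + B) = ε := by
    rw [hδ]
    field_simp
  nlinarith

end Label

end Crest.Agent.R339
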