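import Crest.Agent.R339.QNDefs

/-! # Row 339, limit of the alternating ansatz: state vectors as path sums -/

set_option autoImplicit false

namespace Crest.Agent.R339.QN

open MeasureTheory ProbabilityTheory Complex Filter Topology
open Crest.MathPhysics.SpinGlass

/-- The columns of the one-qubit mixer are orthonormal. -/
theorem sum_mx_mul_conj (β : ℝ) (x y : Bool) :
    ∑ z : Bool, mx β z x * (starRingEnd ℂ) (mx β z y) = if x = y then 1 else 0 := by
  have h : ((Real.cos β : ℝ) : ℂ) ^ 2 + ((Real.sin β : ℝ) : ℂ) ^ 2 = 1 := by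
    exact_mod_cast Real.cos_sq_add_sin_sq β
  have hI : I * I = -1 := I_mul_I
  obtain ⟨c, hc⟩ : ∃ c, c = Real.cos β := ⟨_, rfl⟩
  obtain ⟨s, hs⟩ : ∃ s, s = Real.sin β := ⟨_, rfl⟩
  unfold mx
  rw [← hc, ← hs] at h ⊢
  cases x <;> cases y <;>
    simp only [Fintype.sum_bool, if_true, Bool.true_eq_false, Bool.false_eq_true, if_false,
      map_neg, map_mul, conj_ofReal, conj_I]
  · linear_combination h - (s : ℂ) ^ 2 * hI
  · ring
  · ring
  · linear_combination h - (s : ℂ) ^ 2 * hI

theorem QNVec_mixer_eq (n : ℕ) (β : ℝ) (ψ : (Fin n → Bool) → ℂ) (σ : Fin n → Bool) :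
    mixerRotation n β ψ σ = ∑ τ, (∏ j, mx β (σ j) (τ j)) * ψ τ := rfl

theorem QNVec_col_orth (n : ℕ) (β : ℝ) (τ τ' : Fin n → Bool) :
    ∑ σ : Fin n → Bool, (∏ j, mx β (σ j) (τ j)) * (starRingEnd ℂ) (∏ j, mx β (σ j) (τ' j)) =
      if τ = τ' then 1 else 0 := by
  have h1 : ∀ σ : Fin n → Bool,
      (∏ j, mx β (σ j) (τ j)) * (starRingEnd ℂ) (∏ j, mx β (σ j) (τ' j)) =
        ∏ j, (mx β (σ j) (τ j) * (starRingEnd ℂ) (mx β (σ j) (τ' j))) := by
    intro σ
    rw [map_prod, Finset.prod_mul_distrib]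
  simp only [h1]
  rw [← Fintype.prod_sum fun j z => mx β z (τ j) * (starRingEnd ℂ) (mx β z (τ' j))]
  simp only [sum_mx_mul_conj]
  rw [Finset.prod_ite_zero]
  simp [funext_iff]

/-- The mixer is an isometry: `∑ σ, M σ τ * conj (M σ τ') = ∏ j, ∑ z, … = δ τ τ'`
(`Finset.prod_univ_sum` or `Fintype.prod_sum`). -/
theorem sum_normSq_mixer (n : ℕ) (β : ℝ) (ψ : (Fin n → Bool) → ℂ) :
    ∑ σ, ‖mixerRotation n β ψ σ‖ ^ 2 = ∑ σ, ‖ψ σ‖ ^ 2 := by
  have key : ∑ σ, mixerRotation n β ψ σ * (starRingEnd ℂ) (mixerRotation n β ψ σ) =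
      ∑ σ, ψ σ * (starRingEnd ℂ) (ψ σ) := by
    have h1 : ∀ σ, mixerRotation n β ψ σ * (starRingEnd ℂ) (mixerRotation n β ψ σ) =
        ∑ τ, ∑ τ', ψ τ * (starRingEnd ℂ) (ψ τ') *
          ((∏ j, mx β (σ j) (τ j)) * (starRingEnd ℂ) (∏ j, mx β (σ j) (τ' j))) := by
      intro σ
      rw [QNVec_mixer_eq, map_sum, Finset.sum_mul_sum]
      refine Finset.sum_congr rfl fun τ _ => Finset.sum_congr rfl fun τ' _ => ?_
      rw [map_mul]
      ring
    simp only [h1]
    rw [Finset.sum_comm]
    refine Finset.sum_congr rfl fun τ _ => ?_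
    rw [Finset.sum_comm]
    simp only [← Finset.mul_sum, QNVec_col_orth]
    simp
  simp only [mul_conj'] at key
  exact_mod_cast key

/-- Contractions applied to a unit vector. -/
theorem sum_normSq_vec_le {n : ℕ} (β : ℕ → ℝ) (f : ℕ → (Fin n → Bool) → ℂ)
    (hf : ∀ s σ, ‖f s σ‖ ≤ 1) (k : ℕ) : ∑ σ, ‖vec β f k σ‖ ^ 2 ≤ 1 := by
  have hle : ∀ (s : ℕ) (ψ : (Fin n → Bool) → ℂ),
      ∑ σ, ‖f s σ * ψ σ‖ ^ 2 ≤ ∑ σ, ‖ψ σ‖ ^ 2 := by
    intro s ψ
    refine Finset.sum_le_sum fun σ _ => ?_
    rw [norm_mul]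
    exact pow_le_pow_left₀ (by positivity) (mul_le_of_le_one_left (norm_nonneg _) (hf s σ)) 2
  induction k with
  | zero =>
    refine (hle 0 (plusState n)).trans (le_of_eq ?_)
    have h2 : ‖(((1 : ℝ) / Real.sqrt 2 : ℝ) : ℂ)‖ ^ 2 = 1 / 2 := by
      rw [Complex.norm_real, Real.norm_eq_abs, sq_abs, div_pow, Real.sq_sqrt (by norm_num)]
      norm_num
    simp only [plusState, norm_pow]
    rw [← pow_mul, mul_comm, pow_mul, h2, Finset.sum_const, Finset.card_univ]
    simp
  | succ k ih =>
    refine (hle (k + 1) (mixerRotation n (β k) (vec β f k))).trans ?_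
    rw [sum_normSq_mixer]
    exact ih

theorem QNVec_amp_succ (β : ℕ → ℝ) (k : ℕ) (u : Fin (k + 1 + 1) → Bool) :
    amp β (k + 1) u = amp β k (fun s => u s.castSucc) *
      mx (β k) (u (Fin.last (k + 1))) (u (Fin.last k).castSucc) := by
  unfold amp
  rw [Fin.prod_univ_castSucc, mul_assoc]
  rfl

theorem QNVec_vec_path {n : ℕ} (β : ℕ → ℝ) (f : ℕ → (Fin n → Bool) → ℂ) (k : ℕ)
    (x : Fin n → Bool) :
    vec β f k x = ∑ u : Fin (k + 1) → Fin n → Bool, if u (Fin.last k) = x then
      (∏ j, amp β k fun s => u s j) * ∏ s : Fin (k + 1), f s (u s) else 0 := by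
  induction k generalizing x with
  | zero =>
    rw [Finset.sum_eq_single (fun _ => x)]
    · simp [vec, amp, plusState, mul_comm]
    · intro u _ hu
      rw [if_neg]
      intro h
      apply hu
      funext s
      rw [← h]
      congr 1
      exact Subsingleton.elim (α := Fin 1) _ _
    · simp
  | succ k ih =>
    rw [← (Fin.snocEquiv fun _ : Fin (k + 1 + 1) => Fin n → Bool).sum_comp, Fintype.sum_prod_type,
      Finset.sum_eq_single x]
    · show f (k + 1) x * mixerRotation n (β k) (vec β f k) x = _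
      rw [QNVec_mixer_eq]
      simp only [ih, Finset.mul_sum]
      rw [Finset.sum_comm]
      refine Finset.sum_congr rfl fun w _ => ?_
      rw [Finset.sum_eq_single (w (Fin.last k))]
      · simp only [Fin.snocEquiv_apply, Fin.snoc_last, if_true, QNVec_amp_succ, Fin.snoc_castSucc,
          Finset.prod_mul_distrib]
        rw [Fin.prod_univ_castSucc (n := k + 1)]
        simp only [Fin.snoc_last, Fin.snoc_castSucc, Fin.val_castSucc, Fin.val_last]
        ring
      · intro τ _ hτ
        rw [if_neg (Ne.symm hτ)]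
        simp
      · simp
    · intro y _ hy
      refine Finset.sum_eq_zero fun w _ => ?_
      rw [if_neg]
      simpa using hy
    · simp

/-- pairs of `n`-site paths are families of one-site paths -/
def QNVec_equiv (n k : ℕ) : (Fin n → Pth k) ≃
    (Fin (k + 1) → Fin n → Bool) × (Fin (k + 1) → Fin n → Bool) where
  toFun σ := (fun s j => (σ j s).1, fun s j => (σ j s).2)
  invFun p := fun j s => (p.1 s j, p.2 s j)
  left_inv _ := rfl
  right_inv _ := rfl

/-- Path sum for the inner product.  First prove by induction on `k` (`Fin.snocEquiv`)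
`vec β f k x = ∑ u : Fin (k+1) → Fin n → Bool, if u (Fin.last k) = x then
(∏ j, amp β k fun s => u s j) * ∏ s, f s (u s) else 0`; then multiply the two sums and reindex the
pair `(u, v)` by `σ j s = (u s j, v s j)`. -/
theorem vec_inner_path {n : ℕ} (β : ℕ → ℝ) (f g : ℕ → (Fin n → Bool) → ℂ) (k : ℕ) :
    ∑ x, vec β f k x * (starRingEnd ℂ) (vec β g k x) =
      ∑ σ : Fin n → Pth k, (∏ j, Qw β k (σ j)) *
        ∏ s : Fin (k + 1), (f s (fun j => (σ j s).1) *
          (starRingEnd ℂ) (g s fun j => (σ j s).2)) := by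
  rw [← (QNVec_equiv n k).symm.sum_comp, Fintype.sum_prod_type]
  simp only [QNVec_vec_path, map_sum, Finset.sum_mul_sum]
  rw [Finset.sum_comm]
  refine Finset.sum_congr rfl fun u _ => ?_
  rw [Finset.sum_comm]
  refine Finset.sum_congr rfl fun v _ => ?_
  rw [Finset.sum_eq_single (u (Fin.last k))]
  · show _ = (∏ j, if u (Fin.last k) j = v (Fin.last k) j then
        amp β k (fun s => u s j) * (starRingEnd ℂ) (amp β k fun s => v s j) else 0) *
        ∏ s : Fin (k + 1), (f s (u s) * (starRingEnd ℂ) (g s (v s)))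
    rw [Finset.prod_ite_zero, if_pos rfl]
    by_cases h : v (Fin.last k) = u (Fin.last k)
    · rw [if_pos h, if_pos fun j _ => (congrFun h j).symm]
      simp only [map_mul, map_prod, Finset.prod_mul_distrib]
      ring
    · rw [if_neg h, if_neg fun h' => h (funext fun j => (h' j (Finset.mem_univ j)).symm)]
      simp
  · intro x _ hx
    rw [if_neg (Ne.symm hx)]
    simp
  · simp

/-- Cauchy-Schwarz. -/
theorem norm_path_le {n : ℕ} (β : ℕ → ℝ) (f g : ℕ → (Fin n → Bool) → ℂ)
    (hf : ∀ s σ, ‖f s σ‖ ≤ 1) (hg : ∀ s σ, ‖g s σ‖ ≤ 1) (k : ℕ) :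
    ‖∑ σ : Fin n → Pth k, (∏ j, Qw β k (σ j)) *
        ∏ s : Fin (k + 1), (f s (fun j => (σ j s).1) *
          (starRingEnd ℂ) (g s fun j => (σ j s).2))‖ ≤ 1 := by
  rw [← vec_inner_path]
  refine (norm_sum_le _ _).trans ?_
  have h1 := sum_normSq_vec_le β f hf k
  have h2 := sum_normSq_vec_le β g hg k
  have h3 : ∑ x, ‖vec β f k x * (starRingEnd ℂ) (vec β g k x)‖ ≤
      ∑ x, (‖vec β f k x‖ ^ 2 + ‖vec β g k x‖ ^ 2) / 2 := by
    refine Finset.sum_le_sum fun x _ => ?_
    rw [norm_mul, Complex.norm_conj]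
    nlinarith [sq_nonneg (‖vec β f k x‖ - ‖vec β g k x‖)]
  rw [← Finset.sum_div, Finset.sum_add_distrib] at h3
  linarith

/-- The alternating state, up to a final diagonal phase.  Induction on `k` for `angles.take k`,
`k ≤ angles.length` (`List.take_succ`, `List.foldl_append`). -/
theorem vec_eq_alternatingState (n : ℕ) (J : Fin n → Fin n → ℝ) (angles : List (ℝ × ℝ)) :
    vec (betL angles)
        (fun s τ => exp (-(I * (gamL angles s : ℂ) * (pairEnergy n J τ : ℂ)))) angles.length =
      costRotation n J (gamL angles angles.length) (alternatingState n J angles) := by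
  have key : ∀ k, k ≤ angles.length → vec (betL angles)
      (fun s τ => exp (-(I * (gamL angles s : ℂ) * (pairEnergy n J τ : ℂ)))) k =
      costRotation n J (gamL angles k) (alternatingState n J (angles.take k)) := by
    intro k
    induction k with
    | zero => intro _; rfl
    | succ k ih =>
      intro hk
      have hk' : k < angles.length := hk
      have e : alternatingState n J (angles.take (k + 1)) = mixerRotation n (betL angles k)
          (costRotation n J (gamL angles k) (alternatingState n J (angles.take k))) := by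
        unfold alternatingState
        rw [List.take_add_one, List.foldl_append, List.getElem?_eq_getElem hk']
        simp [betL, gamL, List.getElem?_eq_getElem hk']
      rw [e, ← ih hk'.le]
      rfl
  rw [key _ le_rfl, List.take_length]

end Crest.Agent.R339.QN
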