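import Crest.Agent.R339.QNCav
import Crest.Agent.R339.QNVec

/-! # Row 339, limit of the alternating ansatz: induction on the depth -/

set_option autoImplicit false

namespace Crest.Agent.R339.QN

open MeasureTheory ProbabilityTheory Complex Filter Topology
open Crest.MathPhysics.SpinGlass

theorem QNLim_amp (β : ℕ → ℝ) (k : ℕ) (w : Fin (k + 2) → Bool) :
    amp β (k + 1) w = amp β k (fun j => w j.castSucc) *
      mx (β k) (w (Fin.last (k + 1))) (w (Fin.last k).castSucc) := by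
  unfold amp
  rw [Fin.prod_univ_castSucc, mul_assoc]
  rfl

theorem QNLim_last {β : ℕ → ℝ} {k : ℕ} {a : Pth k} (ha : Qw β k a ≠ 0) :
    (a (Fin.last k)).1 = (a (Fin.last k)).2 := by
  by_contra h
  exact ha (if_neg h)

theorem QNLim_wt_congr {P ι : Type} [Fintype ι] {Q : P → ℂ} {K K' : P → P → ℝ}
    (h : ∀ a b, Q a ≠ 0 → Q b ≠ 0 → K a b = K' a b) (κ : ℝ) (σ : ι → P) :
    wt Q K κ σ = wt Q K' κ σ := by
  unfold wt
  by_cases h0 : ∏ j, Q (σ j) = 0
  · rw [h0, zero_mul, zero_mul]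
  · have h1 := fun j => Finset.prod_ne_zero_iff.1 h0 j (Finset.mem_univ j)
    simp only [h _ _ (h1 _) (h1 _)]

theorem QNLim_symm (γ : ℕ → ℝ) (k : ℕ) (a b : Pth k) : Kk γ k a b = Kk γ k b a := by
  unfold Kk Phi
  simp only [mul_comm]

/-- splitting off the top height -/
def QNLim_eqv (k n : ℕ) : (Fin n → Pth k) × (Fin n → Bool × Bool) ≃ (Fin n → Pth (k + 1)) where
  toFun p j := Fin.snoc (p.1 j) (p.2 j)
  invFun τ := (fun j => Fin.init (τ j), fun j => τ j (Fin.last _))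
  left_inv p := by simp
  right_inv τ := by
    funext j
    exact Fin.snoc_init_self _

theorem sum_Qw_zero (β : ℕ → ℝ) : ∑ a : Pth 0, Qw β 0 a = 1 := by
  rw [← (Equiv.funUnique (Fin 1) (Bool × Bool)).symm.sum_comp, Fintype.sum_prod_type]
  have h : (((1 : ℝ) / Real.sqrt 2 : ℝ) : ℂ) * (((1 : ℝ) / Real.sqrt 2 : ℝ) : ℂ) = 1 / 2 := by
    rw [← ofReal_mul, div_mul_div_comm, Real.mul_self_sqrt (by norm_num)]
    norm_num
  have e : ∀ x y : Bool, Qw β 0 ((Equiv.funUnique (Fin 1) (Bool × Bool)).symm (x, y)) =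
      if x = y then 1 / 2 else 0 := by
    intro x y
    unfold Qw amp
    rw [Fin.prod_univ_zero, Fin.prod_univ_zero, mul_one, conj_ofReal, h]
    rfl
  simp only [e, Finset.sum_ite_eq, Finset.mem_univ, if_true]
  simp

/-- Unitarity of the last mixer (`sum_mx_mul_conj`). -/
theorem sum_Qw_snoc (β : ℕ → ℝ) (k : ℕ) (b : Pth k) :
    ∑ x : Bool × Bool, Qw β (k + 1) (Fin.snoc b x) = Qw β k b := by
  have e : ∀ x y : Bool, Qw β (k + 1) (Fin.snoc b (x, y)) = if x = y then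
      amp β k (fun j => (b j).1) * (starRingEnd ℂ) (amp β k fun j => (b j).2) *
        (mx (β k) x (b (Fin.last k)).1 * (starRingEnd ℂ) (mx (β k) y (b (Fin.last k)).2))
      else 0 := by
    intro x y
    unfold Qw
    rw [QNLim_amp, QNLim_amp]
    simp only [Fin.snoc_last, Fin.snoc_castSucc, map_mul]
    split_ifs
    · ring
    · rfl
  rw [Fintype.sum_prod_type]
  simp only [e, Finset.sum_ite_eq, Finset.mem_univ, if_true]
  rw [← Finset.mul_sum, sum_mx_mul_conj]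
  unfold Qw
  split_ifs
  · rw [mul_one]
  · rw [mul_zero]

/-- Push forward of the product weight (reindex `τ' j = Fin.snoc (τ j) (x j)`,
`Finset.prod_univ_sum`). -/
theorem sum_prod_Qw_init (β : ℕ → ℝ) (k n : ℕ) (G : (Fin n → Pth k) → ℂ) :
    ∑ τ' : Fin n → Pth (k + 1), (∏ j, Qw β (k + 1) (τ' j)) * G (fun j => Fin.init (τ' j)) =
      ∑ τ : Fin n → Pth k, (∏ j, Qw β k (τ j)) * G τ := by
  rw [← (QNLim_eqv k n).sum_comp, Fintype.sum_prod_type]
  refine Finset.sum_congr rfl fun τ _ => ?_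
  simp only [QNLim_eqv, Equiv.coe_fn_mk, Fin.init_snoc]
  rw [← Finset.sum_mul, ← Fintype.prod_sum fun j x => Qw β (k + 1) (Fin.snoc (τ j) x)]
  simp only [sum_Qw_snoc]

/-- On the support of the weight the top height does not contribute. -/
theorem Phi_zero_of_ne (γ β : ℕ → ℝ) {a b : Pth 0} (ha : Qw β 0 a ≠ 0) (hb : Qw β 0 b ≠ 0) :
    Phi γ 0 a b = 0 := by
  unfold Phi
  rw [Fin.sum_univ_castSucc, Fin.sum_univ_zero, QNLim_last ha, QNLim_last hb, sub_self, mul_zero,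
    add_zero]

theorem Phi_succ_of_ne (γ β : ℕ → ℝ) (k : ℕ) {a b : Pth (k + 1)} (ha : Qw β (k + 1) a ≠ 0)
    (hb : Qw β (k + 1) b ≠ 0) : Phi γ (k + 1) a b = Phi γ k (Fin.init a) (Fin.init b) := by
  unfold Phi
  rw [Fin.sum_univ_castSucc, QNLim_last ha, QNLim_last hb, sub_self, mul_zero, add_zero]
  rfl

theorem marg_zero (γ β : ℕ → ℝ) (κ : ℝ) (n : ℕ) {r : ℕ} (a : Fin r → Pth 0) :
    marg (Qw β 0) (Kk γ 0) κ n a = ∏ ρ, Qw β 0 (a ρ) := by
  unfold marg
  have h : ∀ a b, Qw β 0 a ≠ 0 → Qw β 0 b ≠ 0 → Kk γ 0 a b = (fun _ _ => 0) a b :=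
    fun a b ha hb => by
      unfold Kk
      rw [Phi_zero_of_ne γ β ha hb, zero_pow two_ne_zero]
  simp only [QNLim_wt_congr h]
  unfold wt
  simp only [Finset.sum_const_zero, mul_zero, ofReal_zero, neg_zero, exp_zero, mul_one,
    Fintype.prod_sum_type, Sum.elim_inl, Sum.elim_inr]
  rw [← Finset.mul_sum, ← Fintype.prod_sum fun (_ : Fin n) x => Qw β 0 x]
  simp only [sum_Qw_zero, Finset.prod_const_one, mul_one]

/-- Split the double sum over `Fin r ⊕ Fin n` (`Fintype.sum_sum_type`; the kernel is symmetric). -/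
theorem marg_succ (γ β : ℕ → ℝ) (k : ℕ) (κ : ℝ) (n : ℕ) {r : ℕ} (a : Fin r → Pth (k + 1)) :
    marg (Qw β (k + 1)) (Kk γ (k + 1)) κ n a =
      (∏ ρ, Qw β (k + 1) (a ρ)) *
        exp (-((κ / 4 * ∑ ρ, ∑ ρ', Kk γ k (Fin.init (a ρ)) (Fin.init (a ρ')) : ℝ) : ℂ)) *
        ∑ τ : Fin n → Pth k, wt (Qw β k) (Kk γ k) κ τ *
          ∏ m, exp (-((κ / 2 * ∑ ρ, Kk γ k (Fin.init (a ρ)) (τ m) : ℝ) : ℂ)) := by
  unfold marg
  have h : ∀ a b, Qw β (k + 1) a ≠ 0 → Qw β (k + 1) b ≠ 0 → Kk γ (k + 1) a b =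
      (fun a b : Pth (k + 1) => Kk γ k (Fin.init a) (Fin.init b)) a b := fun a b ha hb => by
    unfold Kk
    rw [Phi_succ_of_ne γ β k ha hb]
  simp only [QNLim_wt_congr h]
  unfold wt
  simp only [mul_assoc (∏ j, Qw β k _)]
  rw [← sum_prod_Qw_init β k n (fun τ => exp (-((κ / 4 * ∑ i, ∑ j, Kk γ k (τ i) (τ j) : ℝ) : ℂ)) *
    ∏ m, exp (-((κ / 2 * ∑ ρ, Kk γ k (Fin.init (a ρ)) (τ m) : ℝ) : ℂ))), Finset.mul_sum]
  refine Finset.sum_congr rfl fun τ _ => ?_
  simp only [Fintype.prod_sum_type, Fintype.sum_sum_type, Sum.elim_inl, Sum.elim_inr,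
    Finset.sum_add_distrib]
  rw [← exp_sum, mul_mul_mul_comm, ← exp_add, ← exp_add]
  congr 2
  rw [Finset.sum_neg_distrib, ← ofReal_sum, ← Finset.mul_sum, ← neg_add, ← neg_add, ← ofReal_add,
    ← ofReal_add]
  congr 2
  have e1 : ∑ ρ, ∑ m, Kk γ k (Fin.init (a ρ)) (Fin.init (τ m)) =
      ∑ m, ∑ ρ, Kk γ k (Fin.init (a ρ)) (Fin.init (τ m)) := Finset.sum_comm
  have e2 : ∑ m, ∑ ρ, Kk γ k (Fin.init (τ m)) (Fin.init (a ρ)) =
      ∑ m, ∑ ρ, Kk γ k (Fin.init (a ρ)) (Fin.init (τ m)) :=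
    Finset.sum_congr rfl fun m _ => Finset.sum_congr rfl fun ρ _ => QNLim_symm _ _ _ _
  rw [e1, e2]
  ring

/-- Induction on `k`: `marg_zero`; `marg_succ`, `κ n → 0` and `cavity`. -/
theorem lim_nu (γ β : ℕ → ℝ) (hB : ∀ k, Bd (Qw β k) (Kk γ k)) (k : ℕ) :
    Lim (Qw β k) (Kk γ k) (nu γ β k) := by
  induction k with
  | zero =>
    intro r a κ _ _
    simp only [marg_zero]
    exact tendsto_const_nhds
  | succ k ih =>
    intro r a κ h0 h1
    have h2 : Tendsto κ atTop (𝓝 0) := by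
      have := h1.mul (tendsto_inv_atTop_nhds_zero_nat (𝕜 := ℝ))
      rw [mul_zero] at this
      refine this.congr' ?_
      filter_upwards [eventually_gt_atTop 0] with n hn
      exact mul_inv_cancel_right₀ (Nat.cast_ne_zero.2 hn.ne') _
    have h3 : Tendsto (fun n => exp (-((κ n / 4 * ∑ ρ, ∑ ρ', Kk γ k (Fin.init (a ρ))
        (Fin.init (a ρ')) : ℝ) : ℂ))) atTop (𝓝 1) := by
      have := (((h2.div_const 4).mul_const (∑ ρ, ∑ ρ', Kk γ k (Fin.init (a ρ))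
        (Fin.init (a ρ')))).ofReal.neg).cexp
      simpa only [zero_div, zero_mul, ofReal_zero, neg_zero, exp_zero] using this
    have h4 := (h3.const_mul (∏ ρ, Qw β (k + 1) (a ρ))).mul
      (cavity (hB k) ih (fun b => ∑ ρ, Kk γ k (Fin.init (a ρ)) b) κ h0 h1)
    simp only [marg_succ]
    convert h4 using 2
    simp only [nu]
    rw [Finset.prod_mul_distrib, mul_one, ← exp_sum, Finset.sum_neg_distrib, ← Finset.mul_sum,
      Finset.sum_comm]
    simp only [ofReal_sum, Finset.mul_sum]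

end Crest.Agent.R339.QN
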