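import Crest.Agent.R339.QNModelAux

/-! # Row 339, limit of the alternating ansatz: the one-site weights in the spin-boson model -/

set_option autoImplicit false
set_option linter.deprecated false

namespace Crest.Agent.R339.QN

open MeasureTheory ProbabilityTheory Complex Filter Topology
open Crest.MathPhysics.SpinGlass

open scoped InnerProductSpace

variable {H : Type} [NormedAddCommGroup H] [InnerProductSpace ℂ H] [CompleteSpace H]

/-- The linear function of the path `u` determined by the path `w`. -/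
noncomputable def qmL (γ : ℕ → ℝ) (k : ℕ) (w u : Fin (k + 1) → Bool) : ℝ :=
  ∑ j : Fin (k + 1), γ j * spinSign (w j) * spinSign (u j)

/-- The total field vector of a path. -/
noncomputable def qmXi (x : ℕ → H) (k : ℕ) (w : Fin (k + 1) → Bool) : H :=
  ∑ j : Fin (k + 1), spinSign (w j) • x j

theorem qmL_succ (γ : ℕ → ℝ) (k : ℕ) (w u : Fin (k + 2) → Bool) :
    qmL γ (k + 1) w u = qmL γ k (Fin.init w) (Fin.init u) +
      γ (k + 1) * spinSign (w (Fin.last _)) * spinSign (u (Fin.last _)) := by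
  unfold qmL
  rw [Fin.sum_univ_castSucc]
  rfl

omit [CompleteSpace H] in
theorem qmXi_succ (x : ℕ → H) (k : ℕ) (w : Fin (k + 2) → Bool) :
    qmXi x (k + 1) w = qmXi x k (Fin.init w) + spinSign (w (Fin.last _)) • x (k + 1) := by
  unfold qmXi
  rw [Fin.sum_univ_castSucc]
  rfl

omit [CompleteSpace H] in
theorem qmXi_zero (x : ℕ → H) (w : Fin 1 → Bool) : qmXi x 0 w = spinSign (w 0) • x 0 := by
  simp [qmXi]

theorem qm_Phi (γ : ℕ → ℝ) (k : ℕ) (a b : Pth k) :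
    Phi γ k a b = qmL γ k (fun j => (a j).1) (fun j => (b j).1) -
      qmL γ k (fun j => (a j).2) (fun j => (b j).2) := by
  unfold Phi qmL
  rw [← Finset.sum_sub_distrib]
  exact Finset.sum_congr rfl fun j _ => by ring

variable (𝓜 : Weyl H) (γ β : ℕ → ℝ) (x : ℕ → H)

/-- The ordered second moment. -/
noncomputable def qmEta (k : ℕ) (w : Fin (k + 1) → Bool) : ℂ :=
  ⟪𝓜.Uo β x k 𝓜.Ω, qmS 𝓜 β x k fun u => qmL γ k w u ^ 2⟫_ℂ

variable {γ β x}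

theorem qm_ΩΩ : ⟪𝓜.Ω, 𝓜.Ω⟫_ℂ = 1 := by
  rw [inner_self_eq_norm_sq_to_K, 𝓜.Ω_norm]; simp

theorem qm_norm_x (hm : ∀ j, x j ∈ 𝓜.R) (hx : ∀ j, x j = γ j • 𝓜.go β x j) (j : ℕ) (b : Bool) :
    (‖spinSign b • x j‖ : ℂ) ^ 2 = (γ j : ℂ) ^ 2 := by
  have h1 : ‖𝓜.go β x j‖ = 1 := 𝓜.norm_br_invol (𝓜.Uo_unitary β hm j) 𝓜.invol_Z
  have h2 : ‖spinSign b • x j‖ ^ 2 = γ j ^ 2 := by
    rw [hx j, norm_smul, norm_smul, h1, mul_one, mul_pow, Real.norm_eq_abs, Real.norm_eq_abs,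
      sq_abs, sq_abs, sq, qm_s_sq, one_mul]
  exact_mod_cast h2

theorem qmS_L (hm : ∀ j, x j ∈ 𝓜.R) (hx : ∀ j, x j = γ j • 𝓜.go β x j) (k : ℕ)
    (w : Fin (k + 1) → Bool) :
    qmS 𝓜 β x k (qmL γ k w) = 𝓜.Uo β x k (qmXi x k w) := by
  have h := qmS_finsum 𝓜 β x k Finset.univ
    fun (j : Fin (k + 1)) u => γ j * spinSign (w j) * spinSign (u j)
  refine h.trans ?_
  rw [qmXi, map_sum]
  refine Finset.sum_congr rfl fun j _ => ?_
  rw [qmS_mul, qmS_spin 𝓜 β hm, ← map_smul, Complex.coe_smul]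
  congr 1
  conv_rhs => rw [hx j, smul_smul, mul_comm]

theorem qmEta_zero (w : Fin 1 → Bool) : qmEta 𝓜 γ β x 0 w = (γ 0 : ℂ) ^ 2 := by
  have h : (fun u => qmL γ 0 w u ^ 2) = fun _ => γ 0 ^ 2 * 1 := by
    funext u
    simp only [qmL, Fin.sum_univ_succ, Finset.univ_eq_empty, Finset.sum_empty, add_zero,
      Fin.val_zero]
    have h1 := qm_s_sq (w 0)
    have h2 := qm_s_sq (u 0)
    linear_combination γ 0 ^ 2 * (spinSign (u 0) * spinSign (u 0)) * h1 + γ 0 ^ 2 * h2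
  rw [qmEta, h, qmS_mul, qmS_one, inner_smul_right]
  simp [Weyl.Uo, 𝓜.Ω_norm]

theorem qmEta_succ (hm : ∀ j, x j ∈ 𝓜.R) (hx : ∀ j, x j = γ j • 𝓜.go β x j) (k : ℕ)
    (w : Fin (k + 2) → Bool) :
    qmEta 𝓜 γ β x (k + 1) w = qmEta 𝓜 γ β x k (Fin.init w) +
      2 * ⟪spinSign (w (Fin.last _)) • x (k + 1), qmXi x k (Fin.init w)⟫_ℂ +
      (γ (k + 1) : ℂ) ^ 2 := by
  have h : (fun u => qmL γ (k + 1) w u ^ 2) = fun u : Fin (k + 2) → Bool =>
      (qmL γ k (Fin.init w) (Fin.init u) ^ 2 +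
      (2 * γ (k + 1) * spinSign (w (Fin.last _))) *
        (spinSign (u (Fin.last _)) * qmL γ k (Fin.init w) (Fin.init u))) + γ (k + 1) ^ 2 * 1 := by
    funext u
    rw [qmL_succ]
    have h1 := qm_s_sq (w (Fin.last _))
    have h2 := qm_s_sq (u (Fin.last _))
    linear_combination γ (k + 1) ^ 2 * (spinSign (u (Fin.last _)) * spinSign (u (Fin.last _))) * h1
      + γ (k + 1) ^ 2 * h2
  have hB := 𝓜.B_unitary (β k)
  have hW := Weyl.WQ_unitary 𝓜.invol_Z (neg_mem (hm k))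
  rw [qmEta, h, qmS_add, qmS_add, qmS_mul, qmS_mul, qmS_one, qmS_last,
    qmS_init 𝓜 β x k (fun u => qmL γ k (Fin.init w) u ^ 2),
    qmS_init 𝓜 β x k (qmL γ k (Fin.init w)), qmS_L 𝓜 hm hx, ← qm_Uo_succ, inner_add_right,
    inner_add_right, inner_smul_right, inner_smul_right, qm_inner_go,
    qm_inner_unitary (𝓜.Uo_unitary β hm _), qm_ΩΩ, qm_Uo_succ, qm_inner_unitary hB,
    qm_inner_unitary hW]
  congr 1
  · congr 1
    conv_rhs => rw [hx (k + 1), smul_smul, ← Complex.coe_smul, inner_smul_left, conj_ofReal]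
    push_cast
    ring
  · push_cast
    ring

theorem qmXi_mem (hm : ∀ j, x j ∈ 𝓜.R) (k : ℕ) (w : Fin (k + 1) → Bool) : qmXi x k w ∈ 𝓜.R :=
  𝓜.R.sum_mem fun j _ => 𝓜.R.smul_mem _ (hm j)

theorem qmY_eq (hm : ∀ j, x j ∈ 𝓜.R) (hx : ∀ j, x j = γ j • 𝓜.go β x j) (k : ℕ)
    (w : Fin (k + 1) → Bool) :
    qmY 𝓜 x k w = exp (-(qmEta 𝓜 γ β x k w / 2) + (‖qmXi x k w‖ : ℂ) ^ 2 / 2) •
      𝓜.W (-qmXi x k w) 𝓜.Ω := by
  induction k with
  | zero =>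
    rw [qmY, qmEta_zero, qmXi_zero, qm_norm_x 𝓜 hm hx, neg_add_cancel, exp_zero, one_smul,
      smul_neg]
  | succ k ih =>
    have h1 : spinSign (w (Fin.last _)) • x (k + 1) ∈ 𝓜.R := 𝓜.R.smul_mem _ (hm _)
    have h2 := qmXi_mem 𝓜 hm k (Fin.init w)
    have h3 := Weyl.qu_norm_add (spinSign (w (Fin.last _)) • x (k + 1)) (qmXi x k (Fin.init w))
    rw [qm_norm_x 𝓜 hm hx] at h3
    rw [qmY, ih, map_smul, smul_neg, ← ContinuousLinearMap.mul_apply,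
      𝓜.W_mul _ (neg_mem h1) _ (neg_mem h2), ContinuousLinearMap.smul_apply, smul_smul,
      ← Complex.exp_add, qmEta_succ 𝓜 hm hx, qmXi_succ, inner_neg_neg, ← neg_add,
      add_comm (qmXi x k (Fin.init w))]
    congr 2
    linear_combination h3

theorem qmY_inner (hm : ∀ j, x j ∈ 𝓜.R) (hx : ∀ j, x j = γ j • 𝓜.go β x j) (k : ℕ)
    (u v : Fin (k + 1) → Bool) :
    ⟪qmY 𝓜 x k v, qmY 𝓜 x k u⟫_ℂ = exp (-(1 / 2 * (qmEta 𝓜 γ β x k u -
      2 * ⟪qmXi x k v, qmXi x k u⟫_ℂ + (starRingEnd ℂ) (qmEta 𝓜 γ β x k v)))) := by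
  have hu := qmXi_mem 𝓜 hm k u
  have hv := qmXi_mem 𝓜 hm k v
  rw [qmY_eq 𝓜 hm hx, qmY_eq 𝓜 hm hx, inner_smul_left, inner_smul_right, ← 𝓜.W_star _ hv,
    qm_inner_star, 𝓜.qu_vac_two hv (neg_mem hu), ← exp_conj, ← Complex.exp_add,
    ← Complex.exp_add, inner_neg_right, norm_neg]
  congr 1
  simp only [map_add, map_neg, map_div₀, map_pow, conj_ofReal, map_ofNat]
  ring

theorem qm_half :
    (((1 : ℝ) / Real.sqrt 2 : ℝ) : ℂ) * (((1 : ℝ) / Real.sqrt 2 : ℝ) : ℂ) = 1 / 2 := by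
  have h : ((1 : ℝ) / Real.sqrt 2) * ((1 : ℝ) / Real.sqrt 2) = 1 / 2 := by
    rw [div_mul_div_comm, Real.mul_self_sqrt (by norm_num), one_mul]
  rw [← ofReal_mul, h]
  norm_num

theorem qm_Qw (β : ℕ → ℝ) (k : ℕ) (a : Pth k) :
    Qw β k a = if (a (Fin.last k)).1 = (a (Fin.last k)).2 then
      1 / 2 * (qmC β k (fun j => (a j).1) * (starRingEnd ℂ) (qmC β k fun j => (a j).2))
    else 0 := by
  unfold Qw amp qmC
  split_ifs
  · rw [map_mul, conj_ofReal, ← qm_half]; ring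
  · rfl

theorem qm_second (hm : ∀ j, x j ∈ 𝓜.R) (hx : ∀ j, x j = γ j • 𝓜.go β x j) (k : ℕ) (a : Pth k) :
    ∑ b : Pth k, ⟪qmV 𝓜 β x k fun j => (b j).2, qmV 𝓜 β x k fun j => (b j).1⟫_ℂ *
        (Kk γ k a b : ℂ) =
      qmEta 𝓜 γ β x k (fun j => (a j).1) -
        2 * ⟪qmXi x k fun j => (a j).2, qmXi x k fun j => (a j).1⟫_ℂ +
        (starRingEnd ℂ) (qmEta 𝓜 γ β x k fun j => (a j).2) := by
  have h1 := qm_pair 𝓜 β (x := x) k (fun u => qmL γ k (fun j => (a j).1) u ^ 2) fun _ => 1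
  have h2 := qm_pair 𝓜 β (x := x) k (qmL γ k fun j => (a j).1) (qmL γ k fun j => (a j).2)
  have h3 := qm_pair 𝓜 β (x := x) k (fun _ => 1) fun u => qmL γ k (fun j => (a j).2) u ^ 2
  rw [qmS_one] at h1 h3
  rw [qmS_L 𝓜 hm hx, qmS_L 𝓜 hm hx, qm_inner_unitary (𝓜.Uo_unitary β hm _)] at h2
  rw [qmEta, qmEta, inner_conj_symm, ← h1, ← h2, ← h3, Finset.mul_sum, ← Finset.sum_sub_distrib,
    ← Finset.sum_add_distrib]
  refine Finset.sum_congr rfl fun b _ => ?_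
  rw [Kk, qm_Phi]
  push_cast
  ring

theorem qm_nu (hm : ∀ j, x j ∈ 𝓜.R) (hx : ∀ j, x j = γ j • 𝓜.go β x j) (k : ℕ) (a : Pth k) :
    nu γ β k a = ⟪qmV 𝓜 β x k fun j => (a j).2, qmV 𝓜 β x k fun j => (a j).1⟫_ℂ := by
  induction k with
  | zero =>
    rw [nu, qm_Qw, qmV, qmV, qm_inner_P 𝓜 _ _ 𝓜.XΩ 𝓜.XΩ, qm_ΩΩ]
    simp [qmC]
  | succ k ih =>
    rw [nu, qm_Qw, qmV_succ 𝓜 β hm, qmV_succ 𝓜 β hm, inner_smul_left, inner_smul_right,
      qm_inner_P 𝓜 _ _ (qmY_even 𝓜 hm k _) (qmY_even 𝓜 hm k _), qmY_inner 𝓜 hm hx]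
    simp only [ih]
    rw [qm_second 𝓜 hm hx]
    split_ifs
    · have e1 : (fun j => (Fin.init a j).1) = Fin.init fun j => (a j).1 := rfl
      have e2 : (fun j => (Fin.init a j).2) = Fin.init fun j => (a j).2 := rfl
      rw [e1, e2]
      ring
    · simp

theorem model_energy (𝓜 : Weyl H) (hR : 𝓜.R = ⊤) (γ β : ℕ → ℝ) (x : ℕ → H)
    (hx : ∀ j, x j = γ j • 𝓜.go β x j) (p : ℕ) :
    1 / 2 * ∑ a, ∑ b, nu γ β p a * nu γ β p b * eker γ p a b =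
      (𝓜.energy (𝓜.go β x p) : ℂ) := by
  have hm : ∀ j, x j ∈ 𝓜.R := fun j => by rw [hR]; trivial
  have hU := 𝓜.Uo_unitary β hm p
  have h1 : ∀ j : Fin (p + 1), ∑ a : Pth p, nu γ β p a *
      ((spinSign (a (Fin.last p)).1 * spinSign (a j).1 : ℝ) : ℂ) =
      ⟪𝓜.go β x p, 𝓜.go β x j⟫_ℂ := by
    intro j
    have h := qm_pair 𝓜 β (x := x) p (fun u => spinSign (u (Fin.last p)) * spinSign (u j))
      fun _ => 1
    rw [qmS_one, qmS_last, qmS_spin 𝓜 β hm, qm_inner_go] at h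
    simp only [mul_one] at h
    simp only [qm_nu 𝓜 hm hx, h]
  have h2 : ∀ j : Fin (p + 1), ∑ a : Pth p, nu γ β p a *
      ((spinSign (a (Fin.last p)).1 * spinSign (a j).2 : ℝ) : ℂ) =
      (starRingEnd ℂ) ⟪𝓜.go β x p, 𝓜.go β x j⟫_ℂ := by
    intro j
    have h := qm_pair 𝓜 β (x := x) p (fun u => spinSign (u (Fin.last p))) fun u => spinSign (u j)
    rw [qmS_spin 𝓜 β hm, qmS_spin 𝓜 β hm, qm_inner_unitary hU] at h
    simp only [qm_nu 𝓜 hm hx, h, inner_conj_symm, Fin.val_last]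
  have h3 : ∑ a, ∑ b, nu γ β p a * nu γ β p b * eker γ p a b =
      ∑ j : Fin (p + 1), -I * γ j * (⟪𝓜.go β x p, 𝓜.go β x j⟫_ℂ ^ 2 -
        (starRingEnd ℂ) ⟪𝓜.go β x p, 𝓜.go β x j⟫_ℂ ^ 2) := by
    have hj : ∀ j : Fin (p + 1), -I * γ j * (⟪𝓜.go β x p, 𝓜.go β x j⟫_ℂ ^ 2 -
        (starRingEnd ℂ) ⟪𝓜.go β x p, 𝓜.go β x j⟫_ℂ ^ 2) =
        ∑ a : Pth p, ∑ b : Pth p, nu γ β p a * nu γ β p b * (-I *
          ((spinSign (a (Fin.last p)).1 * spinSign (b (Fin.last p)).1 * (γ j *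
            (spinSign (a j).1 * spinSign (b j).1 - spinSign (a j).2 * spinSign (b j).2)) : ℝ) :
              ℂ)) := by
      intro j
      rw [← h2 j, ← h1 j, sq, sq, Finset.sum_mul_sum, Finset.sum_mul_sum,
        ← Finset.sum_sub_distrib, Finset.mul_sum]
      refine Finset.sum_congr rfl fun a _ => ?_
      rw [← Finset.sum_sub_distrib, Finset.mul_sum]
      refine Finset.sum_congr rfl fun b _ => ?_
      push_cast
      ring
    simp only [hj]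
    rw [Finset.sum_comm (s := (Finset.univ : Finset (Fin (p + 1))))]
    refine Finset.sum_congr rfl fun a _ => ?_
    rw [Finset.sum_comm (s := (Finset.univ : Finset (Fin (p + 1))))]
    refine Finset.sum_congr rfl fun b _ => ?_
    rw [eker, Phi, Finset.mul_sum, ofReal_sum, Finset.mul_sum, Finset.mul_sum]
  rw [h3, 𝓜.energy_go β hm p (by rw [hR]; trivial), Finset.mul_sum, Fin.sum_univ_castSucc,
    Finset.sum_range, ofReal_sum]
  have h4 : (starRingEnd ℂ) ⟪𝓜.go β x p, 𝓜.go β x p⟫_ℂ = ⟪𝓜.go β x p, 𝓜.go β x p⟫_ℂ :=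
    inner_conj_symm _ _
  simp only [Fin.val_last, Fin.val_castSucc, h4, sub_self, mul_zero, add_zero]
  refine Finset.sum_congr rfl fun j _ => ?_
  have h5 : ⟪x j, 𝓜.go β x p⟫_ℂ = γ j * (starRingEnd ℂ) ⟪𝓜.go β x p, 𝓜.go β x j⟫_ℂ := by
    conv_lhs => rw [hx j, ← Complex.coe_smul, inner_smul_left, conj_ofReal]
    rw [inner_conj_symm]
  rw [h5]
  generalize ⟪𝓜.go β x p, 𝓜.go β x j⟫_ℂ = z
  apply Complex.ext <;> simp [sq] <;> ring

end Crest.Agent.R339.QN
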