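import Crest.Agent.R339.QNSym

/-! # Row 339, limit of the alternating ansatz: averages over pairs of sites -/

set_option autoImplicit false

namespace Crest.Agent.R339.QN

open MeasureTheory ProbabilityTheory Complex Filter Topology
open Crest.MathPhysics.SpinGlass

variable {P : Type} [Fintype P] {Q : P → ℂ} {K : P → P → ℝ} {ν : P → ℂ}

theorem QNPair_count (n : ℕ) :
    (∑ i : Fin n, ∑ j : Fin n, if i < j then (1 : ℂ) else 0) = (n : ℂ) * ((n : ℂ) - 1) / 2 := by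
  induction n with
  | zero => simp
  | succ n ih =>
    rw [Fin.sum_univ_succ]
    simp only [Fin.sum_univ_succ, lt_self_iff_false, if_false, Fin.succ_pos, if_true,
      Fin.not_lt_zero, Fin.succ_lt_succ_iff, zero_add, ih, Finset.sum_const, Finset.card_univ,
      Fintype.card_fin, nsmul_eq_mul, mul_one]
    push_cast
    ring

/-- For `i < j` the inner sum is `Y n = ∑ a : Fin 2 → P, marg Q K (1/n) (n-2) a * F (a 0) (a 1)`
(`sum_wt_inj` with `m = ![i, j]`), there are `n (n-1) / 2` pairs, and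
`Y n → ∑ a, ν (a 0) * ν (a 1) * F (a 0) (a 1)` by `hL` with `κ m = 1 / (m + 2)`. -/
theorem pair_limit (hL : Lim Q K ν) (F : P → P → ℂ) :
    Tendsto (fun n : ℕ => (∑ i : Fin n, ∑ j : Fin n, if i < j then
        ∑ σ : Fin n → P, wt Q K (1 / n) σ * F (σ i) (σ j) else 0) / (n : ℂ) ^ 2) atTop
      (𝓝 (1 / 2 * ∑ a, ∑ b, ν a * ν b * F a b)) := by
  have hκ : Tendsto (fun m : ℕ => (1 / ((m + 2 : ℕ) : ℝ)) * (m : ℝ)) atTop (𝓝 1) := by
    have h := tendsto_natCast_div_add_atTop (2 : ℝ)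
    refine h.congr fun m => ?_
    push_cast
    ring
  have hY : Tendsto (fun m : ℕ => ∑ a : Fin 2 → P,
      marg Q K (1 / ((m + 2 : ℕ) : ℝ)) m a * F (a 0) (a 1)) atTop
      (𝓝 (∑ a : Fin 2 → P, (∏ ρ, ν (a ρ)) * F (a 0) (a 1))) := by
    refine tendsto_finsetSum _ fun a _ => ?_
    exact (hL 2 a (fun m => 1 / ((m + 2 : ℕ) : ℝ)) (fun m => by positivity) hκ).mul_const _
  have hS : ∑ a : Fin 2 → P, (∏ ρ, ν (a ρ)) * F (a 0) (a 1) = ∑ a, ∑ b, ν a * ν b * F a b := by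
    rw [← Equiv.sum_comp (finTwoArrowEquiv P).symm, Fintype.sum_prod_type]
    simp [Fin.prod_univ_two]
  rw [hS] at hY
  have hc : Tendsto (fun m : ℕ => (((m + 2 : ℕ) : ℂ) * (((m + 2 : ℕ) : ℂ) - 1) / 2) /
      ((m + 2 : ℕ) : ℂ) ^ 2) atTop (𝓝 (1 / 2)) := by
    have h0 : Tendsto (fun m : ℕ => ((m + 2 : ℕ) : ℂ)⁻¹) atTop (𝓝 0) :=
      (tendsto_inv_atTop_nhds_zero_nat (𝕜 := ℂ)).comp (tendsto_add_atTop_nat 2)
    have h1 := ((tendsto_const_nhds (x := (1 : ℂ))).sub h0).div_const 2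
    rw [sub_zero] at h1
    refine h1.congr fun m => ?_
    have : ((m + 2 : ℕ) : ℂ) ≠ 0 := Nat.cast_ne_zero.mpr (by omega)
    field_simp
  rw [← tendsto_add_atTop_iff_nat 2]
  refine (hc.mul hY).congr fun m => ?_
  have key : ∀ i j : Fin (m + 2), (if i < j then
      ∑ σ : Fin (m + 2) → P, wt Q K (1 / ((m + 2 : ℕ) : ℝ)) σ * F (σ i) (σ j) else 0) =
      (if i < j then (1 : ℂ) else 0) * ∑ a : Fin 2 → P,
        marg Q K (1 / ((m + 2 : ℕ) : ℝ)) m a * F (a 0) (a 1) := by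
    intro i j
    split_ifs with hij
    · rw [one_mul]
      have hm : Function.Injective ![i, j] := by
        intro u v huv
        fin_cases u <;> fin_cases v <;> simp_all [hij.ne, hij.ne']
      exact sum_wt_inj Q K (1 / ((m + 2 : ℕ) : ℝ)) (r := 2) (n := m) (by simp [add_comm])
        ![i, j] hm (fun a => F (a 0) (a 1))
    · simp
  simp only [key, ← Finset.sum_mul, QNPair_count]
  ring

end Crest.Agent.R339.QN
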