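import Crest.Agent.R339.QNDefs

/-! # Row 339, limit of the alternating ansatz: symmetry in the sites -/

set_option autoImplicit false

namespace Crest.Agent.R339.QN

open MeasureTheory ProbabilityTheory Complex Filter Topology
open Crest.MathPhysics.SpinGlass

variable {P : Type} [Fintype P] (Q : P → ℂ) (K : P → P → ℝ)

theorem wt_comp_equiv (κ : ℝ) {ι ι' : Type} [Fintype ι] [Fintype ι'] (e : ι ≃ ι') (σ : ι' → P) :
    wt Q K κ (σ ∘ e) = wt Q K κ σ := by
  unfold wt
  have h1 : ∏ j, Q ((σ ∘ e) j) = ∏ j, Q (σ j) := Equiv.prod_comp e (fun j => Q (σ j))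
  have h2 : ∑ i, ∑ j, K ((σ ∘ e) i) ((σ ∘ e) j) = ∑ i, ∑ j, K (σ i) (σ j) := by
    rw [← Equiv.sum_comp e (fun i => ∑ j, K (σ i) (σ j))]
    refine Finset.sum_congr rfl fun i _ => ?_
    exact Equiv.sum_comp e (fun j => K (σ (e i)) (σ j))
  rw [h1, h2]

theorem QNSym_exists_equiv {ι : Type} [Fintype ι] [DecidableEq ι] {r n : ℕ}
    (hc : Fintype.card ι = r + n) (m : Fin r → ι) (hm : Function.Injective m) :
    ∃ e : Fin r ⊕ Fin n ≃ ι, ∀ ρ, e (Sum.inl ρ) = m ρ := by
  classical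
  have h1 : Fintype.card (Set.range m) = r := by
    rw [← Fintype.card_congr (Equiv.ofInjective m hm), Fintype.card_fin]
  have h2 : Fintype.card {x : ι // ¬ x ∈ Set.range m} = n := by
    rw [Fintype.card_subtype_compl, hc]
    have : Fintype.card {x : ι // x ∈ Set.range m} = r := by
      convert h1
    omega
  refine ⟨(Equiv.sumCongr (Equiv.ofInjective m hm) (Fintype.equivFinOfCardEq h2).symm).trans
    (Equiv.sumCompl (fun x => x ∈ Set.range m)), fun ρ => ?_⟩
  simp

/-- A function of `r` distinct sites only sees the marginal. -/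
theorem sum_wt_inj (κ : ℝ) {ι : Type} [Fintype ι] [DecidableEq ι] {r n : ℕ}
    (hc : Fintype.card ι = r + n) (m : Fin r → ι) (hm : Function.Injective m)
    (F : (Fin r → P) → ℂ) :
    ∑ σ : ι → P, wt Q K κ σ * F (σ ∘ m) = ∑ a : Fin r → P, marg Q K κ n a * F a := by
  obtain ⟨e, he⟩ := QNSym_exists_equiv hc m hm
  rw [← Equiv.sum_comp (Equiv.arrowCongr e (Equiv.refl P))
    (fun σ : ι → P => wt Q K κ σ * F (σ ∘ m))]
  rw [← Equiv.sum_comp (Equiv.sumArrowEquivProdArrow (Fin r) (Fin n) P).symm, Fintype.sum_prod_type]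
  refine Finset.sum_congr rfl fun a _ => ?_
  unfold marg
  rw [Finset.sum_mul]
  refine Finset.sum_congr rfl fun τ _ => ?_
  have h1 : (Equiv.arrowCongr e (Equiv.refl P))
      ((Equiv.sumArrowEquivProdArrow (Fin r) (Fin n) P).symm (a, τ)) = Sum.elim a τ ∘ e.symm := by
    funext i
    simp [Equiv.arrowCongr, Equiv.sumArrowEquivProdArrow]
  rw [h1, wt_comp_equiv]
  congr 2
  funext ρ
  simp [← he ρ]

end Crest.Agent.R339.QN
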