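import Crest.Agent.R339.QNGauss
import Crest.Agent.R339.QNVec
import Crest.Agent.R339.QNSym

/-! # Row 339, limit of the alternating ansatz: the averaged path sum -/

set_option autoImplicit false

namespace Crest.Agent.R339.QN

open MeasureTheory ProbabilityTheory Complex Filter Topology
open Crest.MathPhysics.SpinGlass

theorem QNPath_sq (b : Bool) : spinSign b * spinSign b = 1 := by
  cases b <;> simp [spinSign]

theorem QNPath_norm (g A : ℝ) : ‖exp (-(I * (g : ℂ) * (A : ℂ)))‖ = 1 := by
  have : -(I * (g : ℂ) * (A : ℂ)) = ((-(g * A) : ℝ) : ℂ) * I := by push_cast; ring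
  rw [this, norm_exp_ofReal_mul_I]

theorem QNPath_congr {n : ℕ} (β : ℕ → ℝ) (f g : ℕ → (Fin n → Bool) → ℂ) (k : ℕ)
    (h : ∀ s ≤ k, f s = g s) : vec β f k = vec β g k := by
  induction k with
  | zero => simp only [vec, h 0 le_rfl]
  | succ k ih => simp only [vec, h (k + 1) le_rfl, ih fun s hs => h s (hs.trans k.le_succ)]

theorem QNPath_vec {n : ℕ} (β : ℕ → ℝ) (g : ℕ → (Fin n → Bool) → ℂ) (E : (Fin n → Bool) → ℂ)
    (p : ℕ) (x : Fin n → Bool) :
    vec β (fun s τ => (if s = p then E τ else 1) * g s τ) p x = E x * vec β g p x := by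
  cases p with
  | zero => simp [vec, mul_assoc]
  | succ p =>
    have := QNPath_congr β (fun s τ => (if s = p + 1 then E τ else 1) * g s τ) g p
      fun s hs => by
        funext τ
        rw [if_neg (by omega), one_mul]
    simp only [vec, this, if_true, mul_assoc]

theorem Phi_self (γ : ℕ → ℝ) (k : ℕ) (a : Pth k) : Phi γ k a a = 0 := by
  unfold Phi
  refine Finset.sum_eq_zero fun j _ => ?_
  rw [QNPath_sq, QNPath_sq, sub_self, mul_zero]

theorem Phi_comm (γ : ℕ → ℝ) (k : ℕ) (a b : Pth k) : Phi γ k a b = Phi γ k b a := by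
  unfold Phi
  refine Finset.sum_congr rfl fun j _ => ?_
  ring

/-- The product of the cost phases along a configuration of paths, for the energy
`c * ∑ i < j, J i j * σ i * σ j`. -/
theorem prod_phase {n : ℕ} (γ : ℕ → ℝ) (k : ℕ) (c : ℝ) (J : Fin n → Fin n → ℝ)
    (σ : Fin n → Pth k) :
    ∏ s : Fin (k + 1),
      (exp (-(I * (γ s : ℂ) * ((c * ∑ i, ∑ j, if i < j then
          J i j * spinSign (σ i s).1 * spinSign (σ j s).1 else 0 : ℝ) : ℂ))) *
        (starRingEnd ℂ) (exp (-(I * (γ s : ℂ) * ((c * ∑ i, ∑ j, if i < j then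
          J i j * spinSign (σ i s).2 * spinSign (σ j s).2 else 0 : ℝ) : ℂ))))) =
      exp (-(I * ((∑ i, ∑ j, J i j * (if i < j then c * Phi γ k (σ i) (σ j) else 0) : ℝ) : ℂ))) := by
  have key : ∀ (g A B : ℝ), exp (-(I * (g : ℂ) * (A : ℂ))) *
      (starRingEnd ℂ) (exp (-(I * (g : ℂ) * (B : ℂ)))) = exp (-(I * ((g * (A - B) : ℝ) : ℂ))) := by
    intro g A B
    rw [← exp_conj, ← exp_add]
    congr 1
    simp only [map_neg, map_mul, conj_I, conj_ofReal]
    push_cast
    ring
  simp only [key]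
  rw [← exp_sum, Finset.sum_neg_distrib, ← Finset.mul_sum, ← ofReal_sum]
  congr 4
  simp only [← mul_sub, ← Finset.sum_sub_distrib, Finset.mul_sum]
  rw [Finset.sum_comm]
  refine Finset.sum_congr rfl fun i _ => ?_
  rw [Finset.sum_comm]
  refine Finset.sum_congr rfl fun j _ => ?_
  split_ifs
  · unfold Phi
    simp only [Finset.mul_sum]
    exact Finset.sum_congr rfl fun s _ => by ring
  · simp

/-- Half of the symmetric double sum. -/
theorem sum_sq_upper {n : ℕ} (γ : ℕ → ℝ) (k : ℕ) (c : ℝ) (σ : Fin n → Pth k) :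
    (∑ i, ∑ j, (if i < j then c * Phi γ k (σ i) (σ j) else 0) ^ 2) / 2 =
      c ^ 2 / 4 * ∑ i, ∑ j, Kk γ k (σ i) (σ j) := by
  have h1 : ∑ i, ∑ j, (if i < j then c * Phi γ k (σ i) (σ j) else 0) ^ 2 =
      ∑ i, ∑ j, (if j < i then c * Phi γ k (σ i) (σ j) else 0) ^ 2 := by
    rw [Finset.sum_comm]
    refine Finset.sum_congr rfl fun i _ => Finset.sum_congr rfl fun j _ => ?_
    rw [Phi_comm]
  have h2 : ∑ i, ∑ j, (if i < j then c * Phi γ k (σ i) (σ j) else 0) ^ 2 +
      ∑ i, ∑ j, (if j < i then c * Phi γ k (σ i) (σ j) else 0) ^ 2 =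
      c ^ 2 * ∑ i, ∑ j, Kk γ k (σ i) (σ j) := by
    simp only [← Finset.sum_add_distrib, Finset.mul_sum]
    refine Finset.sum_congr rfl fun i _ => Finset.sum_congr rfl fun j _ => ?_
    unfold Kk
    rcases lt_trichotomy i j with h | rfl | h
    · rw [if_pos h, if_neg h.not_gt]; ring
    · simp [Phi_self]
    · rw [if_neg h.not_gt, if_pos h]; ring
  linarith

/-- Average `norm_path_le` (applied to `f s τ * exp (-(I * γ s * (√κ * ∑ i < j, …)))` and the same
for `g`) over the couplings (`prod_phase`, `gauss_exp`, `sum_sq_upper`,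
`norm_integral_le_of_norm_le_const`). -/
theorem norm_sum_wt_le {n : ℕ} (γ β : ℕ → ℝ) (k : ℕ) (κ : ℝ) (hκ : 0 ≤ κ)
    (f g : ℕ → (Fin n → Bool) → ℂ) (hf : ∀ s σ, ‖f s σ‖ ≤ 1) (hg : ∀ s σ, ‖g s σ‖ ≤ 1) :
    ‖∑ σ : Fin n → Pth k, wt (Qw β k) (Kk γ k) κ σ *
        ∏ s : Fin (k + 1), (f s (fun j => (σ j s).1) *
          (starRingEnd ℂ) (g s fun j => (σ j s).2))‖ ≤ 1 := by
  have : IsProbabilityMeasure (gaussianCouplings n) := by unfold gaussianCouplings; infer_instance
  set e : (Fin n → Fin n → ℝ) → ℕ → (Fin n → Bool) → ℂ := fun J s τ =>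
    exp (-(I * (γ s : ℂ) * ((√κ * ∑ i, ∑ j, if i < j then
      J i j * spinSign (τ i) * spinSign (τ j) else 0 : ℝ) : ℂ))) with he
  have hn : ∀ J s τ, ‖e J s τ‖ = 1 := fun J s τ => QNPath_norm _ _
  have h1 : ∀ J : Fin n → Fin n → ℝ, ‖∑ σ : Fin n → Pth k, ((∏ j, Qw β k (σ j)) *
      ∏ s : Fin (k + 1), (f s (fun j => (σ j s).1) * (starRingEnd ℂ) (g s fun j => (σ j s).2))) *
      exp (-(I * ((∑ i, ∑ j, J i j *
        (if i < j then √κ * Phi γ k (σ i) (σ j) else 0) : ℝ) : ℂ)))‖ ≤ 1 := by
    intro J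
    have := norm_path_le β (fun s τ => f s τ * e J s τ) (fun s τ => g s τ * e J s τ)
      (fun s τ => by rw [norm_mul, hn, mul_one]; exact hf s τ)
      (fun s τ => by rw [norm_mul, hn, mul_one]; exact hg s τ) k
    refine le_of_eq_of_le (congrArg _ (Finset.sum_congr rfl fun σ _ => ?_)) this
    rw [← prod_phase, mul_assoc, ← Finset.prod_mul_distrib]
    congr 1
    refine Finset.prod_congr rfl fun s _ => ?_
    simp only [he, map_mul]
    ring
  have h2 := norm_integral_le_of_norm_le_const (μ := gaussianCouplings n) (ae_of_all _ h1)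
  rw [integral_finsetSum _ fun σ _ => (gauss_integrable_exp n _).const_mul _] at h2
  simp only [integral_const_mul, gauss_exp, sum_sq_upper, Real.sq_sqrt hκ, probReal_univ,
    mul_one] at h2
  refine le_of_eq_of_le (congrArg _ (Finset.sum_congr rfl fun σ _ => ?_)) h2
  unfold wt
  ring

/-- `sum_wt_inj` on `Fin (r + n)` with `m = Fin.castAdd n` and `F = indicator of a`; the indicator
is a product over the heights of indicators of the forward and of the backward bits. -/
theorem bd_Qw (γ β : ℕ → ℝ) (k : ℕ) : Bd (Qw β k) (Kk γ k) := by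
  intro r n a κ hκ
  have h1 := sum_wt_inj (Qw β k) (Kk γ k) κ (ι := Fin (r + n)) (Fintype.card_fin _)
    (Fin.castAdd n) (Fin.castAdd_injective r n) (fun b => if b = a then 1 else 0)
  simp only [mul_ite, mul_one, mul_zero, Finset.sum_ite_eq', Finset.mem_univ, if_true] at h1
  rw [← h1]
  have h2 := norm_sum_wt_le (n := r + n) γ β k κ hκ
    (fun s τ => if h : s < k + 1 then
      (if ∀ ρ, τ (Fin.castAdd n ρ) = (a ρ ⟨s, h⟩).1 then 1 else 0) else 0)
    (fun s τ => if h : s < k + 1 then
      (if ∀ ρ, τ (Fin.castAdd n ρ) = (a ρ ⟨s, h⟩).2 then 1 else 0) else 0)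
    (fun s τ => by split_ifs <;> simp) (fun s τ => by split_ifs <;> simp)
  refine le_of_eq_of_le (congrArg _ (Finset.sum_congr rfl fun σ _ => ?_)) h2
  simp only [Fin.is_lt, dif_pos, Fin.eta]
  split_ifs with h
  · subst h
    simp
  · obtain ⟨ρ, hρ⟩ := Function.ne_iff.1 h
    obtain ⟨s, hs⟩ := Function.ne_iff.1 hρ
    rw [Finset.prod_eq_zero (Finset.mem_univ s), mul_zero]
    split_ifs with h3 h4
    · exact absurd (Prod.ext (h3 ρ) (h4 ρ)) hs
    · simp
    · simp
    · simp

/-- `expectedEnergy = ∑ x, vec β f p x * conj (vec β g p x)` with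
`g s τ = exp (-(I * γ s * pairEnergy n J τ))` and `f s τ = g s τ * (if s = p then pairEnergy n J τ
else 1)` (`vec_eq_alternatingState`; `vec β f p x = E x * vec β g p x`); then `vec_inner_path`,
`prod_phase` with `c = 1 / √n`, `gauss_mul_exp`, `sum_sq_upper`. -/
theorem energy_path (angles : List (ℝ × ℝ)) (n : ℕ) :
    ((∫ J, expectedEnergy n J (alternatingState n J angles) ∂gaussianCouplings n : ℝ) : ℂ) =
      (∑ i : Fin n, ∑ j : Fin n, if i < j then
        ∑ σ : Fin n → Pth angles.length,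
          wt (Qw (betL angles) angles.length) (Kk (gamL angles) angles.length) (1 / n) σ *
            eker (gamL angles) angles.length (σ i) (σ j) else 0) / (n : ℂ) := by
  set p := angles.length with hp
  set γ := gamL angles
  set β := betL angles
  have h1 : ∀ J, ((expectedEnergy n J (alternatingState n J angles) : ℝ) : ℂ) =
      ∑ σ : Fin n → Pth p, ∑ i, ∑ j,
        ((∏ j, Qw β p (σ j)) * (((if i < j then 1 / √n * (spinSign (σ i (Fin.last p)).1 *
          spinSign (σ j (Fin.last p)).1) else 0 : ℝ) : ℂ))) *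
        ((J i j : ℂ) * exp (-(I * ((∑ i, ∑ j, J i j *
          (if i < j then 1 / √n * Phi γ p (σ i) (σ j) else 0) : ℝ) : ℂ)))) := by
    intro J
    set g : ℕ → (Fin n → Bool) → ℂ :=
      fun s τ => exp (-(I * (γ s : ℂ) * (pairEnergy n J τ : ℂ))) with hg
    have a1 := QNPath_vec β g (fun τ => (pairEnergy n J τ : ℂ)) p
    have a2 := vec_inner_path β
      (fun s τ => (if s = p then (pairEnergy n J τ : ℂ) else 1) * g s τ) g p
    have a3 : ((expectedEnergy n J (alternatingState n J angles) : ℝ) : ℂ) =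
        ∑ x, (pairEnergy n J x : ℂ) * vec β g p x * (starRingEnd ℂ) (vec β g p x) := by
      unfold expectedEnergy
      rw [ofReal_sum]
      refine Finset.sum_congr rfl fun x _ => ?_
      rw [mul_assoc, mul_conj', vec_eq_alternatingState, costRotation, norm_mul, QNPath_norm,
        one_mul]
      push_cast
      ring
    rw [a3]
    simp only [← a1]
    rw [a2]
    refine Finset.sum_congr rfl fun σ _ => ?_
    simp only [mul_assoc, Finset.prod_mul_distrib (f := fun s : Fin (p + 1) =>
      if (s : ℕ) = p then (pairEnergy n J (fun j => (σ j s).1) : ℂ) else 1)]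
    have a4 : ∏ s : Fin (p + 1), (if (s : ℕ) = p then
        (pairEnergy n J (fun j => (σ j s).1) : ℂ) else 1) =
        (pairEnergy n J (fun j => (σ j (Fin.last p)).1) : ℂ) := by
      rw [Finset.prod_eq_single (Fin.last p)]
      · simp
      · intro s _ hs
        exact if_neg fun h => hs (Fin.ext h)
      · simp
    have a5 := prod_phase γ p (1 / √n) J σ
    rw [a4]
    simp only [hg, pairEnergy]
    rw [a5]
    simp only [← mul_assoc, ← Finset.sum_mul]
    congr 1
    simp only [Finset.mul_sum, ofReal_sum]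
    refine Finset.sum_congr rfl fun i _ => Finset.sum_congr rfl fun j _ => ?_
    split_ifs
    · simp only [ofReal_mul]
      ring
    · simp
  rw [← integral_complex_ofReal]
  simp only [h1]
  rw [integral_finsetSum _ fun σ _ => integrable_finsetSum _ fun i _ =>
    integrable_finsetSum _ fun j _ => (gauss_integrable_mul_exp n _ i j).const_mul _]
  have h2 : (1 / √(n : ℝ)) ^ 2 = 1 / n := by
    rw [div_pow, Real.sq_sqrt (Nat.cast_nonneg n), one_pow]
  have h3 : ∀ σ : Fin n → Pth p, ∫ J, ∑ i, ∑ j,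
        ((∏ j, Qw β p (σ j)) * (((if i < j then 1 / √n * (spinSign (σ i (Fin.last p)).1 *
          spinSign (σ j (Fin.last p)).1) else 0 : ℝ) : ℂ))) *
        ((J i j : ℂ) * exp (-(I * ((∑ i, ∑ j, J i j *
          (if i < j then 1 / √n * Phi γ p (σ i) (σ j) else 0) : ℝ) : ℂ)))) ∂gaussianCouplings n =
      ∑ i, ∑ j, (if i < j then wt (Qw β p) (Kk γ p) (1 / n) σ * eker γ p (σ i) (σ j) else 0) /
        (n : ℂ) := by
    intro σ
    rw [integral_finsetSum _ fun i _ =>
      integrable_finsetSum _ fun j _ => (gauss_integrable_mul_exp n _ i j).const_mul _]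
    refine Finset.sum_congr rfl fun i _ => ?_
    rw [integral_finsetSum _ fun j _ => (gauss_integrable_mul_exp n _ i j).const_mul _]
    refine Finset.sum_congr rfl fun j _ => ?_
    rw [integral_const_mul, gauss_mul_exp, sum_sq_upper, h2]
    split_ifs
    · have h4 : ((1 / √(n : ℝ) : ℝ) : ℂ) ^ 2 = 1 / n := by
        rw [← ofReal_pow, h2]
        push_cast
        rfl
      unfold wt eker
      rw [div_eq_mul_one_div _ (n : ℂ), ← h4]
      simp only [ofReal_mul]
      ring
    · simp
  simp only [h3]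
  rw [Finset.sum_comm, Finset.sum_div]
  refine Finset.sum_congr rfl fun i _ => ?_
  rw [Finset.sum_comm, Finset.sum_div]
  refine Finset.sum_congr rfl fun j _ => ?_
  split_ifs
  · rw [Finset.sum_div]
  · simp

end Crest.Agent.R339.QN
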