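import Crest.Agent.R339.QUniv
import Crest.Prelude.Def_SpinGlass
import Crest.Agent.R339.QNPair
import Crest.Agent.R339.QNPath
import Crest.Agent.R339.QNLim
import Crest.Agent.R339.QNModel

/-! # Row 339: the `n → ∞` limit of the alternating ansatz -/

set_option autoImplicit false

namespace Crest.Agent.R339

open MeasureTheory ProbabilityTheory Complex Filter Topology Asymptotics
open scoped InnerProductSpace

variable {H : Type} [NormedAddCommGroup H] [InnerProductSpace ℂ H] [CompleteSpace H]

open Crest.MathPhysics.SpinGlass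

theorem QLimit_take (𝓜 : Weyl H) (angles : List (ℝ × ℝ)) (k : ℕ) (hk : k ≤ angles.length) :
    𝓜.qaoa (angles.take k) = 𝓜.UE (QN.betL angles) (QN.gamL angles) (fun _ => 0) k := by
  induction k with
  | zero => simp [Weyl.qaoa, Weyl.UE]
  | succ k ih =>
    have hk' : k < angles.length := hk
    have ih' := ih hk'.le
    have h1 : angles.take (k + 1) = angles.take k ++ [angles[k]] := by
      rw [List.take_add_one, List.getElem?_eq_getElem hk']; rfl
    have h2 : angles.getD k (0, 0) = angles[k] := by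
      rw [List.getD_eq_getElem _ _ hk']
    unfold Weyl.qaoa at ih' ⊢
    rw [h1, List.foldl_append, ih']
    simp only [List.foldl_cons, List.foldl_nil, Weyl.UE, Weyl.C, QN.betL, QN.gamL, h2,
      zero_smul, add_zero, mul_assoc]

theorem qaoa_limit (𝓜 : Weyl H) (hR : 𝓜.R = ⊤) (angles : List (ℝ × ℝ)) :
    Tendsto (fun n : ℕ =>
      (∫ J, expectedEnergy n J (alternatingState n J angles) ∂gaussianCouplings n) / n) atTop
      (𝓝 (𝓜.energy (𝓜.br (𝓜.qaoa angles) 𝓜.Z))) := by
  set γ := QN.gamL angles with hγ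
  set β := QN.betL angles with hβ
  set p := angles.length with hp
  set x : ℕ → H := fun j => γ j • 𝓜.gE β γ (fun _ => 0) j + (0 : ℝ) • 𝓜.Ω with hxdef
  have hU : ∀ k, 𝓜.UE β γ (fun _ => 0) k = 𝓜.Uo β x k := fun k => 𝓜.UE_eq β γ _ k
  have hg : ∀ k, 𝓜.go β x k = 𝓜.gE β γ (fun _ => 0) k := fun k => by
    unfold Weyl.go Weyl.gE; rw [hU]
  have hx : ∀ j, x j = γ j • 𝓜.go β x j := fun j => by
    rw [hg]; simp [hxdef]
  have hq : 𝓜.br (𝓜.qaoa angles) 𝓜.Z = 𝓜.go β x p := by
    have := QLimit_take 𝓜 angles p le_rfl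
    rw [hp, List.take_length] at this
    rw [this, hg]; rfl
  have h1 := QN.pair_limit (QN.lim_nu γ β (QN.bd_Qw γ β) p) (QN.eker γ p)
  rw [QN.model_energy 𝓜 hR γ β x hx p, ← hq] at h1
  have h2 := (Complex.continuous_re.tendsto _).comp h1
  simp only [Complex.ofReal_re] at h2
  refine h2.congr fun n => ?_
  have h3 := QN.energy_path angles n
  simp only [Function.comp]
  rw [sq, ← div_div, ← h3, ← Complex.ofReal_natCast, ← Complex.ofReal_div, Complex.ofReal_re]

end Crest.Agent.R339
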