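import Crest.Agent.R339.QLabReach

/-! # Row 339: algebra of the loop -/

set_option autoImplicit false

namespace Crest.Agent.R339

open MeasureTheory ProbabilityTheory Complex Filter Topology
open scoped InnerProductSpace

variable {H : Type} [NormedAddCommGroup H] [InnerProductSpace ℂ H] [CompleteSpace H]

theorem muL_pos : 0 < muL := Real.exp_pos _
theorem muL_le : muL ≤ 2 / 3 := by
  have h := Real.add_one_le_exp (1 / 2 : ℝ)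
  rw [muL, Real.exp_neg, inv_le_comm₀ (Real.exp_pos _) (by norm_num)]
  linarith

namespace Weyl

variable {𝓜 : Weyl H} {Q : H →L[ℂ] H} {g x : H}

theorem norm_cosW_le (hg : g ∈ 𝓜.R) : ‖𝓜.cosW g‖ ≤ 1 := by
  have h1 := norm_le_one_of_unitary (𝓜.W_unitary hg)
  have h2 := norm_le_one_of_unitary (𝓜.W_unitary (𝓜.R.neg_mem hg))
  have h3 := norm_add_le (𝓜.W g) (𝓜.W (-g))
  rw [cosW, norm_smul, show ‖(1 / 2 : ℂ)‖ = 1 / 2 by simp]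
  linarith
theorem norm_sinW_le (hg : g ∈ 𝓜.R) : ‖𝓜.sinW g‖ ≤ 1 := by
  have h1 := norm_le_one_of_unitary (𝓜.W_unitary hg)
  have h2 := norm_le_one_of_unitary (𝓜.W_unitary (𝓜.R.neg_mem hg))
  have h3 := norm_sub_le (𝓜.W g) (𝓜.W (-g))
  rw [sinW, norm_smul, show ‖(1 / (2 * I) : ℂ)‖ = 1 / 2 by simp]
  linarith
theorem cosW_star (hg : g ∈ 𝓜.R) : star (𝓜.cosW g) = 𝓜.cosW g := by
  rw [cosW, star_smul, star_add, 𝓜.W_star g hg, 𝓜.W_star _ (𝓜.R.neg_mem hg), neg_neg, add_comm]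
  simp
theorem sinW_star (hg : g ∈ 𝓜.R) : star (𝓜.sinW g) = 𝓜.sinW g := by
  have h : star (1 / (2 * I) : ℂ) = -(1 / (2 * I)) := by simp
  rw [sinW, star_smul, star_sub, 𝓜.W_star g hg, 𝓜.W_star _ (𝓜.R.neg_mem hg), neg_neg, h, neg_smul,
    ← smul_neg, neg_sub]
theorem cosW_neg (g : H) : 𝓜.cosW (-g) = 𝓜.cosW g := by
  rw [cosW, cosW, neg_neg, add_comm]
theorem sinW_neg (g : H) : 𝓜.sinW (-g) = -𝓜.sinW g := by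
  rw [sinW, sinW, neg_neg, ← smul_neg, neg_sub]
theorem CW.cosW {T : H →L[ℂ] H} (h : 𝓜.CW T) (hg : g ∈ 𝓜.R) : T * 𝓜.cosW g = 𝓜.cosW g * T := by
  rw [Weyl.cosW, mul_smul_comm, smul_mul_assoc, mul_add, add_mul, h g hg, h _ (𝓜.R.neg_mem hg)]
theorem CW.sinW {T : H →L[ℂ] H} (h : 𝓜.CW T) (hg : g ∈ 𝓜.R) : T * 𝓜.sinW g = 𝓜.sinW g * T := by
  rw [Weyl.sinW, mul_smul_comm, smul_mul_assoc, mul_sub, sub_mul, h g hg, h _ (𝓜.R.neg_mem hg)]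
theorem WQ_sq (hQ : 𝓜.Invol Q) (hg : g ∈ 𝓜.R) : 𝓜.WQ Q g * 𝓜.WQ Q g = 𝓜.WQ Q ((2 : ℝ) • g) := by
  have h0 : (⟪g, g⟫_ℂ).im = 0 := inner_self_im (𝕜 := ℂ) g
  rw [WQ_mul hQ hg hg, h0, two_smul]
  simp
theorem WQ_conj_anticomm (hQ : 𝓜.Invol Q) (hg : g ∈ 𝓜.R) {T : H →L[ℂ] H} (hT : 𝓜.CW T)
    (e : T * Q = -(Q * T)) : star (𝓜.WQ Q g) * T * 𝓜.WQ Q g = T * 𝓜.WQ Q ((2 : ℝ) • g) := by
  rw [WQ_star hQ hg, ← WQ_anticomm hQ hT e hg, mul_assoc, WQ_sq hQ hg]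
/-- `O† W(x) O = W(x) exp (2 i Im⟪g, x⟫ Q)` for `O = exp (i Q φ(g))`. -/
theorem WQ_conj_W (hQ : 𝓜.Invol Q) (hg : g ∈ 𝓜.R) (hx : x ∈ 𝓜.R) :
    star (𝓜.WQ Q g) * 𝓜.W x * 𝓜.WQ Q g = 𝓜.W x *
      (((Real.cos (2 * (⟪g, x⟫_ℂ).im) : ℝ) : ℂ) • 1 +
        (I * ((Real.sin (2 * (⟪g, x⟫_ℂ).im) : ℝ) : ℂ)) • Q) := by
  have h1 := WQ_W hQ (𝓜.R.neg_mem hg) hx
  have h2 := Unitary.star_mul_self_of_mem (WQ_unitary hQ hg)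
  rw [inner_neg_left, neg_im, mul_neg, Real.cos_neg, Real.sin_neg, ← WQ_star hQ hg] at h1
  rw [h1, mul_assoc, mul_assoc, h2, mul_one]
  congr 1
  push_cast
  rw [mul_neg, neg_smul, sub_neg_eq_add]
theorem ql_W_W_W (hg : g ∈ 𝓜.R) (hx : x ∈ 𝓜.R) :
    𝓜.W g * (𝓜.W x * 𝓜.W g) = 𝓜.W (x + (2 : ℝ) • g) := by
  have h0 : (⟪g, g⟫_ℂ).im = 0 := inner_self_im (𝕜 := ℂ) g
  rw [𝓜.W_mul x hx g hg, mul_smul_comm, 𝓜.W_mul g hg _ (𝓜.R.add_mem hx hg), smul_smul,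
    ← Complex.exp_add, inner_add_right, add_im, h0, QBase_im_symm x g, two_smul,
    add_left_comm]
  simp
/-- `O W(x) O` has no phase. -/
theorem WQ_W_WQ (hQ : 𝓜.Invol Q) (hg : g ∈ 𝓜.R) (hx : x ∈ 𝓜.R) :
    𝓜.WQ Q g * 𝓜.W x * 𝓜.WQ Q g =
      (1 / 2 : ℂ) • (𝓜.W (x + (2 : ℝ) • g) + 𝓜.W (x - (2 : ℝ) • g)) +
        (1 / 2 : ℂ) • (Q * (𝓜.W (x + (2 : ℝ) • g) - 𝓜.W (x - (2 : ℝ) • g))) := by
  have hn := 𝓜.R.neg_mem hg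
  have hQQ : ∀ A : H →L[ℂ] H, Q * (Q * A) = A := fun A => by rw [← mul_assoc, hQ.sq, one_mul]
  have e1 : ∀ u ∈ 𝓜.R, ∀ A : H →L[ℂ] H, 𝓜.W u * (Q * A) = Q * (𝓜.W u * A) := fun u hu A => by
    rw [← mul_assoc, ← hQ.cw u hu, mul_assoc]
  have h1 := ql_W_W_W hg hx
  have h2 := ql_W_W_W hn hx
  rw [smul_neg, ← sub_eq_add_neg] at h2
  rw [WQ_eq hQ]
  simp only [mul_add, mul_sub, add_mul, sub_mul, one_mul, mul_smul_comm, smul_mul_assoc, mul_assoc,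
    e1 g hg, e1 _ hn, e1 x hx, hQQ, h1, h2]
  match_scalars <;> ring

end Weyl

namespace Label

variable {K : ℕ} {A : AMP K} {𝓛 : Label A H} {l : ℕ} {f : (Fin (K + 1) → ℝ) → ℝ}
  {N : Set (Fin (K + 1) → ℝ)} {U : H →L[ℂ] H}

theorem ql_ind_even (hN : Anc N) {θ : (Fin (K + 1) → ℝ) → ℝ} (h : ∀ ω, θ (-ω) = θ ω) (ω) :
    N.indicator θ (-ω) = N.indicator θ ω := by
  by_cases hω : ω ∈ N
  · rw [Set.indicator_of_mem hω, Set.indicator_of_mem ((hN.even ω).2 hω), h]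
  · rw [Set.indicator_of_notMem hω, Set.indicator_of_notMem fun h' => hω ((hN.even ω).1 h')]
theorem ql_ind_odd (hN : Anc N) {θ : (Fin (K + 1) → ℝ) → ℝ} (h : ∀ ω, θ (-ω) = -θ ω) (ω) :
    N.indicator θ (-ω) = -N.indicator θ ω := by
  by_cases hω : ω ∈ N
  · rw [Set.indicator_of_mem hω, Set.indicator_of_mem ((hN.even ω).2 hω), h]
  · rw [Set.indicator_of_notMem hω, Set.indicator_of_notMem fun h' => hω ((hN.even ω).1 h'),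
      neg_zero]
theorem ql_two_ind (N : Set (Fin (K + 1) → ℝ)) (θ : (Fin (K + 1) → ℝ) → ℝ) :
    (fun ω => 2 * N.indicator θ ω) = N.indicator fun ω => 2 * θ ω := by
  funext ω
  by_cases hω : ω ∈ N
  · rw [Set.indicator_of_mem hω, Set.indicator_of_mem hω]
  · rw [Set.indicator_of_notMem hω, Set.indicator_of_notMem hω, mul_zero]
theorem ql_ZX : 𝓛.Z * 𝓛.X = -(𝓛.X * 𝓛.Z) := by rw [𝓛.XZ, neg_neg]
theorem ql_ZY : 𝓛.Z * 𝓛.Y = -(𝓛.Y * 𝓛.Z) := by rw [𝓛.ZY, 𝓛.YZ]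
theorem ql_mZ (s : ℝ) : Measurable fun ω : Fin (K + 1) → ℝ => s * ω 0 := by fun_prop
theorem ql_mX (s : ℝ) : Measurable fun ω : Fin (K + 1) → ℝ => s * |ω 0| := by fun_prop
theorem ql_conj {R T : H →L[ℂ] H} (hR : R ∈ unitary (H →L[ℂ] H)) (e : T * R = R * T) :
    star R * T * R = T := by
  rw [mul_assoc, e, ← mul_assoc, Unitary.star_mul_self_of_mem hR, one_mul]
theorem ql_br_add (U O O' : H →L[ℂ] H) : 𝓛.br U (O + O') = 𝓛.br U O + 𝓛.br U O' := by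
  simp only [Weyl.br, add_apply, map_add]
theorem ql_br_smul (U O : H →L[ℂ] H) (c : ℝ) : 𝓛.br U ((c : ℂ) • O) = c • 𝓛.br U O := by
  rw [Weyl.br, smul_apply, map_smul, Complex.coe_smul, Weyl.br]
theorem ql_norm_br (hU : U ∈ unitary (H →L[ℂ] H)) {O : H →L[ℂ] H} (hO : ‖O‖ ≤ 1) :
    ‖𝓛.br U O‖ ≤ 1 := by
  rw [𝓛.norm_br hU]
  refine (Weyl.QReg_le_of hO _).trans ?_
  rw [Weyl.QReg_norm_unit hU, 𝓛.Ω_norm]
theorem ql_norm_mul {O O' : H →L[ℂ] H} (hO : ‖O‖ ≤ 1) (hO' : ‖O'‖ ≤ 1) : ‖O * O'‖ ≤ 1 :=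
  (norm_mul_le _ _).trans (mul_le_one₀ hO (norm_nonneg _) hO')

theorem Rs_loc (hN : Anc N) (s : ℝ) : 𝓛.Loc l (𝓛.Rs N s) := by
  refine Loc.mul (Gate.loc (Gate.Z _ ((ql_mZ s).indicator hN.compl.meas)
    (hN.compl.lvl_indicator fun ω ω' h => ?_) (ql_ind_odd hN.compl fun ω => ?_)))
    (Gate.loc (Gate.X _ ((ql_mX s).indicator hN.meas)
    (hN.lvl_indicator fun ω ω' h => ?_) (ql_ind_even hN fun ω => ?_)))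
  · rw [h 0 (Nat.zero_le l)]
  · simp
  · rw [h 0 (Nat.zero_le l)]
  · simp
theorem Xe_loc (hN : Anc N) (ε : ℝ) : 𝓛.Loc l (𝓛.Xe N ε) :=
  Gate.loc (Gate.X _ (measurable_const.indicator hN.compl.meas)
    (hN.compl.lvl_indicator fun _ _ _ => rfl) (ql_ind_even hN.compl fun _ => rfl))
theorem Xe_eq (hN : Anc N) (ε : ℝ) : 𝓛.Xe N ε = 1 + ((Real.cos ε - 1 : ℝ) : ℂ) • 𝓛.Ind Nᶜ -
    (I * ((Real.sin ε : ℝ) : ℂ)) • (𝓛.Ind Nᶜ * 𝓛.X) := by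
  have h1 := 𝓛.Ind_add_compl hN.compl.meas
  rw [Xe, rot_indicator _ measurable_const hN.compl.meas, rot_const, eq_sub_of_add_eq' h1]
  simp only [mul_sub, mul_smul_comm, mul_one]
  push_cast
  match_scalars <;> ring
theorem Xe_conj_Z (hN : Anc N) (ε : ℝ) : star (𝓛.Xe N ε) * 𝓛.Z * 𝓛.Xe N ε =
    𝓛.Z + ((Real.cos (2 * ε) - 1 : ℝ) : ℂ) • (𝓛.Ind Nᶜ * 𝓛.Z) +
      ((Real.sin (2 * ε) : ℝ) : ℂ) • (𝓛.Ind Nᶜ * 𝓛.Y) := by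
  have h1 := rot_conj_anticomm 𝓛.linv_X
    ((measurable_const (a := ε)).indicator hN.compl.meas) 𝓛.cm_Z ql_ZX
  rw [ql_two_ind] at h1
  have h2 : 𝓛.Z * 𝓛.Ind Nᶜ = 𝓛.Ind Nᶜ * 𝓛.Z := (𝓛.cm_Z.Ind hN.compl.meas).symm
  refine h1.trans ?_
  change 𝓛.Z * 𝓛.Xe N (2 * ε) = _
  rw [Xe_eq hN]
  simp only [mul_sub, mul_add, mul_smul_comm, mul_one, ← mul_assoc, h2]
  rw [mul_assoc, 𝓛.ZX, mul_smul_comm]
  match_scalars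
  · ring
  · ring
  · linear_combination (-Complex.sin (2 * ε)) * I_mul_I
theorem norm_Xe_sub_one (hN : Anc N) (ε : ℝ) : ‖𝓛.Xe N ε - 1‖ ≤ 2 * |ε| := by
  rw [← 𝓛.rot_zero 𝓛.X]
  refine norm_rot_sub 𝓛.linv_X (measurable_const.indicator hN.compl.meas) measurable_const
    fun ω => ?_
  by_cases hω : ω ∈ Nᶜ
  · rw [Set.indicator_of_mem hω, sub_zero]
  · rw [Set.indicator_of_notMem hω, sub_zero, abs_zero]
    exact abs_nonneg _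
theorem Ind_Rs (hN : Anc N) (s : ℝ) :
    𝓛.Ind N * 𝓛.Rs N s = 𝓛.Ind N * 𝓛.rot 𝓛.X fun ω => s * |ω 0| := by
  rw [Rs, rot_indicator _ (ql_mZ s) hN.compl.meas, rot_indicator _ (ql_mX s) hN.meas, compl_compl]
  simp only [mul_add, add_mul, ← mul_assoc, 𝓛.Ind_mul_compl hN.meas, 𝓛.Ind_sq hN.meas, zero_mul,
    zero_add, add_zero]
theorem Ind_compl_Rs (hN : Anc N) (s : ℝ) :
    𝓛.Ind Nᶜ * 𝓛.Rs N s = 𝓛.Ind Nᶜ * 𝓛.rot 𝓛.Z fun ω => s * ω 0 := by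
  have h1 := (rot_cm 𝓛.linv_Z (ql_mZ s)).Ind hN.compl.meas
  rw [Rs, rot_indicator _ (ql_mZ s) hN.compl.meas, rot_indicator _ (ql_mX s) hN.meas, compl_compl,
    ← mul_assoc, mul_add (𝓛.Ind Nᶜ), ← mul_assoc, 𝓛.Ind_sq hN.compl.meas, 𝓛.Ind_compl_mul hN.meas, add_zero,
    h1, mul_assoc, mul_add, ← mul_assoc, 𝓛.Ind_compl_mul hN.meas, zero_mul, zero_add,
    𝓛.Ind_sq hN.compl.meas]
theorem Rs_conj_Z (hN : Anc N) (s : ℝ) :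
    star (𝓛.Rs N s) * (𝓛.Ind Nᶜ * 𝓛.Z) * 𝓛.Rs N s = 𝓛.Ind Nᶜ * 𝓛.Z := by
  have hR : 𝓛.Loc 0 (𝓛.Rs N s) := Rs_loc hN s
  refine ql_conj hR.unitary ?_
  have h1 := 𝓛.cm_Z.Ind hN.compl.meas
  have h2 := hR.cm.Ind hN.compl.meas
  have h3 := rot_comm (Q := 𝓛.Z) (ql_mZ s) 𝓛.cm_Z rfl
  rw [← mul_assoc, ← h2, h1, mul_assoc, Ind_compl_Rs hN, ← mul_assoc, ← h1, mul_assoc, h3,
    mul_assoc]
theorem Rs_conj_X (hN : Anc N) (s : ℝ) :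
    star (𝓛.Rs N s) * (𝓛.Ind N * 𝓛.X) * 𝓛.Rs N s = 𝓛.Ind N * 𝓛.X := by
  have hR : 𝓛.Loc 0 (𝓛.Rs N s) := Rs_loc hN s
  refine ql_conj hR.unitary ?_
  have h1 := 𝓛.cm_X.Ind hN.meas
  have h2 := hR.cm.Ind hN.meas
  have h3 := rot_comm (Q := 𝓛.X) (ql_mX s) 𝓛.cm_X rfl
  rw [← mul_assoc, ← h2, h1, mul_assoc, Ind_Rs hN, ← mul_assoc, ← h1, mul_assoc, h3, mul_assoc]

theorem Mf_eq (hf : Sgn l f) (hN : Anc N) : 𝓛.Mf f N = 𝓛.Ind Nᶜ * 𝓛.Mr f :=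
  Mr_indicator hf.br hN.compl.meas
theorem Mf_br (hf : Sgn l f) (hN : Anc N) : BR (Nᶜ.indicator f) :=
  hf.br.indicator hN.compl.meas
theorem Mf_sq (hf : Sgn l f) (hN : Anc N) : 𝓛.Mf f N * 𝓛.Mf f N = 𝓛.Ind Nᶜ := by
  have h1 := (𝓛.cm_Ind hN.compl.meas).Mr hf.br
  rw [Mf_eq hf hN, mul_assoc, ← mul_assoc (𝓛.Mr f), h1, mul_assoc, (linv_sgn hf).inv.sq, mul_one,
    𝓛.Ind_sq hN.compl.meas]
theorem norm_Mf_le (hf : Sgn l f) (hN : Anc N) : ‖𝓛.Mf f N‖ ≤ 1 := by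
  refine norm_Mr_le (hf.meas.indicator hN.compl.meas) fun ω => ?_
  by_cases hω : ω ∈ Nᶜ
  · rw [Set.indicator_of_mem hω]
    exact hf.bdd ω
  · rw [Set.indicator_of_notMem hω, abs_zero]
    exact zero_le_one
theorem ql_rot_sgn (hf : Sgn l f) (Q : H →L[ℂ] H) :
    𝓛.rot Q (fun ω => 2 * (-(Real.pi / 4) * f ω)) = I • (𝓛.Mr f * Q) := by
  have hm : Measurable fun ω => 2 * (-(Real.pi / 4) * f ω) :=
    (hf.meas.const_mul _).const_mul _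
  have h1 : 𝓛.Mr (fun ω => Real.cos (2 * (-(Real.pi / 4) * f ω))) = 𝓛.Mr fun _ => 0 := by
    refine Mr_congr (BR.cos hm) (BR.const 0) (hf.sq.mono fun ω hω => ?_)
    rcases sq_eq_one_iff.1 hω with e | e
    · simp only [e]
      rw [show 2 * (-(Real.pi / 4) * 1) = -(Real.pi / 2) by ring, Real.cos_neg,
        Real.cos_pi_div_two]
    · simp only [e]
      rw [show 2 * (-(Real.pi / 4) * -1) = Real.pi / 2 by ring, Real.cos_pi_div_two]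
  have h2 : 𝓛.Mr (fun ω => Real.sin (2 * (-(Real.pi / 4) * f ω))) = 𝓛.Mr fun ω => -f ω := by
    refine Mr_congr (BR.sin hm) hf.br.neg (hf.sq.mono fun ω hω => ?_)
    rcases sq_eq_one_iff.1 hω with e | e
    · simp only [e]
      rw [show 2 * (-(Real.pi / 4) * 1) = -(Real.pi / 2) by ring, Real.sin_neg,
        Real.sin_pi_div_two]
    · simp only [e]
      rw [show 2 * (-(Real.pi / 4) * -1) = Real.pi / 2 by ring, Real.sin_pi_div_two, neg_neg]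
  rw [rot, h1, h2, Mr_const, Mr_neg hf.br]
  simp
theorem Qf_conj (hf : Sgn l f) (hN : Anc N) : ∃ G, 𝓛.Loc l G ∧ star G * 𝓛.Z * G = 𝓛.Qf f N := by
  have hm : Measurable fun ω => -(Real.pi / 4) * f ω := hf.meas.const_mul _
  have hm' := hm.indicator hN.compl.meas
  have hY : 𝓛.Loc l (𝓛.rot 𝓛.Y (Nᶜ.indicator fun ω => -(Real.pi / 4) * f ω)) :=
    loc_rot_Y hm' (hN.compl.lvl_indicator fun ω ω' h => by rw [hf.lvl ω ω' h])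
      (ql_ind_odd hN.compl fun ω => by rw [hf.odd, mul_neg])
  have hX : 𝓛.Loc l (𝓛.Xe Nᶜ (Real.pi / 4)) := Xe_loc hN.compl _
  have h1 := rot_conj_anticomm 𝓛.linv_Y hm' 𝓛.cm_Z ql_ZY
  rw [ql_two_ind, rot_indicator _ (hm.const_mul 2) hN.compl.meas, ql_rot_sgn hf, compl_compl] at h1
  have h2 : 𝓛.Z * (𝓛.Ind Nᶜ * I • (𝓛.Mr f * 𝓛.Y) + 𝓛.Ind N) =
      𝓛.Mf f N * 𝓛.X + 𝓛.Ind N * 𝓛.Z := by
    rw [mul_add, ← 𝓛.cm_Z.Ind hN.meas, mul_smul_comm, ← mul_assoc (𝓛.Ind Nᶜ), ← Mf_eq hf hN,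
      mul_smul_comm, ← mul_assoc, Mf, ← 𝓛.cm_Z.Mr (Mf_br hf hN), mul_assoc, 𝓛.ZY, mul_neg,
      mul_smul_comm, smul_neg, smul_smul, I_mul_I, neg_smul, one_smul, neg_neg]
  have h3 := Xe_conj_Z (𝓛 := 𝓛) hN.compl (Real.pi / 4)
  rw [show 2 * (Real.pi / 4) = Real.pi / 2 by ring, Real.cos_pi_div_two, Real.sin_pi_div_two,
    compl_compl] at h3
  have h4 : star (𝓛.Xe Nᶜ (Real.pi / 4)) * (𝓛.Mf f N * 𝓛.X) * 𝓛.Xe Nᶜ (Real.pi / 4) =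
      𝓛.Mf f N * 𝓛.X := by
    refine ql_conj hX.unitary (rot_comm (measurable_const.indicator hN.compl.compl.meas)
      ((cm_M (Mf_br hf hN)).mul 𝓛.cm_X) ?_)
    rw [← mul_assoc, Mf, 𝓛.cm_X.Mr (Mf_br hf hN)]
  have h5 : star (𝓛.Xe Nᶜ (Real.pi / 4)) * (𝓛.Ind N * 𝓛.Z) * 𝓛.Xe Nᶜ (Real.pi / 4) =
      𝓛.Ind N * 𝓛.Y := by
    rw [← mul_assoc, ← hX.cm.star.Ind hN.meas, mul_assoc (𝓛.Ind N), mul_assoc (𝓛.Ind N), h3]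
    simp only [mul_add, mul_smul_comm, ← mul_assoc, 𝓛.Ind_sq hN.meas]
    match_scalars <;> simp
  refine ⟨_, hY.mul hX, ?_⟩
  rw [star_mul, mul_assoc (star (𝓛.Xe Nᶜ (Real.pi / 4))), ← mul_assoc _ _ (𝓛.Xe Nᶜ (Real.pi / 4)),
    mul_assoc (star (𝓛.Xe Nᶜ (Real.pi / 4))), h1, h2, mul_add, add_mul, h4, h5, Qf]
theorem Qf_linv (hf : Sgn l f) (hN : Anc N) : 𝓛.LInv (𝓛.Qf f N) := by
  obtain ⟨G, hG, e⟩ := Qf_conj (𝓛 := 𝓛) hf hN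
  rw [← e]
  exact ⟨𝓛.invol_Z.conj hG.unitary hG.cw, (hG.cm.star.mul 𝓛.cm_Z).mul hG.cm⟩
theorem Z_Qf (hf : Sgn l f) (hN : Anc N) : 𝓛.Z * 𝓛.Qf f N = -(𝓛.Qf f N * 𝓛.Z) := by
  rw [Qf, mul_add, add_mul, ← mul_assoc, ← mul_assoc, Mf, ← 𝓛.cm_Z.Mr (Mf_br hf hN),
    ← 𝓛.cm_Z.Ind hN.meas, mul_assoc, mul_assoc, mul_assoc, mul_assoc, ql_ZX, ql_ZY, mul_neg, mul_neg,
    neg_add]
theorem Ind_Qf (hf : Sgn l f) (hN : Anc N) : 𝓛.Ind N * 𝓛.Qf f N = 𝓛.Ind N * 𝓛.Y := by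
  rw [Qf, Mf_eq hf hN]
  simp only [mul_add, ← mul_assoc, 𝓛.Ind_mul_compl hN.meas, 𝓛.Ind_sq hN.meas, zero_mul, zero_add]
theorem Ind_compl_Qf (hf : Sgn l f) (hN : Anc N) : 𝓛.Ind Nᶜ * 𝓛.Qf f N = 𝓛.Mf f N * 𝓛.X := by
  rw [Qf, Mf_eq hf hN]
  simp only [mul_add, ← mul_assoc, 𝓛.Ind_compl_mul hN.meas, 𝓛.Ind_sq hN.compl.meas, zero_mul,
    add_zero]

variable (h : 𝓛.Hyp l f N U) (τ ε s : ℝ)
include h

theorem Hyp.ql_pr1 : 𝓛.PR l (𝓛.Rs N s * U) := PR.loc (Rs_loc h.anc s) h.reach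
theorem Hyp.ql_linv : 𝓛.LInv (𝓛.Qf f N) := Qf_linv h.sgn h.anc
theorem Hyp.lq_real : 𝓛.RealL (𝓛.lq f N U s) :=
  realL_br (h.ql_pr1 s).unitary (h.ql_pr1 s).cm h.ql_linv.inv.star_eq h.ql_linv.cm
theorem Hyp.norm_lq : ‖𝓛.lq f N U s‖ = 1 :=
  𝓛.norm_br_invol (h.ql_pr1 s).unitary h.ql_linv.inv
theorem Hyp.pr2 : 𝓛.PR l (𝓛.lO f N U s * (𝓛.Rs N s * U)) := by
  obtain ⟨G, hG, e⟩ := Qf_conj (𝓛 := 𝓛) h.sgn h.anc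
  have h1 := PR.WQ hG (h.ql_pr1 s) (1 / 2)
  rw [e] at h1
  exact h1
theorem Hyp.lg_real : 𝓛.RealL (𝓛.lg f N U s) :=
  realL_br (h.pr2 s).unitary (h.pr2 s).cm 𝓛.Z_star 𝓛.cm_Z
theorem Hyp.norm_lg : ‖𝓛.lg f N U s‖ = 1 :=
  𝓛.norm_br_invol (h.pr2 s).unitary 𝓛.invol_Z
theorem Hyp.pr3 : 𝓛.PR l (𝓛.lU3 f N U τ s) :=
  (h.pr2 s).C τ
theorem Hyp.ql_pr4 : 𝓛.PR l (𝓛.Xe N ε * 𝓛.lU3 f N U τ s) := PR.loc (Xe_loc h.anc ε) (h.pr3 τ s)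
theorem Hyp.ql_mO : -((1 / 2 : ℝ) • 𝓛.lq f N U s) ∈ 𝓛.R := ((h.lq_real s).smul _).neg.mem_R
theorem Hyp.ql_mI : -(τ • 𝓛.lg f N U s) ∈ 𝓛.R := ((h.lg_real s).smul _).neg.mem_R
theorem Hyp.lu1_real : 𝓛.RealL (𝓛.lu1 f N U τ ε s) :=
  ((realL_br (h.ql_pr4 τ ε s).unitary (h.ql_pr4 τ ε s).cm 𝓛.Z_star 𝓛.cm_Z).sub
    (h.lg_real s)).smul τ
theorem Hyp.lu1_eq : 𝓛.lu1 f N U τ ε s =
    (τ * (Real.cos (2 * ε) - 1)) • 𝓛.br (𝓛.lU3 f N U τ s) (𝓛.Ind Nᶜ * 𝓛.Z) +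
      (τ * Real.sin (2 * ε)) • 𝓛.br (𝓛.lU3 f N U τ s) (𝓛.Ind Nᶜ * 𝓛.Y) := by
  have h1 : 𝓛.br (𝓛.lU3 f N U τ s) 𝓛.Z = 𝓛.lg f N U s := by
    rw [lU3, 𝓛.br_mul, lI, ql_conj (Weyl.WQ_unitary 𝓛.invol_Z (h.ql_mI τ s))
      (Weyl.WQ_comm 𝓛.invol_Z 𝓛.invol_Z.cw rfl (h.ql_mI τ s))]
    rfl
  rw [lu1, 𝓛.br_mul, Xe_conj_Z h.anc, ql_br_add, ql_br_add, ql_br_smul, ql_br_smul, h1]
  module
theorem Hyp.norm_lu1 : ‖𝓛.lu1 f N U τ ε s‖ ≤ 4 * |τ| * |ε| := by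
  have hI := 𝓛.norm_Ind_le h.anc.compl.meas
  have h1 := ql_norm_br (𝓛 := 𝓛) (h.pr3 τ s).unitary
    (ql_norm_mul hI (norm_le_one_of_unitary 𝓛.invol_Z.mem_unitary))
  have h2 := ql_norm_br (𝓛 := 𝓛) (h.pr3 τ s).unitary
    (ql_norm_mul hI (norm_le_one_of_unitary 𝓛.invol_Y.mem_unitary))
  have h3 : |Real.cos (2 * ε) - 1| ≤ 2 * |ε| := by
    have := Real.abs_cos_sub_cos_le (2 * ε) 0
    rwa [Real.cos_zero, sub_zero, abs_mul, abs_two] at this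
  have h4 : |Real.sin (2 * ε)| ≤ 2 * |ε| := by
    have := Real.abs_sin_le_abs (x := 2 * ε)
    rwa [abs_mul, abs_two] at this
  rw [h.lu1_eq]
  refine (norm_add_le _ _).trans ?_
  rw [norm_smul, norm_smul, Real.norm_eq_abs, Real.norm_eq_abs, abs_mul, abs_mul]
  have h5 := mul_le_mul (mul_le_mul_of_nonneg_left h3 (abs_nonneg τ)) h1 (norm_nonneg _)
    (by positivity)
  have h6 := mul_le_mul (mul_le_mul_of_nonneg_left h4 (abs_nonneg τ)) h2 (norm_nonneg _)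
    (by positivity)
  linarith
theorem Hyp.lO_unitary : 𝓛.lO f N U s ∈ unitary (H →L[ℂ] H) :=
  Weyl.WQ_unitary h.ql_linv.inv (h.ql_mO s)
theorem Hyp.lI_unitary : 𝓛.lI f N U τ s ∈ unitary (H →L[ℂ] H) :=
  Weyl.WQ_unitary 𝓛.invol_Z (h.ql_mI τ s)
theorem Hyp.lD1_unitary : 𝓛.lD1 f N U τ ε s ∈ unitary (H →L[ℂ] H) :=
  mul_mem (mul_mem (Unitary.star_mem (h.lO_unitary s)) (mul_mem (mul_mem
    (Unitary.star_mem (h.lI_unitary τ s)) (Xe_loc (l := l) h.anc ε).unitary) (h.lI_unitary τ s)))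
    (h.lO_unitary s)
theorem Hyp.lD2_unitary : 𝓛.lD2 f N U τ ε s ∈ unitary (H →L[ℂ] H) :=
  mul_mem (mul_mem (Unitary.star_mem (h.lO_unitary s))
    (Weyl.WQ_unitary 𝓛.invol_Z (h.lu1_real τ ε s).mem_R)) (h.lO_unitary s)
theorem Hyp.lO_cm : 𝓛.CM (𝓛.lO f N U s) :=
  cm_WQ h.ql_linv.cm (h.ql_mO s)
theorem Hyp.lI_cm : 𝓛.CM (𝓛.lI f N U τ s) :=
  cm_WQ 𝓛.cm_Z (h.ql_mI τ s)
theorem Hyp.lD1_cm : 𝓛.CM (𝓛.lD1 f N U τ ε s) :=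
  ((h.lO_cm s).star.mul (((h.lI_cm τ s).star.mul (Xe_loc (l := l) h.anc ε).cm).mul
    (h.lI_cm τ s))).mul (h.lO_cm s)
theorem Hyp.lD2_cm : 𝓛.CM (𝓛.lD2 f N U τ ε s) :=
  ((h.lO_cm s).star.mul (cm_WQ 𝓛.cm_Z (h.lu1_real τ ε s).mem_R)).mul (h.lO_cm s)
theorem Hyp.lu2_real : 𝓛.RealL (𝓛.lu2 f N U τ ε s) :=
  ((realL_br (mul_mem (mul_mem (h.lD2_unitary τ ε s) (h.lD1_unitary τ ε s)) (h.ql_pr1 s).unitary)
    (((h.lD2_cm τ ε s).mul (h.lD1_cm τ ε s)).mul (h.ql_pr1 s).cm) h.ql_linv.inv.star_eq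
    h.ql_linv.cm).sub (h.lq_real s)).smul _
theorem Hyp.lD3_unitary : 𝓛.lD3 f N U τ ε s ∈ unitary (H →L[ℂ] H) :=
  Weyl.WQ_unitary h.ql_linv.inv (h.lu2_real τ ε s).mem_R
theorem Hyp.lL_unitary : 𝓛.lL f N U τ ε s ∈ unitary (H →L[ℂ] H) :=
  mul_mem (mul_mem (Unitary.star_mem (Rs_loc (l := l) h.anc s).unitary) (mul_mem (mul_mem
    (h.lD3_unitary τ ε s) (h.lD2_unitary τ ε s)) (h.lD1_unitary τ ε s)))
    (Rs_loc (l := l) h.anc s).unitary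
theorem Hyp.lD3_cm : 𝓛.CM (𝓛.lD3 f N U τ ε s) :=
  cm_WQ h.ql_linv.cm (h.lu2_real τ ε s).mem_R
theorem Hyp.lL_cm : 𝓛.CM (𝓛.lL f N U τ ε s) :=
  ((Rs_loc (l := l) h.anc s).cm.star.mul (((h.lD3_cm τ ε s).mul (h.lD2_cm τ ε s)).mul
    (h.lD1_cm τ ε s))).mul (Rs_loc (l := l) h.anc s).cm
theorem Hyp.lD1_eq : 𝓛.lD1 f N U τ ε s = 1 + ((Real.cos ε - 1 : ℝ) : ℂ) • 𝓛.Ind Nᶜ -
    (I * ((Real.sin ε : ℝ) : ℂ)) • (𝓛.Ind Nᶜ * (star (𝓛.lO f N U s) *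
      (star (𝓛.lI f N U τ s) * 𝓛.X * 𝓛.lI f N U τ s) * 𝓛.lO f N U s)) := by
  have hm := h.anc.compl.meas
  have e1 : ∀ B, star (𝓛.lO f N U s) * (𝓛.Ind Nᶜ * B) = 𝓛.Ind Nᶜ * (star (𝓛.lO f N U s) * B) :=
    fun B => by rw [← mul_assoc, ← (h.lO_cm s).star.Ind hm, mul_assoc]
  have e2 : ∀ B, star (𝓛.lI f N U τ s) * (𝓛.Ind Nᶜ * B) =
      𝓛.Ind Nᶜ * (star (𝓛.lI f N U τ s) * B) :=
    fun B => by rw [← mul_assoc, ← (h.lI_cm τ s).star.Ind hm, mul_assoc]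
  have e3 : ∀ B, star (𝓛.lI f N U τ s) * (𝓛.lI f N U τ s * B) = B := fun B => by
    rw [← mul_assoc, Unitary.star_mul_self_of_mem (h.lI_unitary τ s), one_mul]
  have e4 := Unitary.star_mul_self_of_mem (h.lO_unitary s)
  rw [lD1, Xe_eq h.anc]
  simp only [mul_add, mul_sub, add_mul, sub_mul, mul_smul_comm, smul_mul_assoc, mul_assoc,
    e1, e2, e3, e4, mul_one]
theorem Hyp.Ind_lD1 : 𝓛.Ind N * 𝓛.lD1 f N U τ ε s = 𝓛.Ind N := by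
  rw [h.lD1_eq]
  simp only [mul_add, mul_sub, mul_smul_comm, ← mul_assoc, 𝓛.Ind_mul_compl h.anc.meas, zero_mul,
    smul_zero, mul_one, add_zero, sub_zero]
theorem Hyp.norm_lD1_sub_one : ‖𝓛.lD1 f N U τ ε s - 1‖ ≤ 2 * |ε| := by
  have hO := h.lO_unitary s
  have hI := h.lI_unitary τ s
  have e : 𝓛.lD1 f N U τ ε s - 1 = star (𝓛.lO f N U s) *
      (star (𝓛.lI f N U τ s) * (𝓛.Xe N ε - 1) * 𝓛.lI f N U τ s) * 𝓛.lO f N U s := by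
    rw [lD1, mul_sub, sub_mul, mul_one, Unitary.star_mul_self_of_mem hI, mul_sub, sub_mul, mul_one,
      Unitary.star_mul_self_of_mem hO]
  rw [e, CStarRing.norm_mul_mem_unitary _ hO,
    CStarRing.norm_mem_unitary_mul _ (Unitary.star_mem hO), CStarRing.norm_mul_mem_unitary _ hI,
    CStarRing.norm_mem_unitary_mul _ (Unitary.star_mem hI)]
  exact norm_Xe_sub_one h.anc ε
/-- The loop is a legal protocol. -/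
theorem Hyp.pr_lL : 𝓛.PR l (𝓛.lL f N U τ ε s * U) := by
  obtain ⟨G, hG, e⟩ := Qf_conj (𝓛 := 𝓛) h.sgn h.anc
  have hQ := h.ql_linv.inv
  have hO := h.lO_unitary s
  have eO : ∀ B, 𝓛.lO f N U s * (star (𝓛.lO f N U s) * B) = B := fun B => by
    rw [← mul_assoc, Unitary.mul_star_self_of_mem hO, one_mul]
  -- the inner cost rotation
  obtain ⟨V, hV, eV⟩ : ∃ V, 𝓛.PR l V ∧
      𝓛.lD2 f N U τ ε s * 𝓛.lD1 f N U τ ε s * (𝓛.Rs N s * U) = star (𝓛.lO f N U s) * V := by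
    have h1 := ((h.ql_pr4 τ ε s).C (-τ)).smul (Weyl.QBase_norm_phase
      (⟪𝓛.lu1 f N U τ ε s, τ • 𝓛.lg f N U s⟫_ℂ).im)
    refine ⟨_, h1, ?_⟩
    have h2 : 𝓛.lu1 f N U τ ε s + τ • 𝓛.lg f N U s =
        -(-τ • 𝓛.br (𝓛.Xe N ε * 𝓛.lU3 f N U τ s) 𝓛.Z) := by
      rw [lu1]; module
    have h3 : star (𝓛.lI f N U τ s) = 𝓛.WZ (τ • 𝓛.lg f N U s) := by
      rw [lI, Weyl.WQ_star 𝓛.invol_Z (h.ql_mI τ s), neg_neg]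
    rw [Weyl.C, ← h2, ← smul_mul_assoc, ← Weyl.WQ_mul 𝓛.invol_Z (h.lu1_real τ ε s).mem_R
      ((h.lg_real s).smul τ).mem_R, lD2, lD1, lU3]
    simp only [mul_assoc, eO]
    rw [h3]
  have h4 : star (𝓛.lO f N U s) = 𝓛.WQ (𝓛.Qf f N) ((1 / 2 : ℝ) • 𝓛.lq f N U s) := by
    rw [lO, Weyl.WQ_star hQ (h.ql_mO s), neg_neg]
  have h5 : 𝓛.br (star (𝓛.lO f N U s) * V) (𝓛.Qf f N) = 𝓛.br V (𝓛.Qf f N) := by
    rw [𝓛.br_mul, ql_conj (Unitary.star_mem hO)]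
    rw [h4]
    exact Weyl.WQ_comm hQ hQ.cw rfl ((h.lq_real s).smul _).mem_R
  have h6 : 𝓛.lu2 f N U τ ε s + (1 / 2 : ℝ) • 𝓛.lq f N U s =
      -((-(1 / 2) : ℝ) • 𝓛.br V (𝓛.Qf f N)) := by
    rw [lu2, eV, h5]; module
  have h7 := PR.WQ hG hV (-(1 / 2))
  rw [e, ← h6] at h7
  have h8 := h7.smul (Weyl.QBase_norm_phase
    (⟪𝓛.lu2 f N U τ ε s, (1 / 2 : ℝ) • 𝓛.lq f N U s⟫_ℂ).im)
  rw [← smul_mul_assoc, ← Weyl.WQ_mul hQ (h.lu2_real τ ε s).mem_R ((h.lq_real s).smul _).mem_R,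
    ← h4, mul_assoc, ← eV] at h8
  have h9 := PR.loc (Rs_loc (l := l) h.anc s).star h8
  rw [lL, lD3]
  simpa only [mul_assoc] using h9
theorem Hyp.gS_real : 𝓛.RealL (𝓛.gS N U) :=
  realL_br h.reach.unitary h.reach.cm
    (by rw [star_mul, 𝓛.Z_star, 𝓛.Ind_star h.anc.compl.meas, 𝓛.cm_Z.Ind h.anc.compl.meas])
    ((𝓛.cm_Ind h.anc.compl.meas).mul 𝓛.cm_Z)
theorem Hyp.norm_gS : ‖𝓛.gS N U‖ ≤ 1 :=
  ql_norm_br h.reach.unitary (ql_norm_mul (𝓛.norm_Ind_le h.anc.compl.meas)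
    (norm_le_one_of_unitary 𝓛.invol_Z.mem_unitary))
theorem Hyp.lam_real : 𝓛.RealL (𝓛.lam f N U τ) := by
  have hg := (h.gS_real.smul (bL τ)).mem_R
  have hb := Mf_br h.sgn h.anc
  refine realL_br h.reach.unitary h.reach.cm ?_ ((cm_M hb).mul (cm_cosW hg))
  rw [star_mul, Weyl.cosW_star hg, Mf, Mr_star hb]
  exact ((M_cw hb).cosW hg).symm
theorem Hyp.norm_lam : ‖𝓛.lam f N U τ‖ ≤ 1 :=
  ql_norm_br h.reach.unitary (ql_norm_mul (norm_Mf_le h.sgn h.anc)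
    (Weyl.norm_cosW_le (h.gS_real.smul (bL τ)).mem_R))
theorem Hyp.ql_mu : 0 ≤ muL ^ 2 * ‖𝓛.gS N U‖ ^ 2 ∧ muL ^ 2 * ‖𝓛.gS N U‖ ^ 2 ≤ 1 :=
  ⟨by positivity, mul_le_one₀ (pow_le_one₀ muL_pos.le (muL_le.trans (by norm_num))) (sq_nonneg _)
    (pow_le_one₀ (norm_nonneg _) h.norm_gS)⟩
theorem Hyp.abs_kap : |𝓛.kap N U τ| ≤ 1 := by
  rw [kap, abs_mul, abs_of_pos (Real.exp_pos _)]
  refine mul_le_one₀ (Real.exp_le_one_iff.2 ?_) (abs_nonneg _) (Real.abs_sin_le_one _)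
  exact neg_nonpos.2 (mul_nonneg (by positivity) (sub_nonneg.2 h.ql_mu.2))
theorem Hyp.le_kap (hτ : 0 < τ) (hτ' : τ ≤ 1) {x : ℝ} (hx : 0 ≤ x) (hx' : x ≤ 𝓛.xA N U) :
    Real.exp (-2) * Real.sin (bL τ * x) ≤ 𝓛.kap N U τ := by
  have hμ := muL_pos
  have hμ' := muL_le
  have hb : 0 ≤ bL τ := by unfold bL; positivity
  have hb' : bL τ ≤ 4 / 3 := by unfold bL; nlinarith
  have hA : 𝓛.xA N U ≤ 1 := (abs_le.1 (abs_xA_le h.anc.meas h.reach.unitary)).2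
  have h0 : 0 ≤ bL τ * x := mul_nonneg hb hx
  have h1 : bL τ * x ≤ bL τ * 𝓛.xA N U := mul_le_mul_of_nonneg_left hx' hb
  have h2 : bL τ * 𝓛.xA N U ≤ Real.pi / 2 := by
    have := mul_le_mul_of_nonneg_left hA hb
    linarith [Real.pi_gt_three]
  have hπ := Real.pi_pos
  refine mul_le_mul (Real.exp_le_exp.2 ?_)
    (Real.sin_le_sin_of_le_of_le_pi_div_two (by linarith) h2 h1)
    (Real.sin_nonneg_of_nonneg_of_le_pi h0 (by linarith)) (Real.exp_pos _).le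
  have h3 : τ ^ 2 ≤ 1 := pow_le_one₀ hτ.le hτ'
  obtain ⟨h4, h5⟩ := h.ql_mu
  nlinarith [sq_nonneg τ]

end Label

end Crest.Agent.R339
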