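import Crest.Agent.R339.QLoopWeak

/-! # Row 339: weak limits in the loop, first order terms -/

set_option autoImplicit false

namespace Crest.Agent.R339

open MeasureTheory ProbabilityTheory Complex Filter Topology
open scoped InnerProductSpace

variable {H : Type} [NormedAddCommGroup H] [InnerProductSpace ℂ H] [CompleteSpace H]

namespace Weyl

variable {𝓜 : Weyl H} {Q T R : H →L[ℂ] H} {g x : H}

theorem lw2_conj_W (hR : 𝓜.CW R) (hx : x ∈ 𝓜.R) (T : H →L[ℂ] H) :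
    star R * (T * 𝓜.W x) * R = star R * T * R * 𝓜.W x := by
  simp only [mul_assoc, hR x hx]

theorem lw2_comm (hQ : 𝓜.Invol Q) (hg : g ∈ 𝓜.R) (hx : x ∈ 𝓜.R) (hT : 𝓜.CW T)
    (e : T * Q = Q * T) (hR : 𝓜.CW R) :
    star R * (star (𝓜.WQ Q g) * (T * 𝓜.W x) * 𝓜.WQ Q g) * R =
      ((Real.cos (2 * (⟪g, x⟫_ℂ).im) : ℝ) : ℂ) • (star R * T * R * 𝓜.W x) +
        (I * ((Real.sin (2 * (⟪g, x⟫_ℂ).im) : ℝ) : ℂ)) • (star R * (T * Q) * R * 𝓜.W x) := by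
  have h1 : star (𝓜.WQ Q g) * T = T * star (𝓜.WQ Q g) := by
    rw [WQ_star hQ hg]
    exact (WQ_comm hQ hT e (𝓜.R.neg_mem hg)).symm
  have h2 : star (𝓜.WQ Q g) * (T * 𝓜.W x) * 𝓜.WQ Q g =
      T * (star (𝓜.WQ Q g) * 𝓜.W x * 𝓜.WQ Q g) := by
    rw [← mul_assoc, h1]
    simp only [mul_assoc]
  rw [h2, WQ_conj_W hQ hg hx, ← lw2_conj_W hR hx, ← lw2_conj_W hR hx]
  simp only [mul_add, add_mul, mul_smul_comm, smul_mul_assoc, mul_one, ← hQ.cw x hx, mul_assoc]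

theorem lw2_anti (hQ : 𝓜.Invol Q) (hg : g ∈ 𝓜.R) (hx : x ∈ 𝓜.R) (hT : 𝓜.CW T)
    (e : T * Q = -(Q * T)) (hR : 𝓜.CW R) :
    star R * (star (𝓜.WQ Q g) * (T * 𝓜.W x) * 𝓜.WQ Q g) * R =
      (1 / 2 : ℂ) • (star R * T * R * 𝓜.W (x + (2 : ℝ) • g) +
        star R * T * R * 𝓜.W (x - (2 : ℝ) • g)) +
      (1 / 2 : ℂ) • (star R * (T * Q) * R * 𝓜.W (x + (2 : ℝ) • g) -
        star R * (T * Q) * R * 𝓜.W (x - (2 : ℝ) • g)) := by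
  have h1 : star (𝓜.WQ Q g) * T = T * 𝓜.WQ Q g := by
    rw [WQ_star hQ hg]
    exact (WQ_anticomm hQ hT e hg).symm
  have h2 : star (𝓜.WQ Q g) * (T * 𝓜.W x) * 𝓜.WQ Q g =
      T * (𝓜.WQ Q g * 𝓜.W x * 𝓜.WQ Q g) := by
    rw [← mul_assoc, h1]
    simp only [mul_assoc]
  have hp := 𝓜.R.add_mem hx (𝓜.R.smul_mem (2 : ℝ) hg)
  have hm := 𝓜.R.sub_mem hx (𝓜.R.smul_mem (2 : ℝ) hg)
  rw [h2, WQ_W_WQ hQ hg hx, ← lw2_conj_W hR hp, ← lw2_conj_W hR hm, ← lw2_conj_W hR hp,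
    ← lw2_conj_W hR hm]
  simp only [mul_add, add_mul, mul_sub, sub_mul, mul_smul_comm, smul_mul_assoc, mul_assoc]

theorem lw2_WZ_X (hg : g ∈ 𝓜.R) : star (𝓜.WZ (-g)) * 𝓜.X * 𝓜.WZ (-g) =
    𝓜.X * 𝓜.cosW ((2 : ℝ) • g) - 𝓜.Y * 𝓜.sinW ((2 : ℝ) • g) := by
  rw [WQ_conj_anticomm 𝓜.invol_Z (𝓜.R.neg_mem hg) 𝓜.invol_X.cw 𝓜.XZ, smul_neg, WQ, cosW_neg,
    sinW_neg, Y]
  simp only [mul_add, mul_smul_comm, smul_mul_assoc, mul_neg, smul_neg, mul_assoc, sub_eq_add_neg]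

theorem lw2_WZ_Y (hg : g ∈ 𝓜.R) : star (𝓜.WZ (-g)) * 𝓜.Y * 𝓜.WZ (-g) =
    𝓜.Y * 𝓜.cosW ((2 : ℝ) • g) + 𝓜.X * 𝓜.sinW ((2 : ℝ) • g) := by
  have e : 𝓜.Y * 𝓜.Z = -(𝓜.Z * 𝓜.Y) := by rw [𝓜.YZ, 𝓜.ZY, neg_neg]
  rw [WQ_conj_anticomm 𝓜.invol_Z (𝓜.R.neg_mem hg) 𝓜.invol_Y.cw e, smul_neg, WQ, cosW_neg,
    sinW_neg, mul_add, mul_smul_comm, ← mul_assoc, 𝓜.YZ, smul_mul_assoc, smul_smul, I_mul_I]
  simp

theorem Fam.lw2_add {u v : ℝ → H} (hu : 𝓜.Fam u) (hv : 𝓜.Fam v) : 𝓜.Fam fun s => u s + v s := by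
  obtain ⟨h1, C, hC⟩ := hu
  obtain ⟨h2, D, hD⟩ := hv
  exact ⟨fun s => 𝓜.R.add_mem (h1 s) (h2 s), C + D,
    fun s => (norm_add_le _ _).trans (add_le_add (hC s) (hD s))⟩

theorem Fam.lw2_smul {u : ℝ → H} (hu : 𝓜.Fam u) (c : ℝ) : 𝓜.Fam fun s => c • u s := by
  obtain ⟨h1, C, hC⟩ := hu
  refine ⟨fun s => 𝓜.R.smul_mem c (h1 s), ‖c‖ * C, fun s => ?_⟩
  rw [norm_smul]
  exact mul_le_mul_of_nonneg_left (hC s) (norm_nonneg _)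

end Weyl

omit [CompleteSpace H] in
theorem VLim.lw2_comb {u v : ℝ → H} {a b : H} (hu : VLim u a) (hv : VLim v b) (c d : ℝ) :
    VLim (fun s => c • u s + d • v s) (c • a + d • b) := by
  intro ξ
  simp only [inner_add_right, ← Complex.coe_smul, inner_smul_right]
  exact ((hu ξ).const_mul _).add ((hv ξ).const_mul _)

theorem lw2_cosh {x y : ℝ} (h : |y| ≤ x) :
    |Real.exp (-(x ^ 2 / 2)) * Real.cosh y - 1| ≤ x ^ 2 / 2 := by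
  have h1 : Real.cosh y ≤ Real.exp (x ^ 2 / 2) := by
    refine (Real.cosh_le_exp_half_sq y).trans (Real.exp_le_exp.2 ?_)
    have := sq_le_sq' (abs_le.1 h).1 (abs_le.1 h).2
    linarith
  have h2 : Real.exp (-(x ^ 2 / 2)) * Real.cosh y ≤ 1 := by
    calc Real.exp (-(x ^ 2 / 2)) * Real.cosh y ≤ Real.exp (-(x ^ 2 / 2)) * Real.exp (x ^ 2 / 2) := by
          gcongr
      _ = 1 := by rw [← Real.exp_add]; simp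
  have h3 : Real.exp (-(x ^ 2 / 2)) * 1 ≤ Real.exp (-(x ^ 2 / 2)) * Real.cosh y := by
    gcongr
    exact Real.one_le_cosh y
  have h4 := Real.add_one_le_exp (-(x ^ 2 / 2))
  rw [abs_le]
  constructor <;> nlinarith [sq_nonneg x]

omit [CompleteSpace H] in
theorem lw2_gauss {r q : H} (hq : ‖q‖ = 1) :
    |(Real.exp (-(‖r + q‖ ^ 2 / 2)) + Real.exp (-(‖r - q‖ ^ 2 / 2))) / 2 - muL| ≤ ‖r‖ ^ 2 / 2 := by
  have hy : |(⟪r, q⟫_ℂ).re| ≤ ‖r‖ := by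
    refine (abs_re_le_norm _).trans ((norm_inner_le_norm _ _).trans ?_)
    rw [hq, mul_one]
  have h1 : ‖r + q‖ ^ 2 = ‖r‖ ^ 2 + 2 * (⟪r, q⟫_ℂ).re + 1 := by
    rw [@norm_add_sq ℂ, hq]; simp
  have h2 : ‖r - q‖ ^ 2 = ‖r‖ ^ 2 - 2 * (⟪r, q⟫_ℂ).re + 1 := by
    rw [@norm_sub_sq ℂ, hq]; simp
  have h3 : (Real.exp (-(‖r + q‖ ^ 2 / 2)) + Real.exp (-(‖r - q‖ ^ 2 / 2))) / 2 - muL =
      muL * (Real.exp (-(‖r‖ ^ 2 / 2)) * Real.cosh (⟪r, q⟫_ℂ).re - 1) := by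
    have e1 : Real.exp (-(‖r + q‖ ^ 2 / 2)) =
        muL * Real.exp (-(‖r‖ ^ 2 / 2)) * Real.exp (-(⟪r, q⟫_ℂ).re) := by
      rw [muL, ← Real.exp_add, ← Real.exp_add, h1]; congr 1; ring
    have e2 : Real.exp (-(‖r - q‖ ^ 2 / 2)) =
        muL * Real.exp (-(‖r‖ ^ 2 / 2)) * Real.exp (⟪r, q⟫_ℂ).re := by
      rw [muL, ← Real.exp_add, ← Real.exp_add, h2]; congr 1; ring
    rw [e1, e2, Real.cosh_eq]
    ring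
  rw [h3, abs_mul, abs_of_pos muL_pos]
  have h4 := lw2_cosh hy
  have h5 := muL_le
  have h6 := muL_pos
  nlinarith [abs_nonneg (Real.exp (-(‖r‖ ^ 2 / 2)) * Real.cosh (⟪r, q⟫_ℂ).re - 1)]

namespace Label

variable {K : ℕ} {A : AMP K} {𝓛 : Label A H} {l : ℕ} {f : (Fin (K + 1) → ℝ) → ℝ}
  {N : Set (Fin (K + 1) → ℝ)} {U : H →L[ℂ] H}

theorem lw2_Mf_comm (hf : Sgn l f) (hN : Anc N) {T : H →L[ℂ] H} (hT : 𝓛.CM T) :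
    𝓛.Mf f N * T = T * 𝓛.Mf f N := hT.Mr (Mf_br hf hN)

theorem lw2_Mf_Ind (hf : Sgn l f) (hN : Anc N) : 𝓛.Mf f N * 𝓛.Ind Nᶜ = 𝓛.Mf f N := by
  rw [lw2_Mf_comm hf hN (cm_Ind hN.meas.compl), Mf_eq hf hN, ← mul_assoc, Ind_sq hN.meas.compl]

/-- `1_S T Q = f T X` -/
theorem lw2_mul_Qf (hf : Sgn l f) (hN : Anc N) {T : H →L[ℂ] H} (hT : 𝓛.CM T) :
    𝓛.Ind Nᶜ * T * 𝓛.Qf f N = 𝓛.Mf f N * (T * 𝓛.X) := by
  rw [hT.Ind hN.meas.compl, mul_assoc, Ind_compl_Qf hf hN, ← mul_assoc, ← lw2_Mf_comm hf hN hT,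
    mul_assoc]

theorem lw2_Qf_mul (hf : Sgn l f) (hN : Anc N) (T : H →L[ℂ] H) :
    𝓛.Qf f N * (𝓛.Ind Nᶜ * T) = 𝓛.Mf f N * (𝓛.X * T) := by
  rw [← mul_assoc, ← (Qf_linv hf hN).cm.Ind hN.meas.compl, Ind_compl_Qf hf hN, mul_assoc]

theorem lw2_Rs_Mf (hf : Sgn l f) (hN : Anc N) (s : ℝ) (T : H →L[ℂ] H) :
    star (𝓛.Rs N s) * (𝓛.Mf f N * T) * 𝓛.Rs N s =
      𝓛.Mf f N * (star (𝓛.Rs N s) * T * 𝓛.Rs N s) := by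
  have e := lw2_Mf_comm hf hN (Rs_loc (𝓛 := 𝓛) (l := l) hN s).cm.star
  simp only [← mul_assoc, e]

theorem lw2_Rs_Ind (hN : Anc N) (s : ℝ) (T : H →L[ℂ] H) :
    star (𝓛.Rs N s) * (𝓛.Ind Nᶜ * T) * 𝓛.Rs N s =
      𝓛.Ind Nᶜ * (star (𝓛.Rs N s) * T * 𝓛.Rs N s) := by
  have e := (Rs_loc (𝓛 := 𝓛) (l := 0) hN s).cm.star.Ind hN.meas.compl
  simp only [← mul_assoc, e]

variable (h : 𝓛.Hyp l f N U) (τ : ℝ)
include h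

theorem Hyp.lw2_mem (s : ℝ) : -((1 / 2 : ℝ) • 𝓛.lq f N U s) ∈ 𝓛.R :=
  𝓛.R.neg_mem (𝓛.R.smul_mem _ (h.fam_lq.1 s))

theorem Hyp.lw2_pull (s : ℝ) (T : H →L[ℂ] H) :
    𝓛.Ind Nᶜ * (star (𝓛.lO f N U s) * T * 𝓛.lO f N U s) =
      star (𝓛.lO f N U s) * (𝓛.Ind Nᶜ * T) * 𝓛.lO f N U s := by
  have e := (h.lO_cm s).star.Ind h.anc.meas.compl
  simp only [← mul_assoc, e]

/-- the anticommuting case with the two shifted fields written as `x ∓ q` -/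
theorem Hyp.lw2_anti {T : H →L[ℂ] H} (hT : 𝓛.CW T) (e : T * 𝓛.Qf f N = -(𝓛.Qf f N * T))
    (s : ℝ) {x : H} (hx : x ∈ 𝓛.R) :
    star (𝓛.Rs N s) * (star (𝓛.lO f N U s) * (T * 𝓛.W x) * 𝓛.lO f N U s) * 𝓛.Rs N s =
      (1 / 2 : ℂ) • (star (𝓛.Rs N s) * T * 𝓛.Rs N s * 𝓛.W (x + (-1 : ℝ) • 𝓛.lq f N U s) +
        star (𝓛.Rs N s) * T * 𝓛.Rs N s * 𝓛.W (x + (1 : ℝ) • 𝓛.lq f N U s)) +
      (1 / 2 : ℂ) • (star (𝓛.Rs N s) * (T * 𝓛.Qf f N) * 𝓛.Rs N s *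
          𝓛.W (x + (-1 : ℝ) • 𝓛.lq f N U s) -
        star (𝓛.Rs N s) * (T * 𝓛.Qf f N) * 𝓛.Rs N s * 𝓛.W (x + (1 : ℝ) • 𝓛.lq f N U s)) := by
  have e1 : x + (2 : ℝ) • -((1 / 2 : ℝ) • 𝓛.lq f N U s) = x + (-1 : ℝ) • 𝓛.lq f N U s := by
    module
  have e2 : x - (2 : ℝ) • -((1 / 2 : ℝ) • 𝓛.lq f N U s) = x + (1 : ℝ) • 𝓛.lq f N U s := by
    module
  rw [← e1, ← e2]
  exact Weyl.lw2_anti (Qf_linv h.sgn h.anc).inv (h.lw2_mem s) hx hT e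
    (Rs_loc (l := l) h.anc s).cw

theorem Hyp.lw2_X (b : ℝ) : WLim (fun s => star (𝓛.Rs N s) * (star (𝓛.lO f N U s) *
    (𝓛.Ind Nᶜ * 𝓛.X * 𝓛.W (b • 𝓛.lg f N U s)) * 𝓛.lO f N U s) * 𝓛.Rs N s)
    ((I * ((Real.sin (-(b * muL * 𝓛.xA N U)) : ℝ) : ℂ)) • (𝓛.Mf f N *
      (((Real.exp (-(b ^ 2 * (1 - muL ^ 2 * ‖𝓛.gS N U‖ ^ 2) / 2)) : ℝ) : ℂ) •
        𝓛.W ((b * muL) • 𝓛.gS N U)))) := by
  have hf := h.sgn
  have hN := h.anc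
  have hfam := h.fam_lg.lw2_smul b
  have e0 : 𝓛.Ind Nᶜ * 𝓛.X * 𝓛.Qf f N = 𝓛.Mf f N * 1 := by
    rw [lw2_mul_Qf hf hN cm_X, 𝓛.X_sq]
  have e : 𝓛.Ind Nᶜ * 𝓛.X * 𝓛.Qf f N = 𝓛.Qf f N * (𝓛.Ind Nᶜ * 𝓛.X) := by
    rw [e0, lw2_Qf_mul hf hN, 𝓛.X_sq]
  have hκ : ∀ s, 2 * (⟪-((1 / 2 : ℝ) • 𝓛.lq f N U s), b • 𝓛.lg f N U s⟫_ℂ).im =
      -(b * (⟪𝓛.lq f N U s, 𝓛.lg f N U s⟫_ℂ).im) := by
    intro s
    simp only [inner_neg_left, ← Complex.coe_smul, inner_smul_left, inner_smul_right, conj_ofReal,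
      neg_im, im_ofReal_mul]
    ring
  have hk : Tendsto (fun s => I * ((Real.sin (-(b * (⟪𝓛.lq f N U s, 𝓛.lg f N U s⟫_ℂ).im)) : ℝ) : ℂ))
      atTop (𝓝 (I * ((Real.sin (-(b * muL * 𝓛.xA N U)) : ℝ) : ℂ))) := by
    have h1 := (continuous_im.tendsto _).comp h.inner_lq_lg
    have h2 : (I * ((muL * 𝓛.xA N U : ℝ) : ℂ)).im = muL * 𝓛.xA N U := by
      rw [mul_comm, im_ofReal_mul, I_im, mul_one]
    rw [h2] at h1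
    have h3 := (continuous_ofReal.tendsto _).comp
      ((Real.continuous_sin.tendsto _).comp (h1.const_mul b).neg)
    rw [mul_assoc]
    exact h3.const_mul I
  have h1 := (((osc_X hN).mul_W hfam).smul (C := 1) (a := fun s =>
    ((Real.cos (-(b * (⟪𝓛.lq f N U s, 𝓛.lg f N U s⟫_ℂ).im)) : ℝ) : ℂ)) (fun s => by
      rw [norm_real, Real.norm_eq_abs]; exact Real.abs_cos_le_one _)).wlim
  have h2 := h.W_lg_lq_lim 0 b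
  simp only [zero_smul, add_zero, ne_eq, OfNat.ofNat_ne_zero, not_false_eq_true, zero_pow] at h2
  have h3 := h1.add ((h2.mul_left (𝓛.Mf f N)).smul hk)
  rw [zero_add] at h3
  refine h3.congr fun s => ?_
  have h4 := Weyl.lw2_comm (Qf_linv hf hN).inv (h.lw2_mem s) (hfam.1 s)
    ((Ind_cw hN.meas.compl).mul 𝓛.invol_X.cw) e (Rs_loc (l := l) hN s).cw
  rw [hκ, e0, lw2_Rs_Mf hf hN, mul_one,
    Unitary.star_mul_self_of_mem (Rs_loc (l := l) hN s).unitary, mul_one] at h4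
  exact h4.symm

theorem Hyp.lw2_Y (b : ℝ) : WLim (fun s => star (𝓛.Rs N s) * (star (𝓛.lO f N U s) *
    (𝓛.Ind Nᶜ * 𝓛.Y * 𝓛.W (b • 𝓛.lg f N U s)) * 𝓛.lO f N U s) * 𝓛.Rs N s) 0 := by
  have hf := h.sgn
  have hN := h.anc
  have hfam := h.fam_lg.lw2_smul b
  have e0 : 𝓛.Ind Nᶜ * 𝓛.Y * 𝓛.Qf f N = 𝓛.Mf f N * -(I • 𝓛.Z) := by
    rw [lw2_mul_Qf hf hN cm_Y, 𝓛.YX]
  have e : 𝓛.Ind Nᶜ * 𝓛.Y * 𝓛.Qf f N = -(𝓛.Qf f N * (𝓛.Ind Nᶜ * 𝓛.Y)) := by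
    rw [e0, lw2_Qf_mul hf hN, 𝓛.XY, mul_neg]
  have e1 : ∀ s, star (𝓛.Rs N s) * (𝓛.Ind Nᶜ * 𝓛.Y * 𝓛.Qf f N) * 𝓛.Rs N s =
      𝓛.Mf f N * -(I • 𝓛.Z) := by
    intro s
    have e2 : 𝓛.Mf f N * -(I • 𝓛.Z) = (-I) • (𝓛.Mf f N * (𝓛.Ind Nᶜ * 𝓛.Z)) := by
      rw [← mul_assoc, lw2_Mf_Ind hf hN]
      simp
    rw [e0, e2, mul_smul_comm, smul_mul_assoc, lw2_Rs_Mf hf hN, Rs_conj_Z hN]
  have ho : 𝓛.Osc fun s => star (𝓛.Rs N s) * (𝓛.Ind Nᶜ * 𝓛.Y) * 𝓛.Rs N s :=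
    ((osc_Y hN).mul_left (𝓛.Ind Nᶜ)).congr fun s => (lw2_Rs_Ind hN s _).symm
  have h1 := (ho.mul_W (hfam.lw2_add (h.fam_lq.lw2_smul (-1)))).wlim
  have h2 := (ho.mul_W (hfam.lw2_add (h.fam_lq.lw2_smul 1))).wlim
  have h3 := (h.W_lg_lq_lim (-1) b).mul_left (𝓛.Mf f N * -(I • 𝓛.Z))
  have h4 := (h.W_lg_lq_lim 1 b).mul_left (𝓛.Mf f N * -(I • 𝓛.Z))
  rw [neg_one_sq] at h3
  rw [one_pow] at h4
  have h5 := ((h1.add h2).smul (tendsto_const_nhds (x := (1 / 2 : ℂ)))).add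
    ((h3.sub h4).smul (tendsto_const_nhds (x := (1 / 2 : ℂ))))
  rw [sub_self, add_zero, smul_zero, add_zero] at h5
  refine h5.congr fun s => ?_
  rw [h.lw2_anti ((Ind_cw hN.meas.compl).mul 𝓛.invol_Y.cw) e s (hfam.1 s), e1]

omit h in
theorem lw2_kap : (𝓛.kap N U τ : ℂ) =
    ((Real.exp (-((2 * τ) ^ 2 * (1 - muL ^ 2 * ‖𝓛.gS N U‖ ^ 2) / 2)) : ℝ) : ℂ) *
      ((Real.sin (2 * τ * muL * 𝓛.xA N U) : ℝ) : ℂ) := by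
  rw [← ofReal_mul, kap, bL]
  congr 3
  ring

theorem Hyp.wlim_X : WLim (fun s => star (𝓛.Rs N s) * (𝓛.Ind Nᶜ * (star (𝓛.lO f N U s) *
    (star (𝓛.lI f N U τ s) * 𝓛.X * 𝓛.lI f N U τ s) * 𝓛.lO f N U s)) * 𝓛.Rs N s)
    ((𝓛.kap N U τ : ℂ) • (𝓛.Mf f N * 𝓛.sinW (bL τ • 𝓛.gS N U))) := by
  have h5 := (((h.lw2_X (2 * τ)).add (h.lw2_X (-(2 * τ)))).smul
    (tendsto_const_nhds (x := (1 / 2 : ℂ)))).sub
    (((h.lw2_Y (2 * τ)).sub (h.lw2_Y (-(2 * τ)))).smul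
      (tendsto_const_nhds (x := (1 / (2 * I) : ℂ))))
  convert h5.congr fun s => ?_ using 1
  · rw [lw2_kap, Weyl.sinW, bL]
    simp only [neg_mul, neg_neg, Real.sin_neg, neg_smul, neg_sq, ofReal_neg, mul_neg, sub_self,
      smul_zero, sub_zero, mul_sub, mul_smul_comm, smul_sub, smul_add, smul_smul, smul_neg]
    have hI : (1 / (2 * I) : ℂ) = -(I / 2) := by field_simp; simp
    rw [hI]
    module
  · rw [h.lw2_pull, lI, Weyl.lw2_WZ_X (𝓛.R.smul_mem τ (h.fam_lg.1 s)), smul_smul, Weyl.cosW,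
      Weyl.sinW, neg_smul]
    simp only [mul_add, add_mul, mul_sub, sub_mul, mul_smul_comm, smul_mul_assoc, mul_assoc]

theorem Hyp.wlim_Y : WLim (fun s => star (𝓛.Rs N s) * (𝓛.Ind Nᶜ * (star (𝓛.lO f N U s) *
    (star (𝓛.lI f N U τ s) * 𝓛.Y * 𝓛.lI f N U τ s) * 𝓛.lO f N U s)) * 𝓛.Rs N s)
    ((-𝓛.kap N U τ : ℂ) • (𝓛.Mf f N * 𝓛.cosW (bL τ • 𝓛.gS N U))) := by
  have h5 := (((h.lw2_Y (2 * τ)).add (h.lw2_Y (-(2 * τ)))).smul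
    (tendsto_const_nhds (x := (1 / 2 : ℂ)))).add
    (((h.lw2_X (2 * τ)).sub (h.lw2_X (-(2 * τ)))).smul
      (tendsto_const_nhds (x := (1 / (2 * I) : ℂ))))
  convert h5.congr fun s => ?_ using 1
  · rw [lw2_kap, Weyl.cosW, bL]
    simp only [neg_mul, neg_neg, Real.sin_neg, neg_smul, neg_sq, ofReal_neg, mul_neg, add_zero,
      smul_zero, zero_add, mul_add, mul_smul_comm, smul_sub, smul_add, smul_smul, smul_neg]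
    have hI : ∀ z : ℂ, 1 / (2 * I) * (I * z) = 1 / 2 * z := fun z => by field_simp
    simp only [mul_assoc, hI]
    module
  · rw [h.lw2_pull, lI, Weyl.lw2_WZ_Y (𝓛.R.smul_mem τ (h.fam_lg.1 s)), smul_smul, Weyl.cosW,
      Weyl.sinW, neg_smul]
    simp only [mul_add, add_mul, mul_sub, sub_mul, mul_smul_comm, smul_mul_assoc, mul_assoc]

theorem Hyp.br_Y_lim : VLim (fun s => 𝓛.br (𝓛.lU3 f N U τ s) (𝓛.Ind Nᶜ * 𝓛.Y))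
    (-(𝓛.kap N U τ • 𝓛.lam f N U τ)) := by
  have h1 := (h.wlim_Y τ).br 𝓛.toWeyl U
  have e1 : 𝓛.br U ((-𝓛.kap N U τ : ℂ) • (𝓛.Mf f N * 𝓛.cosW (bL τ • 𝓛.gS N U))) =
      -(𝓛.kap N U τ • 𝓛.lam f N U τ) := by
    rw [lam, Weyl.br, Weyl.br, _root_.smul_apply, map_smul, neg_smul, Complex.coe_smul]
  rw [e1] at h1
  convert h1 using 2 with s
  have e := (h.lI_cm τ s).star.Ind h.anc.meas.compl
  rw [lU3, Weyl.br_mul, Weyl.br_mul, Weyl.br_mul, h.lw2_pull]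
  simp only [← mul_assoc, e]

/-- A small field with weak limit `a`, seen through the conjugation by `O`. -/
theorem Hyp.sinW_lim {u : ℝ → H} {a : H} {ρ : ℝ} (hu : ∀ s, u s ∈ 𝓛.R) (hρ : ∀ s, ‖u s‖ ≤ ρ)
    (ha : a ∈ 𝓛.R) (hl : VLim u a) (e ζ : H) {η : ℝ} (hη : 0 < η) : ∀ᶠ s in atTop,
      ‖⟪e, (star (𝓛.Rs N s) * (𝓛.Ind Nᶜ * (star (𝓛.lO f N U s) * (𝓛.Z * 𝓛.sinW (u s)) *
        𝓛.lO f N U s)) * 𝓛.Rs N s) ζ - muL • 𝓛.Ind Nᶜ (𝓛.Z (𝓛.sinW a ζ))⟫_ℂ‖ ≤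
          2 * ρ ^ 2 * ‖e‖ * ‖ζ‖ + η := by
  have hf := h.sgn
  have hN := h.anc
  have hfam : 𝓛.Fam u := ⟨hu, ρ, hρ⟩
  have e0 : 𝓛.Ind Nᶜ * 𝓛.Z * 𝓛.Qf f N = 𝓛.Mf f N * (I • 𝓛.Y) := by
    rw [lw2_mul_Qf hf hN cm_Z, 𝓛.ZX]
  have e1 : 𝓛.Ind Nᶜ * 𝓛.Z * 𝓛.Qf f N = -(𝓛.Qf f N * (𝓛.Ind Nᶜ * 𝓛.Z)) := by
    rw [lw2_mul_Qf hf hN cm_Z, lw2_Qf_mul hf hN, 𝓛.XZ, mul_neg, neg_neg]
  have ho : 𝓛.Osc fun s => star (𝓛.Rs N s) * (𝓛.Ind Nᶜ * 𝓛.Z * 𝓛.Qf f N) * 𝓛.Rs N s := by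
    refine (((osc_Y hN).smul (a := fun _ => I) (C := 1) (fun _ => by simp)).mul_left
      (𝓛.Mf f N)).congr fun s => ?_
    rw [e0, lw2_Rs_Mf hf hN, mul_smul_comm I (star (𝓛.Rs N s)), smul_mul_assoc]
  -- one Weyl operator
  have key : ∀ b : ℝ, WLim (fun s => star (𝓛.Rs N s) * (star (𝓛.lO f N U s) *
      (𝓛.Ind Nᶜ * 𝓛.Z * 𝓛.W (b • u s)) * 𝓛.lO f N U s) * 𝓛.Rs N s -
      (((Real.exp (-(‖b • (u s - a) + 𝓛.lq f N U s‖ ^ 2 / 2)) +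
        Real.exp (-(‖b • (u s - a) - 𝓛.lq f N U s‖ ^ 2 / 2))) / 2 : ℝ) : ℂ) •
        (𝓛.Ind Nᶜ * 𝓛.Z * 𝓛.W (b • a))) 0 := by
    intro b
    have hb := hfam.lw2_smul b
    have hF : ∀ c : ℝ, 𝓛.Fam fun s => b • u s + c • 𝓛.lq f N U s := fun c =>
      hb.lw2_add (h.fam_lq.lw2_smul c)
    have hV : ∀ c : ℝ, VLim (fun s => b • u s + c • 𝓛.lq f N U s) (b • a) := fun c => by
      simpa using hl.lw2_comb h.lq_lim b c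
    have h1 := (𝓛.fresh (hF (-1)) (𝓛.R.smul_mem b ha) (hV (-1))).mul_left (𝓛.Ind Nᶜ * 𝓛.Z)
    have h2 := (𝓛.fresh (hF 1) (𝓛.R.smul_mem b ha) (hV 1)).mul_left (𝓛.Ind Nᶜ * 𝓛.Z)
    have h3 := (ho.mul_W (hF (-1))).wlim
    have h4 := (ho.mul_W (hF 1)).wlim
    have h5 := ((h1.add h2).smul (tendsto_const_nhds (x := (1 / 2 : ℂ)))).add
      ((h3.sub h4).smul (tendsto_const_nhds (x := (1 / 2 : ℂ))))
    rw [sub_self, mul_zero, add_zero, smul_zero, add_zero] at h5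
    refine h5.congr fun s => ?_
    have n1 : b • u s + (-1 : ℝ) • 𝓛.lq f N U s - b • a = b • (u s - a) - 𝓛.lq f N U s := by
      module
    have n2 : b • u s + (1 : ℝ) • 𝓛.lq f N U s - b • a = b • (u s - a) + 𝓛.lq f N U s := by
      module
    rw [h.lw2_anti ((Ind_cw hN.meas.compl).mul 𝓛.invol_Z.cw) e1 s (hb.1 s), Rs_conj_Z hN, n1, n2]
    simp only [mul_sub, mul_smul_comm]
    push_cast
    module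
  obtain ⟨c, hc⟩ : ∃ c : ℝ → ℝ, ∀ s, c s = (Real.exp (-(‖u s - a + 𝓛.lq f N U s‖ ^ 2 / 2)) +
      Real.exp (-(‖u s - a - 𝓛.lq f N U s‖ ^ 2 / 2))) / 2 := ⟨_, fun _ => rfl⟩
  have main : WLim (fun s => star (𝓛.Rs N s) * (𝓛.Ind Nᶜ * (star (𝓛.lO f N U s) *
      (𝓛.Z * 𝓛.sinW (u s)) * 𝓛.lO f N U s)) * 𝓛.Rs N s -
      ((c s : ℝ) : ℂ) • (𝓛.Ind Nᶜ * 𝓛.Z * 𝓛.sinW a)) 0 := by
    have h5 := ((key 1).sub (key (-1))).smul (tendsto_const_nhds (x := (1 / (2 * I) : ℂ)))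
    rw [sub_self, smul_zero] at h5
    refine h5.congr fun s => ?_
    have n1 : ‖(-1 : ℝ) • (u s - a) + 𝓛.lq f N U s‖ = ‖u s - a - 𝓛.lq f N U s‖ := by
      rw [← norm_neg]; congr 1; module
    have n2 : ‖(-1 : ℝ) • (u s - a) - 𝓛.lq f N U s‖ = ‖u s - a + 𝓛.lq f N U s‖ := by
      rw [← norm_neg]; congr 1; module
    rw [n1, n2, one_smul, one_smul, one_smul, neg_one_smul, neg_one_smul,
      add_comm (Real.exp (-(‖u s - a - 𝓛.lq f N U s‖ ^ 2 / 2))), ← hc, h.lw2_pull, Weyl.sinW,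
      Weyl.sinW]
    simp only [mul_sub, sub_mul, mul_smul_comm, smul_mul_assoc, mul_assoc]
    module
  have hρ0 : 0 ≤ ρ := (norm_nonneg _).trans (hρ 0)
  have hcb : ∀ s, |c s - muL| ≤ 2 * ρ ^ 2 := by
    intro s
    rw [hc]
    refine (lw2_gauss (h.norm_lq s)).trans ?_
    have h1 : ‖u s - a‖ ≤ 2 * ρ := by
      linarith [norm_sub_le (u s) a, hρ s, hl.norm_le hρ]
    have h2 : ‖u s - a‖ ^ 2 ≤ (2 * ρ) ^ 2 := by gcongr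
    linarith
  have hT : ‖(𝓛.Ind Nᶜ * 𝓛.Z * 𝓛.sinW a) ζ‖ ≤ ‖ζ‖ := by
    have h1 := norm_Ind_le (𝓛 := 𝓛) hN.meas.compl
    have h2 := norm_le_one_of_unitary 𝓛.invol_Z.mem_unitary
    have h3 := Weyl.norm_sinW_le ha
    have h4 : ‖𝓛.Ind Nᶜ * 𝓛.Z * 𝓛.sinW a‖ ≤ 1 :=
      (norm_mul_le _ _).trans (mul_le_one₀ ((norm_mul_le _ _).trans
        (mul_le_one₀ h1 (norm_nonneg _) h2)) (norm_nonneg _) h3)
    simpa using (𝓛.Ind Nᶜ * 𝓛.Z * 𝓛.sinW a).le_of_opNorm_le h4 ζ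
  have hlim := (main e ζ).norm
  simp only [_root_.zero_apply, inner_zero_right, norm_zero] at hlim
  filter_upwards [hlim.eventually (eventually_lt_nhds hη)] with s hs
  obtain ⟨B, hB⟩ : ∃ B, B = star (𝓛.Rs N s) * (𝓛.Ind Nᶜ * (star (𝓛.lO f N U s) *
      (𝓛.Z * 𝓛.sinW (u s)) * 𝓛.lO f N U s)) * 𝓛.Rs N s := ⟨_, rfl⟩
  rw [← hB] at hs ⊢
  have e3 : B ζ - muL • 𝓛.Ind Nᶜ (𝓛.Z (𝓛.sinW a ζ)) =
      ((c s - muL : ℝ) : ℂ) • (𝓛.Ind Nᶜ * 𝓛.Z * 𝓛.sinW a) ζ +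
        (B - ((c s : ℝ) : ℂ) • (𝓛.Ind Nᶜ * 𝓛.Z * 𝓛.sinW a)) ζ := by
    simp only [_root_.sub_apply, _root_.smul_apply, mul_apply_eq_comp,
      Complex.coe_smul, sub_smul]
    abel
  rw [e3, inner_add_right, inner_smul_right]
  refine (norm_add_le _ _).trans (add_le_add ?_ hs.le)
  rw [norm_mul, norm_real, Real.norm_eq_abs, mul_assoc (2 * ρ ^ 2)]
  refine mul_le_mul (hcb s) ((norm_inner_le_norm _ _).trans ?_) (norm_nonneg _) (by positivity)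
  gcongr

end Label

end Crest.Agent.R339
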