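import Crest.Agent.R339.QLoopReg
import Crest.Agent.R339.QLoopWeak2

/-! # Row 339: the effective generator of the loop -/

set_option autoImplicit false

namespace Crest.Agent.R339

open MeasureTheory ProbabilityTheory Complex Filter Topology
open scoped InnerProductSpace

variable {H : Type} [NormedAddCommGroup H] [InnerProductSpace ℂ H] [CompleteSpace H]

theorem QL3_l {V : H →L[ℂ] H} (hV : V ∈ unitary (H →L[ℂ] H)) (x : H) : star V (V x) = x := by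
  rw [← mul_apply_eq_comp, Unitary.star_mul_self_of_mem hV, one_apply_eq_self]

theorem QL3_r {V : H →L[ℂ] H} (hV : V ∈ unitary (H →L[ℂ] H)) (x : H) : V (star V x) = x := by
  rw [← mul_apply_eq_comp, Unitary.mul_star_self_of_mem hV, one_apply_eq_self]

theorem QL3_n {V : H →L[ℂ] H} (hV : V ∈ unitary (H →L[ℂ] H)) (x : H) : ‖star V x‖ = ‖x‖ :=
  Weyl.QReg_norm_unit (Unitary.star_mem hV) x

theorem QL3_star_sub {V : H →L[ℂ] H} (hV : V ∈ unitary (H →L[ℂ] H)) (x : H) :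
    ‖star V x - x‖ = ‖V x - x‖ := by
  rw [← QL3_n hV (V x - x), map_sub, QL3_l hV, norm_sub_rev]

theorem QL3_comm {V W : H →L[ℂ] H} (h : V * W = W * V) (x : H) : V (W x) = W (V x) := by
  rw [← mul_apply_eq_comp, h, mul_apply_eq_comp]

theorem QL3_WQ_star {𝓜 : Weyl H} {Q : H →L[ℂ] H} (hQ : 𝓜.Invol Q) {u : H} (hu : u ∈ 𝓜.R) (x : H) :
    star (𝓜.WQ Q u) x = 𝓜.cosW u x - I • Q (𝓜.sinW u x) := by
  rw [Weyl.WQ_star hQ hu, Weyl.WQ, Weyl.cosW_neg, Weyl.sinW_neg, mul_neg, smul_neg,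
    ← sub_eq_add_neg]
  rfl

theorem QL3_inner {e x : H} {a : ℝ} (h : ‖x‖ ≤ a) : ‖⟪e, x⟫_ℂ‖ ≤ ‖e‖ * a :=
  (norm_inner_le_norm _ _).trans (mul_le_mul_of_nonneg_left h (norm_nonneg _))

theorem QL3_ev {u : ℝ → ℂ} {L : ℂ} {η : ℝ} (h : Tendsto u atTop (𝓝 L)) (hη : 0 < η) :
    ∀ᶠ s in atTop, ‖u s - L‖ ≤ η :=
  (Metric.tendsto_nhds.1 h η hη).mono fun s hs => by rw [dist_eq_norm] at hs; exact hs.le

theorem QL3_cos (x : ℝ) : |Real.cos x - 1| ≤ x ^ 2 / 2 := by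
  rw [abs_sub_comm, abs_of_nonneg (sub_nonneg.2 (Real.cos_le_one x))]
  linarith [Real.one_sub_sq_div_two_le_cos (x := x)]

theorem QL3_sin {x : ℝ} (hx : |x| ≤ 1) : |Real.sin x - x| ≤ x ^ 2 := by
  have h1 := Real.sin_bound hx
  have h2 : |x ^ 3 / 6| = |x| ^ 3 / 6 := by rw [abs_div, abs_pow]; norm_num
  have h3 := abs_sub (Real.sin x - (x - x ^ 3 / 6)) (x ^ 3 / 6)
  rw [show Real.sin x - (x - x ^ 3 / 6) - x ^ 3 / 6 = Real.sin x - x by ring, h2] at h3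
  rw [← sq_abs x]
  have h0 := abs_nonneg x
  generalize |x| = t at *
  have h4 : t ^ 3 ≤ t ^ 2 := pow_le_pow_of_le_one h0 hx (by norm_num)
  have h5 : t ^ 4 ≤ t ^ 2 := pow_le_pow_of_le_one h0 hx (by norm_num)
  nlinarith [sq_nonneg t]

theorem QL3_sin' (x : ℝ) : |Real.sin x - x| ≤ 2 * x ^ 2 := by
  rcases le_total |x| 1 with h | h
  · linarith [QL3_sin h, sq_nonneg x]
  · have h1 := abs_sub (Real.sin x) x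
    have h2 := Real.abs_sin_le_abs (x := x)
    rw [← sq_abs x]
    nlinarith

theorem QL3_sinW_sub {𝓜 : Weyl H} {u v ψ : H} {c : ℝ} (hu : u ∈ 𝓜.R) (hv : v ∈ 𝓜.R)
    (h : 𝓜.P1 ψ c) : ‖𝓜.sinW u ψ - 𝓜.sinW v ψ‖ ≤ (c + ‖v‖ * ‖ψ‖) * ‖u - v‖ := by
  have h3 : ‖(1 / (2 * I) : ℂ)‖ = 1 / 2 := by simp
  have h1 := h.norm_W_sub_W hu hv
  have h2 := h.norm_W_sub_W (𝓜.R.neg_mem hu) (𝓜.R.neg_mem hv)
  rw [norm_neg, neg_sub_neg, norm_sub_rev v u] at h2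
  rw [Weyl.QReg_sinW_apply, Weyl.QReg_sinW_apply, ← smul_sub, norm_smul, h3, sub_sub_sub_comm]
  linarith [norm_sub_le (𝓜.W u ψ - 𝓜.W v ψ) (𝓜.W (-u) ψ - 𝓜.W (-v) ψ)]

namespace Label

variable {K : ℕ} {A : AMP K} {𝓛 : Label A H} {l : ℕ} {f : (Fin (K + 1) → ℝ) → ℝ}
  {N : Set (Fin (K + 1) → ℝ)} {U : H →L[ℂ] H} {τ ε η p c : ℝ} {ζ : H}

theorem QL3_P_R (hN : Anc N) (s : ℝ) (hζ : 𝓛.P ζ c) : 𝓛.P (𝓛.Rs N s ζ) c :=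
  (hζ.cw (Rs_loc (l := 0) hN s).cw).mono
    (mul_le_of_le_one_left hζ.nonneg (norm_le_one_of_unitary (Rs_loc (l := 0) hN s).unitary))

theorem QL3_br (h : 𝓛.Hyp l f N U) (τ s : ℝ) {Q : H →L[ℂ] H} (hQ : 𝓛.LInv Q) :
    𝓛.br (𝓛.lU3 f N U τ s) (𝓛.Ind Nᶜ * Q) ∈ 𝓛.R ∧ ‖𝓛.br (𝓛.lU3 f N U τ s) (𝓛.Ind Nᶜ * Q)‖ ≤ 1 := by
  have hm := h.anc.meas.compl
  have hU := (h.pr3 τ s).unitary
  constructor
  · refine (realL_br hU (h.pr3 τ s).cm ?_ ((cm_Ind hm).mul hQ.cm)).mem_R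
    rw [star_mul, hQ.inv.star_eq, Ind_star hm, hQ.cm.Ind hm]
  · rw [𝓛.norm_br hU, mul_apply_eq_comp]
    refine (Weyl.QReg_le_of (norm_Ind_le hm) _).trans ?_
    rw [Weyl.QReg_norm_unit hQ.inv.mem_unitary, Weyl.QReg_norm_unit hU, 𝓛.Ω_norm]

theorem Hyp.L3_D1 (h : 𝓛.Hyp l f N U) (hε : |ε| ≤ 1) (hη : 0 < η) (e ζ : H) : ∀ᶠ s in atTop,
    ‖⟪e, 𝓛.Ind Nᶜ ((star (𝓛.Rs N s) * star (𝓛.lD1 f N U τ ε s) * 𝓛.Rs N s) ζ - ζ) -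
      (I * ε) • (𝓛.kap N U τ • 𝓛.Mf f N (𝓛.sinW (bL τ • 𝓛.gS N U) ζ))⟫_ℂ‖ ≤
        2 * ε ^ 2 * ‖e‖ * ‖ζ‖ + η := by
  have hm := h.anc.meas.compl
  filter_upwards [QL3_ev (h.wlim_X τ e ζ) hη] with s hs
  have hR := (Rs_loc (𝓛 := 𝓛) (l := 0) h.anc s).unitary
  have hRc := (Rs_loc (𝓛 := 𝓛) (l := 0) h.anc s).cm
  have hO := h.lO_unitary s
  have hI := h.lI_unitary τ s
  have hD := h.lD1_eq τ ε s
  set R := 𝓛.Rs N s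
  set Y := star (𝓛.lO f N U s) * (star (𝓛.lI f N U τ s) * 𝓛.X * 𝓛.lI f N U τ s) * 𝓛.lO f N U s
    with hY
  have hYc : 𝓛.CM Y := ((h.lO_cm s).star.mul (((h.lI_cm τ s).star.mul cm_X).mul
    (h.lI_cm τ s))).mul (h.lO_cm s)
  have hYs : star Y = Y := by simp only [hY, star_mul, star_star, 𝓛.X_star, mul_assoc]
  have hYn : ∀ x, ‖Y x‖ = ‖x‖ := by
    intro x
    simp only [hY, mul_apply_eq_comp]
    rw [QL3_n hO, QL3_n hI, Weyl.QReg_norm_unit 𝓛.invol_X.mem_unitary, Weyl.QReg_norm_unit hI,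
      Weyl.QReg_norm_unit hO]
  have hDs : star (𝓛.lD1 f N U τ ε s) = 1 + ((Real.cos ε - 1 : ℝ) : ℂ) • 𝓛.Ind Nᶜ +
      (I * ((Real.sin ε : ℝ) : ℂ)) • (𝓛.Ind Nᶜ * Y) := by
    rw [hD, star_sub, star_add, star_one, star_smul, star_smul, star_mul (𝓛.Ind Nᶜ), hYs,
      Ind_star hm, ← hYc.Ind hm, star_mul', RCLike.star_def, Complex.conj_ofReal,
      Complex.conj_ofReal, Complex.conj_I, neg_mul, neg_smul, sub_neg_eq_add]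
  set x := (star R * (𝓛.Ind Nᶜ * Y) * R) ζ with hx
  have hxn : ‖x‖ ≤ ‖ζ‖ := by
    simp only [hx, mul_apply_eq_comp]
    rw [QL3_n hR]
    refine (Weyl.QReg_le_of (norm_Ind_le hm) _).trans ?_
    rw [hYn, Weyl.QReg_norm_unit hR]
  have hPP : ∀ z, 𝓛.Ind Nᶜ (𝓛.Ind Nᶜ z) = 𝓛.Ind Nᶜ z := fun z => by
    rw [← mul_apply_eq_comp, Ind_sq hm]
  have e1 : 𝓛.Ind Nᶜ ((star R * star (𝓛.lD1 f N U τ ε s) * R) ζ - ζ) =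
      ((Real.cos ε - 1 : ℝ) : ℂ) • 𝓛.Ind Nᶜ ζ + (I * ((Real.sin ε : ℝ) : ℂ)) • x := by
    simp only [hDs, hx, mul_apply_eq_comp, add_apply, smul_apply, one_apply_eq_self, map_add,
      map_smul, map_sub, QL3_comm (hRc.star.Ind hm), QL3_comm (hRc.Ind hm), hPP, QL3_l hR]
    abel
  have e2 : ((𝓛.kap N U τ : ℂ) • (𝓛.Mf f N * 𝓛.sinW (bL τ • 𝓛.gS N U))) ζ =
      𝓛.kap N U τ • 𝓛.Mf f N (𝓛.sinW (bL τ • 𝓛.gS N U) ζ) := by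
    rw [smul_apply, mul_apply_eq_comp, Complex.coe_smul]
  rw [e2] at hs
  rw [e1]
  set y := 𝓛.kap N U τ • 𝓛.Mf f N (𝓛.sinW (bL τ • 𝓛.gS N U) ζ)
  have e3 : ⟪e, ((Real.cos ε - 1 : ℝ) : ℂ) • 𝓛.Ind Nᶜ ζ + (I * ((Real.sin ε : ℝ) : ℂ)) • x -
      (I * ε) • y⟫_ℂ = ((Real.cos ε - 1 : ℝ) : ℂ) * ⟪e, 𝓛.Ind Nᶜ ζ⟫_ℂ +
        I * ((Real.sin ε - ε : ℝ) : ℂ) * ⟪e, x⟫_ℂ + I * ε * (⟪e, x⟫_ℂ - ⟪e, y⟫_ℂ) := by
    rw [inner_sub_right, inner_add_right, inner_smul_right, inner_smul_right, inner_smul_right,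
      Complex.ofReal_sub (Real.sin ε)]
    ring
  rw [e3]
  have b1 := mul_le_mul (QL3_cos ε) (QL3_inner (e := e) (Weyl.QReg_le_of (norm_Ind_le (𝓛 := 𝓛) hm) ζ))
    (norm_nonneg _) (by positivity)
  have b2 := mul_le_mul (QL3_sin hε) (QL3_inner (e := e) hxn) (norm_nonneg _) (by positivity)
  have b3 := mul_le_mul hε hs (norm_nonneg _) zero_le_one
  refine (norm_add₃_le).trans ?_
  simp only [norm_mul, Complex.norm_I, Complex.norm_real, Real.norm_eq_abs, one_mul]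
  have : 0 ≤ ε ^ 2 * (‖e‖ * ‖ζ‖) := by positivity
  linarith

theorem Hyp.L3_D2 (h : 𝓛.Hyp l f N U) (hτ : |τ| ≤ 1) (hε : |ε| ≤ 1) (hη : 0 < η) (e : H)
    (hζ : 𝓛.P ζ c) : ∀ᶠ s in atTop,
    ‖⟪e, 𝓛.Ind Nᶜ ((star (𝓛.Rs N s) * star (𝓛.lD2 f N U τ ε s) * 𝓛.Rs N s) ζ - ζ) -
      (I * ε) • (𝓛.kap N U τ • bL τ • 𝓛.Ind Nᶜ (𝓛.Z (𝓛.phi (𝓛.lam f N U τ) ζ)))⟫_ℂ‖ ≤
        1000 * ε ^ 2 * ‖e‖ * c + η := by
  have hm := h.anc.meas.compl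
  have hc := hζ.nonneg
  have hlam := (h.lam_real τ).mem_R
  have hts : |τ * Real.sin (2 * ε)| ≤ 2 * |ε| := by
    have := Real.abs_sin_le_abs (x := 2 * ε)
    rw [abs_mul, abs_two] at this
    rw [abs_mul]
    nlinarith [abs_nonneg (Real.sin (2 * ε))]
  have hl : VLim (fun s => (τ * Real.sin (2 * ε)) • 𝓛.br (𝓛.lU3 f N U τ s) (𝓛.Ind Nᶜ * 𝓛.Y))
      ((-(τ * Real.sin (2 * ε) * 𝓛.kap N U τ)) • 𝓛.lam f N U τ) := by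
    intro ξ
    have := (h.br_Y_lim τ ξ).const_mul ((τ * Real.sin (2 * ε) : ℝ) : ℂ)
    simp only [← inner_smul_right, Complex.coe_smul] at this
    rwa [smul_neg, smul_smul, ← neg_smul] at this
  have hu : ∀ s, (τ * Real.sin (2 * ε)) • 𝓛.br (𝓛.lU3 f N U τ s) (𝓛.Ind Nᶜ * 𝓛.Y) ∈ 𝓛.R :=
    fun s => 𝓛.R.smul_mem _ (QL3_br h τ s linv_Y).1
  have hρ : ∀ s, ‖(τ * Real.sin (2 * ε)) • 𝓛.br (𝓛.lU3 f N U τ s) (𝓛.Ind Nᶜ * 𝓛.Y)‖ ≤ 2 * |ε| := by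
    intro s
    rw [norm_smul, Real.norm_eq_abs]
    exact (mul_le_of_le_one_right (abs_nonneg _) (QL3_br h τ s linv_Y).2).trans hts
  have ha := 𝓛.R.smul_mem (-(τ * Real.sin (2 * ε) * 𝓛.kap N U τ)) hlam
  have han := hl.norm_le hρ
  filter_upwards [h.sinW_lim hu hρ ha hl e ζ hη] with s hs
  have hR := (Rs_loc (𝓛 := 𝓛) (l := 0) h.anc s).unitary
  have hRc := (Rs_loc (𝓛 := 𝓛) (l := 0) h.anc s).cm
  have hO := h.lO_unitary s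
  have hu1 := (h.lu1_real τ ε s).mem_R
  have hξ : 𝓛.P (𝓛.lO f N U s (𝓛.Rs N s ζ)) (4 * c) := by
    have h1 := (QL3_P_R h.anc s hζ).WQ (Qf_linv h.sgn h.anc).inv
      (𝓛.R.neg_mem (𝓛.R.smul_mem (1 / 2 : ℝ) (h.lq_real s).mem_R))
    rw [norm_neg, norm_smul, h.norm_lq s] at h1
    refine Weyl.P.mono h1 (le_of_eq ?_)
    norm_num
  have hn1 : ‖𝓛.lu1 f N U τ ε s‖ ≤ 4 * |ε| :=
    (h.norm_lu1 τ ε s).trans (by nlinarith [abs_nonneg ε])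
  have hn2 : ‖𝓛.lu1 f N U τ ε s -
      (τ * Real.sin (2 * ε)) • 𝓛.br (𝓛.lU3 f N U τ s) (𝓛.Ind Nᶜ * 𝓛.Y)‖ ≤ 2 * ε ^ 2 := by
    rw [h.lu1_eq, add_sub_cancel_right, norm_smul, Real.norm_eq_abs, abs_mul]
    refine (mul_le_of_le_one_right (by positivity) (QL3_br h τ s linv_Z).2).trans ?_
    have := QL3_cos (2 * ε)
    nlinarith [abs_nonneg (Real.cos (2 * ε) - 1)]
  have hus := hu s
  have hρs := hρ s
  set u := (τ * Real.sin (2 * ε)) • 𝓛.br (𝓛.lU3 f N U τ s) (𝓛.Ind Nᶜ * 𝓛.Y)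
  set a := (-(τ * Real.sin (2 * ε) * 𝓛.kap N U τ)) • 𝓛.lam f N U τ with hadef
  have hD : star (𝓛.lD2 f N U τ ε s) =
      star (𝓛.lO f N U s) * star (𝓛.WZ (𝓛.lu1 f N U τ ε s)) * 𝓛.lO f N U s := by
    simp only [lD2, star_mul, star_star, mul_assoc]
  set u1 := 𝓛.lu1 f N U τ ε s
  set R := 𝓛.Rs N s
  set O := 𝓛.lO f N U s
  set ξ := O (R ζ) with hξd
  have hε2 : |ε| ^ 2 = ε ^ 2 := sq_abs ε
  have hε0 := abs_nonneg ε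
  have hPn : ∀ z, ‖star R (𝓛.Ind Nᶜ (star O z))‖ ≤ ‖z‖ := fun z => by
    rw [QL3_n hR]
    exact (Weyl.QReg_le_of (norm_Ind_le hm) _).trans (QL3_n hO z).le
  have hZ := Weyl.QReg_norm_unit 𝓛.invol_Z.mem_unitary
  have hPZ : ∀ z, ‖𝓛.Ind Nᶜ (𝓛.Z z)‖ ≤ ‖z‖ := fun z =>
    (Weyl.QReg_le_of (norm_Ind_le hm) _).trans (hZ z).le
  have n1 : ‖star R (𝓛.Ind Nᶜ (star O (𝓛.cosW u1 ξ - ξ)))‖ ≤ 32 * ε ^ 2 * c := by
    refine (hPn _).trans ((hξ.norm_cosW_sub hu1).trans ?_)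
    have := pow_le_pow_left₀ (norm_nonneg _) hn1 2
    nlinarith
  have n2 : ‖I • star R (𝓛.Ind Nᶜ (star O (𝓛.Z (𝓛.sinW u1 ξ - 𝓛.sinW u ξ))))‖ ≤
      24 * ε ^ 2 * c := by
    rw [norm_smul, Complex.norm_I, one_mul]
    refine (hPn _).trans ?_
    rw [hZ]
    refine (QL3_sinW_sub hu1 hus hξ.2.1).trans ?_
    have h1 : ‖u‖ * ‖ξ‖ ≤ 2 * (4 * c) :=
      mul_le_mul (by linarith) hξ.1 (norm_nonneg _) (by norm_num)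
    have := mul_le_mul (add_le_add_right h1 (4 * c)) hn2 (norm_nonneg _) (by positivity)
    linarith
  have hμ : |muL| ≤ 1 := by
    rw [abs_of_pos muL_pos]
    linarith [muL_le]
  have n3 : ‖I • muL • 𝓛.Ind Nᶜ (𝓛.Z (𝓛.sinW a ζ - 𝓛.phi a ζ))‖ ≤ 4 * ε ^ 2 * c := by
    rw [norm_smul, Complex.norm_I, one_mul, norm_smul, Real.norm_eq_abs]
    refine (mul_le_of_le_one_left (norm_nonneg _) hμ).trans ((hPZ _).trans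
      ((hζ.norm_sinW_sub_phi ha).trans ?_))
    have := pow_le_pow_left₀ (norm_nonneg _) han 2
    nlinarith
  have n4 : ‖I • (muL * τ * 𝓛.kap N U τ * (Real.sin (2 * ε) - 2 * ε)) •
      𝓛.Ind Nᶜ (𝓛.Z (𝓛.phi (𝓛.lam f N U τ) ζ))‖ ≤ 8 * ε ^ 2 * c := by
    rw [norm_smul, Complex.norm_I, one_mul, norm_smul, Real.norm_eq_abs, abs_mul, abs_mul, abs_mul]
    have h1 : |muL| * |τ| * |𝓛.kap N U τ| ≤ 1 :=
      mul_le_one₀ (mul_le_one₀ hμ (abs_nonneg _) hτ) (abs_nonneg _) (h.abs_kap τ)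
    have h2 := mul_le_mul h1 (QL3_sin' (2 * ε)) (abs_nonneg _) zero_le_one
    have h3 : ‖𝓛.Ind Nᶜ (𝓛.Z (𝓛.phi (𝓛.lam f N U τ) ζ))‖ ≤ c :=
      (hPZ _).trans ((hζ.norm_phi hlam).trans (mul_le_of_le_one_right hc (h.norm_lam τ)))
    have := mul_le_mul h2 h3 (norm_nonneg _) (by positivity)
    linarith
  have e1 : 𝓛.Ind Nᶜ ((star R * star (𝓛.lD2 f N U τ ε s) * R) ζ - ζ) -
      (I * ε) • (𝓛.kap N U τ • bL τ • 𝓛.Ind Nᶜ (𝓛.Z (𝓛.phi (𝓛.lam f N U τ) ζ))) =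
      (star R (𝓛.Ind Nᶜ (star O (𝓛.cosW u1 ξ - ξ))) -
        I • star R (𝓛.Ind Nᶜ (star O (𝓛.Z (𝓛.sinW u1 ξ - 𝓛.sinW u ξ)))) -
        I • muL • 𝓛.Ind Nᶜ (𝓛.Z (𝓛.sinW a ζ - 𝓛.phi a ζ)) +
        I • (muL * τ * 𝓛.kap N U τ * (Real.sin (2 * ε) - 2 * ε)) •
          𝓛.Ind Nᶜ (𝓛.Z (𝓛.phi (𝓛.lam f N U τ) ζ))) -
      I • ((star R * (𝓛.Ind Nᶜ * (star O * (𝓛.Z * 𝓛.sinW u) * O)) * R) ζ -
        muL • 𝓛.Ind Nᶜ (𝓛.Z (𝓛.sinW a ζ))) := by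
    have e0 : star R (𝓛.Ind Nᶜ (star O ξ)) = 𝓛.Ind Nᶜ ζ := by
      rw [hξd, QL3_l hO, QL3_comm (hRc.Ind hm), QL3_l hR]
    have e2 : 𝓛.phi a ζ = (-(τ * Real.sin (2 * ε) * 𝓛.kap N U τ)) • 𝓛.phi (𝓛.lam f N U τ) ζ :=
      hζ.phi_smul hlam _
    simp only [hD, mul_apply_eq_comp, ← hξd, QL3_WQ_star 𝓛.invol_Z hu1, map_sub, map_smul,
      QL3_comm (hRc.star.Ind hm), e0, e2, ← Complex.coe_smul, bL]
    push_cast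
    module
  rw [e1, inner_sub_right, inner_smul_right]
  refine (norm_sub_le _ _).trans ?_
  rw [norm_mul, Complex.norm_I, one_mul]
  have b1 := QL3_inner (e := e) ((norm_add_le _ _).trans (add_le_add ((norm_sub_le _ _).trans
    (add_le_add ((norm_sub_le _ _).trans (add_le_add n1 n2)) n3)) n4))
  have b2 : 2 * (2 * |ε|) ^ 2 * ‖e‖ * ‖ζ‖ ≤ 8 * ε ^ 2 * ‖e‖ * c := by
    rw [mul_pow, hε2]
    have := mul_le_mul_of_nonneg_left hζ.1 (by positivity : 0 ≤ 8 * ε ^ 2 * ‖e‖)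
    linarith
  have : 0 ≤ ε ^ 2 * ‖e‖ * c := by positivity
  linarith

theorem Hyp.L3_D3 (h : 𝓛.Hyp l f N U) (hτ : |τ| ≤ 1) (hη : 0 < η) (hp : 𝓛.P1 (U 𝓛.Ω) p) (e : H)
    (hζ : 𝓛.P ζ c) : ∀ᶠ s in atTop,
    ‖⟪e, (star (𝓛.Rs N s) * star (𝓛.lD3 f N U τ ε s) * 𝓛.Rs N s) ζ - ζ⟫_ℂ‖ ≤
        200 * (1 + p) ^ 2 * ε ^ 2 * ‖e‖ * c + η := by
  have hfam : 𝓛.Fam (𝓛.lu2 f N U τ ε) :=
    ⟨fun s => (h.lu2_real τ ε s).mem_R, _, fun s => h.norm_lu2 hτ s hp⟩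
  filter_upwards [QL3_ev (((osc_Qf h.sgn h.anc).mul_sinW hfam).wlim e ζ) hη] with s hs
  have hR := (Rs_loc (𝓛 := 𝓛) (l := 0) h.anc s).unitary
  have hRw := (Rs_loc (𝓛 := 𝓛) (l := 0) h.anc s).cw
  have hu := hfam.1 s
  have e1 : (star (𝓛.Rs N s) * star (𝓛.lD3 f N U τ ε s) * 𝓛.Rs N s) ζ - ζ =
      (𝓛.cosW (𝓛.lu2 f N U τ ε s) ζ - ζ) -
        I • (star (𝓛.Rs N s) * 𝓛.Qf f N * 𝓛.Rs N s * 𝓛.sinW (𝓛.lu2 f N U τ ε s)) ζ := by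
    simp only [lD3, mul_apply_eq_comp, QL3_WQ_star (Qf_linv h.sgn h.anc).inv hu, map_sub, map_smul,
      ← QL3_comm (hRw.cosW hu), ← QL3_comm (hRw.sinW hu), QL3_l hR]
    abel
  rw [zero_apply, inner_zero_right, sub_zero] at hs
  rw [e1, inner_sub_right, inner_smul_right]
  refine (norm_sub_le _ _).trans ?_
  rw [norm_mul, Complex.norm_I, one_mul]
  have n1 : ‖𝓛.cosW (𝓛.lu2 f N U τ ε s) ζ - ζ‖ ≤ 200 * (1 + p) ^ 2 * ε ^ 2 * c := by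
    refine (hζ.norm_cosW_sub hu).trans ?_
    have h1 := pow_le_pow_left₀ (norm_nonneg _) (h.norm_lu2 (ε := ε) hτ s hp) 2
    rw [mul_pow, mul_pow, sq_abs] at h1
    have := mul_le_mul_of_nonneg_left h1 hζ.nonneg
    linarith
  have := QL3_inner (e := e) n1
  linarith

/-- (L3) -/
theorem Hyp.L3 (h : 𝓛.Hyp l f N U) (hτ : |τ| ≤ 1) (hε : |ε| ≤ 1) (hη : 0 < η)
    (hp : 𝓛.P1 (U 𝓛.Ω) p) (e : H) (hζ : 𝓛.P ζ c) : ∀ᶠ s in atTop,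
    ‖⟪e, 𝓛.Ind Nᶜ (star (𝓛.lL f N U τ ε s) ζ - ζ) - (I * ε) • 𝓛.Kop f N U τ ζ⟫_ℂ‖ ≤
      10000 * (1 + p) ^ 2 * ε ^ 2 * ‖e‖ * c + η := by
  have hm := h.anc.meas.compl
  have hc := hζ.nonneg
  have hp0 := P1.nonneg hp
  have hη3 : 0 < η / 3 := by linarith
  filter_upwards [h.L3_D1 (τ := τ) hε hη3 e ζ, h.L3_D2 hτ hε hη3 e hζ,
    h.L3_D3 (ε := ε) hτ hη3 hp (𝓛.Ind Nᶜ e) hζ] with s h1 h2 h3
  have hR := (Rs_loc (𝓛 := 𝓛) (l := 0) h.anc s).unitary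
  have hD2 := h.lD2_unitary τ ε s
  have hξ := QL3_P_R h.anc s hζ
  have hu := (h.lu2_real τ ε s).mem_R
  have hun := h.norm_lu2 (ε := ε) hτ s hp
  have hQ := (Qf_linv (𝓛 := 𝓛) h.sgn h.anc).inv
  have hD3 : star (𝓛.lD3 f N U τ ε s) = 𝓛.WQ (𝓛.Qf f N) (-𝓛.lu2 f N U τ ε s) :=
    Weyl.WQ_star hQ hu
  have hε0 := abs_nonneg ε
  have hε2 : |ε| * |ε| = ε ^ 2 := by rw [← sq, sq_abs]
  have c1 := hξ.P1_WQ_sub hQ (𝓛.R.neg_mem hu)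
  have c2 := hξ.2.1.norm_WQ_sub hQ (𝓛.R.neg_mem hu)
  rw [← hD3, norm_neg] at c1 c2
  have c0 : 2 * c * ‖𝓛.lu2 f N U τ ε s‖ ≤ 40 * (1 + p) * |ε| * c := by
    have := mul_le_mul_of_nonneg_left hun hc
    linarith
  have c3 := h.norm_lD2_sub (ε := ε) hτ s c1
  have c4 := h.norm_lD2_sub (ε := ε) hτ s hξ.2.1
  rw [← QL3_star_sub hD2] at c3 c4
  have c5 : ‖star (𝓛.lD1 f N U τ ε s) - 1‖ ≤ 2 * |ε| := by
    rw [← star_one (H →L[ℂ] H), ← star_sub, norm_star]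
    exact h.norm_lD1_sub_one τ ε s
  have hL : star (𝓛.lL f N U τ ε s) = star (𝓛.Rs N s) * (star (𝓛.lD1 f N U τ ε s) *
      star (𝓛.lD2 f N U τ ε s) * star (𝓛.lD3 f N U τ ε s)) * 𝓛.Rs N s := by
    simp only [lL, star_mul, star_star, mul_assoc]
  have hadj : ∀ x, ⟪𝓛.Ind Nᶜ e, x⟫_ℂ = ⟪e, 𝓛.Ind Nᶜ x⟫_ℂ := fun x => by
    rw [← ContinuousLinearMap.adjoint_inner_right, ← ContinuousLinearMap.star_eq_adjoint,
      Ind_star hm]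
  rw [hadj] at h3
  have hξ1 := hξ.1
  have hn2 := QL3_n hD2
  set R := 𝓛.Rs N s
  set D1 := star (𝓛.lD1 f N U τ ε s)
  set D2 := star (𝓛.lD2 f N U τ ε s)
  set D3 := star (𝓛.lD3 f N U τ ε s)
  set ξ := R ζ with hξd
  have hPn : ∀ z, ‖𝓛.Ind Nᶜ (star R z)‖ ≤ ‖z‖ := fun z =>
    (Weyl.QReg_le_of (norm_Ind_le hm) _).trans (QL3_n hR z).le
  have n1 : ‖𝓛.Ind Nᶜ (star R ((D1 - 1) (D2 (D3 ξ - ξ) + (D2 ξ - ξ))))‖ ≤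
      144 * (1 + p) * ε ^ 2 * c := by
    refine (hPn _).trans (((D1 - 1).le_opNorm _).trans ?_)
    have a1 : ‖D2 (D3 ξ - ξ) + (D2 ξ - ξ)‖ ≤ 72 * (1 + p) * |ε| * c := by
      refine (norm_add_le _ _).trans ?_
      rw [hn2]
      have := mul_le_mul_of_nonneg_right hξ1 hε0
      have : 0 ≤ p * |ε| * c := by positivity
      nlinarith
    have := mul_le_mul c5 a1 (norm_nonneg _) (by positivity)
    rw [← hε2]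
    linarith
  have n2 : ‖𝓛.Ind Nᶜ (star R (D2 (D3 ξ - ξ) - (D3 ξ - ξ)))‖ ≤ 1280 * (1 + p) * ε ^ 2 * c := by
    refine (hPn _).trans (c3.trans ?_)
    have := mul_le_mul_of_nonneg_right (add_le_add c0 (c2.trans c0)) hε0
    rw [← hε2]
    linarith
  have e1 : 𝓛.Ind Nᶜ (star (𝓛.lL f N U τ ε s) ζ - ζ) - (I * ε) • 𝓛.Kop f N U τ ζ =
      (𝓛.Ind Nᶜ ((star R * D1 * R) ζ - ζ) -
        (I * ε) • (𝓛.kap N U τ • 𝓛.Mf f N (𝓛.sinW (bL τ • 𝓛.gS N U) ζ))) +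
      (𝓛.Ind Nᶜ ((star R * D2 * R) ζ - ζ) -
        (I * ε) • (𝓛.kap N U τ • bL τ • 𝓛.Ind Nᶜ (𝓛.Z (𝓛.phi (𝓛.lam f N U τ) ζ)))) +
      𝓛.Ind Nᶜ ((star R * D3 * R) ζ - ζ) +
      (𝓛.Ind Nᶜ (star R ((D1 - 1) (D2 (D3 ξ - ξ) + (D2 ξ - ξ)))) +
        𝓛.Ind Nᶜ (star R (D2 (D3 ξ - ξ) - (D3 ξ - ξ)))) := by
    have e0 : star R ξ = ζ := QL3_l hR ζ
    simp only [hL, Kop, mul_apply_eq_comp, ← hξd, sub_apply, one_apply_eq_self, map_sub, map_add,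
      e0, smul_add]
    abel
  rw [e1, inner_add_right, inner_add_right, inner_add_right]
  have b1 := QL3_inner (e := e) ((norm_add_le _ _).trans (add_le_add n1 n2))
  refine (norm_add_le _ _).trans ((add_le_add norm_add₃_le b1).trans ?_)
  have t0 : 0 ≤ ε ^ 2 * ‖e‖ * c := by positivity
  have t1 : 1 ≤ (1 + p) ^ 2 := one_le_pow₀ (by linarith)
  have t2 : 1 + p ≤ (1 + p) ^ 2 := by nlinarith
  have t3 := mul_le_mul_of_nonneg_right t1 t0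
  have t4 := mul_le_mul_of_nonneg_right t2 t0
  have t5 := mul_le_mul_of_nonneg_left hζ.1 (by positivity : 0 ≤ 2 * ε ^ 2 * ‖e‖)
  have t6 := mul_le_mul_of_nonneg_left (Weyl.QReg_le_of (norm_Ind_le (𝓛 := 𝓛) hm) e)
    (by positivity : 0 ≤ 200 * (1 + p) ^ 2 * ε ^ 2 * c)
  linarith

end Label

end Crest.Agent.R339
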