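import Crest.Agent.R339.QLoopAlg
import Crest.Agent.R339.QLabOsc

/-! # Row 339: weak limits in the loop -/

set_option autoImplicit false

namespace Crest.Agent.R339

open MeasureTheory ProbabilityTheory Complex Filter Topology
open scoped InnerProductSpace

variable {H : Type} [NormedAddCommGroup H] [InnerProductSpace ℂ H] [CompleteSpace H]

omit [CompleteSpace H] in
theorem VLim.qlw_smul {u : ℝ → H} {w : H} (h : VLim u w) (a : ℝ) :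
    VLim (fun s => a • u s) (a • w) := by
  intro ξ
  simp only [← Complex.coe_smul, inner_smul_right]
  exact (h ξ).const_mul _

omit [CompleteSpace H] in
theorem VLim.qlw_add {u u' : ℝ → H} {w w' : H} (h : VLim u w) (h' : VLim u' w') :
    VLim (fun s => u s + u' s) (w + w') := by
  intro ξ
  simp only [inner_add_right]
  exact (h ξ).add (h' ξ)

omit [CompleteSpace H] in
theorem VLim.qlw_norm_sub {u : ℝ → H} {w : H} (h : VLim u w) {ρ : ℝ}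
    (hρ : Tendsto (fun s => ‖u s‖ ^ 2) atTop (𝓝 ρ)) :
    Tendsto (fun s => ‖u s - w‖ ^ 2) atTop (𝓝 (ρ - ‖w‖ ^ 2)) := by
  have h1 : Tendsto (fun s => (⟪w, u s⟫_ℂ).re) atTop (𝓝 (‖w‖ ^ 2)) := by
    have := (Complex.continuous_re.tendsto _).comp (h w)
    have e : (⟪w, w⟫_ℂ).re = ‖w‖ ^ 2 := inner_self_eq_norm_sq (𝕜 := ℂ) w
    rw [e] at this
    exact this
  have h2 := ((tendsto_const_nhds (x := ‖w‖ ^ 2)).sub (h1.const_mul 2)).add hρ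
  rw [show ‖w‖ ^ 2 - 2 * ‖w‖ ^ 2 + ρ = ρ - ‖w‖ ^ 2 by ring] at h2
  refine h2.congr fun s => ?_
  rw [norm_sub_rev, @norm_sub_sq ℂ]
  rfl

theorem Weyl.Fam.qlw_smul {𝓜 : Weyl H} {u : ℝ → H} (h : 𝓜.Fam u) (a : ℝ) :
    𝓜.Fam fun s => a • u s := by
  obtain ⟨h1, C, hC⟩ := h
  refine ⟨fun s => 𝓜.R.smul_mem _ (h1 s), ‖a‖ * C, fun s => ?_⟩
  rw [norm_smul]
  exact mul_le_mul_of_nonneg_left (hC s) (norm_nonneg _)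

theorem Weyl.Fam.qlw_add {𝓜 : Weyl H} {u u' : ℝ → H} (h : 𝓜.Fam u) (h' : 𝓜.Fam u') :
    𝓜.Fam fun s => u s + u' s := by
  obtain ⟨h1, C, hC⟩ := h
  obtain ⟨h2, C', hC'⟩ := h'
  exact ⟨fun s => 𝓜.R.add_mem (h1 s) (h2 s), C + C', fun s =>
    (norm_add_le _ _).trans (add_le_add (hC s) (hC' s))⟩

namespace Label

variable {K : ℕ} {A : AMP K} {𝓛 : Label A H} {l : ℕ} {f : (Fin (K + 1) → ℝ) → ℝ}
  {N : Set (Fin (K + 1) → ℝ)} {U : H →L[ℂ] H}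

theorem qlw_conj {S : Set (Fin (K + 1) → ℝ)} (hS : MeasurableSet S) {R r T : H →L[ℂ] H}
    (e : 𝓛.Ind S * R = 𝓛.Ind S * r) (hT : 𝓛.CM T) :
    star R * (𝓛.Ind S * T) * R = star r * (𝓛.Ind S * T) * r := by
  have e' : star R * 𝓛.Ind S = star r * 𝓛.Ind S := by
    have := congrArg star e
    rwa [star_mul, star_mul, Ind_star hS] at this
  have h1 : 𝓛.Ind S * T = 𝓛.Ind S * T * 𝓛.Ind S := by
    rw [mul_assoc, ← hT.Ind hS, ← mul_assoc, Ind_sq hS]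
  calc star R * (𝓛.Ind S * T) * R = star R * 𝓛.Ind S * T * (𝓛.Ind S * R) := by
        conv_lhs => rw [h1]
        simp only [mul_assoc]
    _ = star r * 𝓛.Ind S * T * (𝓛.Ind S * r) := by rw [e, e']
    _ = star r * (𝓛.Ind S * T) * r := by
        conv_rhs => rw [h1]
        simp only [mul_assoc]

theorem qlw_osc_compl (hN : Anc N) {T : H →L[ℂ] H} (hT : 𝓛.CM T) (e : T * 𝓛.Z = -(𝓛.Z * T)) :
    𝓛.Osc fun s => star (𝓛.Rs N s) * (𝓛.Ind Nᶜ * T) * 𝓛.Rs N s := by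
  have hS := hN.meas.compl
  refine ((𝓛.osc_rot linv_Z (c := 2) two_ne_zero).mul_left (𝓛.Ind Nᶜ * T)).congr fun s => ?_
  rw [qlw_conj hS (Ind_compl_Rs hN s) hT,
    rot_conj_anticomm linv_Z (by fun_prop) ((cm_Ind hS).mul hT)]
  rw [mul_assoc, e, ← mul_assoc, ← cm_Z.Ind hS, mul_neg, mul_assoc]

theorem qlw_osc_anc (hN : Anc N) {T : H →L[ℂ] H} (hT : 𝓛.CM T) (e : T * 𝓛.X = -(𝓛.X * T)) :
    𝓛.Osc fun s => star (𝓛.Rs N s) * (𝓛.Ind N * T) * 𝓛.Rs N s := by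
  have hS := hN.meas
  refine ((𝓛.osc_rot_abs linv_X (c := 2) two_ne_zero).mul_left (𝓛.Ind N * T)).congr fun s => ?_
  rw [qlw_conj hS (Ind_Rs hN s) hT,
    rot_conj_anticomm linv_X (by fun_prop) ((cm_Ind hS).mul hT)]
  rw [mul_assoc, e, ← mul_assoc, ← cm_X.Ind hS, mul_neg, mul_assoc]

theorem qlw_YX : 𝓛.Y * 𝓛.X = -(𝓛.X * 𝓛.Y) := by rw [𝓛.YX, 𝓛.XY]
theorem qlw_YZ : 𝓛.Y * 𝓛.Z = -(𝓛.Z * 𝓛.Y) := by rw [𝓛.YZ, 𝓛.ZY, neg_neg]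
theorem qlw_ZX : 𝓛.Z * 𝓛.X = -(𝓛.X * 𝓛.Z) := by rw [𝓛.XZ, neg_neg]

theorem osc_X (hN : Anc N) :
    𝓛.Osc fun s => star (𝓛.Rs N s) * (𝓛.Ind Nᶜ * 𝓛.X) * 𝓛.Rs N s :=
  qlw_osc_compl hN cm_X 𝓛.XZ
theorem osc_Y (hN : Anc N) : 𝓛.Osc fun s => star (𝓛.Rs N s) * 𝓛.Y * 𝓛.Rs N s := by
  refine ((qlw_osc_anc hN cm_Y qlw_YX).add (qlw_osc_compl hN cm_Y qlw_YZ)).congr fun s => ?_
  rw [← add_mul, ← mul_add, ← add_mul, Ind_add_compl hN.meas, one_mul]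
theorem osc_Z (hN : Anc N) :
    𝓛.Osc fun s => star (𝓛.Rs N s) * (𝓛.Ind N * 𝓛.Z) * 𝓛.Rs N s :=
  qlw_osc_anc hN cm_Z qlw_ZX

theorem qlw_osc_Mf (hf : Sgn l f) (hN : Anc N) {T : H →L[ℂ] H} (hT : 𝓛.CM T)
    (e : T * 𝓛.Z = -(𝓛.Z * T)) :
    𝓛.Osc fun s => star (𝓛.Rs N s) * (𝓛.Mf f N * T) * 𝓛.Rs N s := by
  refine (qlw_osc_compl hN (T := 𝓛.Mr f * T) ((cm_M hf.br).mul hT) ?_).congr fun s => ?_
  · rw [mul_assoc, e, ← mul_assoc, ← cm_Z.Mr hf.br, mul_neg, mul_assoc]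
  · rw [Mf_eq hf hN, mul_assoc (𝓛.Ind Nᶜ)]

theorem osc_Qf (hf : Sgn l f) (hN : Anc N) :
    𝓛.Osc fun s => star (𝓛.Rs N s) * 𝓛.Qf f N * 𝓛.Rs N s := by
  refine ((qlw_osc_Mf hf hN cm_X 𝓛.XZ).add (qlw_osc_anc hN cm_Y qlw_YX)).congr fun s => ?_
  rw [Qf, mul_add, add_mul]

theorem qlw_ZQ (hf : Sgn l f) (hN : Anc N) :
    𝓛.Z * 𝓛.Qf f N = I • (𝓛.Mf f N * 𝓛.Y - 𝓛.Ind N * 𝓛.X) := by
  have h1 : 𝓛.Mf f N * 𝓛.Z = 𝓛.Z * 𝓛.Mf f N := cm_Z.Mr (Mf_br hf hN)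
  rw [Qf, mul_add, ← mul_assoc, ← mul_assoc, ← h1, ← cm_Z.Ind hN.meas, mul_assoc, mul_assoc,
    𝓛.ZX, 𝓛.ZY, mul_neg, mul_smul_comm, mul_smul_comm, smul_sub, sub_eq_add_neg]

theorem qlw_conj_Z (hN : Anc N) (s : ℝ) : star (𝓛.Rs N s) * 𝓛.Z * 𝓛.Rs N s =
    𝓛.Ind Nᶜ * 𝓛.Z + star (𝓛.Rs N s) * (𝓛.Ind N * 𝓛.Z) * 𝓛.Rs N s := by
  rw [← Rs_conj_Z hN s, ← add_mul, ← mul_add, ← add_mul, add_comm, Ind_add_compl hN.meas, one_mul]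

theorem qlw_conj_ZQ (hf : Sgn l f) (hN : Anc N) (s : ℝ) :
    star (𝓛.Rs N s) * (𝓛.Z * 𝓛.Qf f N) * 𝓛.Rs N s =
      I • (star (𝓛.Rs N s) * (𝓛.Mf f N * 𝓛.Y) * 𝓛.Rs N s - 𝓛.Ind N * 𝓛.X) := by
  rw [qlw_ZQ hf hN, mul_smul_comm, smul_mul_assoc, mul_sub, sub_mul, Rs_conj_X hN s]

variable (h : 𝓛.Hyp l f N U) (τ : ℝ)
include h

theorem Hyp.fam_lq : 𝓛.Fam (𝓛.lq f N U) :=
  ⟨fun s => (h.lq_real s).mem_R, 1, fun s => (h.norm_lq s).le⟩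
theorem Hyp.fam_lg : 𝓛.Fam (𝓛.lg f N U) :=
  ⟨fun s => (h.lg_real s).mem_R, 1, fun s => (h.norm_lg s).le⟩
theorem Hyp.lq_lim : VLim (𝓛.lq f N U) 0 := by
  have h1 := (osc_Qf (𝓛 := 𝓛) h.sgn h.anc).wlim.br 𝓛.toWeyl U
  have h2 : 𝓛.br U 0 = 0 := by simp [Weyl.br]
  rw [h2] at h1
  intro ξ
  refine (h1 ξ).congr fun s => ?_
  rw [lq, Weyl.br_mul]
theorem Hyp.W_lq_lim (a : ℝ) :
    WLim (fun s => 𝓛.W (a • 𝓛.lq f N U s)) (((Real.exp (-(a ^ 2 / 2)) : ℝ) : ℂ) • 1) := by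
  have h1 := h.lq_lim.qlw_smul a
  rw [smul_zero] at h1
  have h2 := 𝓛.fresh' (h.fam_lq.qlw_smul a) 𝓛.R.zero_mem h1 (r := a ^ 2) (by
    simp only [sub_zero, norm_smul, h.norm_lq, mul_one, Real.norm_eq_abs, sq_abs]
    exact tendsto_const_nhds)
  rwa [𝓛.W_zero] at h2

theorem Hyp.qlw_W_pos : WLim (fun s => 𝓛.W (𝓛.lq f N U s)) ((muL : ℂ) • 1) := by
  simpa only [one_smul, one_pow, muL] using h.W_lq_lim 1
theorem Hyp.qlw_W_neg : WLim (fun s => 𝓛.W (-𝓛.lq f N U s)) ((muL : ℂ) • 1) := by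
  simpa only [neg_smul, one_smul, neg_one_sq, muL] using h.W_lq_lim (-1)
theorem Hyp.qlw_cos : WLim (fun s => 𝓛.cosW (𝓛.lq f N U s)) ((muL : ℂ) • 1) := by
  have h1 := (h.qlw_W_pos.add h.qlw_W_neg).smul (tendsto_const_nhds (x := (1 / 2 : ℂ)))
  have e : (1 / 2 : ℂ) • ((muL : ℂ) • (1 : H →L[ℂ] H) + (muL : ℂ) • 1) = (muL : ℂ) • 1 := by
    match_scalars
    ring
  rw [e] at h1
  exact h1
theorem Hyp.qlw_sin : WLim (fun s => 𝓛.sinW (𝓛.lq f N U s)) 0 := by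
  have h1 := (h.qlw_W_pos.sub h.qlw_W_neg).smul (tendsto_const_nhds (x := (1 / (2 * I) : ℂ)))
  rw [sub_self, smul_zero] at h1
  exact h1

theorem Hyp.qlw_lg (s : ℝ) : 𝓛.lg f N U s = 𝓛.br (𝓛.Rs N s * U)
    (𝓛.Z * 𝓛.cosW (𝓛.lq f N U s) - I • (𝓛.Z * 𝓛.Qf f N * 𝓛.sinW (𝓛.lq f N U s))) := by
  have hq := h.fam_lq.1 s
  rw [lg, Weyl.br_mul, lO, Weyl.WQ_conj_anticomm (Qf_linv h.sgn h.anc).inv
    (𝓛.R.neg_mem (𝓛.R.smul_mem _ hq)) 𝓛.invol_Z.cw (Z_Qf h.sgn h.anc), smul_neg, smul_smul,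
    show (2 : ℝ) * (1 / 2) = 1 by norm_num, one_smul, Weyl.WQ, Weyl.cosW_neg, Weyl.sinW_neg,
    mul_add, mul_neg, smul_neg, mul_neg, mul_smul_comm, ← mul_assoc, sub_eq_add_neg]

theorem Hyp.qlw_cosR (T : H →L[ℂ] H) (s : ℝ) :
    star (𝓛.Rs N s) * (T * 𝓛.cosW (𝓛.lq f N U s)) * 𝓛.Rs N s =
      star (𝓛.Rs N s) * T * 𝓛.Rs N s * 𝓛.cosW (𝓛.lq f N U s) := by
  have := (Rs_loc (𝓛 := 𝓛) (l := l) h.anc s).cw.cosW (h.fam_lq.1 s)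
  simp only [mul_assoc, this]
theorem Hyp.qlw_sinR (T : H →L[ℂ] H) (s : ℝ) :
    star (𝓛.Rs N s) * (T * 𝓛.sinW (𝓛.lq f N U s)) * 𝓛.Rs N s =
      star (𝓛.Rs N s) * T * 𝓛.Rs N s * 𝓛.sinW (𝓛.lq f N U s) := by
  have := (Rs_loc (𝓛 := 𝓛) (l := l) h.anc s).cw.sinW (h.fam_lq.1 s)
  simp only [mul_assoc, this]

theorem Hyp.qlw_Zcos : WLim (fun s => star (𝓛.Rs N s) * (𝓛.Z * 𝓛.cosW (𝓛.lq f N U s)) * 𝓛.Rs N s)
    ((muL : ℂ) • (𝓛.Ind Nᶜ * 𝓛.Z)) := by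
  have h1 := (h.qlw_cos.mul_left (𝓛.Ind Nᶜ * 𝓛.Z)).add ((osc_Z h.anc).mul_cosW h.fam_lq).wlim
  rw [add_zero, mul_smul_comm, mul_one] at h1
  refine h1.congr fun s => ?_
  rw [h.qlw_cosR, qlw_conj_Z h.anc, add_mul]
theorem Hyp.qlw_Zsin :
    WLim (fun s => star (𝓛.Rs N s) * (𝓛.Z * 𝓛.sinW (𝓛.lq f N U s)) * 𝓛.Rs N s) 0 := by
  have h1 := (h.qlw_sin.mul_left (𝓛.Ind Nᶜ * 𝓛.Z)).add ((osc_Z h.anc).mul_sinW h.fam_lq).wlim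
  rw [add_zero, mul_zero] at h1
  refine h1.congr fun s => ?_
  rw [h.qlw_sinR, qlw_conj_Z h.anc, add_mul]
theorem Hyp.qlw_ZQcos :
    WLim (fun s => star (𝓛.Rs N s) * (𝓛.Z * 𝓛.Qf f N * 𝓛.cosW (𝓛.lq f N U s)) * 𝓛.Rs N s)
      (-((I * (muL : ℂ)) • (𝓛.Ind N * 𝓛.X))) := by
  have h1 := (((qlw_osc_Mf h.sgn h.anc cm_Y qlw_YZ).mul_cosW h.fam_lq).wlim.sub
    (h.qlw_cos.mul_left (𝓛.Ind N * 𝓛.X))).smul (tendsto_const_nhds (x := I))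
  rw [zero_sub, mul_smul_comm, mul_one, smul_neg, smul_smul] at h1
  refine h1.congr fun s => ?_
  rw [h.qlw_cosR, qlw_conj_ZQ h.sgn h.anc, smul_mul_assoc, sub_mul]
theorem Hyp.qlw_ZQsin :
    WLim (fun s => star (𝓛.Rs N s) * (𝓛.Z * 𝓛.Qf f N * 𝓛.sinW (𝓛.lq f N U s)) * 𝓛.Rs N s) 0 := by
  have h1 := (((qlw_osc_Mf h.sgn h.anc cm_Y qlw_YZ).mul_sinW h.fam_lq).wlim.sub
    (h.qlw_sin.mul_left (𝓛.Ind N * 𝓛.X))).smul (tendsto_const_nhds (x := I))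
  rw [mul_zero, sub_zero, smul_zero] at h1
  refine h1.congr fun s => ?_
  rw [h.qlw_sinR, qlw_conj_ZQ h.sgn h.anc, smul_mul_assoc, sub_mul]

theorem Hyp.lg_lim : VLim (𝓛.lg f N U) (muL • 𝓛.gS N U) := by
  have h1 := (h.qlw_Zcos.sub (h.qlw_ZQsin.smul (tendsto_const_nhds (x := I)))).br 𝓛.toWeyl U
  have h2 : 𝓛.br U ((muL : ℂ) • (𝓛.Ind Nᶜ * 𝓛.Z) - I • 0) = muL • 𝓛.gS N U := by
    rw [smul_zero, sub_zero, gS, Weyl.br, Weyl.br, smul_apply, map_smul,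
      Complex.coe_smul]
  rw [h2] at h1
  intro ξ
  refine (h1 ξ).congr fun s => ?_
  rw [h.qlw_lg, Weyl.br_mul, mul_sub, sub_mul, mul_smul_comm, smul_mul_assoc]
theorem Hyp.inner_lq_lg : Tendsto (fun s => ⟪𝓛.lq f N U s, 𝓛.lg f N U s⟫_ℂ) atTop
    (𝓝 (I * ((muL * 𝓛.xA N U : ℝ) : ℂ))) := by
  have h1 := ((h.qlw_Zsin.smul (tendsto_const_nhds (x := I))).sub h.qlw_ZQcos) (U 𝓛.Ω) (U 𝓛.Ω)
  rw [smul_zero, zero_sub, neg_neg, smul_apply, inner_smul_right,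
    xA_eq h.anc.meas, mul_assoc, ← ofReal_mul] at h1
  refine h1.congr fun s => ?_
  have hQ := (Qf_linv (𝓛 := 𝓛) h.sgn h.anc).inv
  have hR := (Rs_loc (𝓛 := 𝓛) (l := l) h.anc s).unitary
  have e1 : 𝓛.Qf f N * 𝓛.Z = -(𝓛.Z * 𝓛.Qf f N) := by rw [Z_Qf h.sgn h.anc, neg_neg]
  have e2 : 𝓛.Qf f N * (𝓛.Z * 𝓛.Qf f N) = -𝓛.Z := by
    rw [Z_Qf h.sgn h.anc, mul_neg, ← mul_assoc, hQ.sq, one_mul]
  have e3 : 𝓛.Qf f N * (𝓛.Z * 𝓛.cosW (𝓛.lq f N U s) -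
      I • (𝓛.Z * 𝓛.Qf f N * 𝓛.sinW (𝓛.lq f N U s))) =
      I • (𝓛.Z * 𝓛.sinW (𝓛.lq f N U s)) - 𝓛.Z * 𝓛.Qf f N * 𝓛.cosW (𝓛.lq f N U s) := by
    rw [mul_sub, mul_smul_comm, ← mul_assoc, ← mul_assoc _ (𝓛.Z * 𝓛.Qf f N), e2, e1, neg_mul,
      neg_mul, smul_neg]
    abel
  have e4 : ∀ O : H →L[ℂ] H, ⟪𝓛.lq f N U s, 𝓛.br (𝓛.Rs N s * U) O⟫_ℂ =
      ⟪U 𝓛.Ω, (star (𝓛.Rs N s) * (𝓛.Qf f N * O) * 𝓛.Rs N s) (U 𝓛.Ω)⟫_ℂ := fun O => by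
    rw [lq, 𝓛.inner_br (mul_mem hR h.reach.unitary), ← ContinuousLinearMap.adjoint_inner_right,
      ← ContinuousLinearMap.star_eq_adjoint, hQ.star_eq, mul_apply_eq_comp,
      ← ContinuousLinearMap.adjoint_inner_right, ← ContinuousLinearMap.star_eq_adjoint]
    rfl
  rw [h.qlw_lg, e4, e3, mul_sub, sub_mul, mul_smul_comm, smul_mul_assoc]
/-- Joint weak limit of the two fresh fields. -/
theorem Hyp.W_lg_lq_lim (a b : ℝ) :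
    WLim (fun s => 𝓛.W (b • 𝓛.lg f N U s + a • 𝓛.lq f N U s))
      (((Real.exp (-((b ^ 2 * (1 - muL ^ 2 * ‖𝓛.gS N U‖ ^ 2) + a ^ 2) / 2)) : ℝ) : ℂ) •
        𝓛.W ((b * muL) • 𝓛.gS N U)) := by
  have h1 := (h.lg_lim.qlw_smul b).qlw_add (h.lq_lim.qlw_smul a)
  rw [smul_zero, add_zero, smul_smul] at h1
  have h2 : Tendsto (fun s => (⟪𝓛.lq f N U s, 𝓛.lg f N U s⟫_ℂ).re) atTop (𝓝 0) := by
    have := (Complex.continuous_re.tendsto _).comp h.inner_lq_lg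
    simp only [mul_re, I_re, zero_mul, I_im, ofReal_im, mul_zero, sub_zero] at this
    exact this
  have h3 : Tendsto (fun s => ‖b • 𝓛.lg f N U s + a • 𝓛.lq f N U s‖ ^ 2) atTop
      (𝓝 (a ^ 2 + b ^ 2)) := by
    have h4 := ((tendsto_const_nhds (x := a ^ 2)).add (h2.const_mul (2 * (a * b)))).add
      (tendsto_const_nhds (x := b ^ 2))
    rw [mul_zero, add_zero] at h4
    refine h4.congr fun s => ?_
    rw [add_comm (b • _), @norm_add_sq ℂ, norm_smul, norm_smul, h.norm_lq, h.norm_lg,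
      ← Complex.coe_smul, ← Complex.coe_smul, inner_smul_left, inner_smul_right]
    simp only [mul_one, Real.norm_eq_abs, sq_abs, conj_ofReal, RCLike.re_to_complex, re_ofReal_mul]
    ring
  have h5 := h1.qlw_norm_sub h3
  have e : a ^ 2 + b ^ 2 - ‖(b * muL) • 𝓛.gS N U‖ ^ 2 =
      b ^ 2 * (1 - muL ^ 2 * ‖𝓛.gS N U‖ ^ 2) + a ^ 2 := by
    rw [norm_smul, mul_pow, Real.norm_eq_abs, sq_abs]
    ring
  rw [e] at h5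
  exact 𝓛.fresh' ((h.fam_lg.qlw_smul b).qlw_add (h.fam_lq.qlw_smul a))
    (h.gS_real.smul _).mem_R h1 h5

end Label

end Crest.Agent.R339
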