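import Crest.Agent.R339.QLoopReg
import Crest.Agent.R339.QLoopWeak

/-! # Row 339: the ancillas stay polarised -/

set_option autoImplicit false

namespace Crest.Agent.R339

open MeasureTheory ProbabilityTheory Complex Filter Topology
open scoped InnerProductSpace

variable {H : Type} [NormedAddCommGroup H] [InnerProductSpace ℂ H] [CompleteSpace H]

theorem QL4_star_left (B : H →L[ℂ] H) (x y : H) : ⟪star B x, y⟫_ℂ = ⟪x, B y⟫_ℂ := by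
  rw [ContinuousLinearMap.star_eq_adjoint, ContinuousLinearMap.adjoint_inner_left]

theorem QL4_star_right (B : H →L[ℂ] H) (x y : H) : ⟪x, star B y⟫_ℂ = ⟪B x, y⟫_ℂ := by
  rw [ContinuousLinearMap.star_eq_adjoint, ContinuousLinearMap.adjoint_inner_right]

theorem QL4_im_zero {B : H →L[ℂ] H} (hB : star B = B) (x : H) : (⟪x, B x⟫_ℂ).im = 0 := by
  have h1 : ⟪x, B x⟫_ℂ = ⟪B x, x⟫_ℂ := by rw [← QL4_star_right, hB]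
  have h2 := Weyl.QBase_im_symm x (B x)
  rw [← h1] at h2
  linarith

theorem QL4_quad {T : H →L[ℂ] H} (hT : star T = T) (hT1 : ‖T‖ ≤ 1) (ψ χ : H) :
    |(⟪χ, T χ⟫_ℂ).re - (⟪ψ, T ψ⟫_ℂ).re| ≤ 2 * |(⟪T ψ, χ - ψ⟫_ℂ).re| + ‖χ - ψ‖ ^ 2 := by
  obtain ⟨δ, rfl⟩ : ∃ δ, χ = ψ + δ := ⟨χ - ψ, by abel⟩
  have h1 : ⟪ψ, T δ⟫_ℂ = ⟪T ψ, δ⟫_ℂ := by rw [← QL4_star_right, hT]
  have h2 : (⟪δ, T ψ⟫_ℂ).re = (⟪T ψ, δ⟫_ℂ).re := by rw [← inner_conj_symm, conj_re]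
  have h3 : |(⟪δ, T δ⟫_ℂ).re| ≤ ‖δ‖ ^ 2 := by
    refine (Weyl.QReg_re_le _ _).trans ?_
    have := Weyl.QReg_le_of hT1 δ
    nlinarith [norm_nonneg δ]
  rw [add_sub_cancel_left, map_add, inner_add_left, inner_add_right, inner_add_right, add_re,
    add_re, add_re, h1, h2]
  have h4 := abs_le.1 h3
  have h5 := abs_le.1 (le_refl |(⟪T ψ, δ⟫_ℂ).re|)
  rw [abs_le]
  constructor <;> linarith [h4.1, h4.2, h5.1, h5.2]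

omit [CompleteSpace H] in
theorem QL4_small {B : ℝ → H →L[ℂ] H} (h : WLim B 0) (x : H) {η : ℝ} (hη : 0 < η) :
    ∀ᶠ s in atTop, ‖⟪x, B s x⟫_ℂ‖ ≤ η := by
  have h1 := (h x x).norm
  simp only [_root_.zero_apply, inner_zero_right, norm_zero] at h1
  exact h1.eventually (ge_mem_nhds hη)

theorem Weyl.QL4_sin {𝓜 : Weyl H} {Q : H →L[ℂ] H} {g x : H} (hQ : 𝓜.Invol Q) (hg : g ∈ 𝓜.R)
    (hx : x ∈ 𝓜.R) : 𝓜.WQ Q g * 𝓜.sinW x * 𝓜.WQ Q g =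
      (1 / 2 : ℂ) • (𝓜.sinW (x + (2 : ℝ) • g) + 𝓜.sinW (x - (2 : ℝ) • g)) +
        (1 / (2 * I) : ℂ) • (Q * (𝓜.cosW (x + (2 : ℝ) • g) - 𝓜.cosW (x - (2 : ℝ) • g))) := by
  have h1 := Weyl.WQ_W_WQ hQ hg hx
  have h2 := Weyl.WQ_W_WQ hQ hg (𝓜.R.neg_mem hx)
  have e1 : -x + (2 : ℝ) • g = -(x - (2 : ℝ) • g) := by abel
  have e2 : -x - (2 : ℝ) • g = -(x + (2 : ℝ) • g) := by abel
  rw [e1, e2] at h2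
  rw [Weyl.sinW, mul_smul_comm, smul_mul_assoc, mul_sub, sub_mul, h1, h2]
  simp only [Weyl.sinW, Weyl.cosW, mul_sub, mul_add, mul_smul_comm]
  module

namespace Label

variable {K : ℕ} {A : AMP K} {𝓛 : Label A H} {l : ℕ} {f : (Fin (K + 1) → ℝ) → ℝ}
  {N : Set (Fin (K + 1) → ℝ)} {U : H →L[ℂ] H} {τ ε η p : ℝ}

theorem QL4_T_star (hN : Anc N) : star (𝓛.Ind N * 𝓛.X) = 𝓛.Ind N * 𝓛.X := by
  rw [star_mul, 𝓛.X_star, Ind_star hN.meas, cm_X.Ind hN.meas]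

theorem QL4_T_norm (hN : Anc N) : ‖𝓛.Ind N * 𝓛.X‖ ≤ 1 :=
  (norm_mul_le _ _).trans (mul_le_one₀ (norm_Ind_le hN.meas) (norm_nonneg _)
    (norm_le_one_of_unitary 𝓛.invol_X.mem_unitary))

theorem QL4_P1_cw {B : H →L[ℂ] H} (hB : 𝓛.CW B) (hB1 : ‖B‖ ≤ 1) {ζ : H} (hζ : 𝓛.P1 ζ p) :
    𝓛.P1 (B ζ) p :=
  (Weyl.P1.cw hB hζ).mono (mul_le_of_le_one_left (P1.nonneg hζ) hB1)

theorem QL4_P1_R (hN : Anc N) (s : ℝ) {ζ : H} (hζ : 𝓛.P1 ζ p) : 𝓛.P1 (𝓛.Rs N s ζ) p :=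
  QL4_P1_cw (Rs_loc (l := 0) hN s).cw (norm_le_one_of_unitary (Rs_loc (l := 0) hN s).unitary) hζ

theorem QL4_P1_T (hN : Anc N) {ζ : H} (hζ : 𝓛.P1 ζ p) : 𝓛.P1 ((𝓛.Ind N * 𝓛.X) ζ) p :=
  QL4_P1_cw ((Ind_cw hN.meas).mul 𝓛.invol_X.cw) (QL4_T_norm hN) hζ

theorem Hyp.QL4_norm (h : 𝓛.Hyp l f N U) (s : ℝ) : ‖𝓛.Rs N s (U 𝓛.Ω)‖ = 1 := by
  rw [Weyl.QReg_norm_unit (Rs_loc (l := 0) h.anc s).unitary, Weyl.QReg_norm_unit h.reach.unitary,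
    𝓛.Ω_norm]

theorem Hyp.QL4_D3 (h : 𝓛.Hyp l f N U) (hτ : |τ| ≤ 1) (hη : 0 < η)
    (hp : 𝓛.P1 (U 𝓛.Ω) p) : ∀ᶠ s in atTop,
    |(⟪(𝓛.Ind N * 𝓛.X) (𝓛.Rs N s (U 𝓛.Ω)),
      𝓛.lD3 f N U τ ε s (𝓛.Rs N s (U 𝓛.Ω)) - 𝓛.Rs N s (U 𝓛.Ω)⟫_ℂ).re| ≤
        200 * (1 + p) ^ 4 * ε ^ 2 + η := by
  have hN := h.anc
  have hp0 := P1.nonneg hp
  have hu : ∀ s, 𝓛.lu2 f N U τ ε s ∈ 𝓛.R := fun s => (h.lu2_real τ ε s).mem_R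
  have hF : 𝓛.Fam (𝓛.lu2 f N U τ ε) := ⟨hu, _, fun s => h.norm_lu2 hτ s hp⟩
  filter_upwards [QL4_small ((osc_Z hN).mul_sinW hF).wlim (U 𝓛.Ω) hη] with s hs
  have hn := h.norm_lu2 (ε := ε) hτ s hp
  have hus := hu s
  have hR := (Rs_loc (𝓛 := 𝓛) (l := 0) hN s).cw.sinW hus
  have hψ := QL4_P1_R hN s hp
  rw [lD3]
  generalize 𝓛.lu2 f N U τ ε s = u at *
  have e1 : 𝓛.Ind N * 𝓛.X * 𝓛.Qf f N = I • (𝓛.Ind N * 𝓛.Z) := by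
    rw [cm_X.Ind hN.meas, mul_assoc, Ind_Qf h.sgn hN, ← mul_assoc, ← cm_X.Ind hN.meas, mul_assoc,
      𝓛.XY, mul_smul_comm]
  have e2 : ⟪(𝓛.Ind N * 𝓛.X) (𝓛.Rs N s (U 𝓛.Ω)), 𝓛.Qf f N (𝓛.sinW u (𝓛.Rs N s (U 𝓛.Ω)))⟫_ℂ =
      I * ⟪U 𝓛.Ω, (star (𝓛.Rs N s) * (𝓛.Ind N * 𝓛.Z) * 𝓛.Rs N s * 𝓛.sinW u) (U 𝓛.Ω)⟫_ℂ := by
    rw [← QL4_T_star hN, QL4_star_left, ← mul_apply_eq_comp (𝓛.Ind N * 𝓛.X), e1,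
      mul_assoc _ _ (𝓛.sinW u), hR, mul_assoc, mul_apply_eq_comp (star _), QL4_star_right,
      _root_.smul_apply, inner_smul_right]
    rfl
  have e3 : 𝓛.WQ (𝓛.Qf f N) u (𝓛.Rs N s (U 𝓛.Ω)) - 𝓛.Rs N s (U 𝓛.Ω) =
      (𝓛.cosW u (𝓛.Rs N s (U 𝓛.Ω)) - 𝓛.Rs N s (U 𝓛.Ω)) +
        I • 𝓛.Qf f N (𝓛.sinW u (𝓛.Rs N s (U 𝓛.Ω))) := by
    rw [Weyl.WQ, _root_.add_apply, _root_.smul_apply, mul_apply_eq_comp]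
    abel
  have h1 := Weyl.P1.inner_cosW_sub hus hψ (QL4_P1_T hN hψ)
  rw [e3, inner_add_right, inner_smul_right, e2]
  refine (Complex.abs_re_le_norm _).trans ((norm_add_le _ _).trans (add_le_add (h1.trans ?_) ?_))
  · have h2 : ‖u‖ ^ 2 ≤ (20 * (1 + p) * |ε|) ^ 2 := pow_le_pow_left₀ (norm_nonneg _) hn 2
    rw [mul_pow, sq_abs] at h2
    calc p * p * ‖u‖ ^ 2 / 2 ≤ (1 + p) * (1 + p) * ((20 * (1 + p)) ^ 2 * ε ^ 2) / 2 := by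
          gcongr <;> linarith
      _ = _ := by ring
  · simpa only [norm_mul, Complex.norm_I, one_mul] using hs

theorem Hyp.QL4_D2 (h : 𝓛.Hyp l f N U) (hτ : |τ| ≤ 1) (hη : 0 < η)
    (hp : 𝓛.P1 (U 𝓛.Ω) p) : ∀ᶠ s in atTop,
    |(⟪(𝓛.Ind N * 𝓛.X) (𝓛.Rs N s (U 𝓛.Ω)),
      𝓛.lD2 f N U τ ε s (𝓛.Rs N s (U 𝓛.Ω)) - 𝓛.Rs N s (U 𝓛.Ω)⟫_ℂ).re| ≤
        8 * (1 + p) ^ 2 * ε ^ 2 + η := by
  have hN := h.anc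
  have hp0 := P1.nonneg hp
  have hQ := (Qf_linv (𝓛 := 𝓛) h.sgn hN).inv
  have hu : ∀ s, 𝓛.lu1 f N U τ ε s ∈ 𝓛.R := fun s => (h.lu1_real τ ε s).mem_R
  have hun : ∀ s, ‖𝓛.lu1 f N U τ ε s‖ ≤ 4 * |ε| := fun s => (h.norm_lu1 τ ε s).trans (by
    have := abs_nonneg ε
    nlinarith)
  obtain ⟨g, hg⟩ : ∃ g : ℝ → H, g = fun s => -((1 / 2 : ℝ) • 𝓛.lq f N U s) := ⟨_, rfl⟩
  have hgR : ∀ s, g s ∈ 𝓛.R := fun s => by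
    rw [hg]
    exact ((h.lq_real s).smul _).neg.mem_R
  have hgn : ∀ s, ‖g s‖ = 1 / 2 := fun s => by
    rw [hg, norm_neg, norm_smul, h.norm_lq s]
    norm_num
  have hg2 : ∀ s, ‖(2 : ℝ) • g s‖ = 1 := fun s => by
    rw [norm_smul, hgn]
    norm_num
  have hO : ∀ s, 𝓛.lO f N U s = 𝓛.WQ (𝓛.Qf f N) (g s) := fun s => by rw [hg, lO]
  have hF1 : 𝓛.Fam fun s => 𝓛.lu1 f N U τ ε s + (2 : ℝ) • g s :=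
    ⟨fun s => 𝓛.R.add_mem (hu s) (𝓛.R.smul_mem _ (hgR s)), 4 * |ε| + 1, fun s =>
      (norm_add_le _ _).trans (add_le_add (hun s) (hg2 s).le)⟩
  have hF2 : 𝓛.Fam fun s => 𝓛.lu1 f N U τ ε s - (2 : ℝ) • g s :=
    ⟨fun s => 𝓛.R.sub_mem (hu s) (𝓛.R.smul_mem _ (hgR s)), 4 * |ε| + 1, fun s =>
      (norm_sub_le _ _).trans (add_le_add (hun s) (hg2 s).le)⟩
  have hosc := (osc_Y (𝓛 := 𝓛) hN).mul_left (𝓛.Ind N)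
  filter_upwards [QL4_small ((hosc.mul_sinW hF1).add (hosc.mul_sinW hF2)).wlim (U 𝓛.Ω) hη]
    with s hs
  have hn := hun s
  have hus := hu s
  have hgs := hgR s
  have hgs' := hgn s
  have ha : 𝓛.lu1 f N U τ ε s + (2 : ℝ) • g s ∈ 𝓛.R := hF1.1 s
  have hb : 𝓛.lu1 f N U τ ε s - (2 : ℝ) • g s ∈ 𝓛.R := hF2.1 s
  have hL := Rs_loc (𝓛 := 𝓛) (l := 0) hN s
  have hψ := QL4_P1_R hN s hp
  have hψ1 := h.QL4_norm s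
  rw [lD2, hO]
  generalize 𝓛.lu1 f N U τ ε s = u at *
  generalize g s = v at *
  have hsin := Weyl.QL4_sin hQ hgs hus
  generalize u + (2 : ℝ) • v = a at *
  generalize u - (2 : ℝ) • v = b at *
  have hOu := Weyl.WQ_unitary hQ hgs
  have hOZ : star (𝓛.WQ (𝓛.Qf f N) v) * 𝓛.Z = 𝓛.Z * 𝓛.WQ (𝓛.Qf f N) v := by
    rw [Weyl.WQ_star hQ hgs, Weyl.WQ_anticomm hQ 𝓛.invol_Z.cw (Z_Qf h.sgn hN) hgs]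
  have hXZ : 𝓛.X * 𝓛.Z = (-I) • 𝓛.Y := by
    rw [Weyl.Y, smul_smul]
    simp
  have e1 : 𝓛.Ind N * 𝓛.X * 𝓛.Z = (-I) • (𝓛.Ind N * 𝓛.Y) := by
    rw [mul_assoc, hXZ, mul_smul_comm]
  have e2 : 𝓛.Ind N * 𝓛.Y * 𝓛.Qf f N = 𝓛.Ind N := by
    rw [cm_Y.Ind hN.meas, mul_assoc, Ind_Qf h.sgn hN, ← mul_assoc, ← cm_Y.Ind hN.meas, mul_assoc,
      𝓛.invol_Y.sq, mul_one]
  have e3 : 𝓛.Ind N * 𝓛.X * (star (𝓛.WQ (𝓛.Qf f N) v) * (𝓛.Z * 𝓛.sinW u) * 𝓛.WQ (𝓛.Qf f N) v) =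
      (-I / 2) • (𝓛.Ind N * 𝓛.Y * (𝓛.sinW a + 𝓛.sinW b)) +
        (-1 / 2 : ℂ) • (𝓛.Ind N * (𝓛.cosW a - 𝓛.cosW b)) := by
    rw [← mul_assoc (star _), hOZ, mul_assoc 𝓛.Z, mul_assoc 𝓛.Z, hsin, ← mul_assoc, e1,
      smul_mul_assoc, mul_add, mul_smul_comm, mul_smul_comm, ← mul_assoc _ (𝓛.Qf f N), e2, smul_add,
      smul_smul, smul_smul]
    congr 2
    · ring
    · field_simp
  have e4 : star (𝓛.Rs N s) * (𝓛.Ind N * 𝓛.Y * (𝓛.sinW a + 𝓛.sinW b)) * 𝓛.Rs N s =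
      𝓛.Ind N * (star (𝓛.Rs N s) * 𝓛.Y * 𝓛.Rs N s) * 𝓛.sinW a +
        𝓛.Ind N * (star (𝓛.Rs N s) * 𝓛.Y * 𝓛.Rs N s) * 𝓛.sinW b := by
    simp only [mul_add, add_mul, mul_assoc, hL.cw.sinW ha, hL.cw.sinW hb]
    simp only [← mul_assoc, hL.cm.star.Ind hN.meas]
  have e5 : (⟪𝓛.Rs N s (U 𝓛.Ω),
      (𝓛.Ind N * (𝓛.cosW a - 𝓛.cosW b)) (𝓛.Rs N s (U 𝓛.Ω))⟫_ℂ).im = 0 := by
    refine QL4_im_zero ?_ _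
    rw [star_mul, star_sub, Weyl.cosW_star ha, Weyl.cosW_star hb, Ind_star hN.meas, mul_sub, sub_mul,
      (cm_cosW ha).Ind hN.meas, (cm_cosW hb).Ind hN.meas]
  rw [← e4, mul_assoc, mul_apply_eq_comp (star _), QL4_star_right, mul_apply_eq_comp] at hs
  have hP1 : 𝓛.P1 (𝓛.WQ (𝓛.Qf f N) v (𝓛.Rs N s (U 𝓛.Ω))) (1 + p) :=
    (Weyl.P1.WQ hQ hgs hψ).mono (by rw [hgs', hψ1]; linarith)
  have hP2 : 𝓛.P1 (𝓛.WQ (𝓛.Qf f N) v ((𝓛.Ind N * 𝓛.X) (𝓛.Rs N s (U 𝓛.Ω)))) (1 + p) :=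
    (Weyl.P1.WQ hQ hgs (QL4_P1_T hN hψ)).mono (by
      have := Weyl.QReg_le_of (QL4_T_norm (𝓛 := 𝓛) hN) (𝓛.Rs N s (U 𝓛.Ω))
      rw [hgs']
      linarith)
  have h1 := Weyl.P1.inner_cosW_sub hus hP1 hP2
  generalize 𝓛.Rs N s (U 𝓛.Ω) = ψ at *
  generalize 𝓛.WQ (𝓛.Qf f N) v = O at *
  have e6 : (star O * 𝓛.WZ u * O) ψ - ψ =
      star O (𝓛.cosW u (O ψ) - O ψ) + I • (star O * (𝓛.Z * 𝓛.sinW u) * O) ψ := by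
    have e7 : star O (O ψ) = ψ := by
      rw [← mul_apply_eq_comp, Unitary.star_mul_self_of_mem hOu, one_apply_eq_self]
    simp only [Weyl.WQ, mul_apply_eq_comp, _root_.add_apply,
      _root_.smul_apply, map_add, map_sub, map_smul, e7]
    abel
  have e8 : ⟪(𝓛.Ind N * 𝓛.X) ψ, (star O * (𝓛.Z * 𝓛.sinW u) * O) ψ⟫_ℂ =
      (-I / 2) * ⟪ψ, (𝓛.Ind N * 𝓛.Y * (𝓛.sinW a + 𝓛.sinW b)) ψ⟫_ℂ +
        (-1 / 2 : ℂ) * ⟪ψ, (𝓛.Ind N * (𝓛.cosW a - 𝓛.cosW b)) ψ⟫_ℂ := by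
    rw [← QL4_T_star hN, QL4_star_left, ← mul_apply_eq_comp, e3, _root_.add_apply,
      _root_.smul_apply, _root_.smul_apply, inner_add_right,
      inner_smul_right, inner_smul_right]
  rw [e6, inner_add_right, inner_smul_right, e8, QL4_star_right]
  generalize ⟪O ((𝓛.Ind N * 𝓛.X) ψ), 𝓛.cosW u (O ψ) - O ψ⟫_ℂ = z1 at *
  generalize ⟪ψ, (𝓛.Ind N * 𝓛.Y * (𝓛.sinW a + 𝓛.sinW b)) ψ⟫_ℂ = z2 at *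
  generalize ⟪ψ, (𝓛.Ind N * (𝓛.cosW a - 𝓛.cosW b)) ψ⟫_ℂ = z3 at *
  have e9 : (z1 + I * (-I / 2 * z2 + -1 / 2 * z3)).re = z1.re + z2.re / 2 := by
    have : z1 + I * (-I / 2 * z2 + -1 / 2 * z3) =
        z1 + ((1 / 2 : ℝ) : ℂ) * z2 - ((1 / 2 : ℝ) : ℂ) * (z3 * I) := by
      push_cast
      linear_combination (-1 / 2 * z2) * I_mul_I
    rw [this, sub_re, add_re, re_ofReal_mul, re_ofReal_mul, mul_I_re, e5]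
    ring
  have h2 : ‖u‖ ^ 2 ≤ (4 * |ε|) ^ 2 := pow_le_pow_left₀ (norm_nonneg _) hn 2
  rw [mul_pow, sq_abs] at h2
  have h3 : (1 + p) * (1 + p) * ‖u‖ ^ 2 / 2 ≤ 8 * (1 + p) ^ 2 * ε ^ 2 := by
    calc _ ≤ (1 + p) * (1 + p) * (4 ^ 2 * ε ^ 2) / 2 := by gcongr
      _ = _ := by ring
  have h4 := abs_le.1 ((Complex.abs_re_le_norm z1).trans (h1.trans h3))
  have h5 := abs_le.1 ((Complex.abs_re_le_norm z2).trans hs)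
  rw [e9, abs_le]
  constructor <;> linarith [h4.1, h4.2, h5.1, h5.2]

theorem Hyp.QL4_xA (h : 𝓛.Hyp l f N U) (τ ε s : ℝ) : 𝓛.xA N (𝓛.lL f N U τ ε s * U) =
    (⟪𝓛.lD3 f N U τ ε s (𝓛.lD2 f N U τ ε s (𝓛.Rs N s (U 𝓛.Ω))), (𝓛.Ind N * 𝓛.X)
      (𝓛.lD3 f N U τ ε s (𝓛.lD2 f N U τ ε s (𝓛.Rs N s (U 𝓛.Ω))))⟫_ℂ).re := by
  have hN := h.anc
  have hRu := (Rs_loc (𝓛 := 𝓛) (l := 0) hN s).unitary
  have e1 : 𝓛.Rs N s * (𝓛.Ind N * 𝓛.X) * star (𝓛.Rs N s) = 𝓛.Ind N * 𝓛.X := by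
    conv_lhs => rw [← Rs_conj_X hN s]
    simp only [← mul_assoc, Unitary.mul_star_self_of_mem hRu, one_mul]
    rw [mul_assoc, Unitary.mul_star_self_of_mem hRu, mul_one]
  have e2 : 𝓛.Ind N * (𝓛.lD3 f N U τ ε s * 𝓛.lD2 f N U τ ε s * 𝓛.lD1 f N U τ ε s) =
      𝓛.Ind N * (𝓛.lD3 f N U τ ε s * 𝓛.lD2 f N U τ ε s) := by
    rw [← mul_assoc, ((h.lD3_cm τ ε s).mul (h.lD2_cm τ ε s)).Ind hN.meas, mul_assoc,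
      h.Ind_lD1 τ ε s]
  have e3 : ∀ x : H, ⟪x, (𝓛.Ind N * 𝓛.X) x⟫_ℂ = ⟪𝓛.Ind N x, 𝓛.X (𝓛.Ind N x)⟫_ℂ := fun x => by
    rw [← QL4_star_right, Ind_star hN.meas, ← mul_apply_eq_comp, ← mul_apply_eq_comp, mul_assoc,
      ← cm_X.Ind hN.meas, ← mul_assoc, Ind_sq hN.meas]
  have e4 : ∀ x : H, ⟪star (𝓛.Rs N s) x, (𝓛.Ind N * 𝓛.X) (star (𝓛.Rs N s) x)⟫_ℂ =
      ⟪x, (𝓛.Ind N * 𝓛.X) x⟫_ℂ := fun x => by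
    rw [QL4_star_left, ← mul_apply_eq_comp, ← mul_apply_eq_comp, e1]
  have e5 := congrArg Complex.re (xA_eq (𝓛 := 𝓛) hN.meas (𝓛.lL f N U τ ε s * U))
  rw [ofReal_re] at e5
  rw [← e5, lL, mul_apply_eq_comp _ U, mul_apply_eq_comp _ (𝓛.Rs N s),
    mul_apply_eq_comp (star _), e4, e3, e3, ← mul_apply_eq_comp (𝓛.Ind N), e2]
  rfl

theorem Hyp.QL4_xA' (h : 𝓛.Hyp l f N U) (s : ℝ) : 𝓛.xA N U =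
    (⟪𝓛.Rs N s (U 𝓛.Ω), (𝓛.Ind N * 𝓛.X) (𝓛.Rs N s (U 𝓛.Ω))⟫_ℂ).re := by
  have e5 := congrArg Complex.re (xA_eq (𝓛 := 𝓛) h.anc.meas U)
  rw [ofReal_re] at e5
  rw [← e5, ← QL4_star_right (𝓛.Rs N s), ← mul_apply_eq_comp (star _),
    ← mul_apply_eq_comp _ (𝓛.Rs N s), Rs_conj_X h.anc s]

/-- (L4) -/
theorem Hyp.L4 (h : 𝓛.Hyp l f N U) (hτ : |τ| ≤ 1) (hε : |ε| ≤ 1) (hη : 0 < η)
    (hp : 𝓛.P1 (U 𝓛.Ω) p) : ∀ᶠ s in atTop,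
    |𝓛.xA N (𝓛.lL f N U τ ε s * U) - 𝓛.xA N U| ≤ 100000 * (1 + p) ^ 4 * ε ^ 2 + η := by
  have hN := h.anc
  have hp0 := P1.nonneg hp
  have hQ := (Qf_linv (𝓛 := 𝓛) h.sgn hN).inv
  filter_upwards [h.QL4_D3 (ε := ε) hτ (show 0 < η / 4 by linarith) hp,
    h.QL4_D2 (ε := ε) hτ (show 0 < η / 4 by linarith) hp] with s h3 h2
  rw [h.QL4_xA τ ε s, h.QL4_xA' s]
  refine (QL4_quad (QL4_T_star hN) (QL4_T_norm hN) _ _).trans ?_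
  have hψ := QL4_P1_R hN s hp
  have hψ1 := h.QL4_norm s
  have hu := (h.lu2_real τ ε s).mem_R
  have hn := h.norm_lu2 (ε := ε) hτ s hp
  have n2 := h.norm_lD2_sub (ε := ε) hτ s hψ
  have hU3 := h.lD3_unitary τ ε s
  have hε0 := abs_nonneg ε
  have b1 : 2 * p * ‖𝓛.lu2 f N U τ ε s‖ ≤ 40 * (1 + p) ^ 2 * |ε| := by
    calc _ ≤ 2 * (1 + p) * (20 * (1 + p) * |ε|) := by gcongr; linarith
      _ = _ := by ring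
  have n3 : ‖𝓛.lD3 f N U τ ε s (𝓛.Rs N s (U 𝓛.Ω)) - 𝓛.Rs N s (U 𝓛.Ω)‖ ≤
      40 * (1 + p) ^ 2 * |ε| := (Weyl.P1.norm_WQ_sub hQ hu hψ).trans b1
  have n4 : ‖star (𝓛.lD3 f N U τ ε s) ((𝓛.Ind N * 𝓛.X) (𝓛.Rs N s (U 𝓛.Ω))) -
      (𝓛.Ind N * 𝓛.X) (𝓛.Rs N s (U 𝓛.Ω))‖ ≤ 40 * (1 + p) ^ 2 * |ε| := by
    rw [lD3, Weyl.WQ_star hQ hu]
    refine (Weyl.P1.norm_WQ_sub hQ (𝓛.R.neg_mem hu) (QL4_P1_T hN hψ)).trans ?_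
    rwa [norm_neg]
  rw [hψ1] at n2
  have n5 : ‖𝓛.lD2 f N U τ ε s (𝓛.Rs N s (U 𝓛.Ω)) - 𝓛.Rs N s (U 𝓛.Ω)‖ ≤
      16 * (1 + p) ^ 2 * |ε| := by
    refine n2.trans ?_
    gcongr
    nlinarith
  generalize 𝓛.Rs N s (U 𝓛.Ω) = ψ at *
  generalize 𝓛.lD3 f N U τ ε s = D3 at *
  generalize 𝓛.lD2 f N U τ ε s = D2 at *
  generalize (𝓛.Ind N * 𝓛.X) ψ = χ at *
  have e1 : ⟪χ, D3 (D2 ψ) - ψ⟫_ℂ =
      ⟪χ, D3 ψ - ψ⟫_ℂ + ⟪χ, D2 ψ - ψ⟫_ℂ + ⟪star D3 χ - χ, D2 ψ - ψ⟫_ℂ := by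
    rw [inner_sub_left, QL4_star_left, map_sub]
    simp only [inner_sub_right]
    ring
  have n6 : ‖D3 (D2 ψ) - ψ‖ ≤ 56 * (1 + p) ^ 2 * |ε| := by
    have e2 : D3 (D2 ψ) - ψ = D3 (D2 ψ - ψ) + (D3 ψ - ψ) := by
      rw [map_sub]
      abel
    rw [e2]
    refine (norm_add_le _ _).trans ?_
    rw [Weyl.QReg_norm_unit hU3]
    linarith
  have n7 : ‖D3 (D2 ψ) - ψ‖ ^ 2 ≤ 3136 * (1 + p) ^ 4 * ε ^ 2 := by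
    refine (pow_le_pow_left₀ (norm_nonneg _) n6 2).trans_eq ?_
    rw [mul_pow, sq_abs]
    ring
  have n8 : |(⟪star D3 χ - χ, D2 ψ - ψ⟫_ℂ).re| ≤ 640 * (1 + p) ^ 4 * ε ^ 2 := by
    refine (Weyl.QReg_re_le _ _).trans
      ((mul_le_mul n4 n5 (norm_nonneg _) (by positivity)).trans_eq ?_)
    rw [← sq_abs ε]
    ring
  have n9 : (1 + p) ^ 2 * ε ^ 2 ≤ (1 + p) ^ 4 * ε ^ 2 := by
    gcongr
    · linarith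
    · norm_num
  have n10 : 0 ≤ (1 + p) ^ 4 * ε ^ 2 := by positivity
  have n11 : |(⟪χ, D3 (D2 ψ) - ψ⟫_ℂ).re| ≤ 848 * (1 + p) ^ 4 * ε ^ 2 + η / 2 := by
    rw [e1, add_re, add_re]
    refine (abs_add_three _ _ _).trans ?_
    linarith
  linarith

end Label

end Crest.Agent.R339
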