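import Crest.Agent.R339.QLoopAlg

/-! # Row 339: norm estimates for the loop -/

set_option autoImplicit false

namespace Crest.Agent.R339

open MeasureTheory ProbabilityTheory Complex Filter Topology
open scoped InnerProductSpace

variable {H : Type} [NormedAddCommGroup H] [InnerProductSpace ℂ H] [CompleteSpace H]

theorem QLoopReg_star_apply {U : H →L[ℂ] H} (hU : U ∈ unitary (H →L[ℂ] H)) (x : H) :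
    star U (U x) = x := by
  rw [← mul_apply_eq_comp, Unitary.star_mul_self_of_mem hU, one_apply_eq_self]

theorem QLoopReg_conj_sub {U : H →L[ℂ] H} (hU : U ∈ unitary (H →L[ℂ] H)) (D : H →L[ℂ] H) (x : H) :
    ‖(star U * D * U) x - x‖ = ‖D (U x) - U x‖ := by
  rw [← Weyl.QReg_norm_unit (Unitary.star_mem hU) (D (U x) - U x), map_sub, QLoopReg_star_apply hU]
  rfl

theorem QLoopReg_mul_sub {U : H →L[ℂ] H} (hU : U ∈ unitary (H →L[ℂ] H)) (D : H →L[ℂ] H) (x : H) :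
    ‖(U * D) x - x‖ ≤ ‖U x - x‖ + ‖D x - x‖ := by
  have e : (U * D) x - x = (U x - x) + U (D x - x) := by
    rw [map_sub, mul_apply_eq_comp]
    abel
  rw [e, ← Weyl.QReg_norm_unit hU (D x - x)]
  exact norm_add_le _ _

namespace Weyl

variable {𝓜 : Weyl H} {Q : H →L[ℂ] H} {g u ζ : H} {c : ℝ}

theorem QLoopReg_cw {T : H →L[ℂ] H} (hT : 𝓜.CW T) (h1 : ‖T‖ ≤ 1) (hc : 0 ≤ c) (h : 𝓜.P1 ζ c) :
    𝓜.P1 (T ζ) c := (h.cw hT).mono (mul_le_of_le_one_left hc h1)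

theorem QLoopReg_tw (hQ : 𝓜.Invol Q) (hg : g ∈ 𝓜.R) (hu : u ∈ 𝓜.R) :
    ∃ T ∈ unitary (H →L[ℂ] H), 𝓜.CW T ∧ ‖T - 1‖ ≤ 2 * ‖g‖ * ‖u‖ ∧
      (∀ x, 𝓜.WQ Q g (𝓜.W u x) = 𝓜.W u (T (𝓜.WQ Q g x))) ∧
      ∀ x, star (𝓜.WQ Q g) (𝓜.W u x) = 𝓜.W u (star (𝓜.WQ Q g) (star T x)) := by
  have hng := 𝓜.R.neg_mem hg
  have hnu := 𝓜.R.neg_mem hu
  have hO := WQ_unitary hQ hg
  have hV := 𝓜.W_unitary hu
  obtain ⟨T, cw, -, hn, e⟩ := (QReg_Tw_WQ hQ hng).2 _ hnu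
  rw [← WQ_star hQ hg, ← 𝓜.W_star u hu] at e
  have e1 : 𝓜.WQ Q g * 𝓜.W u = 𝓜.W u * (star T * 𝓜.WQ Q g) := by
    have := congrArg star e
    rwa [star_mul, star_mul, star_mul, star_star, star_star, mul_assoc] at this
  have e2 : star T = star (𝓜.W u) * (𝓜.WQ Q g * 𝓜.W u) * star (𝓜.WQ Q g) := by
    rw [e1, ← mul_assoc, Unitary.star_mul_self_of_mem hV, one_mul, mul_assoc,
      Unitary.mul_star_self_of_mem hO, mul_one]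
  have e3 : star (𝓜.WQ Q g) * 𝓜.W u = 𝓜.W u * (star (𝓜.WQ Q g) * T) := by
    have := congrArg (fun B => 𝓜.W u * B * 𝓜.W u) e
    simp only [mul_assoc] at this
    rwa [← mul_assoc, Unitary.mul_star_self_of_mem hV, one_mul, Unitary.star_mul_self_of_mem hV,
      mul_one] at this
  refine ⟨star T, ?_, cw.star, ?_, fun x => congrArg (fun B : H →L[ℂ] H => B x) e1, fun x => ?_⟩
  · rw [e2]
    exact mul_mem (mul_mem (Unitary.star_mem hV) (mul_mem hO hV)) (Unitary.star_mem hO)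
  · have : star T - 1 = star (T - 1) := by rw [star_sub T 1, star_one]
    rw [this, norm_star]
    rwa [norm_neg, norm_neg] at hn
  · rw [star_star]
    exact congrArg (fun B : H →L[ℂ] H => B x) e3

/-- A small Weyl rotation in a rotated frame moves regular vectors little. -/
theorem P1.norm_conj_sub (hQ : 𝓜.Invol Q) (hg : g ∈ 𝓜.R) (hg1 : ‖g‖ ≤ 1) (hu : u ∈ 𝓜.R)
    (h : 𝓜.P1 ζ c) :
    ‖(star (𝓜.WQ Q g) * 𝓜.WZ u * 𝓜.WQ Q g) ζ - ζ‖ ≤ 4 * (c + ‖ζ‖) * ‖u‖ := by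
  rw [QLoopReg_conj_sub (WQ_unitary hQ hg)]
  have h1 := (h.WQ hQ hg).norm_WQ_sub 𝓜.invol_Z hu
  have h2 := (norm_nonneg _).trans (h u hu)
  have h3 := mul_le_mul_of_nonneg_right hg1 (mul_nonneg (norm_nonneg ζ) (norm_nonneg u))
  linarith

/-- ... and increases the regularity constant by a small factor only. -/
theorem P1.conj (hQ : 𝓜.Invol Q) (hg : g ∈ 𝓜.R) (hg1 : ‖g‖ ≤ 1) (hu : u ∈ 𝓜.R) (hc : 0 ≤ c)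
    (h : 𝓜.P1 ζ c) :
    𝓜.P1 ((star (𝓜.WQ Q g) * 𝓜.WZ u * 𝓜.WQ Q g) ζ) (c + 100 * (c + ‖ζ‖) * ‖u‖) := by
  intro v hv
  have hO := WQ_unitary hQ hg
  have hZ := WQ_unitary 𝓜.invol_Z hu
  obtain ⟨T, T1, T2, T3, T4, T5⟩ := QLoopReg_tw hQ hg hv
  obtain ⟨S, S1, -, S3, S4, -⟩ := QLoopReg_tw 𝓜.invol_Z hu hv
  have hξ : 𝓜.P1 (𝓜.WQ Q g ζ) (c + 2 * ‖ζ‖) := (h.WQ hQ hg).mono (by
    nlinarith [norm_nonneg ζ])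
  have hn : ‖𝓜.WQ Q g ζ‖ = ‖ζ‖ := QReg_norm_unit hO ζ
  have hD : star (𝓜.WQ Q g) * 𝓜.WZ u * 𝓜.WQ Q g ∈ unitary (H →L[ℂ] H) :=
    mul_mem (mul_mem (Unitary.star_mem hO) hZ) hO
  have e : 𝓜.W v ((star (𝓜.WQ Q g) * 𝓜.WZ u * 𝓜.WQ Q g) ζ) -
      (star (𝓜.WQ Q g) * 𝓜.WZ u * 𝓜.WQ Q g) ζ =
      (star (𝓜.WQ Q g) * 𝓜.WZ u * 𝓜.WQ Q g) (𝓜.W v ζ - ζ) +
        𝓜.W v (star (𝓜.WQ Q g) (star T (T (𝓜.WZ u (𝓜.WQ Q g ζ)) -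
          S (𝓜.WZ u (T (𝓜.WQ Q g ζ)))))) := by
    simp only [map_sub, mul_apply_eq_comp]
    rw [T4, S4, T5, QLoopReg_star_apply T1]
    abel
  generalize 𝓜.WQ Q g ζ = ξ at hξ hn e
  have e2 : T (𝓜.WZ u ξ) - S (𝓜.WZ u (T ξ)) =
      (T - 1) (𝓜.WZ u ξ - ξ) - (𝓜.WZ u ((T - 1) ξ) - (T - 1) ξ) - (S - 1) (𝓜.WZ u (T ξ)) := by
    simp only [map_sub, sub_apply, one_apply_eq_self]
    abel
  have hT0 : 𝓜.CW (T - 1) := by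
    intro w hw
    rw [sub_mul, mul_sub, T2 w hw, one_mul, mul_one]
  have hu0 := norm_nonneg u
  have hv0 := norm_nonneg v
  have hz0 := norm_nonneg ζ
  have T3' : ‖T - 1‖ ≤ 2 * ‖v‖ := T3.trans (by nlinarith)
  have a1 : ‖(T - 1) (𝓜.WZ u ξ - ξ)‖ ≤ 2 * ‖v‖ * (2 * (c + 2 * ‖ζ‖) * ‖u‖) :=
    ((T - 1).le_opNorm _).trans (mul_le_mul T3' (hξ.norm_WQ_sub 𝓜.invol_Z hu) (norm_nonneg _)
      (by positivity))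
  have a2 : ‖𝓜.WZ u ((T - 1) ξ) - (T - 1) ξ‖ ≤ 2 * (2 * ‖v‖ * (c + 2 * ‖ζ‖)) * ‖u‖ :=
    ((hξ.cw hT0).mono (mul_le_mul_of_nonneg_right T3' (by positivity))).norm_WQ_sub 𝓜.invol_Z hu
  have a3 : ‖(S - 1) (𝓜.WZ u (T ξ))‖ ≤ 2 * ‖u‖ * ‖v‖ * ‖ζ‖ := by
    refine ((S - 1).le_opNorm _).trans ?_
    rw [QReg_norm_unit hZ, QReg_norm_unit T1, hn]
    exact mul_le_mul_of_nonneg_right S3 hz0
  rw [e]
  refine (norm_add_le _ _).trans ?_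
  rw [QReg_norm_unit hD, QReg_norm_W hv, QReg_norm_unit (Unitary.star_mem hO),
    QReg_norm_unit (Unitary.star_mem T1), e2]
  have a4 := norm_sub_le ((T - 1) (𝓜.WZ u ξ - ξ) - (𝓜.WZ u ((T - 1) ξ) - (T - 1) ξ))
    ((S - 1) (𝓜.WZ u (T ξ)))
  have a5 := norm_sub_le ((T - 1) (𝓜.WZ u ξ - ξ)) (𝓜.WZ u ((T - 1) ξ) - (T - 1) ξ)
  have a6 := h v hv
  have a7 : 0 ≤ c * ‖u‖ * ‖v‖ := by positivity
  have a8 : 0 ≤ ‖ζ‖ * ‖u‖ * ‖v‖ := by positivity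
  linarith

end Weyl

namespace Label

variable {K : ℕ} {A : AMP K} {𝓛 : Label A H} {l : ℕ} {f : (Fin (K + 1) → ℝ) → ℝ}
  {N : Set (Fin (K + 1) → ℝ)} {U : H →L[ℂ] H} {τ ε p c : ℝ} {ζ : H}

theorem P1.nonneg (h : 𝓛.P1 ζ c) : 0 ≤ c := by
  have := (norm_nonneg _).trans (h _ Ω_mem_R)
  rwa [𝓛.Ω_norm, mul_one] at this

theorem Hyp.QLoopReg_q (h : 𝓛.Hyp l f N U) (s : ℝ) :
    -((1 / 2 : ℝ) • 𝓛.lq f N U s) ∈ 𝓛.R ∧ ‖-((1 / 2 : ℝ) • 𝓛.lq f N U s)‖ = 1 / 2 := by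
  refine ⟨((h.lq_real s).smul _).neg.mem_R, ?_⟩
  rw [norm_neg, norm_smul, h.norm_lq s, mul_one, Real.norm_of_nonneg (by norm_num)]

theorem QLoopReg_loc {G : H →L[ℂ] H} (hG : 𝓛.Loc l G) (hζ : 𝓛.P1 ζ c) : 𝓛.P1 (G ζ) c :=
  Weyl.QLoopReg_cw hG.cw (norm_le_one_of_unitary hG.unitary) (P1.nonneg hζ) hζ

theorem Hyp.P1_lD1 (h : 𝓛.Hyp l f N U) (hτ : |τ| ≤ 1) (s : ℝ) (hζ : 𝓛.P1 ζ c) :
    𝓛.P1 (𝓛.lD1 f N U τ ε s ζ) (c + |ε| * (c + 6 * ‖ζ‖)) := by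
  have hc := P1.nonneg hζ
  have hz := norm_nonneg ζ
  have hQ := (Qf_linv (𝓛 := 𝓛) h.sgn h.anc).inv
  obtain ⟨q1, q2⟩ := h.QLoopReg_q s
  have g1 : -(τ • 𝓛.lg f N U s) ∈ 𝓛.R := ((h.lg_real s).smul _).neg.mem_R
  have g2 : ‖-(τ • 𝓛.lg f N U s)‖ ≤ 1 := by
    rwa [norm_neg, norm_smul, h.norm_lg s, mul_one]
  have hN := h.anc.meas.compl
  have hO := h.lO_unitary s
  have hI := h.lI_unitary τ s
  -- the diagonal part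
  have hb : BR (Nᶜ.indicator fun _ => (1 : ℝ)) := (BR.const 1).indicator hN
  have eA : 1 + ((Real.cos ε - 1 : ℝ) : ℂ) • 𝓛.Ind Nᶜ =
      𝓛.Mr fun ω => 1 + (Real.cos ε - 1) * Nᶜ.indicator (fun _ => (1 : ℝ)) ω := by
    rw [Mr_add (BR.const 1) ((BR.const _).mul hb), Mr_smul _ hb, Mr_const, ofReal_one, one_smul]
    rfl
  have nA : ‖1 + ((Real.cos ε - 1 : ℝ) : ℂ) • 𝓛.Ind Nᶜ‖ ≤ 1 := by
    rw [eA]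
    refine norm_Mr_le ((BR.const 1).add ((BR.const _).mul hb)).meas fun ω => ?_
    by_cases hω : ω ∈ Nᶜ
    · rw [Set.indicator_of_mem hω, mul_one, add_sub_cancel]
      exact Real.abs_cos_le_one ε
    · rw [Set.indicator_of_notMem hω, mul_zero, add_zero, abs_one]
  have pA : 𝓛.P1 ((1 + ((Real.cos ε - 1 : ℝ) : ℂ) • 𝓛.Ind Nᶜ) ζ) c :=
    Weyl.QLoopReg_cw (𝓛.cw_one.add ((Ind_cw hN).smul _)) nA hc hζ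
  -- the rotated `X`
  have p1 : 𝓛.P1 (𝓛.lO f N U s ζ) (c + ‖ζ‖) := (hζ.WQ hQ q1).mono (by rw [q2]; linarith)
  have n1 : ‖𝓛.lO f N U s ζ‖ = ‖ζ‖ := Weyl.QReg_norm_unit hO ζ
  have p2 : 𝓛.P1 (𝓛.lI f N U τ s (𝓛.lO f N U s ζ)) (c + 3 * ‖ζ‖) :=
    (p1.WQ 𝓛.invol_Z g1).mono (by rw [n1]; nlinarith)
  have n2 : ‖𝓛.lI f N U τ s (𝓛.lO f N U s ζ)‖ = ‖ζ‖ := by rw [Weyl.QReg_norm_unit hI, n1]
  have p3 : 𝓛.P1 (𝓛.X (𝓛.lI f N U τ s (𝓛.lO f N U s ζ))) (c + 3 * ‖ζ‖) :=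
    Weyl.QLoopReg_cw 𝓛.invol_X.cw (norm_le_one_of_unitary 𝓛.invol_X.mem_unitary) (by positivity) p2
  have n3 : ‖𝓛.X (𝓛.lI f N U τ s (𝓛.lO f N U s ζ))‖ = ‖ζ‖ := by
    rw [Weyl.QReg_norm_unit 𝓛.invol_X.mem_unitary, n2]
  have p4 : 𝓛.P1 (star (𝓛.lI f N U τ s) (𝓛.X (𝓛.lI f N U τ s (𝓛.lO f N U s ζ)))) (c + 5 * ‖ζ‖) := by
    have := p3.WQ 𝓛.invol_Z (𝓛.R.neg_mem g1)
    rw [← Weyl.WQ_star 𝓛.invol_Z g1, norm_neg, n3] at this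
    exact this.mono (by nlinarith)
  have n4 : ‖star (𝓛.lI f N U τ s) (𝓛.X (𝓛.lI f N U τ s (𝓛.lO f N U s ζ)))‖ = ‖ζ‖ := by
    rw [Weyl.QReg_norm_unit (Unitary.star_mem hI), n3]
  have p5 : 𝓛.P1 (star (𝓛.lO f N U s)
      (star (𝓛.lI f N U τ s) (𝓛.X (𝓛.lI f N U τ s (𝓛.lO f N U s ζ))))) (c + 6 * ‖ζ‖) := by
    have := p4.WQ hQ (𝓛.R.neg_mem q1)
    rw [← Weyl.WQ_star hQ q1, norm_neg, n4, q2] at this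
    exact this.mono (by linarith)
  have p6 := (Weyl.QLoopReg_cw (Ind_cw hN) (norm_Ind_le hN) (by positivity) p5).smul
    (-(I * ((Real.sin ε : ℝ) : ℂ)))
  have p7 := pA.add (p6.mono (c' := |ε| * (c + 6 * ‖ζ‖)) (by
    refine mul_le_mul_of_nonneg_right ?_ (by positivity)
    rw [norm_neg, norm_mul, norm_I, one_mul, Complex.norm_real]
    exact Real.abs_sin_le_abs))
  rw [h.lD1_eq τ ε s, sub_eq_add_neg, ← neg_smul]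
  exact p7

theorem Hyp.norm_lD2_sub (h : 𝓛.Hyp l f N U) (hτ : |τ| ≤ 1) (s : ℝ) (hζ : 𝓛.P1 ζ c) :
    ‖𝓛.lD2 f N U τ ε s ζ - ζ‖ ≤ 16 * (c + ‖ζ‖) * |ε| := by
  have hc := P1.nonneg hζ
  obtain ⟨q1, q2⟩ := h.QLoopReg_q s
  have h1 := hζ.norm_conj_sub (Qf_linv (𝓛 := 𝓛) h.sgn h.anc).inv q1 (by rw [q2]; norm_num)
    (h.lu1_real τ ε s).mem_R
  have h2 : ‖𝓛.lu1 f N U τ ε s‖ ≤ 4 * |ε| := (h.norm_lu1 τ ε s).trans (by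
    nlinarith [abs_nonneg ε])
  have h3 := mul_le_mul_of_nonneg_left h2 (add_nonneg hc (norm_nonneg ζ))
  refine le_trans h1 ?_
  linarith

theorem Hyp.P1_lD2 (h : 𝓛.Hyp l f N U) (hτ : |τ| ≤ 1) (s : ℝ) (hζ : 𝓛.P1 ζ c) :
    𝓛.P1 (𝓛.lD2 f N U τ ε s ζ) (c + 400 * (c + ‖ζ‖) * |ε|) := by
  have hc := P1.nonneg hζ
  obtain ⟨q1, q2⟩ := h.QLoopReg_q s
  have h1 := hζ.conj (Qf_linv (𝓛 := 𝓛) h.sgn h.anc).inv q1 (by rw [q2]; norm_num)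
    (h.lu1_real τ ε s).mem_R hc
  have h2 : ‖𝓛.lu1 f N U τ ε s‖ ≤ 4 * |ε| := (h.norm_lu1 τ ε s).trans (by
    nlinarith [abs_nonneg ε])
  have h3 := mul_le_mul_of_nonneg_left h2 (add_nonneg hc (norm_nonneg ζ))
  exact h1.mono (by linarith)

theorem Hyp.QLoopReg_D21 (h : 𝓛.Hyp l f N U) (hτ : |τ| ≤ 1) (s : ℝ) (hζ : 𝓛.P1 ζ c) :
    ‖(𝓛.lD2 f N U τ ε s * 𝓛.lD1 f N U τ ε s) ζ - ζ‖ ≤ 18 * (c + ‖ζ‖) * |ε| := by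
  have hc := P1.nonneg hζ
  have h1 := QLoopReg_mul_sub (h.lD2_unitary τ ε s) (𝓛.lD1 f N U τ ε s) ζ
  have h2 := h.norm_lD2_sub (ε := ε) hτ s hζ
  have h3 : ‖𝓛.lD1 f N U τ ε s ζ - ζ‖ ≤ 2 * |ε| * ‖ζ‖ :=
    ((𝓛.lD1 f N U τ ε s - 1).le_opNorm ζ).trans
      (mul_le_mul_of_nonneg_right (h.norm_lD1_sub_one τ ε s) (norm_nonneg _))
  have h4 := mul_nonneg hc (abs_nonneg ε)
  linarith

theorem Hyp.norm_lu2 (h : 𝓛.Hyp l f N U) (hτ : |τ| ≤ 1) (s : ℝ) (hp : 𝓛.P1 (U 𝓛.Ω) p) :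
    ‖𝓛.lu2 f N U τ ε s‖ ≤ 20 * (1 + p) * |ε| := by
  have hp0 := P1.nonneg hp
  have hR : 𝓛.Loc l (𝓛.Rs N s) := Rs_loc h.anc s
  have hQ := (Qf_linv (𝓛 := 𝓛) h.sgn h.anc).inv
  have hU1 : 𝓛.Rs N s * U ∈ unitary (H →L[ℂ] H) := mul_mem hR.unitary h.reach.unitary
  have hD : 𝓛.lD2 f N U τ ε s * 𝓛.lD1 f N U τ ε s ∈ unitary (H →L[ℂ] H) :=
    mul_mem (h.lD2_unitary τ ε s) (h.lD1_unitary τ ε s)
  have p1 : 𝓛.P1 ((𝓛.Rs N s * U) 𝓛.Ω) p := QLoopReg_loc (ζ := U 𝓛.Ω) hR hp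
  have n1 : ‖(𝓛.Rs N s * U) 𝓛.Ω‖ = 1 := by rw [Weyl.QReg_norm_unit hU1, 𝓛.Ω_norm]
  have p2 : 𝓛.P1 (𝓛.Qf f N ((𝓛.Rs N s * U) 𝓛.Ω)) p :=
    Weyl.QLoopReg_cw hQ.cw (norm_le_one_of_unitary hQ.mem_unitary) hp0 p1
  have n2 : ‖𝓛.Qf f N ((𝓛.Rs N s * U) 𝓛.Ω)‖ = 1 := by rw [Weyl.QReg_norm_unit hQ.mem_unitary, n1]
  have a1 := h.QLoopReg_D21 (ε := ε) hτ s p1
  have a2 := h.QLoopReg_D21 (ε := ε) hτ s p2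
  rw [n1] at a1
  rw [n2] at a2
  rw [lu2, lq, Weyl.br_mul, Weyl.br, Weyl.br, ← map_sub, norm_smul,
    Weyl.QReg_norm_unit (Unitary.star_mem hU1), Real.norm_of_nonneg (by norm_num)]
  generalize (𝓛.Rs N s * U) 𝓛.Ω = ψ at a1 a2
  generalize 𝓛.lD2 f N U τ ε s * 𝓛.lD1 f N U τ ε s = D at hD a1 a2
  have e : (star D * 𝓛.Qf f N * D) ψ - 𝓛.Qf f N ψ =
      star D (𝓛.Qf f N (D ψ - ψ) - (D (𝓛.Qf f N ψ) - 𝓛.Qf f N ψ)) := by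
    rw [map_sub (𝓛.Qf f N), sub_sub_sub_cancel_right, map_sub, QLoopReg_star_apply hD]
    rfl
  rw [e, Weyl.QReg_norm_unit (Unitary.star_mem hD)]
  have a3 := norm_sub_le (𝓛.Qf f N (D ψ - ψ)) (D (𝓛.Qf f N ψ) - 𝓛.Qf f N ψ)
  rw [Weyl.QReg_norm_unit hQ.mem_unitary] at a3
  have a4 := mul_nonneg hp0 (abs_nonneg ε)
  linarith [abs_nonneg ε]

/-- (L1) -/
theorem Hyp.norm_lL_sub (h : 𝓛.Hyp l f N U) (hτ : |τ| ≤ 1) (s : ℝ) (hp : 𝓛.P1 (U 𝓛.Ω) p)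
    (hζ : 𝓛.P1 ζ c) : ‖𝓛.lL f N U τ ε s ζ - ζ‖ ≤ 100 * (1 + p) * (c + ‖ζ‖) * |ε| := by
  have hp0 := P1.nonneg hp
  have hc := P1.nonneg hζ
  have hR : 𝓛.Loc l (𝓛.Rs N s) := Rs_loc h.anc s
  have hQ := (Qf_linv (𝓛 := 𝓛) h.sgn h.anc).inv
  have p1 : 𝓛.P1 (𝓛.Rs N s ζ) c := QLoopReg_loc hR hζ
  have n1 : ‖𝓛.Rs N s ζ‖ = ‖ζ‖ := Weyl.QReg_norm_unit hR.unitary ζ
  have a1 := h.QLoopReg_D21 (ε := ε) hτ s p1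
  have a2 : ‖𝓛.lD3 f N U τ ε s (𝓛.Rs N s ζ) - 𝓛.Rs N s ζ‖ ≤ 2 * c * (20 * (1 + p) * |ε|) :=
    (p1.norm_WQ_sub hQ (h.lu2_real τ ε s).mem_R).trans
      (mul_le_mul_of_nonneg_left (h.norm_lu2 hτ s hp) (by positivity))
  have a3 := QLoopReg_mul_sub (h.lD3_unitary τ ε s) (𝓛.lD2 f N U τ ε s * 𝓛.lD1 f N U τ ε s)
    (𝓛.Rs N s ζ)
  rw [n1] at a1
  rw [lL, QLoopReg_conj_sub hR.unitary, mul_assoc (𝓛.lD3 f N U τ ε s)]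
  have hz := norm_nonneg ζ
  have he := abs_nonneg ε
  have b1 : 0 ≤ c * |ε| := by positivity
  have b2 : 0 ≤ ‖ζ‖ * |ε| := by positivity
  have b3 : 0 ≤ p * c * |ε| := by positivity
  have b4 : 0 ≤ p * ‖ζ‖ * |ε| := by positivity
  linarith

/-- (L2) -/
theorem Hyp.P1_lL (h : 𝓛.Hyp l f N U) (hτ : |τ| ≤ 1) (hε : |ε| ≤ 1) (s : ℝ)
    (hp : 𝓛.P1 (U 𝓛.Ω) p) : 𝓛.P1 ((𝓛.lL f N U τ ε s * U) 𝓛.Ω) (p + 10000 * |ε| * (1 + p)) := by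
  have hp0 := P1.nonneg hp
  have he := abs_nonneg ε
  have hR : 𝓛.Loc l (𝓛.Rs N s) := Rs_loc h.anc s
  have hQ := (Qf_linv (𝓛 := 𝓛) h.sgn h.anc).inv
  have p1 : 𝓛.P1 (𝓛.Rs N s (U 𝓛.Ω)) p := QLoopReg_loc hR hp
  have n1 : ‖𝓛.Rs N s (U 𝓛.Ω)‖ = 1 := by
    rw [Weyl.QReg_norm_unit hR.unitary, Weyl.QReg_norm_unit h.reach.unitary, 𝓛.Ω_norm]
  have p2 := h.P1_lD1 (ε := ε) hτ s p1
  have n2 := (Weyl.QReg_norm_unit (h.lD1_unitary τ ε s) _).trans n1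
  have p3 := h.P1_lD2 (ε := ε) hτ s p2
  have n3 := (Weyl.QReg_norm_unit (h.lD2_unitary τ ε s) _).trans n2
  have p4 := p3.WQ hQ (h.lu2_real τ ε s).mem_R
  rw [n1, n2, n3] at p4
  have a1 := h.norm_lu2 (ε := ε) hτ s hp
  have e : (𝓛.lL f N U τ ε s * U) 𝓛.Ω = star (𝓛.Rs N s) (𝓛.WQ (𝓛.Qf f N) (𝓛.lu2 f N U τ ε s)
      (𝓛.lD2 f N U τ ε s (𝓛.lD1 f N U τ ε s (𝓛.Rs N s (U 𝓛.Ω))))) := by
    simp only [lL, lD3, mul_apply_eq_comp]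
  rw [e]
  refine (QLoopReg_loc hR.star p4).mono ?_
  have b1 : |ε| * (p + 6 * 1) ≤ p + 6 := by nlinarith
  have b2 := mul_le_mul_of_nonneg_right b1 he
  have b3 : 0 ≤ p * |ε| := by positivity
  linarith

end Label

end Crest.Agent.R339
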