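import Crest.Agent.R339.QLoopL3
import Crest.Agent.R339.QLoopL4

/-! # Row 339: one loop compared with the reference step -/

set_option autoImplicit false

namespace Crest.Agent.R339

open MeasureTheory ProbabilityTheory Complex Filter Topology
open scoped InnerProductSpace

variable {H : Type} [NormedAddCommGroup H] [InnerProductSpace ℂ H] [CompleteSpace H]

namespace Label

variable {K : ℕ} {A : AMP K} {𝓛 : Label A H} {l : ℕ} {f : (Fin (K + 1) → ℝ) → ℝ}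
  {N : Set (Fin (K + 1) → ℝ)} {U V : H →L[ℂ] H} {τ ε η p c E h : ℝ} {ζ : H}

theorem QLoopStep_g_mem (hy : 𝓛.Hyp l f N U) (h : ℝ) : h • 𝓛.gS N U ∈ 𝓛.R :=
  (hy.gS_real.smul h).mem_R

theorem QLoopStep_w_real (hy : 𝓛.Hyp l f N U) : 𝓛.RealL (𝓛.Mf f N 𝓛.Ω) :=
  realL_Mr (Mf_br hy.sgn hy.anc)

theorem QLoopStep_w_mem (hy : 𝓛.Hyp l f N U) (h : ℝ) : h • 𝓛.Mf f N 𝓛.Ω ∈ 𝓛.R :=
  ((QLoopStep_w_real hy).smul h).mem_R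

theorem QLoopStep_norm_g (hy : 𝓛.Hyp l f N U) (h : ℝ) : ‖h • 𝓛.gS N U‖ ≤ |h| := by
  rw [norm_smul, Real.norm_eq_abs]
  exact mul_le_of_le_one_right (abs_nonneg _) hy.norm_gS

theorem QLoopStep_norm_w (hy : 𝓛.Hyp l f N U) (h : ℝ) : ‖h • 𝓛.Mf f N 𝓛.Ω‖ ≤ |h| := by
  rw [norm_smul, Real.norm_eq_abs]
  refine mul_le_of_le_one_right (abs_nonneg _) ?_
  have := Weyl.QReg_le_of (norm_Mf_le (𝓛 := 𝓛) hy.sgn hy.anc) 𝓛.Ω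
  rwa [𝓛.Ω_norm] at this

theorem QLoopStep_abs_bL (hτ : |τ| ≤ 1) : |bL τ| ≤ 4 / 3 := by
  have h1 := muL_pos
  have h2 := muL_le
  rw [bL, abs_mul, abs_mul, abs_of_pos h1, abs_two]
  nlinarith [abs_nonneg τ]

theorem QLoopStep_abs_h (hy : 𝓛.Hyp l f N U) (hτ : |τ| ≤ 1)
    (hh : h = ε * 𝓛.kap N U τ * bL τ) : |h| ≤ 4 / 3 * |ε| := by
  have h1 := hy.abs_kap τ
  have h2 := QLoopStep_abs_bL hτ
  rw [hh, abs_mul, abs_mul]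
  have h3 : |ε| * |𝓛.kap N U τ| ≤ |ε| := mul_le_of_le_one_right (abs_nonneg _) h1
  calc |ε| * |𝓛.kap N U τ| * |bL τ| ≤ |ε| * (4 / 3) :=
        mul_le_mul h3 h2 (abs_nonneg _) (abs_nonneg _)
    _ = 4 / 3 * |ε| := by ring

theorem Hyp.Gref_unitary (hy : 𝓛.Hyp l f N U) (h : ℝ) :
    𝓛.Gref f N U h ∈ unitary (H →L[ℂ] H) := by
  exact mul_mem (Weyl.WQ_unitary (linv_sgn hy.sgn).inv (𝓛.R.neg_mem (QLoopStep_g_mem hy h)))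
    (Weyl.WQ_unitary 𝓛.invol_Z (𝓛.R.neg_mem (QLoopStep_w_mem hy h)))

theorem Hyp.Gref_cm (hy : 𝓛.Hyp l f N U) (h : ℝ) : 𝓛.CM (𝓛.Gref f N U h) := by
  exact (cm_WQ (linv_sgn hy.sgn).cm (𝓛.R.neg_mem (QLoopStep_g_mem hy h))).mul
    (cm_WQ cm_Z (𝓛.R.neg_mem (QLoopStep_w_mem hy h)))

theorem Hyp.P_Gref (hy : 𝓛.Hyp l f N U) (h : ℝ) (hζ : 𝓛.P ζ c) :
    𝓛.P (𝓛.Gref f N U h ζ) ((1 + 2 * |h|) ^ 4 * c) := by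
  have h1 := hζ.WQ 𝓛.invol_Z (𝓛.R.neg_mem (QLoopStep_w_mem hy h))
  have h2 := h1.WQ (linv_sgn hy.sgn).inv (𝓛.R.neg_mem (QLoopStep_g_mem hy h))
  refine h2.mono ?_
  have hc := hζ.nonneg
  have a1 := QLoopStep_norm_g hy h
  have a2 := QLoopStep_norm_w hy h
  rw [norm_neg, norm_neg]
  calc (1 + 2 * ‖h • 𝓛.gS N U‖) ^ 2 * ((1 + 2 * ‖h • 𝓛.Mf f N 𝓛.Ω‖) ^ 2 * c)
      ≤ (1 + 2 * |h|) ^ 2 * ((1 + 2 * |h|) ^ 2 * c) := by gcongr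
    _ = (1 + 2 * |h|) ^ 4 * c := by ring

theorem QLoopStep_Mf_Ind (hy : 𝓛.Hyp l f N U) : 𝓛.Mf f N * 𝓛.Ind Nᶜ = 𝓛.Mf f N := by
  have h1 := Mf_sq (𝓛 := 𝓛) hy.sgn hy.anc
  have h2 := Mf_eq (𝓛 := 𝓛) hy.sgn hy.anc
  have h3 := Ind_sq (𝓛 := 𝓛) hy.anc.compl.meas
  calc 𝓛.Mf f N * 𝓛.Ind Nᶜ = 𝓛.Ind Nᶜ * 𝓛.Mf f N := by
        rw [← h1, mul_assoc]
    _ = 𝓛.Mf f N := by rw [h2, ← mul_assoc, h3]

theorem QLoopStep_cos_sub {u x : H} (hu : u ∈ 𝓛.R) (hx : 𝓛.P1 x c) :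
    ‖𝓛.cosW u x - x‖ ≤ c * ‖u‖ := by
  have h1 := hx u hu
  have h2 := hx _ (𝓛.R.neg_mem hu)
  rw [norm_neg] at h2
  have e : 𝓛.cosW u x - x = (1 / 2 : ℂ) • ((𝓛.W u x - x) + (𝓛.W (-u) x - x)) := by
    rw [Weyl.QReg_cosW_apply]
    module
  have h3 : ‖(1 / 2 : ℂ)‖ = 1 / 2 := by simp
  rw [e, norm_smul, h3]
  linarith [norm_add_le (𝓛.W u x - x) (𝓛.W (-u) x - x)]

theorem Hyp.norm_lam_sub (hy : 𝓛.Hyp l f N U) (hV : 𝓛.P1 (V 𝓛.Ω) c)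
    (hE : ‖𝓛.Ind Nᶜ (U 𝓛.Ω - V 𝓛.Ω)‖ ≤ E) :
    ‖𝓛.lam f N U τ - 𝓛.Mf f N 𝓛.Ω‖ ≤ |bL τ| * c + 2 * E := by
  have hU := hy.reach.unitary
  have hS := hy.anc.compl.meas
  have hu := QLoopStep_g_mem hy (bL τ)
  have hc := P1.nonneg hV
  have hM := norm_Mf_le (𝓛 := 𝓛) hy.sgn hy.anc
  set u := bL τ • 𝓛.gS N U with hu'
  have e0 : 𝓛.Mf f N 𝓛.Ω = 𝓛.br U (𝓛.Mf f N) :=
    (br_Mr hU hy.reach.cm (Mf_br hy.sgn hy.anc)).symm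
  have e1 : 𝓛.lam f N U τ - 𝓛.Mf f N 𝓛.Ω = 𝓛.br U (𝓛.Mf f N * (𝓛.cosW u - 1)) := by
    rw [e0, lam, ← hu']
    simp only [Weyl.br, mul_apply_eq_comp, sub_apply, one_apply_eq_self, map_sub]
  set δ := U 𝓛.Ω - V 𝓛.Ω with hδ
  have e2 : 𝓛.Ind Nᶜ (𝓛.cosW u δ) = 𝓛.cosW u (𝓛.Ind Nᶜ δ) :=
    congrArg (fun B : H →L[ℂ] H => B δ) ((cm_cosW hu).Ind hS)
  have e3 : ∀ y, 𝓛.Mf f N (𝓛.Ind Nᶜ y) = 𝓛.Mf f N y := fun y =>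
    congrArg (fun B : H →L[ℂ] H => B y) (QLoopStep_Mf_Ind hy)
  have e4 : (𝓛.Mf f N * (𝓛.cosW u - 1)) (U 𝓛.Ω) =
      𝓛.Mf f N (𝓛.cosW u (V 𝓛.Ω) - V 𝓛.Ω) +
        𝓛.Mf f N (𝓛.cosW u (𝓛.Ind Nᶜ δ) - 𝓛.Ind Nᶜ δ) := by
    rw [← e2, ← map_sub (𝓛.Ind Nᶜ), e3, ← map_add, hδ]
    simp only [mul_apply_eq_comp, sub_apply, one_apply_eq_self, map_sub, map_add]
    abel
  rw [e1, 𝓛.norm_br hU, e4]
  have b1 := QLoopStep_cos_sub hu hV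
  have b2 : c * ‖u‖ ≤ c * |bL τ| := mul_le_mul_of_nonneg_left (QLoopStep_norm_g hy _) hc
  have b3 := Weyl.QReg_le_of hM (𝓛.cosW u (V 𝓛.Ω) - V 𝓛.Ω)
  have b4 := Weyl.QReg_le_of hM (𝓛.cosW u (𝓛.Ind Nᶜ δ) - 𝓛.Ind Nᶜ δ)
  have b5 := norm_sub_le (𝓛.cosW u (𝓛.Ind Nᶜ δ)) (𝓛.Ind Nᶜ δ)
  have b6 := Weyl.QReg_le_of (Weyl.norm_cosW_le hu) (𝓛.Ind Nᶜ δ)
  refine (norm_add_le _ _).trans ?_
  linarith

theorem QLoopStep_star_Gref (hy : 𝓛.Hyp l f N U) (h : ℝ) : star (𝓛.Gref f N U h) =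
    𝓛.WZ (h • 𝓛.Mf f N 𝓛.Ω) * 𝓛.WQ (𝓛.Mr f) (h • 𝓛.gS N U) := by
  rw [Gref, star_mul, Weyl.WQ_star 𝓛.invol_Z (𝓛.R.neg_mem (QLoopStep_w_mem hy h)),
    Weyl.WQ_star (linv_sgn hy.sgn).inv (𝓛.R.neg_mem (QLoopStep_g_mem hy h)), neg_neg, neg_neg]

/-- The reference step has almost the same generator as the loop. -/
theorem Hyp.Gref_first_order (hy : 𝓛.Hyp l f N U) (hτ : |τ| ≤ 1) (hε : |ε| ≤ 1)
    (hh : h = ε * 𝓛.kap N U τ * bL τ) (hζ : 𝓛.P ζ c) :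
    ‖𝓛.Ind Nᶜ (star (𝓛.Gref f N U h) ζ - ζ) - (I * ε) • 𝓛.Kop f N U τ ζ‖ ≤
      |h| * c * (|bL τ| + ‖𝓛.lam f N U τ - 𝓛.Mf f N 𝓛.Ω‖) + 100 * c * ε ^ 2 := by
  have hS := hy.anc.compl.meas
  have hc := hζ.nonneg
  have hF := (linv_sgn (𝓛 := 𝓛) hy.sgn).inv
  have hM := norm_Mf_le (𝓛 := 𝓛) hy.sgn hy.anc
  have hI := norm_Ind_le (𝓛 := 𝓛) hS
  have hZ : ‖𝓛.Z‖ ≤ 1 := norm_le_one_of_unitary 𝓛.invol_Z.mem_unitary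
  have hg := QLoopStep_g_mem hy h
  have hw := QLoopStep_w_mem hy h
  have hb := QLoopStep_g_mem hy (bL τ)
  have hg0 := hy.gS_real.mem_R
  have hw0 := (QLoopStep_w_real hy).mem_R
  have hl0 := (hy.lam_real τ).mem_R
  have ng := QLoopStep_norm_g hy h
  have nw := QLoopStep_norm_w hy h
  have nb := QLoopStep_norm_g hy (bL τ)
  have hh' := QLoopStep_abs_h hy hτ hh
  set g := 𝓛.gS N U with hg'
  set w := 𝓛.Mf f N 𝓛.Ω with hw'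
  set lm := 𝓛.lam f N U τ with hlm
  set b := bL τ with hb'
  set κ := 𝓛.kap N U τ with hκ
  set y := 𝓛.WQ (𝓛.Mr f) (h • g) ζ - ζ with hy'
  have r1 := hζ.norm_WQ_sub_phi hF hg
  have r2 := hζ.norm_WQ_sub_phi 𝓛.invol_Z hw
  have r0 := (hζ.P1_WQ_sub hF hg).norm_WQ_sub 𝓛.invol_Z hw
  have r3 := hζ.norm_sinW_sub_phi hb
  have r4 := hζ.norm_phi (𝓛.R.sub_mem hl0 hw0)
  have p1 := hζ.phi_smul hg0 h
  have p2 := hζ.phi_smul hw0 h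
  have p3 := hζ.phi_smul hg0 b
  have p4 : 𝓛.phi lm ζ = 𝓛.phi w ζ + 𝓛.phi (lm - w) ζ := by
    rw [← hζ.phi_add hw0 (𝓛.R.sub_mem hl0 hw0), add_sub_cancel]
  rw [← hy'] at r1 r0
  rw [p1] at r1
  rw [p2] at r2
  rw [p3] at r3
  set ρ0 := 𝓛.WQ 𝓛.Z (h • w) y - y with hρ0
  set ρ1 := y - I • 𝓛.Mr f (h • 𝓛.phi g ζ) with hρ1
  set ρ2 := 𝓛.WQ 𝓛.Z (h • w) ζ - ζ - I • 𝓛.Z (h • 𝓛.phi w ζ) with hρ2
  set ρ3 := 𝓛.sinW (b • g) ζ - b • 𝓛.phi g ζ with hρ3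
  have e1 : star (𝓛.Gref f N U h) ζ - ζ =
      ρ0 + ρ1 + ρ2 + I • 𝓛.Mr f (h • 𝓛.phi g ζ) + I • 𝓛.Z (h • 𝓛.phi w ζ) := by
    rw [QLoopStep_star_Gref hy, mul_apply_eq_comp, ← hg', ← hw', hρ0, hρ1, hρ2, hy',
      map_sub]
    abel
  have e2 : ∀ z, 𝓛.Ind Nᶜ (𝓛.Mr f z) = 𝓛.Mf f N z := fun z => by
    rw [Mf_eq hy.sgn hy.anc, mul_apply_eq_comp]
  have e3 : 𝓛.sinW (b • g) ζ = ρ3 + b • 𝓛.phi g ζ := by rw [hρ3]; abel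
  have e4 : 𝓛.Ind Nᶜ (star (𝓛.Gref f N U h) ζ - ζ) - (I * ε) • 𝓛.Kop f N U τ ζ =
      𝓛.Ind Nᶜ (ρ0 + ρ1 + ρ2) - (I * (ε * κ : ℝ)) • 𝓛.Mf f N ρ3 -
        (I * h) • 𝓛.Ind Nᶜ (𝓛.Z (𝓛.phi (lm - w) ζ)) := by
    rw [e1, Kop, ← hκ, ← hb', ← hg', ← hlm, e3, p4]
    simp only [map_add, map_smul, e2, ← Complex.coe_smul]
    rw [hh]
    push_cast
    module
  have n1 : ‖𝓛.Ind Nᶜ (ρ0 + ρ1 + ρ2)‖ ≤ 8 * c * h ^ 2 := by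
    refine (Weyl.QReg_le_of hI _).trans ((norm_add₃_le).trans ?_)
    have a0 : 2 * (2 * c * ‖h • g‖) * ‖h • w‖ ≤ 2 * (2 * c * |h|) * |h| := by gcongr
    have a1 : 2 * c * ‖h • g‖ ^ 2 ≤ 2 * c * |h| ^ 2 := by gcongr
    have a2 : 2 * c * ‖h • w‖ ^ 2 ≤ 2 * c * |h| ^ 2 := by gcongr
    have a3 : 2 * (2 * c * |h|) * |h| = 4 * c * |h| ^ 2 := by ring
    rw [a3] at a0
    rw [sq_abs] at a0 a1 a2
    linarith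
  have n2 : ‖(I * (ε * κ : ℝ)) • 𝓛.Mf f N ρ3‖ ≤ |h| * c * |b| := by
    rw [norm_smul, norm_mul, Complex.norm_I, one_mul, Complex.norm_real, Real.norm_eq_abs]
    have a1 : ‖𝓛.Mf f N ρ3‖ ≤ c * |b| ^ 2 :=
      (Weyl.QReg_le_of hM _).trans (r3.trans (by gcongr))
    calc |ε * κ| * ‖𝓛.Mf f N ρ3‖ ≤ |ε * κ| * (c * |b| ^ 2) := by gcongr
      _ = |h| * c * |b| := by rw [hh, abs_mul (ε * κ)]; ring
  have n3 : ‖(I * h) • 𝓛.Ind Nᶜ (𝓛.Z (𝓛.phi (lm - w) ζ))‖ ≤ |h| * c * ‖lm - w‖ := by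
    rw [norm_smul, norm_mul, Complex.norm_I, one_mul, Complex.norm_real, Real.norm_eq_abs,
      mul_assoc]
    exact mul_le_mul_of_nonneg_left
      ((Weyl.QReg_le_of hI _).trans ((Weyl.QReg_le_of hZ _).trans r4)) (abs_nonneg _)
  have n4 : h ^ 2 ≤ 2 * ε ^ 2 := by
    have : |h| ^ 2 ≤ (4 / 3 * |ε|) ^ 2 := by gcongr
    rw [mul_pow, sq_abs, sq_abs] at this
    nlinarith [sq_nonneg ε]
  have n5 : 8 * c * h ^ 2 ≤ 100 * c * ε ^ 2 := by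
    nlinarith [mul_le_mul_of_nonneg_left n4 hc, mul_nonneg hc (sq_nonneg ε)]
  rw [e4]
  refine (norm_sub_le _ _).trans ((add_le_add_left (norm_sub_le _ _) _).trans ?_)
  rw [mul_add]
  linarith

theorem QLoopStep_Gref_sub (hy : 𝓛.Hyp l f N U) (h : ℝ) (hζ : 𝓛.P1 ζ c) :
    ‖𝓛.Gref f N U h ζ - ζ‖ ≤ 4 * c * |h| := by
  have hc := P1.nonneg hζ
  have hF := (linv_sgn (𝓛 := 𝓛) hy.sgn).inv
  have hg := 𝓛.R.neg_mem (QLoopStep_g_mem hy h)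
  have hw := 𝓛.R.neg_mem (QLoopStep_w_mem hy h)
  have r1 := hζ.norm_WQ_sub hF hg
  have r2 := hζ.norm_WQ_sub 𝓛.invol_Z hw
  rw [norm_neg] at r1 r2
  have a1 : 2 * c * ‖h • 𝓛.gS N U‖ ≤ 2 * c * |h| := by
    have := QLoopStep_norm_g hy h
    gcongr
  have a2 : 2 * c * ‖h • 𝓛.Mf f N 𝓛.Ω‖ ≤ 2 * c * |h| := by
    have := QLoopStep_norm_w hy h
    gcongr
  have e : 𝓛.Gref f N U h ζ - ζ = 𝓛.WQ (𝓛.Mr f) (-(h • 𝓛.gS N U))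
      (𝓛.WQ 𝓛.Z (-(h • 𝓛.Mf f N 𝓛.Ω)) ζ - ζ) + (𝓛.WQ (𝓛.Mr f) (-(h • 𝓛.gS N U)) ζ - ζ) := by
    rw [Gref, mul_apply_eq_comp, map_sub]
    abel
  rw [e]
  refine (norm_add_le _ _).trans ?_
  rw [Weyl.QReg_norm_unit (Weyl.WQ_unitary hF hg)]
  linarith

theorem QLoopStep_arith1 {e E c c' a b m : ℝ} (he : e ≤ E) (he0 : 0 ≤ e) (hc : 1 ≤ c)
    (hc0 : 0 ≤ c') (hc' : c' ≤ 181 * c) (ha : 0 ≤ a) (hb : 0 ≤ b) (hm0 : 0 ≤ m)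
    (hm : m ≤ b * c + 2 * E) :
    2 * (e * (a * c' * (b + m))) ≤ 10 ^ 4 * c ^ 3 * a * E ^ 2 + 10 ^ 4 * c ^ 3 * a * b ^ 2 := by
  have hE : 0 ≤ E := he0.trans he
  have hc1 : 0 ≤ c := by linarith
  have h1 : b + m ≤ 2 * c * (b + E) := by nlinarith [mul_nonneg hE (sub_nonneg.2 hc)]
  have h2 : e * (a * c' * (b + m)) ≤ E * (a * (181 * c) * (2 * c * (b + E))) := by gcongr
  have h3 : E * (b + E) ≤ 2 * (E ^ 2 + b ^ 2) := by nlinarith [sq_nonneg (E - b)]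
  have h4 : c ^ 2 ≤ c ^ 3 := pow_le_pow_right₀ hc (by norm_num)
  have h5 : a * c ^ 2 * (E * (b + E)) ≤ a * c ^ 3 * (2 * (E ^ 2 + b ^ 2)) := by gcongr
  have h6 : 0 ≤ a * c ^ 3 * (E ^ 2 + b ^ 2) := by positivity
  nlinarith

theorem QLoopStep_arith2 {e c c' p ε d : ℝ} (he : e ≤ 2 * c) (he0 : 0 ≤ e) (hc : 1 ≤ c)
    (hc0 : 0 ≤ c') (hc' : c' ≤ 181 * c) (hp : 0 ≤ p) (hd0 : 0 ≤ d)
    (hd : d ≤ 300 * (1 + p) * c * |ε|) :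
    2 * (e * (100 * c' * ε ^ 2) + 10000 * (1 + p) ^ 2 * ε ^ 2 * e * c') + d ^ 2 ≤
      10 ^ 12 * (1 + p) ^ 2 * c ^ 2 * ε ^ 2 := by
  have hc1 : 0 ≤ c := by linarith
  have h1 : d ^ 2 ≤ (300 * (1 + p) * c * |ε|) ^ 2 := by gcongr
  rw [mul_pow, sq_abs] at h1
  have h2 : e * c' ≤ 2 * c * (181 * c) := by gcongr
  have h3 : (1 : ℝ) ≤ (1 + p) ^ 2 := one_le_pow₀ (by linarith)
  have h4 : ε ^ 2 * (e * c') ≤ (1 + p) ^ 2 * ε ^ 2 * (2 * c * (181 * c)) := by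
    have : ε ^ 2 ≤ (1 + p) ^ 2 * ε ^ 2 := le_mul_of_one_le_left (sq_nonneg _) h3
    gcongr
  have h5 : (1 + p) ^ 2 * ε ^ 2 * (e * c') ≤ (1 + p) ^ 2 * ε ^ 2 * (2 * c * (181 * c)) := by
    gcongr
  have h6 : 0 ≤ (1 + p) ^ 2 * c ^ 2 * ε ^ 2 := by positivity
  nlinarith

theorem Hyp.step_vec (hy : 𝓛.Hyp l f N U) (hτ : |τ| ≤ 1) (hε : |ε| ≤ 1) (hη : 0 < η)
    (hh : h = ε * 𝓛.kap N U τ * bL τ) (hp : 𝓛.P1 (U 𝓛.Ω) p) (hc : 1 ≤ c) (hV : 𝓛.P (V 𝓛.Ω) c)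
    (hE : ‖𝓛.Ind Nᶜ (U 𝓛.Ω - V 𝓛.Ω)‖ ≤ E) (hζ : 𝓛.P (V ζ) c) (hE' : ‖𝓛.Ind Nᶜ (U ζ - V ζ)‖ ≤ E)
    (hn : ‖U ζ‖ ≤ c) : ∀ᶠ s in atTop,
    ‖𝓛.Ind Nᶜ (𝓛.lL f N U τ ε s (U ζ) - 𝓛.Gref f N U h (V ζ))‖ ^ 2 ≤
      (1 + 10 ^ 4 * c ^ 3 * |h|) * E ^ 2 + 10 ^ 4 * c ^ 3 * |h| * bL τ ^ 2 +
        10 ^ 12 * (1 + p) ^ 2 * c ^ 2 * ε ^ 2 + η := by
  have hS := hy.anc.compl.meas
  have hI := norm_Ind_le (𝓛 := 𝓛) hS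
  have hp0 := P1.nonneg hp
  have hc0 : 0 ≤ c := by linarith
  have hh' := QLoopStep_abs_h hy hτ hh
  have hG := hy.Gref_unitary h
  set x := V ζ with hx
  set y := U ζ with hy'
  set G := 𝓛.Gref f N U h with hG'
  set x' := G x with hx'
  set c' := (1 + 2 * |h|) ^ 4 * c with hc'
  have hP : 𝓛.P x' c' := hy.P_Gref h hζ
  have hc1 : c' ≤ 181 * c := by
    have a1 : (1 + 2 * |h|) ^ 4 ≤ (11 / 3 : ℝ) ^ 4 := by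
      have : 1 + 2 * |h| ≤ 11 / 3 := by linarith
      gcongr
    refine mul_le_mul_of_nonneg_right (a1.trans (by norm_num)) hc0
  set e := 𝓛.Ind Nᶜ (y - x) with he
  have he2 : ‖e‖ ≤ 2 * c := by
    have a1 := Weyl.QReg_le_of hI (y - x)
    have a2 := norm_sub_le y x
    have a3 := hζ.1
    linarith
  have hlam := hy.norm_lam_sub (τ := τ) hV.2.1 hE
  have hfo := hy.Gref_first_order hτ hε hh hP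
  have hxx : star G x' = x := by
    rw [hx', ← mul_apply_eq_comp, Unitary.star_mul_self_of_mem hG,
      one_apply_eq_self]
  rw [← hG', hxx] at hfo
  have hGx : ‖x' - x‖ ≤ 4 * c * |h| := QLoopStep_Gref_sub hy h hζ.2.1
  filter_upwards [hy.L3 hτ hε (half_pos hη) hp e hP] with s hs
  have hL := hy.lL_unitary τ ε s
  have hLc := hy.lL_cm τ ε s
  have hLx := hy.norm_lL_sub (ε := ε) hτ s hp hζ.2.1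
  set L := 𝓛.lL f N U τ ε s with hL'
  have hLL : ∀ z, L (star L z) = z := fun z => by
    rw [← mul_apply_eq_comp, Unitary.mul_star_self_of_mem hL,
      one_apply_eq_self]
  set d := 𝓛.Ind Nᶜ (x - star L x') with hd
  have e1 : ‖𝓛.Ind Nᶜ (L y - x')‖ = ‖e + d‖ := by
    have : L y - x' = L (y - star L x') := by rw [map_sub, hLL]
    rw [this, norm_Ind_unitary hS hL hLc, he, hd, ← map_add, sub_add_sub_cancel]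
  have n1 : ‖d‖ ≤ 300 * (1 + p) * c * |ε| := by
    have a1 := Weyl.QReg_le_of hI (x - star L x')
    have a2 : ‖x - star L x'‖ = ‖(L x - x) - (x' - x)‖ := by
      rw [← Weyl.QReg_norm_unit hL, map_sub, hLL, sub_sub_sub_cancel_right]
    have a3 := norm_sub_le (L x - x) (x' - x)
    have a4 : 100 * (1 + p) * (c + ‖x‖) * |ε| ≤ 100 * (1 + p) * (c + c) * |ε| := by
      have := hζ.1
      gcongr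
    have a5 : c * |h| ≤ c * (4 / 3 * |ε|) := by gcongr
    have a6 : 0 ≤ p * (c * |ε|) := by positivity
    have a7 : 0 ≤ c * |ε| := by positivity
    nlinarith
  set k := (I * ε) • 𝓛.Kop f N U τ x' with hk
  have e2 : d = (𝓛.Ind Nᶜ (x - x') - k) - (𝓛.Ind Nᶜ (star L x' - x') - k) := by
    rw [sub_sub_sub_cancel_right, ← map_sub, sub_sub_sub_cancel_right]
  have n2 : (⟪e, d⟫_ℂ).re ≤ ‖e‖ * (|h| * c' * (|bL τ| + ‖𝓛.lam f N U τ - 𝓛.Mf f N 𝓛.Ω‖) +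
      100 * c' * ε ^ 2) + (10000 * (1 + p) ^ 2 * ε ^ 2 * ‖e‖ * c' + η / 2) := by
    refine (Complex.re_le_norm _).trans ?_
    rw [e2, inner_sub_right]
    refine (norm_sub_le _ _).trans (add_le_add ?_ hs)
    exact (norm_inner_le_norm _ _).trans (mul_le_mul_of_nonneg_left hfo (norm_nonneg _))
  have n3 := QLoopStep_arith1 hE' (norm_nonneg e) hc hP.nonneg hc1 (abs_nonneg h)
    (abs_nonneg (bL τ)) (norm_nonneg _) hlam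
  have n4 := QLoopStep_arith2 he2 (norm_nonneg e) hc hP.nonneg hc1 hp0 (norm_nonneg d) n1
  have n5 : ‖e‖ ^ 2 ≤ E ^ 2 := by gcongr
  rw [sq_abs] at n3
  rw [e1, @norm_add_sq ℂ, RCLike.re_to_complex]
  rw [mul_add] at n2
  linarith

/-- One step of the simulation. -/
theorem Hyp.step (hy : 𝓛.Hyp l f N U) (hτ : |τ| ≤ 1) (hε : |ε| ≤ 1) (hη : 0 < η)
    (hh : h = ε * 𝓛.kap N U τ * bL τ) (hp : 𝓛.P1 (U 𝓛.Ω) p) (hc : 1 ≤ c)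
    (hV : V ∈ unitary (H →L[ℂ] H)) {F : Finset H} (hΩ : 𝓛.Ω ∈ F) (hF : ∀ ζ ∈ F, 𝓛.P (V ζ) c)
    (hE : ∀ ζ ∈ F, ‖𝓛.Ind Nᶜ (U ζ - V ζ)‖ ≤ E) :
    ∃ U', 𝓛.PR l U' ∧ 𝓛.P1 (U' 𝓛.Ω) (p + 10000 * |ε| * (1 + p)) ∧
      |𝓛.xA N U' - 𝓛.xA N U| ≤ 100000 * (1 + p) ^ 4 * ε ^ 2 + η ∧
      ∀ ζ ∈ F, ‖𝓛.Ind Nᶜ (U' ζ - (𝓛.Gref f N U h * V) ζ)‖ ^ 2 ≤
        (1 + 10 ^ 4 * c ^ 3 * |h|) * E ^ 2 + 10 ^ 4 * c ^ 3 * |h| * bL τ ^ 2 +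
          10 ^ 12 * (1 + p) ^ 2 * c ^ 2 * ε ^ 2 + η := by
  have hU := hy.reach.unitary
  have h1 : ∀ᶠ s in atTop, ∀ ζ ∈ F,
      ‖𝓛.Ind Nᶜ (𝓛.lL f N U τ ε s (U ζ) - 𝓛.Gref f N U h (V ζ))‖ ^ 2 ≤
        (1 + 10 ^ 4 * c ^ 3 * |h|) * E ^ 2 + 10 ^ 4 * c ^ 3 * |h| * bL τ ^ 2 +
          10 ^ 12 * (1 + p) ^ 2 * c ^ 2 * ε ^ 2 + η := by
    refine (Filter.eventually_all_finset F).2 fun ζ hζ => ?_
    refine hy.step_vec hτ hε hη hh hp hc (hF _ hΩ) (hE _ hΩ) (hF ζ hζ) (hE ζ hζ) ?_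
    rw [Weyl.QReg_norm_unit hU, ← Weyl.QReg_norm_unit hV]
    exact (hF ζ hζ).1
  obtain ⟨s, hs1, hs2⟩ := (h1.and (hy.L4 hτ hε hη hp)).exists
  refine ⟨𝓛.lL f N U τ ε s * U, hy.pr_lL τ ε s, hy.P1_lL hτ hε s hp, hs2, fun ζ hζ => ?_⟩
  rw [mul_apply_eq_comp, mul_apply_eq_comp]
  exact hs1 ζ hζ

end Label

end Crest.Agent.R339
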