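import Crest.Agent.R339.QDefs

/-! # Row 339: vector valued `L²` space over the labels -/

set_option autoImplicit false

namespace Crest.Agent.R339

open MeasureTheory ProbabilityTheory Complex Filter Topology
open scoped InnerProductSpace ENNReal

/-- Multiplication operators, constant operators and constant vectors on `L²(γ; Kf)`. -/
structure QFld (K : ℕ) (Kf H : Type) [NormedAddCommGroup Kf] [InnerProductSpace ℂ Kf]
    [CompleteSpace Kf] [NormedAddCommGroup H] [InnerProductSpace ℂ H] [CompleteSpace H] where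
  M : ((Fin (K + 1) → ℝ) → ℂ) → H →L[ℂ] H
  L : (Kf →L[ℂ] Kf) → H →L[ℂ] H
  c : Kf →L[ℂ] H
  M_const : ∀ c : ℂ, M (fun _ => c) = c • (1 : H →L[ℂ] H)
  M_add : ∀ ψ χ, BM ψ → BM χ → M (fun ω => ψ ω + χ ω) = M ψ + M χ
  M_mul : ∀ ψ χ, BM ψ → BM χ → M (fun ω => ψ ω * χ ω) = M ψ * M χ
  M_star : ∀ ψ, BM ψ → star (M ψ) = M fun ω => (starRingEnd ℂ) (ψ ω)
  M_norm : ∀ ψ (c : ℝ), Measurable ψ → (∀ ω, ‖ψ ω‖ ≤ c) → ‖M ψ‖ ≤ c
  M_lim : ∀ (ψ : ℕ → (Fin (K + 1) → ℝ) → ℂ) χ (c : ℝ), (∀ n, Measurable (ψ n)) → BM χ →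
    (∀ n ω, ‖ψ n ω‖ ≤ c) → (∀ᵐ ω ∂gam K, Tendsto (fun n => ψ n ω) atTop (𝓝 (χ ω))) →
    ∀ ξ, Tendsto (fun n => M (ψ n) ξ) atTop (𝓝 (M χ ξ))
  M_L : ∀ ψ T, BM ψ → M ψ * L T = L T * M ψ
  L_one : L 1 = 1
  L_mul : ∀ S T, L (S * T) = L S * L T
  L_smul : ∀ (a : ℂ) T, L (a • T) = a • L T
  L_star : ∀ T, star (L T) = L (star T)
  L_c : ∀ T k, L T (c k) = c (T k)
  inner_c : ∀ ψ k k', BM ψ → ⟪c k, M ψ (c k')⟫_ℂ = (∫ ω, ψ ω ∂gam K) * ⟪k, k'⟫_ℂ
  dense : ∀ S : Submodule ℂ H, IsClosed (S : Set H) → (∀ ψ k, BM ψ → M ψ (c k) ∈ S) → ∀ ξ, ξ ∈ S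

namespace QM1

variable {K : ℕ} {Kf : Type} [NormedAddCommGroup Kf] [InnerProductSpace ℂ Kf]

theorem memLp {ψ : (Fin (K + 1) → ℝ) → ℂ} (h : BM ψ) : MemLp ψ ∞ (gam K) := by
  obtain ⟨hm, C, hC⟩ := h
  exact memLp_top_of_bound hm.aestronglyMeasurable C (Eventually.of_forall hC)

theorem bm_const (c : ℂ) : BM fun _ : Fin (K + 1) → ℝ => c := ⟨measurable_const, ‖c‖, fun _ => le_rfl⟩

theorem bm_add {ψ χ : (Fin (K + 1) → ℝ) → ℂ} (h : BM ψ) (h' : BM χ) : BM fun ω => ψ ω + χ ω := by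
  obtain ⟨hm, C, hC⟩ := h
  obtain ⟨hm', C', hC'⟩ := h'
  exact ⟨hm.add hm', C + C', fun ω => (norm_add_le _ _).trans (add_le_add (hC ω) (hC' ω))⟩

theorem bm_mul {ψ χ : (Fin (K + 1) → ℝ) → ℂ} (h : BM ψ) (h' : BM χ) : BM fun ω => ψ ω * χ ω := by
  obtain ⟨hm, C, hC⟩ := h
  obtain ⟨hm', C', hC'⟩ := h'
  exact ⟨hm.mul hm', C * C', fun ω => (norm_mul_le _ _).trans
    (mul_le_mul (hC ω) (hC' ω) (norm_nonneg _) ((norm_nonneg _).trans (hC ω)))⟩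

theorem bm_star {ψ : (Fin (K + 1) → ℝ) → ℂ} (h : BM ψ) : BM fun ω => (starRingEnd ℂ) (ψ ω) := by
  obtain ⟨hm, C, hC⟩ := h
  exact ⟨continuous_conj.measurable.comp hm, C, fun ω => by rw [norm_conj]; exact hC ω⟩

open Classical in
/-- multiplication operator -/
noncomputable def mul (Kf : Type) [NormedAddCommGroup Kf] [InnerProductSpace ℂ Kf]
    (ψ : (Fin (K + 1) → ℝ) → ℂ) : Lp Kf 2 (gam K) →L[ℂ] Lp Kf 2 (gam K) :=
  if h : MemLp ψ ∞ (gam K) then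
    (ContinuousLinearMap.lsmul ℂ ℂ : ℂ →L[ℂ] Kf →L[ℂ] Kf).holderL (gam K) ∞ 2 2 (h.toLp ψ)
  else 0

theorem mul_ae {ψ : (Fin (K + 1) → ℝ) → ℂ} (h : BM ψ) (f : Lp Kf 2 (gam K)) :
    ∀ᵐ ω ∂gam K, mul Kf ψ f ω = ψ ω • f ω := by
  have e : mul Kf ψ = (ContinuousLinearMap.lsmul ℂ ℂ : ℂ →L[ℂ] Kf →L[ℂ] Kf).holderL (gam K) ∞ 2 2
      ((memLp h).toLp ψ) := dif_pos (memLp h)
  rw [e]
  filter_upwards [(ContinuousLinearMap.lsmul ℂ ℂ : ℂ →L[ℂ] Kf →L[ℂ] Kf).coeFn_holder (r := 2)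
    ((memLp h).toLp ψ) f, (memLp h).coeFn_toLp] with ω h1 h2
  refine Eq.trans h1 ?_
  rw [h2]
  rfl

theorem norm_sq (f : Lp Kf 2 (gam K)) : ‖f‖ ^ 2 = ∫ ω, ‖f ω‖ ^ 2 ∂gam K := by
  rw [← inner_self_eq_norm_sq (𝕜 := ℂ), L2.inner_def, ← integral_re (L2.integrable_inner f f)]
  simp only [inner_self_eq_norm_sq]

theorem mul_lim (ψ : ℕ → (Fin (K + 1) → ℝ) → ℂ) (χ : (Fin (K + 1) → ℝ) → ℂ) (c : ℝ)
    (hψ : ∀ n, Measurable (ψ n)) (hχ : BM χ) (hc : ∀ n ω, ‖ψ n ω‖ ≤ c)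
    (hl : ∀ᵐ ω ∂gam K, Tendsto (fun n => ψ n ω) atTop (𝓝 (χ ω))) (ξ : Lp Kf 2 (gam K)) :
    Tendsto (fun n => mul Kf (ψ n) ξ) atTop (𝓝 (mul Kf χ ξ)) := by
  obtain ⟨C, hC⟩ := hχ.2
  have hξ : Integrable (fun ω => ‖ξ ω‖ ^ 2) (gam K) :=
    (memLp_two_iff_integrable_sq_norm (Lp.aestronglyMeasurable ξ)).1 (Lp.memLp ξ)
  have e : ∀ n, ‖mul Kf (ψ n) ξ - mul Kf χ ξ‖ ^ 2 = ∫ ω, ‖ψ n ω - χ ω‖ ^ 2 * ‖ξ ω‖ ^ 2 ∂gam K := by
    intro n
    rw [norm_sq]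
    refine integral_congr_ae ?_
    filter_upwards [Lp.coeFn_sub (mul Kf (ψ n) ξ) (mul Kf χ ξ), mul_ae ⟨hψ n, c, hc n⟩ ξ,
      mul_ae hχ ξ] with ω h1 h2 h3
    rw [h1, Pi.sub_apply, h2, h3, ← sub_smul, norm_smul, mul_pow]
  have h1 : Tendsto (fun n => ∫ ω, ‖ψ n ω - χ ω‖ ^ 2 * ‖ξ ω‖ ^ 2 ∂gam K) atTop
      (𝓝 (∫ _ω, (0 : ℝ) ∂gam K)) := by
    refine tendsto_integral_of_dominated_convergence (fun ω => (c + C) ^ 2 * ‖ξ ω‖ ^ 2)
      (fun n => ?_) (hξ.const_mul _) (fun n => Eventually.of_forall fun ω => ?_) ?_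
    · exact (((hψ n).sub hχ.1).norm.pow_const 2).aestronglyMeasurable.mul hξ.1
    · rw [Real.norm_of_nonneg (by positivity)]
      refine mul_le_mul_of_nonneg_right (pow_le_pow_left₀ (norm_nonneg _) ?_ 2) (sq_nonneg _)
      exact (norm_sub_le _ _).trans (add_le_add (hc n ω) (hC ω))
    · filter_upwards [hl] with ω hω
      have := ((tendsto_iff_norm_sub_tendsto_zero.1 hω).pow 2).mul_const (‖ξ ω‖ ^ 2)
      simpa using this
  rw [integral_zero] at h1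
  rw [tendsto_iff_norm_sub_tendsto_zero]
  have h2 := h1.sqrt
  simp only [← e, Real.sqrt_sq (norm_nonneg _), Real.sqrt_zero] at h2
  exact h2

variable [CompleteSpace Kf]

/-- the model -/
noncomputable def fld (K : ℕ) (Kf : Type) [NormedAddCommGroup Kf] [InnerProductSpace ℂ Kf]
    [CompleteSpace Kf] : QFld K Kf (Lp Kf 2 (gam K)) where
  M := mul Kf
  L T := T.compLpL 2 (gam K)
  c := Lp.constL 2 (gam K) ℂ
  M_const c := by
    refine ContinuousLinearMap.ext fun f => Lp.ext ?_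
    filter_upwards [mul_ae (bm_const c) f, Lp.coeFn_smul c f] with ω h1 h2
    exact h1.trans h2.symm
  M_add ψ χ hψ hχ := by
    refine ContinuousLinearMap.ext fun f => Lp.ext ?_
    filter_upwards [mul_ae (bm_add hψ hχ) f, mul_ae hψ f, mul_ae hχ f,
      Lp.coeFn_add (mul Kf ψ f) (mul Kf χ f)] with ω h1 h2 h3 h4
    refine h1.trans (Eq.trans ?_ h4.symm)
    rw [Pi.add_apply, h2, h3, add_smul]
  M_mul ψ χ hψ hχ := by
    refine ContinuousLinearMap.ext fun f => Lp.ext ?_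
    filter_upwards [mul_ae (bm_mul hψ hχ) f, mul_ae hψ (mul Kf χ f), mul_ae hχ f] with ω h1 h2 h3
    refine h1.trans (Eq.trans ?_ h2.symm)
    rw [h3, mul_smul]
  M_star ψ hψ := by
    rw [ContinuousLinearMap.star_eq_adjoint, eq_comm, ContinuousLinearMap.eq_adjoint_iff]
    intro f g
    rw [L2.inner_def, L2.inner_def]
    refine integral_congr_ae ?_
    filter_upwards [mul_ae (bm_star hψ) f, mul_ae hψ g] with ω h1 h2
    rw [h1, h2, inner_smul_left, inner_smul_right, conj_conj]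
  M_norm ψ c hψ hc := by
    refine ContinuousLinearMap.opNorm_le_bound _ ((norm_nonneg _).trans (hc 0)) fun f => ?_
    refine Lp.norm_le_mul_norm_of_ae_le_mul ?_
    filter_upwards [mul_ae ⟨hψ, c, hc⟩ f] with ω h1
    rw [h1, norm_smul]
    exact mul_le_mul_of_nonneg_right (hc ω) (norm_nonneg _)
  M_lim := mul_lim
  M_L ψ T hψ := by
    refine ContinuousLinearMap.ext fun f => Lp.ext ?_
    filter_upwards [mul_ae hψ (T.compLpL 2 (gam K) f), T.coeFn_compLpL f,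
      T.coeFn_compLpL (mul Kf ψ f), mul_ae hψ f] with ω h1 h2 h3 h4
    refine h1.trans (Eq.trans ?_ h3.symm)
    rw [h2, h4, map_smul]
  L_one := by
    refine ContinuousLinearMap.ext fun f => Lp.ext ?_
    filter_upwards [(1 : Kf →L[ℂ] Kf).coeFn_compLpL f] with ω h1
    exact h1
  L_mul S T := by
    refine ContinuousLinearMap.ext fun f => Lp.ext ?_
    filter_upwards [(S * T).coeFn_compLpL f, T.coeFn_compLpL f,
      S.coeFn_compLpL (T.compLpL 2 (gam K) f)] with ω h1 h2 h3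
    refine h1.trans (Eq.trans ?_ h3.symm)
    rw [h2]
    rfl
  L_smul a T := by
    refine ContinuousLinearMap.ext fun f => Lp.ext ?_
    filter_upwards [(a • T).coeFn_compLpL f, T.coeFn_compLpL f,
      Lp.coeFn_smul a (T.compLpL 2 (gam K) f)] with ω h1 h2 h3
    refine h1.trans (Eq.trans ?_ h3.symm)
    rw [Pi.smul_apply, h2]
    rfl
  L_star T := by
    rw [ContinuousLinearMap.star_eq_adjoint, eq_comm, ContinuousLinearMap.eq_adjoint_iff]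
    intro f g
    rw [L2.inner_def, L2.inner_def]
    refine integral_congr_ae ?_
    filter_upwards [(star T).coeFn_compLpL f, T.coeFn_compLpL g] with ω h1 h2
    rw [h1, h2, ContinuousLinearMap.star_eq_adjoint, ContinuousLinearMap.adjoint_inner_left]
  L_c T k := by
    refine Lp.ext ?_
    filter_upwards [T.coeFn_compLpL (Lp.const 2 (gam K) k), Lp.coeFn_const 2 (gam K) k,
      Lp.coeFn_const 2 (gam K) (T k)] with ω h1 h2 h3
    refine h1.trans (Eq.trans ?_ h3.symm)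
    rw [h2]
    rfl
  inner_c ψ k k' hψ := by
    rw [L2.inner_def, ← integral_mul_const]
    refine integral_congr_ae ?_
    filter_upwards [mul_ae hψ (Lp.const 2 (gam K) k'), Lp.coeFn_const 2 (gam K) k,
      Lp.coeFn_const 2 (gam K) k'] with ω h1 h2 h3
    show ⟪Lp.const 2 (gam K) k ω, mul Kf ψ (Lp.const 2 (gam K) k') ω⟫_ℂ = _
    rw [h1, h2, h3, inner_smul_right]
    rfl
  dense S hS h ξ := by
    refine Lp.induction (p := 2) ENNReal.ofNat_ne_top (fun ξ : Lp Kf 2 (gam K) => ξ ∈ S)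
      (fun k s hs hμ => ?_) (fun _ _ _ _ _ h1 h2 => S.add_mem h1 h2) hS ξ
    have hb : BM (s.indicator fun _ => (1 : ℂ)) :=
      ⟨measurable_const.indicator hs, 1, fun ω => by
        by_cases hω : ω ∈ s <;> simp [hω]⟩
    have e : indicatorConstLp 2 hs hμ.ne k =
        mul Kf (s.indicator fun _ => (1 : ℂ)) (Lp.const 2 (gam K) k) := by
      refine Lp.ext ?_
      filter_upwards [indicatorConstLp_coeFn (p := 2) (hs := hs) (hμs := hμ.ne) (c := k),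
        mul_ae hb (Lp.const 2 (gam K) k), Lp.coeFn_const 2 (gam K) k] with ω h1 h2 h3
      rw [h1, h2, h3]
      by_cases hω : ω ∈ s <;> simp [hω]
    show indicatorConstLp 2 hs hμ.ne k ∈ S
    rw [e]
    exact h _ k hb

end QM1

end Crest.Agent.R339
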