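import Crest.Agent.R339.QFock
import Crest.Agent.R339.QModelAux1

/-! # Row 339: existence of the label model -/

set_option autoImplicit false

namespace Crest.Agent.R339

open MeasureTheory ProbabilityTheory Complex Filter Topology
open scoped InnerProductSpace

namespace QM2

theorem l2n_sc : SecondCountableTopology L2N := by
  let b : HilbertBasis ℕ ℂ L2N := default
  have h1 : TopologicalSpace.IsSeparable (Submodule.span ℂ (Set.range b) : Set L2N) :=
    (Set.countable_range b).isSeparable.span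
  have h2 : closure (Submodule.span ℂ (Set.range b) : Set L2N) = Set.univ :=
    congrArg SetLike.coe b.dense_span
  have h3 : TopologicalSpace.SeparableSpace L2N :=
    TopologicalSpace.isSeparable_univ_iff.1 (h2 ▸ h1.closure)
  exact UniformSpace.secondCountable_of_separable _

variable {H : Type} [NormedAddCommGroup H] [InnerProductSpace ℂ H] [CompleteSpace H]

theorem split [SecondCountableTopology H] (hH : ¬ FiniteDimensional ℂ H) {ι : Type} [Fintype ι]
    {v : ι → H} (hv : Orthonormal ℂ v) : ∃ q : H →ₗ[ℂ] L2N,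
      (∀ g h, ⟪g, h⟫_ℂ = ∑ a, (starRingEnd ℂ) ⟪v a, g⟫_ℂ * ⟪v a, h⟫_ℂ + ⟪q g, q h⟫_ℂ) ∧
      (∀ a, q (v a) = 0) ∧ ∀ u, ∃ g, (∀ a, ⟪v a, g⟫_ℂ = 0) ∧ q g = u := by
  classical
  let S : Submodule ℂ H := Submodule.span ℂ (Set.range v)
  have hS : FiniteDimensional ℂ S := FiniteDimensional.span_of_finite ℂ (Set.finite_range v)
  have hmem : ∀ g, g ∈ Sᗮ ↔ ∀ a, ⟪v a, g⟫_ℂ = 0 := by
    intro g
    refine ⟨fun h a => h _ (Submodule.subset_span ⟨a, rfl⟩), fun h u hu => ?_⟩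
    induction hu using Submodule.span_induction with
    | mem x hx => obtain ⟨a, rfl⟩ := hx; exact h a
    | zero => exact inner_zero_left _
    | add x y _ _ h1 h2 => rw [inner_add_left, h1, h2, add_zero]
    | smul c x _ h1 => rw [inner_smul_left, h1, mul_zero]
  let p0 : H →ₗ[ℂ] H := LinearMap.id - ∑ a, (innerSL ℂ (v a) : H →ₗ[ℂ] ℂ).smulRight (v a)
  have hp0 : ∀ g, p0 g = g - ∑ a, ⟪v a, g⟫_ℂ • v a := fun g => by
    simp [p0]
  have hp1 : ∀ g, p0 g ∈ Sᗮ := fun g => (hmem _).2 fun a => by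
    rw [hp0, inner_sub_right, hv.inner_right_fintype, sub_self]
  have hV : ¬ FiniteDimensional ℂ Sᗮ := by
    intro hV
    have h1 : FiniteDimensional ℂ (S ⊔ Sᗮ : Submodule ℂ H) := Submodule.finiteDimensional_sup _ _
    rw [Submodule.sup_orthogonal_of_hasOrthogonalProjection] at h1
    exact hH (Submodule.topEquiv.finiteDimensional (V := (⊤ : Submodule ℂ H)))
  obtain ⟨j⟩ := exists_equiv_L2N Sᗮ hV
  let p : H →ₗ[ℂ] Sᗮ := p0.codRestrict Sᗮ hp1
  refine ⟨j.toLinearEquiv.toLinearMap ∘ₗ p, fun g h => ?_, fun a => ?_, fun u => ?_⟩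
  · have e1 : ⟪(j.toLinearEquiv.toLinearMap ∘ₗ p) g, (j.toLinearEquiv.toLinearMap ∘ₗ p) h⟫_ℂ =
        ⟪p0 g, p0 h⟫_ℂ := j.inner_map_map (p g) (p h)
    have e2 : ⟪p0 g, p0 h⟫_ℂ = ⟪g, p0 h⟫_ℂ := by
      rw [hp0 g, inner_sub_left, sum_inner, Finset.sum_eq_zero, sub_zero]
      intro a _
      rw [inner_smul_left, (hmem _).1 (hp1 h) a, mul_zero]
    rw [e1, e2, hp0, inner_sub_right, inner_sum]
    simp only [inner_smul_right, inner_conj_symm, mul_comm]
    ring
  · have e : p (v a) = 0 := Subtype.ext (by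
      show p0 (v a) = 0
      rw [hp0]
      simp only [orthonormal_iff_ite.1 hv, ite_smul, one_smul, zero_smul, Finset.sum_ite_eq',
        Finset.mem_univ, if_true, sub_self])
    rw [LinearMap.comp_apply, e, map_zero]
  · refine ⟨j.symm u, (hmem _).1 (j.symm u).2, ?_⟩
    have e : p (j.symm u) = j.symm u := Subtype.ext (by
      show p0 (j.symm u) = j.symm u
      rw [hp0]
      simp only [(hmem _).1 (j.symm u).2, zero_smul, Finset.sum_const_zero, sub_zero])
    rw [LinearMap.comp_apply, e]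
    exact j.apply_symm_apply u

/-- the phase -/
noncomputable def ph {K : ℕ} (r : Fin (K + 1) → ℝ) (ω : Fin (K + 1) → ℝ) : ℂ :=
  exp (I * (∑ a, r a * ω a : ℝ))

theorem ph_bm {K : ℕ} (r : Fin (K + 1) → ℝ) : BM (ph r) := by
  refine ⟨Continuous.measurable ?_, 1, fun ω => ?_⟩
  · show Continuous fun ω : Fin (K + 1) → ℝ => exp (I * (∑ a, r a * ω a : ℝ))
    fun_prop
  · exact (norm_exp_I_mul_ofReal _).le

theorem ph_zero {K : ℕ} : ph (K := K) 0 = fun _ => 1 := by
  funext ω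
  show exp (I * (∑ a, (0 : ℝ) * ω a : ℝ)) = 1
  simp

theorem ph_add {K : ℕ} (r s : Fin (K + 1) → ℝ) : ph (r + s) = fun ω => ph r ω * ph s ω := by
  funext ω
  show exp (I * (∑ a, (r a + s a) * ω a : ℝ)) =
    exp (I * (∑ a, r a * ω a : ℝ)) * exp (I * (∑ a, s a * ω a : ℝ))
  rw [← Complex.exp_add, ← mul_add, ← ofReal_add, ← Finset.sum_add_distrib]
  simp only [add_mul]

theorem ph_neg {K : ℕ} (r : Fin (K + 1) → ℝ) : ph (-r) = fun ω => (starRingEnd ℂ) (ph r ω) := by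
  funext ω
  show exp (I * (∑ a, -r a * ω a : ℝ)) = (starRingEnd ℂ) (exp (I * (∑ a, r a * ω a : ℝ)))
  rw [← Complex.exp_conj, map_mul, conj_I, conj_ofReal]
  simp only [neg_mul, Finset.sum_neg_distrib, ofReal_neg, mul_neg]

theorem ph_int {K : ℕ} (r : Fin (K + 1) → ℝ) :
    ∫ ω, ph r ω ∂gam K = exp (-(((∑ a, r a ^ 2) / 2 : ℝ) : ℂ)) := by
  have e : ∀ ω, ph r ω = ∏ a, exp (r a * ω a * I) := by
    intro ω
    show exp (I * (∑ a, r a * ω a : ℝ)) = _
    rw [← Complex.exp_sum, ← Finset.sum_mul, mul_comm]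
    push_cast
    rfl
  simp only [e]
  rw [integral_fintype_prod_eq_prod (fun a (x : ℝ) => exp (r a * x * I))]
  simp only [← charFun_apply_real, charFun_gaussianReal]
  rw [← Complex.exp_sum]
  congr 1
  push_cast
  rw [Finset.sum_div, ← Finset.sum_neg_distrib]
  exact Finset.sum_congr rfl fun a _ => by simp

variable {K : ℕ} {Kf : Type} [NormedAddCommGroup Kf] [InnerProductSpace ℂ Kf] [CompleteSpace Kf]

theorem M_one (Φ : QFld K Kf H) : Φ.M (fun _ => 1) = 1 := by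
  rw [Φ.M_const, one_smul]

theorem inner_cc (Φ : QFld K Kf H) (k k' : Kf) : ⟪Φ.c k, Φ.c k'⟫_ℂ = ⟪k, k'⟫_ℂ := by
  have h := Φ.inner_c (fun _ => 1) k k' (QM1.bm_const 1)
  rw [M_one] at h
  simpa using h

theorem norm_c (Φ : QFld K Kf H) (k : Kf) : ‖Φ.c k‖ = ‖k‖ := by
  rw [← sq_eq_sq₀ (norm_nonneg _) (norm_nonneg _), ← inner_self_eq_norm_sq (𝕜 := ℂ),
    ← inner_self_eq_norm_sq (𝕜 := ℂ), inner_cc]

theorem f_bm (A : AMP K) (a : Fin (K + 1)) : BM fun ω => (A.f a ω : ℂ) := by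
  obtain ⟨C, hC⟩ := A.f_bdd
  exact ⟨measurable_ofReal.comp (A.f_meas a), C, fun ω => by
    rw [norm_real, Real.norm_eq_abs]; exact hC a ω⟩

theorem orth (A : AMP K) (Φ : QFld K Kf H) {k : Kf} (hk : ‖k‖ = 1) :
    Orthonormal ℂ fun a => Φ.M (fun ω => (A.f a ω : ℂ)) (Φ.c k) := by
  rw [orthonormal_iff_ite]
  intro a b
  have e1 : star (Φ.M fun ω => (A.f a ω : ℂ)) = Φ.M fun ω => (A.f a ω : ℂ) := by
    rw [Φ.M_star _ (f_bm A a)]
    simp only [conj_ofReal]
  rw [← ContinuousLinearMap.adjoint_inner_right, ← ContinuousLinearMap.star_eq_adjoint, e1,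
    ← mul_apply_eq_comp, ← Φ.M_mul _ _ (f_bm A a) (f_bm A b),
    Φ.inner_c _ _ _ (QM1.bm_mul (f_bm A a) (f_bm A b)), inner_self_eq_norm_sq_to_K, hk]
  simp only [← ofReal_mul, integral_complex_ofReal, A.orth]
  split_ifs <;> simp

theorem label (A : AMP K) (Φ : QFld K Kf H) (F : Fock L2N Kf) [SecondCountableTopology H] :
    Nonempty (Label A H) := by
  have hH : ¬ FiniteDimensional ℂ H := fun hH => F.not_finiteDimensional
    (FiniteDimensional.of_injective (Φ.c : Kf →ₗ[ℂ] H) (by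
      refine (injective_iff_map_eq_zero _).2 fun k hk => ?_
      rw [← norm_eq_zero, ← norm_c Φ, norm_eq_zero]
      exact hk))
  obtain ⟨v, hv⟩ : ∃ v : Fin (K + 1) → H, v = fun a => Φ.M (fun ω => (A.f a ω : ℂ)) (Φ.c F.Ω) :=
    ⟨_, rfl⟩
  have hvo : Orthonormal ℂ v := hv ▸ orth A Φ F.Ω_norm
  obtain ⟨q, q1, q2, q3⟩ := split hH hvo
  obtain ⟨r, hr⟩ : ∃ r : H → Fin (K + 1) → ℝ, r = fun g a => (⟪v a, g⟫_ℂ).re := ⟨_, rfl⟩
  have r_zero : r 0 = 0 := by
    funext a
    simp [hr]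
  have r_add : ∀ g h, r (g + h) = r g + r h := fun g h => by
    funext a
    simp [hr]
  have r_neg : ∀ g, r (-g) = -r g := fun g => by
    funext a
    simp [hr, inner_neg_right]
  obtain ⟨W, hW⟩ : ∃ W : H → H →L[ℂ] H, W = fun g => Φ.M (ph (r g)) * Φ.L (F.W (q g)) := ⟨_, rfl⟩
  have hW' : ∀ g, W g = Φ.M (ph (r g)) * Φ.L (F.W (q g)) := fun g => by rw [hW]
  let R : Submodule ℝ H :=
    { carrier := {g | ∀ a, (⟪v a, g⟫_ℂ).im = 0}
      add_mem' := fun h1 h2 a => by rw [inner_add_right, add_im, h1 a, h2 a, add_zero]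
      zero_mem' := fun a => by rw [inner_zero_right, zero_im]
      smul_mem' := fun t g h1 a => by
        rw [← Complex.coe_smul, inner_smul_right, im_ofReal_mul, h1 a, mul_zero] }
  have hre : ∀ g ∈ R, ∀ a, ⟪v a, g⟫_ℂ = (r g a : ℂ) := fun g hg a =>
    Complex.ext (by rw [hr, ofReal_re]) (by rw [ofReal_im]; exact hg a)
  have him : ∀ g ∈ R, ∀ h ∈ R, (⟪g, h⟫_ℂ).im = (⟪q g, q h⟫_ℂ).im := by
    intro g hg h hh
    rw [q1 g h]
    simp only [hre g hg, hre h hh, conj_ofReal, ← ofReal_mul, ← ofReal_sum, add_im, ofReal_im,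
      zero_add]
  have hn : ∀ g ∈ R, ‖q g‖ ^ 2 = ‖g‖ ^ 2 - ∑ a, r g a ^ 2 := by
    intro g hg
    have h1 := q1 g g
    simp only [hre g hg, conj_ofReal, inner_self_eq_norm_sq_to_K, ← sq, coe_algebraMap] at h1
    have h2 : ‖g‖ ^ 2 = ∑ a, r g a ^ 2 + ‖q g‖ ^ 2 := by exact_mod_cast h1
    linarith
  have hLW : ∀ T : Kf →L[ℂ] Kf, (∀ u, T * F.W u = F.W u * T) → ∀ g, Φ.L T * W g = W g * Φ.L T := by
    intro T hT g
    rw [hW', ← mul_assoc, ← Φ.M_L _ _ (ph_bm _), mul_assoc, mul_assoc, ← Φ.L_mul, ← Φ.L_mul, hT]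
  have hvac : ∀ ψ, BM ψ → ∀ g ∈ R, ⟪Φ.c F.Ω, Φ.M ψ (W g (Φ.c F.Ω))⟫_ℂ =
      (∫ ω, ψ ω * ph (r g) ω ∂gam K) * exp (-(((‖g‖ ^ 2 - ∑ a, r g a ^ 2) / 2 : ℝ) : ℂ)) := by
    intro ψ hψ g hg
    rw [hW', mul_apply_eq_comp, Φ.L_c, ← mul_apply_eq_comp,
      ← Φ.M_mul _ _ hψ (ph_bm _), Φ.inner_c _ _ _ (QM1.bm_mul hψ (ph_bm _)), F.vac, ← hn g hg]
    push_cast
    rfl
  refine ⟨{ X := Φ.L F.X
            Z := Φ.L F.Z
            Ω := Φ.c F.Ω
            R := R
            W := W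
            X_star := by rw [Φ.L_star, F.X_star]
            Z_star := by rw [Φ.L_star, F.Z_star]
            X_sq := by rw [← Φ.L_mul, F.X_sq, Φ.L_one]
            Z_sq := by rw [← Φ.L_mul, F.Z_sq, Φ.L_one]
            XZ := by rw [← Φ.L_mul, ← Φ.L_mul, F.XZ, ← neg_one_smul ℂ, Φ.L_smul, neg_one_smul]
            Ω_norm := by rw [norm_c, F.Ω_norm]
            XΩ := by rw [Φ.L_c, F.XΩ]
            W_zero := by rw [hW', r_zero, ph_zero, M_one, map_zero, F.W_zero, Φ.L_one, mul_one]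
            W_star := fun g _ => by
              rw [hW', hW', star_mul, Φ.L_star, Φ.M_star _ (ph_bm _), F.W_star, r_neg, map_neg,
                ← ph_neg, Φ.M_L _ _ (ph_bm _)]
            W_mul := fun g hg h hh => by
              rw [hW', hW', hW', mul_assoc, ← mul_assoc (Φ.L _), ← Φ.M_L _ _ (ph_bm _), mul_assoc,
                ← Φ.L_mul, ← mul_assoc, ← Φ.M_mul _ _ (ph_bm _) (ph_bm _), F.W_mul, Φ.L_smul,
                mul_smul_comm, r_add, ph_add, map_add, him g hg h hh]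
            X_W := fun g _ => hLW _ F.X_W g
            Z_W := fun g _ => hLW _ F.Z_W g
            vac := fun g hg => ?_
            M := Φ.M
            M_const := Φ.M_const
            M_add := Φ.M_add
            M_mul := Φ.M_mul
            M_star := Φ.M_star
            M_norm := Φ.M_norm
            M_lim := Φ.M_lim
            M_X := fun ψ hψ => Φ.M_L ψ _ hψ
            M_Z := fun ψ hψ => Φ.M_L ψ _ hψ
            M_W := fun ψ hψ g _ => ?_
            mem_R := fun g => by subst hv; exact Iff.rfl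
            W_v := fun a t => ?_
            vacM := fun ψ hψ g hg => by
              have := hvac ψ hψ g hg
              subst hv hr
              exact this
            total := ?_ }⟩
  · have h1 := hvac _ (QM1.bm_const 1) g hg
    rw [M_one] at h1
    refine Eq.trans h1 ?_
    simp only [one_mul]
    rw [ph_int, ← Complex.exp_add]
    congr 1
    push_cast
    ring
  · rw [hW', ← mul_assoc, ← Φ.M_mul _ _ hψ (ph_bm _), mul_assoc, ← Φ.M_L _ _ hψ, ← mul_assoc,
      ← Φ.M_mul _ _ (ph_bm _) hψ]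
    simp only [mul_comm]
  · have e0 : Φ.M (fun ω => (A.f a ω : ℂ)) (Φ.c F.Ω) = v a := by rw [hv]
    have e1 : ph (r ((t : ℂ) • v a)) = fun ω => exp (I * (t * ω a : ℝ)) := by
      funext ω
      show exp (I * (∑ b, r ((t : ℂ) • v a) b * ω b : ℝ)) = _
      congr 3
      rw [Finset.sum_eq_single a]
      · rw [hr]
        simp [hvo.1 a]
      · intro b _ hb
        rw [hr]
        simp [orthonormal_iff_ite.1 hvo, hb]
      · simp
    rw [e0, ← Complex.coe_smul, hW', map_smul, q2, smul_zero, F.W_zero, Φ.L_one, mul_one, e1]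
  · refine dense_iff_closure_eq.2 (Set.eq_univ_of_forall ?_)
    rw [← Submodule.topologicalClosure_coe]
    refine Φ.dense _ (Submodule.isClosed_topologicalClosure _) fun ψ k hψ => ?_
    refine map_mem_closure (f := fun k => Φ.M ψ (Φ.c k)) (by fun_prop) (F.total k) fun k hk => ?_
    refine Submodule.mem_comap.1 ((Submodule.span_le.2 ?_ :
      _ ≤ Submodule.comap ((Φ.M ψ ∘L Φ.c : Kf →L[ℂ] H) : Kf →ₗ[ℂ] H) (Submodule.span ℂ _)) hk)
    rintro _ ⟨u, hu⟩
    obtain ⟨g, g1, rfl⟩ := q3 u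
    have e1 : r g = 0 := by
      funext a
      rw [hr]
      simp [g1]
    have e2 : W g (Φ.c F.Ω) = Φ.c (F.W (q g) F.Ω) := by
      rw [hW', e1, ph_zero, M_one, one_mul, Φ.L_c]
    refine Submodule.subset_span ⟨ψ, g, hψ, fun a => by rw [g1, zero_im], ?_⟩
    rcases hu with rfl | rfl
    · exact Or.inl (by rw [e2]; rfl)
    · exact Or.inr (by rw [e2, Φ.L_c]; rfl)

end QM2

theorem exists_label {K : ℕ} (A : AMP K) : ∃ (H : Type) (_ : NormedAddCommGroup H)
    (_ : InnerProductSpace ℂ H) (_ : CompleteSpace H), Nonempty (Label A H) := by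
  have := QM2.l2n_sc
  obtain ⟨Kf, _, _, _, _, ⟨F⟩⟩ := exists_fock L2N
  have : Fact ((2 : ENNReal) ≠ ⊤) := ⟨ENNReal.ofNat_ne_top⟩
  exact ⟨Lp Kf 2 (gam K), inferInstance, inferInstance, inferInstance,
    QM2.label A (QM1.fld K Kf) F⟩

end Crest.Agent.R339
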