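import Crest.Agent.R339.QNSym

/-! # Row 339, limit of the alternating ansatz: the cavity estimate -/

set_option autoImplicit false

namespace Crest.Agent.R339.QN

open MeasureTheory ProbabilityTheory Complex Filter Topology
open Crest.MathPhysics.SpinGlass

variable {P : Type} [Fintype P] {Q : P → ℂ} {K : P → P → ℝ} {ν : P → ℂ}

/-- subset expansion -/
theorem qncav_expand (κ : ℝ) (n : ℕ) (w : P → ℂ) :
    ∑ τ : Fin n → P, wt Q K κ τ * ∏ m, (1 + w (τ m)) =
      ∑' r : ℕ, (n.choose r : ℂ) *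
        ∑ a : Fin r → P, marg Q K κ (n - r) a * ∏ ρ, w (a ρ) := by
  classical
  set X : ℕ → ℂ := fun r => ∑ a : Fin r → P, marg Q K κ (n - r) a * ∏ ρ, w (a ρ) with hX
  have h1 : ∀ T : Finset (Fin n),
      ∑ τ : Fin n → P, wt Q K κ τ * ∏ m ∈ T, w (τ m) = X T.card := by
    intro T
    have hle : T.card ≤ n := by simpa using T.card_le_univ
    have h2 := sum_wt_inj Q K κ (ι := Fin n) (r := T.card) (n := n - T.card)
      (by rw [Fintype.card_fin]; omega) (T.orderEmbOfFin rfl) (T.orderEmbOfFin rfl).injective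
      (fun a => ∏ ρ, w (a ρ))
    rw [hX]
    simp only
    rw [← h2]
    refine Finset.sum_congr rfl (fun τ _ => ?_)
    congr 1
    conv_lhs => rw [← Finset.map_orderEmbOfFin_univ T rfl]
    rw [Finset.prod_map]
    rfl
  calc ∑ τ : Fin n → P, wt Q K κ τ * ∏ m, (1 + w (τ m))
      = ∑ τ : Fin n → P, ∑ T ∈ (Finset.univ : Finset (Fin n)).powerset,
          wt Q K κ τ * ∏ m ∈ T, w (τ m) := by
        refine Finset.sum_congr rfl (fun τ _ => ?_)
        rw [Finset.prod_one_add, Finset.mul_sum]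
    _ = ∑ T ∈ (Finset.univ : Finset (Fin n)).powerset, X T.card := by
        rw [Finset.sum_comm]
        exact Finset.sum_congr rfl (fun T _ => h1 T)
    _ = ∑ r ∈ Finset.range (n + 1), (n.choose r : ℂ) * X r := by
        rw [Finset.sum_powerset_apply_card X, Finset.card_univ, Fintype.card_fin]
        refine Finset.sum_congr rfl (fun r _ => ?_)
        rw [nsmul_eq_mul]
    _ = ∑' r : ℕ, (n.choose r : ℂ) * X r := by
        refine (tsum_eq_sum (fun r hr => ?_)).symm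
        have : n < r := by
          rw [Finset.mem_range] at hr
          omega
        rw [Nat.choose_eq_zero_of_lt this]
        simp

theorem qncav_kappa_zero {κ : ℕ → ℝ} (hκ : Tendsto (fun n : ℕ => κ n * n) atTop (𝓝 1)) :
    Tendsto κ atTop (𝓝 0) := by
  have h1 := hκ.mul (tendsto_inv_atTop_nhds_zero_nat (𝕜 := ℝ))
  rw [mul_zero] at h1
  refine h1.congr' ?_
  filter_upwards [eventually_gt_atTop 0] with n hn
  have : (n : ℝ) ≠ 0 := by positivity
  field_simp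

theorem qncav_w {κ : ℕ → ℝ} (hκ : Tendsto (fun n : ℕ => κ n * n) atTop (𝓝 1)) (c : ℝ) :
    Tendsto (fun n : ℕ => (n : ℂ) * (exp (-((κ n / 2 * c : ℝ) : ℂ)) - 1)) atTop
      (𝓝 (-(1 / 2 * (c : ℂ)))) := by
  have h0 := qncav_kappa_zero hκ
  have hz : Tendsto (fun n : ℕ => (-((κ n / 2 * c : ℝ) : ℂ))) atTop (𝓝 0) := by
    have : Tendsto (fun n : ℕ => κ n / 2 * c) atTop (𝓝 0) := by
      simpa using (h0.div_const 2).mul_const c
    simpa using ((continuous_ofReal.tendsto 0).comp this).neg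
  have hd : ContinuousAt (dslope exp 0) 0 :=
    continuousAt_dslope_same.2 differentiableAt_exp
  have hd1 : Tendsto (fun n : ℕ => dslope exp 0 (-((κ n / 2 * c : ℝ) : ℂ))) atTop (𝓝 1) := by
    have := hd.tendsto.comp hz
    rw [dslope_same, Complex.deriv_exp, exp_zero] at this
    exact this
  have hn : Tendsto (fun n : ℕ => (-((κ n * n / 2 * c : ℝ) : ℂ))) atTop
      (𝓝 (-(1 / 2 * (c : ℂ)))) := by
    have : Tendsto (fun n : ℕ => κ n * n / 2 * c) atTop (𝓝 (1 / 2 * c)) :=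
      (hκ.div_const 2).mul_const c
    have h2 := ((continuous_ofReal.tendsto _).comp this).neg
    have e : (((1 / 2 * c : ℝ)) : ℂ) = 1 / 2 * (c : ℂ) := by push_cast; ring
    rw [e] at h2
    exact h2
  have h3 := hn.mul hd1
  rw [mul_one] at h3
  refine h3.congr (fun n => ?_)
  have h4 := sub_smul_dslope exp 0 (-((κ n / 2 * c : ℝ) : ℂ))
  rw [exp_zero, sub_zero, smul_eq_mul] at h4
  rw [← h4]
  push_cast
  ring

theorem qncav_marg (hL : Lim Q K ν) {κ : ℕ → ℝ} (hκ0 : ∀ n, 0 ≤ κ n)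
    (hκ : Tendsto (fun n : ℕ => κ n * n) atTop (𝓝 1)) {r : ℕ} (a : Fin r → P) :
    Tendsto (fun n : ℕ => marg Q K (κ n) (n - r) a) atTop (𝓝 (∏ ρ, ν (a ρ))) := by
  have h0 := qncav_kappa_zero hκ
  have h1 : Tendsto (fun m : ℕ => κ (m + r) * m) atTop (𝓝 1) := by
    have h2 := (tendsto_add_atTop_iff_nat r).2 hκ
    have h3 := ((tendsto_add_atTop_iff_nat r).2 h0).mul_const (r : ℝ)
    have h4 := h2.sub h3
    rw [zero_mul, sub_zero] at h4
    refine h4.congr (fun m => ?_)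
    push_cast
    ring
  have h5 := hL r a (fun m => κ (m + r)) (fun m => hκ0 _) h1
  refine (tendsto_add_atTop_iff_nat r).1 ?_
  simpa only [Nat.add_sub_cancel] using h5

theorem qncav_choose (r : ℕ) :
    Tendsto (fun n : ℕ => ((n.choose r : ℂ)) * ((n : ℂ)⁻¹) ^ r) atTop (𝓝 (1 / (r.factorial : ℂ))) := by
  have h1 : Tendsto (fun n : ℕ => (n : ℝ) * (n : ℝ)⁻¹) atTop (𝓝 1) := by
    refine tendsto_const_nhds.congr' ?_
    filter_upwards [eventually_gt_atTop 0] with n hn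
    have : (n : ℝ) ≠ 0 := by positivity
    field_simp
  have h2 := tendsto_choose_mul_pow_atTop r h1
  have h3 := (continuous_ofReal.tendsto _).comp h2
  simp only [one_pow] at h3
  have e : (((1 / (r.factorial : ℝ) : ℝ)) : ℂ) = 1 / (r.factorial : ℂ) := by push_cast; ring
  rw [e] at h3
  refine h3.congr (fun n => ?_)
  simp

/-- Put `w n b = exp (-(κ n / 2 * h b)) - 1`.  Expand `∏ m, (1 + w (τ m)) = ∑ T, ∏ m ∈ T, w (τ m)`
(`Finset.prod_one_add`); by `sum_wt_inj` (with `m = T.orderEmbOfFin rfl`) the term of `T` is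
`X n r = ∑ a : Fin r → P, marg Q K (κ n) (n - r) a * ∏ ρ, w n (a ρ)`, `r = T.card`; so the sum is
`∑' r, n.choose r * X n r`.  Termwise `n.choose r / n ^ r → 1 / r!`
(`tendsto_choose_mul_pow_atTop` or `isEquivalent_choose`), `n * w n b → -h b / 2`,
`marg (κ n) (n - r) a → ∏ ν` (`hL` with `κ (m + r)`), so the limit is
`(∑ b, ν b * (-h b / 2)) ^ r / r!` (`Finset.sum_pow'` / `Fintype.prod_sum`).  Domination:
`‖n.choose r * X n r‖ ≤ (n * ∑ b, ‖w n b‖) ^ r / r! ≤ D ^ r / r!` eventually (`hB`,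
`Nat.choose_le_pow_div`); `tendsto_tsum_of_dominated_convergence`. -/
theorem cavity (hB : Bd Q K) (hL : Lim Q K ν) (h : P → ℝ) (κ : ℕ → ℝ) (hκ0 : ∀ n, 0 ≤ κ n)
    (hκ : Tendsto (fun n : ℕ => κ n * n) atTop (𝓝 1)) :
    Tendsto (fun n : ℕ => ∑ τ : Fin n → P,
        wt Q K (κ n) τ * ∏ m, exp (-((κ n / 2 * h (τ m) : ℝ) : ℂ))) atTop
      (𝓝 (exp (-(1 / 2 * ∑ b, ν b * (h b : ℂ))))) := by
  set w : ℕ → P → ℂ := fun n b => exp (-((κ n / 2 * h b : ℝ) : ℂ)) - 1 with hw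
  set c : ℂ := ∑ b, ν b * (-(1 / 2 * (h b : ℂ))) with hc
  have hwl : ∀ b, Tendsto (fun n : ℕ => (n : ℂ) * w n b) atTop (𝓝 (-(1 / 2 * (h b : ℂ)))) :=
    fun b => qncav_w hκ (h b)
  have e1 : ∀ n : ℕ, ∑ τ : Fin n → P,
      wt Q K (κ n) τ * ∏ m, exp (-((κ n / 2 * h (τ m) : ℝ) : ℂ)) =
      ∑' r : ℕ, (n.choose r : ℂ) *
        ∑ a : Fin r → P, marg Q K (κ n) (n - r) a * ∏ ρ, w n (a ρ) := by
    intro n
    rw [← qncav_expand]
    refine Finset.sum_congr rfl (fun τ _ => ?_)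
    congr 1
    refine Finset.prod_congr rfl (fun m _ => ?_)
    rw [hw]
    ring
  have e2 : exp (-(1 / 2 * ∑ b, ν b * (h b : ℂ))) = ∑' r : ℕ, c ^ r / (r.factorial : ℂ) := by
    have : -(1 / 2 * ∑ b, ν b * (h b : ℂ)) = c := by
      rw [hc, Finset.mul_sum, ← Finset.sum_neg_distrib]
      exact Finset.sum_congr rfl (fun b _ => by ring)
    rw [this, Complex.exp_eq_exp_ℂ, NormedSpace.exp_eq_tsum_div]
  simp only [e1]
  rw [e2]
  set D : ℝ := ∑ b, ‖-(1 / 2 * (h b : ℂ))‖ + 1 with hD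
  refine tendsto_tsum_of_dominated_convergence (Real.summable_pow_div_factorial D) ?_ ?_
  · intro r
    have h1 : Tendsto (fun n : ℕ => ∑ a : Fin r → P,
        marg Q K (κ n) (n - r) a * ∏ ρ, ((n : ℂ) * w n (a ρ))) atTop
        (𝓝 (∑ a : Fin r → P, (∏ ρ, ν (a ρ)) * ∏ ρ, (-(1 / 2 * (h (a ρ) : ℂ))))) :=
      tendsto_finsetSum _ (fun a _ => (qncav_marg hL hκ0 hκ a).mul
        (tendsto_finsetProd _ (fun ρ _ => hwl (a ρ))))
    have h2 := (qncav_choose r).mul h1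
    have e3 : 1 / (r.factorial : ℂ) *
        ∑ a : Fin r → P, (∏ ρ, ν (a ρ)) * ∏ ρ, (-(1 / 2 * (h (a ρ) : ℂ))) =
        c ^ r / (r.factorial : ℂ) := by
      rw [hc, Fintype.sum_pow, one_div_mul_eq_div]
      congr 1
      exact Finset.sum_congr rfl (fun a _ => by rw [Finset.prod_mul_distrib])
    rw [e3] at h2
    refine h2.congr' ?_
    filter_upwards [eventually_gt_atTop 0] with n hn
    have hn0 : (n : ℂ) ≠ 0 := by exact_mod_cast hn.ne'
    rw [mul_assoc]
    congr 1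
    rw [Finset.mul_sum]
    refine Finset.sum_congr rfl (fun a _ => ?_)
    rw [Finset.prod_mul_distrib, Finset.prod_const, Finset.card_univ, Fintype.card_fin, inv_pow]
    field_simp
  · have h1 : Tendsto (fun n : ℕ => ∑ b, ‖(n : ℂ) * w n b‖) atTop
        (𝓝 (∑ b, ‖-(1 / 2 * (h b : ℂ))‖)) :=
      tendsto_finsetSum _ (fun b _ => (hwl b).norm)
    have h2 : ∀ᶠ n : ℕ in atTop, ∑ b, ‖(n : ℂ) * w n b‖ ≤ D :=
      h1.eventually_le_const (by rw [hD]; linarith)
    filter_upwards [h2] with n hn r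
    have h3 : ‖∑ a : Fin r → P, marg Q K (κ n) (n - r) a * ∏ ρ, w n (a ρ)‖ ≤
        (∑ b, ‖w n b‖) ^ r := by
      rw [Fintype.sum_pow]
      refine (norm_sum_le _ _).trans (Finset.sum_le_sum (fun a _ => ?_))
      rw [norm_mul, norm_prod]
      exact mul_le_of_le_one_left (Finset.prod_nonneg (fun ρ _ => norm_nonneg _))
        (hB r _ a _ (hκ0 n))
    have h4 : (n.choose r : ℝ) ≤ (n : ℝ) ^ r / r.factorial := Nat.choose_le_pow_div r n
    have h5 : (n : ℝ) * ∑ b, ‖w n b‖ = ∑ b, ‖(n : ℂ) * w n b‖ := by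
      rw [Finset.mul_sum]
      exact Finset.sum_congr rfl (fun b _ => by rw [norm_mul, Complex.norm_natCast])
    have h6 : 0 ≤ ∑ b, ‖w n b‖ := Finset.sum_nonneg (fun b _ => norm_nonneg _)
    rw [norm_mul, Complex.norm_natCast]
    calc (n.choose r : ℝ) * ‖∑ a : Fin r → P, marg Q K (κ n) (n - r) a * ∏ ρ, w n (a ρ)‖
        ≤ ((n : ℝ) ^ r / r.factorial) * (∑ b, ‖w n b‖) ^ r :=
          mul_le_mul h4 h3 (norm_nonneg _) (by positivity)
      _ = ((n : ℝ) * ∑ b, ‖w n b‖) ^ r / r.factorial := by rw [mul_pow]; ring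
      _ ≤ D ^ r / r.factorial := by
          refine div_le_div_of_nonneg_right ?_ (by positivity)
          refine pow_le_pow_left₀ (by positivity) ?_ r
          rw [h5]; exact hn

end Crest.Agent.R339.QN
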