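import Crest.Agent.R339.QDefs
import Crest.Prelude.Def_SpinGlass

/-!
# Row 339, `n → ∞` limit of the alternating ansatz: definitions

A one-site path of depth `k` records a forward bit and a backward bit at each height `0, …, k`.
After averaging over the couplings the `n`-site path sum has the weight `wt`; the marginals
`marg` of finitely many sites converge to the product of the one-site weights `nu`.
-/

set_option autoImplicit false

namespace Crest.Agent.R339.QN

open MeasureTheory ProbabilityTheory Complex Filter Topology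
open Crest.MathPhysics.SpinGlass

section abstract

variable {P : Type} [Fintype P]

/-- Weight of a configuration of one-site paths. -/
noncomputable def wt (Q : P → ℂ) (K : P → P → ℝ) (κ : ℝ) {ι : Type} [Fintype ι]
    (σ : ι → P) : ℂ :=
  (∏ j, Q (σ j)) * exp (-((κ / 4 * ∑ i, ∑ j, K (σ i) (σ j) : ℝ) : ℂ))

/-- Marginal weight of `r` sites among `r + n`. -/
noncomputable def marg (Q : P → ℂ) (K : P → P → ℝ) (κ : ℝ) (n : ℕ) {r : ℕ}
    (a : Fin r → P) : ℂ :=
  ∑ τ : Fin n → P, wt Q K κ (Sum.elim a τ)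

/-- All marginals are bounded by one. -/
def Bd (Q : P → ℂ) (K : P → P → ℝ) : Prop :=
  ∀ (r n : ℕ) (a : Fin r → P) (κ : ℝ), 0 ≤ κ → ‖marg Q K κ n a‖ ≤ 1

/-- The marginals converge to products of `ν`. -/
def Lim (Q : P → ℂ) (K : P → P → ℝ) (ν : P → ℂ) : Prop :=
  ∀ (r : ℕ) (a : Fin r → P) (κ : ℕ → ℝ), (∀ n, 0 ≤ κ n) →
    Tendsto (fun n : ℕ => κ n * n) atTop (𝓝 1) →
    Tendsto (fun n : ℕ => marg Q K (κ n) n a) atTop (𝓝 (∏ ρ, ν (a ρ)))

end abstract

/-- Matrix element of the one-qubit mixer. -/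
noncomputable def mx (β : ℝ) (x y : Bool) : ℂ :=
  if x = y then ((Real.cos β : ℝ) : ℂ) else -(I * ((Real.sin β : ℝ) : ℂ))

/-- Amplitude of a one-site path. -/
noncomputable def amp (β : ℕ → ℝ) (k : ℕ) (u : Fin (k + 1) → Bool) : ℂ :=
  (((1 : ℝ) / Real.sqrt 2 : ℝ) : ℂ) * ∏ j : Fin k, mx (β j) (u j.succ) (u j.castSucc)

/-- One-site paths: a forward bit and a backward bit at each height. -/
abbrev Pth (k : ℕ) : Type := Fin (k + 1) → Bool × Bool

/-- One-site weight of a path. -/
noncomputable def Qw (β : ℕ → ℝ) (k : ℕ) (a : Pth k) : ℂ :=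
  if (a (Fin.last k)).1 = (a (Fin.last k)).2 then
    amp β k (fun j => (a j).1) * (starRingEnd ℂ) (amp β k fun j => (a j).2)
  else 0

/-- The coefficient of the coupling between two sites in the phase. -/
noncomputable def Phi (γ : ℕ → ℝ) (k : ℕ) (a b : Pth k) : ℝ :=
  ∑ j : Fin (k + 1), γ j *
    (spinSign (a j).1 * spinSign (b j).1 - spinSign (a j).2 * spinSign (b j).2)

/-- The pair kernel. -/
noncomputable def Kk (γ : ℕ → ℝ) (k : ℕ) (a b : Pth k) : ℝ := Phi γ k a b ^ 2

/-- The limiting one-site weight. -/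
noncomputable def nu (γ β : ℕ → ℝ) : (k : ℕ) → Pth k → ℂ
  | 0, a => Qw β 0 a
  | k + 1, a => Qw β (k + 1) a *
      exp (-(1 / 2 * ∑ b : Pth k, nu γ β k b * (Kk γ k (Fin.init a) b : ℂ)))

/-- The two-site function whose average is the energy. -/
noncomputable def eker (γ : ℕ → ℝ) (k : ℕ) (a b : Pth k) : ℂ :=
  -I * ((spinSign (a (Fin.last k)).1 * spinSign (b (Fin.last k)).1 * Phi γ k a b : ℝ) : ℂ)

/-- The `n`-qubit vector obtained from the plus state by mixers and diagonal operators `f s`. -/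
noncomputable def vec {n : ℕ} (β : ℕ → ℝ) (f : ℕ → (Fin n → Bool) → ℂ) :
    ℕ → (Fin n → Bool) → ℂ
  | 0 => fun σ => f 0 σ * plusState n σ
  | k + 1 => fun σ => f (k + 1) σ * mixerRotation n (β k) (vec β f k) σ

/-- The cost angles as a sequence. -/
def gamL (angles : List (ℝ × ℝ)) (k : ℕ) : ℝ := (angles.getD k (0, 0)).1

/-- The mixer angles as a sequence. -/
def betL (angles : List (ℝ × ℝ)) (k : ℕ) : ℝ := (angles.getD k (0, 0)).2

end Crest.Agent.R339.QN
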