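import Crest.Agent.R339.QNDefs

/-! # Row 339, limit of the alternating ansatz: Gaussian integrals over the couplings -/

set_option autoImplicit false

namespace Crest.Agent.R339.QN

open MeasureTheory ProbabilityTheory Complex Filter Topology
open Crest.MathPhysics.SpinGlass

instance gauss_prob (n : ℕ) : IsProbabilityMeasure (gaussianCouplings n) := by
  unfold gaussianCouplings; infer_instance

theorem QNGauss_one (z : ℂ) : ∫ x : ℝ, exp (z * x) ∂gaussianReal 0 1 = exp (z ^ 2 / 2) := by
  have h := complexMGF_id_gaussianReal (μ := 0) (v := 1) z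
  simpa [complexMGF] using h

theorem QNGauss_two (z : ℂ) :
    ∫ x : ℝ, (x : ℂ) * exp (z * x) ∂gaussianReal 0 1 = z * exp (z ^ 2 / 2) := by
  have h1 := hasDerivAt_complexMGF (X := id) (μ := gaussianReal 0 1) (z := z) (by simp)
  have e : complexMGF id (gaussianReal 0 1) = fun z : ℂ => exp (z ^ 2 / 2) := by
    funext w
    simpa using complexMGF_id_gaussianReal (μ := 0) (v := 1) w
  rw [e] at h1
  have h2 : HasDerivAt (fun z : ℂ => exp (z ^ 2 / 2)) (z * exp (z ^ 2 / 2)) z := by
    refine (((hasDerivAt_pow 2 z).div_const 2).cexp).congr_deriv ?_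
    simp only [Nat.cast_ofNat, Nat.add_one_sub_one, pow_one]
    ring
  exact h1.unique h2

theorem QNGauss_fubini (n : ℕ) (f : Fin n → Fin n → ℝ → ℂ) :
    ∫ J, ∏ i, ∏ j, f i j (J i j) ∂gaussianCouplings n =
      ∏ i, ∏ j, ∫ x, f i j x ∂gaussianReal 0 1 := by
  unfold gaussianCouplings
  rw [integral_fintype_prod_eq_prod (fun i (y : Fin n → ℝ) => ∏ j, f i j (y j))]
  exact Finset.prod_congr rfl fun i _ => integral_fintype_prod_eq_prod (f i)

theorem QNGauss_prod (n : ℕ) (t J : Fin n → Fin n → ℝ) :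
    exp (-(I * ((∑ i, ∑ j, J i j * t i j : ℝ) : ℂ))) =
      ∏ i, ∏ j, exp ((-(I * t i j)) * J i j) := by
  simp only [← exp_sum]
  congr 1
  push_cast
  simp only [Finset.mul_sum, ← Finset.sum_neg_distrib]
  exact Finset.sum_congr rfl fun i _ => Finset.sum_congr rfl fun j _ => by ring

theorem QNGauss_prod' (n : ℕ) (t : Fin n → Fin n → ℝ) :
    exp (-(((∑ i, ∑ j, t i j ^ 2) / 2 : ℝ) : ℂ)) =
      ∏ i, ∏ j, exp ((-(I * t i j)) ^ 2 / 2) := by
  simp only [← exp_sum]
  congr 1
  push_cast
  simp only [Finset.sum_div, ← Finset.sum_neg_distrib]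
  refine Finset.sum_congr rfl fun i _ => Finset.sum_congr rfl fun j _ => ?_
  rw [neg_sq, mul_pow, I_sq]
  ring

theorem QNGauss_ite (n : ℕ) (a b : Fin n) (c : Fin n → Fin n → ℂ) :
    ∏ i, ∏ j, (if i = a ∧ j = b then c i j else 1) = c a b := by
  rw [Finset.prod_eq_single a, Finset.prod_eq_single b]
  · simp
  · intro j _ hj
    simp [hj]
  · simp
  · intro i _ hi
    simp [hi]
  · simp

theorem QNGauss_norm (r : ℝ) : ‖exp (-(I * (r : ℂ)))‖ = 1 := by
  rw [Complex.norm_exp]
  simp

/-- Bounded by one and continuous. -/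
theorem gauss_integrable_exp (n : ℕ) (t : Fin n → Fin n → ℝ) :
    Integrable (fun J : Fin n → Fin n → ℝ =>
      exp (-(I * ((∑ i, ∑ j, J i j * t i j : ℝ) : ℂ)))) (gaussianCouplings n) := by
  refine Integrable.of_bound (Continuous.aestronglyMeasurable (by fun_prop)) 1
    (ae_of_all _ fun J => (QNGauss_norm _).le)

/-- Characteristic function of the couplings.  Write the exponential as `∏ i, ∏ j`, use
`integral_fintype_prod_eq_prod` twice and `charFun_gaussianReal`. -/
theorem gauss_exp (n : ℕ) (t : Fin n → Fin n → ℝ) :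
    ∫ J, exp (-(I * ((∑ i, ∑ j, J i j * t i j : ℝ) : ℂ))) ∂gaussianCouplings n =
      exp (-(((∑ i, ∑ j, t i j ^ 2) / 2 : ℝ) : ℂ)) := by
  simp only [QNGauss_prod]
  rw [QNGauss_fubini n fun i j x => exp ((-(I * t i j)) * x), QNGauss_prod']
  simp only [QNGauss_one]

/-- The coordinate `J a b` is integrable (measure preserving evaluation maps) and the exponential
is bounded. -/
theorem gauss_integrable_mul_exp (n : ℕ) (t : Fin n → Fin n → ℝ) (a b : Fin n) :
    Integrable (fun J : Fin n → Fin n → ℝ =>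
      (J a b : ℂ) * exp (-(I * ((∑ i, ∑ j, J i j * t i j : ℝ) : ℂ)))) (gaussianCouplings n) := by
  have h0 : Integrable (fun x : ℝ => (x : ℂ)) (gaussianReal 0 1) :=
    (memLp_one_iff_integrable.1 (memLp_id_gaussianReal (μ := 0) (v := 1) 1)).ofReal
  have h1 : Integrable (fun y : Fin n → ℝ => (y b : ℂ)) (Measure.pi fun _ => gaussianReal 0 1) :=
    (measurePreserving_eval (fun _ : Fin n => gaussianReal 0 1) b).integrable_comp_of_integrable h0
  have h2 : Integrable (fun J : Fin n → Fin n → ℝ => (J a b : ℂ)) (gaussianCouplings n) :=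
    (measurePreserving_eval (fun _ : Fin n => Measure.pi fun _ : Fin n => gaussianReal 0 1)
      a).integrable_comp_of_integrable h1
  exact h2.mul_bdd (c := 1) (Continuous.aestronglyMeasurable (by fun_prop))
    (ae_of_all _ fun J => (QNGauss_norm _).le)

/-- One dimensional case: `∫ x exp (-i t x) dγ = -i t exp (-t²/2)` (Gaussian integration by
parts, or differentiate the characteristic function); then write the integrand as
`∏ i, ∏ j, (if i = a ∧ j = b then J i j else 1) * exp (-(I * J i j * t i j))`. -/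
theorem gauss_mul_exp (n : ℕ) (t : Fin n → Fin n → ℝ) (a b : Fin n) :
    ∫ J, (J a b : ℂ) * exp (-(I * ((∑ i, ∑ j, J i j * t i j : ℝ) : ℂ))) ∂gaussianCouplings n =
      -I * (t a b : ℂ) * exp (-(((∑ i, ∑ j, t i j ^ 2) / 2 : ℝ) : ℂ)) := by
  have e : ∀ J : Fin n → Fin n → ℝ,
      (J a b : ℂ) * exp (-(I * ((∑ i, ∑ j, J i j * t i j : ℝ) : ℂ))) =
        ∏ i, ∏ j, ((if i = a ∧ j = b then (J i j : ℂ) else 1) * exp ((-(I * t i j)) * J i j)) := by
    intro J
    simp only [Finset.prod_mul_distrib]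
    rw [QNGauss_ite n a b fun i j => (J i j : ℂ), QNGauss_prod]
  simp only [e]
  rw [QNGauss_fubini n fun i j x =>
    (if i = a ∧ j = b then (x : ℂ) else 1) * exp ((-(I * t i j)) * x), QNGauss_prod', neg_mul,
    ← QNGauss_ite n a b fun i j => -(I * (t i j : ℂ))]
  simp only [← Finset.prod_mul_distrib]
  refine Finset.prod_congr rfl fun i _ => Finset.prod_congr rfl fun j _ => ?_
  split_ifs
  · exact QNGauss_two _
  · simp only [one_mul, QNGauss_one]

end Crest.Agent.R339.QN
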