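import Crest.Agent.R339.QUnivAux2

/-! # Row 339: path sum formula, universality of the Gram recursion, energy formula -/

set_option autoImplicit false
set_option linter.deprecated false

namespace Crest.Agent.R339

open MeasureTheory ProbabilityTheory Complex Filter Topology Asymptotics
open scoped InnerProductSpace

variable {H : Type} [NormedAddCommGroup H] [InnerProductSpace ℂ H] [CompleteSpace H]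

namespace Weyl

/-- Vacuum expectation of a product of Weyl operators. -/
theorem vac_prod (𝓜 : Weyl H) {T : ℕ} (x : Fin T → H) (hx : ∀ t, x t ∈ 𝓜.R) :
    ⟪𝓜.Ω, (List.ofFn fun t => 𝓜.W (x t)).prod 𝓜.Ω⟫_ℂ =
      exp (-(∑ t, (‖x t‖ : ℂ) ^ 2 / 2) - ∑ s, ∑ t, if s < t then ⟪x s, x t⟫_ℂ else 0) := by
  have h := 𝓜.qu_vac_gen x hx 𝓜.R.zero_mem
  rw [𝓜.W_zero, ContinuousLinearMap.one_apply] at h
  rw [h]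
  simp

/-- The Heisenberg picture operator. -/
noncomputable def quZ (𝓜 : Weyl H) (β : ℕ → ℝ) (x : ℕ → H) (k : ℕ) : H →L[ℂ] H :=
  star (𝓜.Uo β x k) * 𝓜.Z * 𝓜.Uo β x k

theorem quZ_apply (𝓜 : Weyl H) (β : ℕ → ℝ) (x : ℕ → H) (k : ℕ) (ψ : H) :
    𝓜.quZ β x k ψ = star (𝓜.Uo β x k) (𝓜.Z (𝓜.Uo β x k ψ)) := rfl

theorem qu_go (𝓜 : Weyl H) (β : ℕ → ℝ) (x : ℕ → H) (k : ℕ) :
    𝓜.go β x k = 𝓜.quZ β x k 𝓜.Ω := rfl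

theorem qu_inner_go (𝓜 : Weyl H) (β : ℕ → ℝ) (x : ℕ → H) (k : ℕ) (ψ : H) :
    ⟪𝓜.go β x k, ψ⟫_ℂ = ⟪𝓜.Ω, 𝓜.quZ β x k ψ⟫_ℂ := by
  have h : star (𝓜.quZ β x k) = 𝓜.quZ β x k := by
    rw [quZ, star_mul, star_mul, star_star, 𝓜.Z_star, mul_assoc]
  rw [qu_go, ← ContinuousLinearMap.adjoint_inner_right, ← ContinuousLinearMap.star_eq_adjoint, h]

end Weyl

/-- The Gram matrix of an open protocol is a universal function of the angles and of the Gram matrix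
of the field vectors. -/
theorem gram_univ (k l : ℕ) : ∃ Ψ : (ℕ → ℝ) → (ℕ → ℕ → ℂ) → ℂ,
    (∀ (H : Type) [NormedAddCommGroup H] [InnerProductSpace ℂ H] [CompleteSpace H] (𝓜 : Weyl H)
      (β : ℕ → ℝ) (x : ℕ → H), (∀ j, x j ∈ 𝓜.R) →
        ⟪𝓜.go β x k, 𝓜.go β x l⟫_ℂ = Ψ β fun i j => ⟪x i, x j⟫_ℂ) ∧
    (∀ β (ι : Type) (F : Filter ι) (G : ι → ℕ → ℕ → ℂ) (G₀ : ℕ → ℕ → ℂ),
      (∀ i < max k l, ∀ j < max k l, Tendsto (fun a => G a i j) F (𝓝 (G₀ i j))) →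
        Tendsto (fun a => Ψ β (G a)) F (𝓝 (Ψ β G₀))) ∧
    (∀ (β : ℝ → ℕ → ℝ) (G : ℝ → ℕ → ℕ → ℂ), (∀ j, AnalyticOnNhd ℝ (fun s => β s j) Set.univ) →
      (∀ i < max k l, ∀ j < max k l, AnalyticOnNhd ℝ (fun s => G s i j) Set.univ) →
        AnalyticOnNhd ℝ (fun s => Ψ (β s) (G s)) Set.univ) := by
  have hk := le_max_left k l
  have hl := le_max_right k l
  obtain ⟨Ψ, h1, h2⟩ :=
    (QuGood.Uo_star hk ((QuGood.Uo_star hl (QuGood.vac.Uo hl).Z).Uo hk).Z).inner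
  exact ⟨Ψ, fun H _ _ _ 𝓜 β x hx => (𝓜.qu_inner_go β x k _).trans (h2 H 𝓜 β x hx), h1.cont, h1.ana⟩

namespace Weyl

variable (𝓜 : Weyl H)

theorem qu_X_Uo (β : ℕ → ℝ) {x : ℕ → H} (hx : ∀ j, x j ∈ 𝓜.R) (k : ℕ) :
    𝓜.X * 𝓜.Uo β x k = 𝓜.Uo β (fun j => -x j) k * 𝓜.X := by
  induction k with
  | zero => rw [Uo, Uo, mul_one, one_mul]
  | succ k ih =>
    have hB : 𝓜.X * 𝓜.B (β k) = 𝓜.B (β k) * 𝓜.X := by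
      rw [B, mul_sub, sub_mul, mul_smul_comm, mul_smul_comm, smul_mul_assoc, smul_mul_assoc,
        mul_one, one_mul]
    have hW := WQ_anticomm 𝓜.invol_Z (A := 𝓜.X) 𝓜.X_W 𝓜.XZ (𝓜.R.neg_mem (hx k))
    rw [Uo, Uo, ← mul_assoc, ← mul_assoc, hB, mul_assoc (𝓜.B _), WZ, hW, mul_assoc, mul_assoc, ih]
    simp only [mul_assoc]

/-- the triple `(A η, δ A Ω, A Ω)` of the annihilation identity -/
def QuDer (h η ζ ξ : H) : Prop :=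
  ∀ v ∈ 𝓜.R, ∀ s : ℝ, s * s = 1 → 𝓜.quL v s η = 𝓜.quL v s ζ - ⟪v, h⟫_ℂ * 𝓜.quL v s ξ

theorem quDer_vac {h : H} (hh : h ∈ 𝓜.R) : 𝓜.QuDer h (I • 𝓜.phi h 𝓜.Ω) 0 𝓜.Ω := by
  intro v hv s _
  obtain ⟨c, hc⟩ := regu_Ω (𝓜 := 𝓜)
  have h1 := hc.phi_cw (A := 𝓜.X) 𝓜.X_W hh
  rw [𝓜.XΩ] at h1
  rw [𝓜.quL_even hv s 𝓜.XΩ, 𝓜.quL_even hv s (by rw [map_smul, ← h1]), 𝓜.qu_ann hv hh, map_zero]
  ring

variable {𝓜} in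
theorem QuDer.Z {h η ζ ξ : H} (hd : 𝓜.QuDer h η ζ ξ) : 𝓜.QuDer h (𝓜.Z η) (𝓜.Z ζ) (𝓜.Z ξ) := by
  intro v hv s hs
  rw [𝓜.quL_Z v hs, 𝓜.quL_Z v hs, 𝓜.quL_Z v hs, hd v hv s hs]
  ring

variable {𝓜} in
theorem QuDer.B {h η ζ ξ : H} (hd : 𝓜.QuDer h η ζ ξ) (b : ℝ) :
    𝓜.QuDer h (𝓜.B b η) (𝓜.B b ζ) (𝓜.B b ξ) := by
  intro v hv s hs
  rw [𝓜.quL_B hv, 𝓜.quL_B hv, 𝓜.quL_B hv, hd v hv s hs, hd v hv (-s) (by rw [neg_mul_neg, hs])]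
  ring

variable {𝓜} in
theorem QuDer.WZ {h η ζ ξ : H} (hd : 𝓜.QuDer h η ζ ξ) {g : H} (hg : g ∈ 𝓜.R) :
    𝓜.QuDer h (𝓜.WZ g η) (𝓜.WZ g ζ - ⟪g, h⟫_ℂ • 𝓜.Z (𝓜.WZ g ξ)) (𝓜.WZ g ξ) := by
  intro v hv s hs
  rw [map_sub, map_smul, 𝓜.quL_Z v hs, 𝓜.quL_WZ hv hg hs, 𝓜.quL_WZ hv hg hs, 𝓜.quL_WZ hv hg hs,
    hd _ (𝓜.R.add_mem hv (𝓜.R.smul_mem s hg)) s hs, inner_add_left, ← Complex.coe_smul s g,
    inner_smul_left, conj_ofReal, smul_eq_mul]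
  ring

variable {𝓜} in
theorem QuDer.Uo {h η ζ ξ : H} (hd : 𝓜.QuDer h η ζ ξ) (β : ℕ → ℝ) {x : ℕ → H}
    (hx : ∀ j, x j ∈ 𝓜.R) (p : ℕ) : 𝓜.QuDer h (𝓜.Uo β x p η)
      (𝓜.Uo β x p (ζ + ∑ k ∈ Finset.range p, ⟪x k, h⟫_ℂ • 𝓜.quZ β x k ξ)) (𝓜.Uo β x p ξ) := by
  induction p with
  | zero => simpa [Weyl.Uo] using hd
  | succ p ih =>
    have h1 := (ih.WZ (𝓜.R.neg_mem (hx p))).B (β p)
    have h2 : 𝓜.Uo β x p (𝓜.quZ β x p ξ) = 𝓜.Z (𝓜.Uo β x p ξ) := by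
      rw [quZ_apply, ← ContinuousLinearMap.mul_apply,
        Unitary.mul_star_self_of_mem (𝓜.Uo_unitary β hx p), ContinuousLinearMap.one_apply]
    have h3 : ∀ ψ, 𝓜.Z (𝓜.WZ (-x p) ψ) = 𝓜.WZ (-x p) (𝓜.Z ψ) := fun ψ =>
      DFunLike.congr_fun (WQ_comm 𝓜.invol_Z (A := 𝓜.Z) 𝓜.Z_W rfl (𝓜.R.neg_mem (hx p))) ψ
    have h4 : ∀ ψ, 𝓜.Uo β x (p + 1) ψ = 𝓜.B (β p) (𝓜.WZ (-x p) (𝓜.Uo β x p ψ)) := fun _ => rfl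
    rw [h4, h4, h4, Finset.sum_range_succ, ← add_assoc, map_add (𝓜.Uo β x p), map_smul, h2,
      map_add (𝓜.WZ (-x p)), map_smul, ← h3]
    rwa [inner_neg_left, neg_smul, sub_neg_eq_add] at h1

variable {𝓜} in
theorem QuDer.Uo_star {h : H} (β : ℕ → ℝ) {x : ℕ → H} (hx : ∀ j, x j ∈ 𝓜.R) (p : ℕ) :
    ∀ {η ζ ξ : H}, 𝓜.QuDer h η ζ ξ → 𝓜.QuDer h (star (𝓜.Uo β x p) η)
      (star (𝓜.Uo β x p) ζ - ∑ k ∈ Finset.range p,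
        ⟪x k, h⟫_ℂ • 𝓜.quZ β x k (star (𝓜.Uo β x p) ξ)) (star (𝓜.Uo β x p) ξ) := by
  induction p with
  | zero =>
    intro η ζ ξ hd
    simpa [Weyl.Uo] using hd
  | succ p ih =>
    intro η ζ ξ hd
    have h1 := ih ((hd.B (-β p)).WZ (hx p))
    have h2 : ∀ ψ, 𝓜.quZ β x p (star (𝓜.Uo β x p) ψ) = star (𝓜.Uo β x p) (𝓜.Z ψ) := by
      intro ψ
      rw [quZ_apply, ← ContinuousLinearMap.mul_apply (𝓜.Uo β x p),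
        Unitary.mul_star_self_of_mem (𝓜.Uo_unitary β hx p), ContinuousLinearMap.one_apply]
    have h4 : ∀ ψ, star (𝓜.Uo β x (p + 1)) ψ =
        star (𝓜.Uo β x p) (𝓜.WZ (x p) (𝓜.B (-β p) ψ)) := by
      intro ψ
      rw [Weyl.Uo, star_mul, star_mul, WQ_star 𝓜.invol_Z (𝓜.R.neg_mem (hx p)), neg_neg, 𝓜.B_star]
      rfl
    rw [h4, h4, h4, Finset.sum_range_succ, h2, add_comm, ← sub_sub]
    rwa [map_sub, map_smul] at h1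

/-- Global flip symmetry: `⟨Z⟩ = 0`. -/
theorem inner_Ω_go (β : ℕ → ℝ) {x : ℕ → H} (hx : ∀ j, x j ∈ 𝓜.R) (k : ℕ) :
    ⟪𝓜.Ω, 𝓜.go β x k⟫_ℂ = 0 := by
  obtain ⟨Ψ, -, h2⟩ := (QuGood.Uo_star (le_refl k) (QuGood.vac.Uo (le_refl k)).Z).inner
  have h3 : ⟪𝓜.Ω, 𝓜.go β x k⟫_ℂ = _ := h2 H 𝓜 β x hx
  have h4 : ⟪𝓜.Ω, 𝓜.go β (fun j => -x j) k⟫_ℂ = _ :=
    h2 H 𝓜 β (fun j => -x j) fun j => 𝓜.R.neg_mem (hx j)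
  simp only [inner_neg_neg] at h4
  have h5 := 𝓜.qu_X_Uo β hx k
  have h6 : star (𝓜.Uo β x k) * 𝓜.X = 𝓜.X * star (𝓜.Uo β (fun j => -x j) k) := by
    have := congrArg star h5
    rwa [star_mul, star_mul, 𝓜.X_star] at this
  have h7 : 𝓜.X * 𝓜.quZ β (fun j => -x j) k * 𝓜.X = -𝓜.quZ β x k := by
    rw [quZ, quZ, ← mul_assoc, ← mul_assoc, ← h6, mul_assoc _ _ 𝓜.X, ← h5,
      mul_assoc _ 𝓜.X 𝓜.Z, 𝓜.XZ, mul_neg, neg_mul, ← mul_assoc, mul_assoc _ (𝓜.Z * 𝓜.X),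
      mul_assoc 𝓜.Z, 𝓜.X_sq, mul_one]
  have h8 : ⟪𝓜.Ω, 𝓜.go β (fun j => -x j) k⟫_ℂ = -⟪𝓜.Ω, 𝓜.go β x k⟫_ℂ := by
    rw [qu_go, qu_go, ← inner_neg_right, ← ContinuousLinearMap.neg_apply, ← h7,
      ContinuousLinearMap.mul_apply, ContinuousLinearMap.mul_apply, 𝓜.XΩ, qu_inner_X]
  rw [h4, ← h3] at h8
  linear_combination h8 / 2

theorem inner_go_phi (β : ℕ → ℝ) {x : ℕ → H} (hx : ∀ j, x j ∈ 𝓜.R) (p : ℕ) {h : H}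
    (hh : h ∈ 𝓜.R) : I * ⟪𝓜.go β x p, 𝓜.phi h 𝓜.Ω⟫_ℂ = ∑ k ∈ Finset.range p,
      ⟪x k, h⟫_ℂ * (⟪𝓜.go β x p, 𝓜.go β x k⟫_ℂ - ⟪𝓜.go β x k, 𝓜.go β x p⟫_ℂ) := by
  have h1 := QuDer.Uo_star β hx p ((𝓜.quDer_vac hh).Uo β hx p).Z
  have h2 := h1 0 𝓜.R.zero_mem 1 (one_mul 1)
  have h3 := h1 0 𝓜.R.zero_mem (-1) (by norm_num)
  rw [inner_zero_left, zero_mul, sub_zero] at h2 h3
  rw [← inner_smul_right, qu_inner_go, quZ_apply, 𝓜.quL_sum, h2, h3, ← 𝓜.quL_sum, zero_add,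
    ← quZ_apply, ← quZ_apply, map_sum, inner_sub_right, inner_sum, inner_sum,
    ← Finset.sum_sub_distrib]
  refine Finset.sum_congr rfl fun k _ => ?_
  rw [map_smul, inner_smul_right, inner_smul_right, qu_inner_go, qu_inner_go, qu_go, qu_go, mul_sub]

/-- Energy of an open protocol in terms of Gram data. -/
theorem energy_go (β : ℕ → ℝ) {x : ℕ → H} (hx : ∀ j, x j ∈ 𝓜.R) (p : ℕ)
    (hp : 𝓜.go β x p ∈ 𝓜.R) : 𝓜.energy (𝓜.go β x p) = ∑ k ∈ Finset.range p,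
      2 * (⟪x k, 𝓜.go β x p⟫_ℂ).re * (⟪𝓜.go β x p, 𝓜.go β x k⟫_ℂ).im := by
  have h1 := congrArg Complex.im (𝓜.inner_go_phi β hx p hp)
  rw [energy_eq hp]
  rw [I_mul_im, im_sum] at h1
  rw [h1]
  refine Finset.sum_congr rfl fun k _ => ?_
  rw [← inner_conj_symm (𝓜.go β x k) (𝓜.go β x p)]
  simp only [mul_im, sub_im, sub_re, conj_im, conj_re]
  ring

end Weyl

end Crest.Agent.R339
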