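import Crest.Agent.R339.QNDefs
import Crest.Agent.R339.QUniv

/-! # Row 339, limit of the alternating ansatz: path vectors in the spin-boson model -/

set_option autoImplicit false
set_option linter.deprecated false

namespace Crest.Agent.R339.QN

open MeasureTheory ProbabilityTheory Complex Filter Topology
open Crest.MathPhysics.SpinGlass
open scoped InnerProductSpace

variable {H : Type} [NormedAddCommGroup H] [InnerProductSpace ℂ H] [CompleteSpace H]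

theorem qm_s_sq (b : Bool) : spinSign b * spinSign b = 1 := by
  cases b <;> simp [spinSign]

variable (𝓜 : Weyl H)

/-- The spectral projection of `Z`. -/
noncomputable def qmP (b : Bool) (y : H) : H := (1 / 2 : ℂ) • (y + (spinSign b : ℂ) • 𝓜.Z y)

theorem qm_ZZ (y : H) : 𝓜.Z (𝓜.Z y) = y := by
  rw [← ContinuousLinearMap.mul_apply, 𝓜.Z_sq, ContinuousLinearMap.one_apply]

theorem qm_XZ (y : H) : 𝓜.X (𝓜.Z y) = -𝓜.Z (𝓜.X y) := by
  rw [← ContinuousLinearMap.mul_apply, 𝓜.XZ]; rfl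

theorem qm_ZW {g : H} (hg : g ∈ 𝓜.R) (y : H) : 𝓜.Z (𝓜.W g y) = 𝓜.W g (𝓜.Z y) := by
  rw [← ContinuousLinearMap.mul_apply, 𝓜.Z_W g hg]; rfl

theorem qm_XW {g : H} (hg : g ∈ 𝓜.R) (y : H) : 𝓜.X (𝓜.W g y) = 𝓜.W g (𝓜.X y) := by
  rw [← ContinuousLinearMap.mul_apply, 𝓜.X_W g hg]; rfl

theorem qm_inner_star (A : H →L[ℂ] H) (y z : H) : ⟪star A y, z⟫_ℂ = ⟪y, A z⟫_ℂ := by
  rw [ContinuousLinearMap.star_eq_adjoint, ContinuousLinearMap.adjoint_inner_left]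

theorem qm_inner_Z (y z : H) : ⟪𝓜.Z y, z⟫_ℂ = ⟪y, 𝓜.Z z⟫_ℂ := by
  rw [← qm_inner_star, 𝓜.Z_star]

theorem qm_inner_X (y z : H) : ⟪𝓜.X y, z⟫_ℂ = ⟪y, 𝓜.X z⟫_ℂ := by
  rw [← qm_inner_star, 𝓜.X_star]

theorem qm_inner_unitary {U : H →L[ℂ] H} (hU : U ∈ unitary (H →L[ℂ] H)) (y z : H) :
    ⟪U y, U z⟫_ℂ = ⟪y, z⟫_ℂ := by
  rw [← qm_inner_star, ← ContinuousLinearMap.mul_apply, (Unitary.mem_iff.1 hU).1,
    ContinuousLinearMap.one_apply]

theorem qm_unitary_star {U : H →L[ℂ] H} (hU : U ∈ unitary (H →L[ℂ] H)) (y : H) :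
    U (star U y) = y := by
  rw [← ContinuousLinearMap.mul_apply, (Unitary.mem_iff.1 hU).2, ContinuousLinearMap.one_apply]

theorem qmP_sum (y : H) : ∑ b, qmP 𝓜 b y = y := by
  simp only [Fintype.sum_bool, qmP, spinSign, if_true, Bool.false_eq_true, if_false, ofReal_neg,
    ofReal_one]
  module

theorem qmP_smul (b : Bool) (c : ℂ) (y : H) : qmP 𝓜 b (c • y) = c • qmP 𝓜 b y := by
  simp only [qmP, map_smul]
  module

theorem qmP_finsum {ι : Type} (S : Finset ι) (b : Bool) (y : ι → H) :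
    qmP 𝓜 b (∑ i ∈ S, y i) = ∑ i ∈ S, qmP 𝓜 b (y i) := by
  simp only [qmP, map_sum, ← Finset.smul_sum, Finset.sum_add_distrib]

theorem qm_Z_P (b : Bool) (y : H) : 𝓜.Z (qmP 𝓜 b y) = (spinSign b : ℂ) • qmP 𝓜 b y := by
  have h : (spinSign b : ℂ) * spinSign b = 1 := by exact_mod_cast qm_s_sq b
  simp only [qmP, map_smul, map_add, qm_ZZ]
  match_scalars
  · linear_combination (-1 / 2) * h
  · ring

theorem qm_WZ_P {g : H} (hg : g ∈ 𝓜.R) (b : Bool) (y : H) :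
    𝓜.WZ g (qmP 𝓜 b y) = qmP 𝓜 b (𝓜.W (spinSign b • g) y) := by
  have hg' : -g ∈ 𝓜.R := neg_mem hg
  rw [Weyl.WZ, Weyl.WQ_eq 𝓜.invol_Z]
  simp only [ContinuousLinearMap.add_apply, ContinuousLinearMap.smul_apply,
    ContinuousLinearMap.mul_apply, ContinuousLinearMap.sub_apply, ContinuousLinearMap.one_apply,
    qm_ZW 𝓜 hg, qm_ZW 𝓜 hg', qm_Z_P, map_smul]
  cases b
  · simp only [qmP, spinSign, Bool.false_eq_true, if_false, one_smul, map_smul, map_add,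
      qm_ZW 𝓜 hg, ofReal_one]
    module
  · simp only [qmP, spinSign, if_true, neg_smul, one_smul, map_smul, map_add, map_neg,
      qm_ZW 𝓜 hg', ofReal_neg, ofReal_one]
    module

theorem qm_P_B_P (β : ℝ) (b b' : Bool) {y : H} (hy : 𝓜.X y = y) :
    qmP 𝓜 b (𝓜.B β (qmP 𝓜 b' y)) = mx β b b' • qmP 𝓜 b y := by
  simp only [qmP, Weyl.B, ContinuousLinearMap.sub_apply, ContinuousLinearMap.smul_apply,
    ContinuousLinearMap.one_apply, map_smul, map_add, map_sub, map_neg, qm_XZ, hy, qm_ZZ, mx]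
  cases b <;> cases b' <;> simp only [spinSign, Bool.false_eq_true, Bool.true_eq_false, if_false,
    if_true, ofReal_one, ofReal_neg] <;> module

theorem qm_inner_Z_even {y y' : H} (hy : 𝓜.X y = y) (hy' : 𝓜.X y' = y') :
    ⟪y', 𝓜.Z y⟫_ℂ = 0 := by
  have h : ⟪y', 𝓜.Z y⟫_ℂ = -⟪y', 𝓜.Z y⟫_ℂ := by
    conv_lhs => rw [← hy', qm_inner_X, qm_XZ, hy, inner_neg_right]
  linear_combination h / 2

theorem qm_inner_P (b b' : Bool) {y y' : H} (hy : 𝓜.X y = y) (hy' : 𝓜.X y' = y') :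
    ⟪qmP 𝓜 b' y', qmP 𝓜 b y⟫_ℂ = if b = b' then 1 / 2 * ⟪y', y⟫_ℂ else 0 := by
  have h0 := qm_inner_Z_even 𝓜 hy hy'
  simp only [qmP, inner_smul_left, inner_smul_right, inner_add_left, inner_add_right, qm_inner_Z,
    qm_ZZ, h0, conj_ofReal, map_div₀, map_one, map_ofNat]
  cases b <;> cases b' <;> simp only [spinSign, Bool.false_eq_true, Bool.true_eq_false, if_false,
    if_true, ofReal_one, ofReal_neg] <;> ring

variable (β : ℕ → ℝ) (x : ℕ → H)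

/-- The vector of a one-site path. -/
noncomputable def qmV : (k : ℕ) → (Fin (k + 1) → Bool) → H
  | 0, u => qmP 𝓜 (u 0) 𝓜.Ω
  | k + 1, u => qmP 𝓜 (u (Fin.last _)) (𝓜.B (β k) (𝓜.WZ (-x k) (qmV k (Fin.init u))))

/-- The boson part of the vector of a path. -/
noncomputable def qmY : (k : ℕ) → (Fin (k + 1) → Bool) → H
  | 0, u => 𝓜.W (spinSign (u 0) • -x 0) 𝓜.Ω
  | k + 1, u => 𝓜.W (spinSign (u (Fin.last _)) • -x (k + 1)) (qmY k (Fin.init u))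

/-- The product of the mixer matrix elements. -/
noncomputable def qmC (k : ℕ) (u : Fin (k + 1) → Bool) : ℂ :=
  ∏ j : Fin k, mx (β j) (u j.succ) (u j.castSucc)

theorem qmC_succ (k : ℕ) (u : Fin (k + 2) → Bool) :
    qmC β (k + 1) u = qmC β k (Fin.init u) *
      mx (β k) (u (Fin.last _)) (Fin.init u (Fin.last _)) := by
  unfold qmC
  rw [Fin.prod_univ_castSucc]
  rfl

variable {x}

theorem qmY_even (hx : ∀ j, x j ∈ 𝓜.R) (k : ℕ) (u : Fin (k + 1) → Bool) :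
    𝓜.X (qmY 𝓜 x k u) = qmY 𝓜 x k u := by
  induction k with
  | zero => rw [qmY, qm_XW 𝓜 (𝓜.R.smul_mem _ (neg_mem (hx 0))), 𝓜.XΩ]
  | succ k ih => rw [qmY, qm_XW 𝓜 (𝓜.R.smul_mem _ (neg_mem (hx _))), ih]

theorem qmV_WZ (hx : ∀ j, x j ∈ 𝓜.R) (k : ℕ) (u : Fin (k + 1) → Bool) :
    𝓜.WZ (-x k) (qmV 𝓜 β x k u) = qmC β k u • qmP 𝓜 (u (Fin.last _)) (qmY 𝓜 x k u) := by
  induction k with
  | zero =>
    rw [qmV, qmY, qm_WZ_P 𝓜 (neg_mem (hx 0))]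
    simp [qmC]
  | succ k ih =>
    rw [qmV, ih, map_smul, qmP_smul, qm_P_B_P 𝓜 _ _ _ (qmY_even 𝓜 hx k _), map_smul, map_smul,
      qm_WZ_P 𝓜 (neg_mem (hx _)), qmY, qmC_succ, mul_smul]

theorem qmV_succ (hx : ∀ j, x j ∈ 𝓜.R) (k : ℕ) (u : Fin (k + 2) → Bool) :
    qmV 𝓜 β x (k + 1) u =
      qmC β (k + 1) u • qmP 𝓜 (u (Fin.last _)) (qmY 𝓜 x k (Fin.init u)) := by
  rw [qmV, qmV_WZ 𝓜 β hx, map_smul, qmP_smul, qm_P_B_P 𝓜 _ _ _ (qmY_even 𝓜 hx k _), qmC_succ,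
    mul_smul]

variable (x)

/-- Superposition of path vectors. -/
noncomputable def qmS (k : ℕ) (F : (Fin (k + 1) → Bool) → ℝ) : H :=
  ∑ u, (F u : ℂ) • qmV 𝓜 β x k u

theorem qmS_add (k : ℕ) (F G : (Fin (k + 1) → Bool) → ℝ) :
    qmS 𝓜 β x k (fun u => F u + G u) = qmS 𝓜 β x k F + qmS 𝓜 β x k G := by
  simp only [qmS, ofReal_add, add_smul, Finset.sum_add_distrib]

theorem qmS_mul (k : ℕ) (c : ℝ) (F : (Fin (k + 1) → Bool) → ℝ) :
    qmS 𝓜 β x k (fun u => c * F u) = (c : ℂ) • qmS 𝓜 β x k F := by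
  simp only [qmS, ofReal_mul, mul_smul, Finset.smul_sum]

theorem qmS_finsum (k : ℕ) {ι : Type} (S : Finset ι) (F : ι → (Fin (k + 1) → Bool) → ℝ) :
    qmS 𝓜 β x k (fun u => ∑ i ∈ S, F i u) = ∑ i ∈ S, qmS 𝓜 β x k (F i) := by
  simp only [qmS, ofReal_sum, Finset.sum_smul]
  exact Finset.sum_comm

theorem qmS_last (k : ℕ) (F : (Fin (k + 1) → Bool) → ℝ) :
    qmS 𝓜 β x k (fun u => spinSign (u (Fin.last _)) * F u) = 𝓜.Z (qmS 𝓜 β x k F) := by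
  simp only [qmS, map_sum, map_smul]
  refine Finset.sum_congr rfl fun u _ => ?_
  cases k with
  | zero => rw [qmV, qm_Z_P, ← mul_smul, ofReal_mul, mul_comm]; rfl
  | succ k => rw [qmV, qm_Z_P, ← mul_smul, ofReal_mul, mul_comm]

theorem qmS_init (k : ℕ) (F : (Fin (k + 1) → Bool) → ℝ) :
    qmS 𝓜 β x (k + 1) (fun u => F (Fin.init u)) =
      𝓜.B (β k) (𝓜.WZ (-x k) (qmS 𝓜 β x k F)) := by
  simp only [qmS, map_sum, map_smul]
  rw [← Equiv.sum_comp (Fin.snocEquiv fun _ : Fin (k + 2) => Bool), Fintype.sum_prod_type,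
    Finset.sum_comm]
  refine Finset.sum_congr rfl fun u _ => ?_
  simp only [Fin.snocEquiv, Equiv.coe_fn_mk, qmV, Fin.init_snoc, Fin.snoc_last]
  rw [← Finset.smul_sum, qmP_sum]

theorem qm_Uo_succ (k : ℕ) (y : H) :
    𝓜.Uo β x (k + 1) y = 𝓜.B (β k) (𝓜.WZ (-x k) (𝓜.Uo β x k y)) := rfl

theorem qmS_one (k : ℕ) : qmS 𝓜 β x k (fun _ => 1) = 𝓜.Uo β x k 𝓜.Ω := by
  induction k with
  | zero =>
    simp only [qmS, qmV, ofReal_one, one_smul, Weyl.Uo, ContinuousLinearMap.one_apply]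
    rw [← Equiv.sum_comp (Equiv.funUnique (Fin 1) Bool).symm]
    exact qmP_sum 𝓜 _
  | succ k ih => rw [qm_Uo_succ, ← ih, ← qmS_init]

variable {x}

theorem qmS_spin (hx : ∀ j, x j ∈ 𝓜.R) (k : ℕ) (j : Fin (k + 1)) :
    qmS 𝓜 β x k (fun u => spinSign (u j)) = 𝓜.Uo β x k (𝓜.go β x j) := by
  have hl : ∀ k, qmS 𝓜 β x k (fun u => spinSign (u (Fin.last k))) = 𝓜.Uo β x k (𝓜.go β x k) := by
    intro k
    have := qmS_last 𝓜 β x k fun _ => 1
    simp only [mul_one] at this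
    rw [this, qmS_one, Weyl.go, Weyl.br, qm_unitary_star (𝓜.Uo_unitary β hx k)]
  induction k with
  | zero =>
    obtain rfl : j = Fin.last 0 := Fin.eq_zero j
    exact hl 0
  | succ k ih =>
    induction j using Fin.lastCases with
    | last => exact hl (k + 1)
    | cast j => rw [qm_Uo_succ, Fin.val_castSucc, ← ih j, ← qmS_init]; rfl

theorem qm_inner_go (k : ℕ) (y : H) :
    ⟪𝓜.Uo β x k 𝓜.Ω, 𝓜.Z (𝓜.Uo β x k y)⟫_ℂ = ⟪𝓜.go β x k, y⟫_ℂ := by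
  rw [Weyl.go, Weyl.br, qm_inner_star, qm_inner_Z]

theorem qm_pair (k : ℕ) (F G : (Fin (k + 1) → Bool) → ℝ) :
    ∑ a : Pth k, ⟪qmV 𝓜 β x k fun j => (a j).2, qmV 𝓜 β x k fun j => (a j).1⟫_ℂ *
        ((F (fun j => (a j).1) * G (fun j => (a j).2) : ℝ) : ℂ) =
      ⟪qmS 𝓜 β x k G, qmS 𝓜 β x k F⟫_ℂ := by
  rw [← Equiv.sum_comp (Equiv.arrowProdEquivProdArrow (Fin (k + 1)) (fun _ => Bool)
    (fun _ => Bool)).symm, Fintype.sum_prod_type]
  simp only [qmS, sum_inner, inner_sum, inner_smul_left, inner_smul_right, conj_ofReal,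
    Finset.mul_sum]
  refine Finset.sum_congr rfl fun u _ => Finset.sum_congr rfl fun v _ => ?_
  simp only [Equiv.arrowProdEquivProdArrow, Equiv.coe_fn_symm_mk, ofReal_mul]
  ring

end Crest.Agent.R339.QN
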