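import Mathlib

/-! # Row 339: almost additive maps are differentiable at zero; elementary estimates -/

set_option autoImplicit false

namespace Crest.Agent.R339

open Filter Topology

theorem QReg_exists_lin {E F : Type} [NormedAddCommGroup E] [NormedSpace ℝ E]
    [NormedAddCommGroup F] [NormedSpace ℝ F] [CompleteSpace F] (G : E → F) (K K' : ℝ)
    (hadd : ∀ u v, ‖G (u + v) - G u - G v‖ ≤ K * ‖u‖ * ‖v‖) (hb : ∀ u, ‖G u‖ ≤ K' * ‖u‖) :
    ∃ L : E →L[ℝ] F, ∀ u, ‖G u - L u‖ ≤ K / 2 * ‖u‖ ^ 2 := by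
  set a : E → ℕ → F := fun u n => (2 : ℝ) ^ n • G ((1 / 2 : ℝ) ^ n • u) with ha
  have h2 : ∀ n : ℕ, (2 : ℝ) ^ n * (1 / 2 : ℝ) ^ n = 1 := fun n => by
    rw [← mul_pow]; norm_num
  have hn : ∀ (n : ℕ) (u : E), ‖(1 / 2 : ℝ) ^ n • u‖ = (1 / 2 : ℝ) ^ n * ‖u‖ := fun n u => by
    rw [norm_smul, Real.norm_of_nonneg (by positivity)]
  have hstep : ∀ u n, dist (a u n) (a u (n + 1)) ≤ (K * ‖u‖ ^ 2 / 4) * (1 / 2 : ℝ) ^ n := by
    intro u n
    set w : E := (1 / 2 : ℝ) ^ (n + 1) • u with hw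
    have e1 : (1 / 2 : ℝ) ^ n • u = w + w := by
      rw [hw, ← add_smul]; congr 1; ring
    have e2 : a u n - a u (n + 1) = (2 : ℝ) ^ n • (G (w + w) - G w - G w) := by
      simp only [ha, ← hw, e1]
      rw [pow_succ, mul_smul, two_smul, ← smul_sub]; congr 1; abel
    rw [dist_eq_norm, e2, norm_smul, Real.norm_of_nonneg (by positivity)]
    have := hadd w w
    rw [hw, hn] at this
    calc (2 : ℝ) ^ n * ‖G (w + w) - G w - G w‖
        ≤ (2 : ℝ) ^ n * (K * ((1 / 2 : ℝ) ^ (n + 1) * ‖u‖) * ((1 / 2 : ℝ) ^ (n + 1) * ‖u‖)) := by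
          gcongr
      _ = ((2 : ℝ) ^ n * (1 / 2 : ℝ) ^ n) * ((K * ‖u‖ ^ 2 / 4) * (1 / 2 : ℝ) ^ n) := by ring
      _ = _ := by rw [h2, one_mul]
  have hc : ∀ u, CauchySeq (a u) := fun u =>
    cauchySeq_of_le_geometric (1 / 2) _ (by norm_num) (hstep u)
  choose L0 hL0 using fun u => cauchySeq_tendsto_of_complete (hc u)
  have hL0add : ∀ u v, L0 (u + v) = L0 u + L0 v := by
    intro u v
    have t1 : Tendsto (fun n => a (u + v) n - a u n - a v n) atTop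
        (𝓝 (L0 (u + v) - L0 u - L0 v)) := ((hL0 _).sub (hL0 _)).sub (hL0 _)
    have t2 : Tendsto (fun n => a (u + v) n - a u n - a v n) atTop (𝓝 0) := by
      have t3 : Tendsto (fun n : ℕ => K * ‖u‖ * ‖v‖ * (1 / 2 : ℝ) ^ n) atTop (𝓝 0) := by
        simpa using (tendsto_pow_atTop_nhds_zero_of_lt_one (r := (1 / 2 : ℝ)) (by norm_num)
          (by norm_num)).const_mul (K * ‖u‖ * ‖v‖)
      refine squeeze_zero_norm (fun n => ?_) t3
      simp only [ha]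
      rw [← smul_sub, ← smul_sub, norm_smul, Real.norm_of_nonneg (by positivity), smul_add]
      have := hadd ((1 / 2 : ℝ) ^ n • u) ((1 / 2 : ℝ) ^ n • v)
      rw [hn, hn] at this
      calc _ ≤ (2 : ℝ) ^ n * (K * ((1 / 2 : ℝ) ^ n * ‖u‖) * ((1 / 2 : ℝ) ^ n * ‖v‖)) := by
            gcongr
        _ = ((2 : ℝ) ^ n * (1 / 2 : ℝ) ^ n) * (K * ‖u‖ * ‖v‖ * (1 / 2 : ℝ) ^ n) := by ring
        _ = _ := by rw [h2, one_mul]
    have := tendsto_nhds_unique t1 t2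
    rw [sub_sub, sub_eq_zero] at this
    exact this
  have hL0b : ∀ u, ‖L0 u‖ ≤ K' * ‖u‖ := by
    intro u
    refine le_of_tendsto' (hL0 u).norm fun n => ?_
    simp only [ha]
    rw [norm_smul, Real.norm_of_nonneg (by positivity)]
    have := hb ((1 / 2 : ℝ) ^ n • u)
    rw [hn] at this
    calc _ ≤ (2 : ℝ) ^ n * (K' * ((1 / 2 : ℝ) ^ n * ‖u‖)) := by gcongr
      _ = ((2 : ℝ) ^ n * (1 / 2 : ℝ) ^ n) * (K' * ‖u‖) := by ring
      _ = _ := by rw [h2, one_mul]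
  let L1 : E →+ F := AddMonoidHom.mk' L0 hL0add
  have hcont : Continuous L1 := AddMonoidHomClass.continuous_of_bound L1 K' hL0b
  refine ⟨L1.toRealLinearMap hcont, fun u => ?_⟩
  have := dist_le_of_le_geometric_of_tendsto₀ (1 / 2) _ (by norm_num) (hstep u) (hL0 u)
  rw [dist_eq_norm] at this
  simp only [ha, pow_zero, one_smul] at this
  calc _ ≤ _ := this
    _ = _ := by ring

theorem QReg_hasDerivAt {F : Type} [NormedAddCommGroup F] [NormedSpace ℝ F] (f : ℝ → F) (y : F)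
    (K : ℝ) (h : ∀ t, ‖f t - f 0 - t • y‖ ≤ K * t ^ 2) : HasDerivAt f y 0 := by
  rw [hasDerivAt_iff_isLittleO]
  have h1 : (fun t : ℝ => f t - f 0 - (t - 0) • y) =O[𝓝 0] fun t : ℝ => t ^ 2 := by
    refine Asymptotics.IsBigO.of_bound K (Eventually.of_forall fun t => ?_)
    rw [sub_zero, Real.norm_of_nonneg (by positivity)]
    exact h t
  refine h1.trans_isLittleO ?_
  simpa using (Asymptotics.isLittleO_pow_id (𝕜 := ℝ) (n := 2) (by norm_num))

theorem QReg_norm_exp_sub_one (θ : ℝ) : ‖Complex.exp (Complex.I * θ) - 1‖ ≤ |θ| := by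
  simpa using Real.norm_exp_I_mul_ofReal_sub_one_le (x := θ)

theorem QReg_cosh (ρ : ℝ) : Real.cosh ρ - 1 ≤ ρ ^ 2 / 2 * Real.exp |ρ| := by
  rw [← Real.cosh_abs, ← sq_abs ρ]
  set x := |ρ| with hx
  have hx0 : 0 ≤ x := abs_nonneg _
  have hE : 0 < Real.exp x := Real.exp_pos x
  have h1 : 1 - x ≤ Real.exp (-x) := by linarith [Real.add_one_le_exp (-x)]
  have h2 : Real.exp x * Real.exp (-x) = 1 := by rw [← Real.exp_add]; simp
  have h3 : Real.exp (-x) ≤ 1 := Real.exp_le_one_iff.2 (by linarith)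
  have h4 : (1 - Real.exp (-x)) ^ 2 ≤ x ^ 2 := by
    apply pow_le_pow_left₀ (by linarith) (by linarith)
  have h5 : Real.cosh x - 1 = Real.exp x * (1 - Real.exp (-x)) ^ 2 / 2 := by
    rw [Real.cosh_eq]
    have : Real.exp x * (1 - Real.exp (-x)) ^ 2 =
        Real.exp x - 2 * (Real.exp x * Real.exp (-x)) +
          (Real.exp x * Real.exp (-x)) * Real.exp (-x) := by ring
    rw [this, h2]; ring
  rw [h5]
  nlinarith

/-- The explicit second order vacuum function. -/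
theorem QReg_vac_bound (p q σ ρ : ℝ) (hσ : |σ| ≤ p * q)
    (hρ : |ρ| ≤ p * q) :
    4 * (1 - Real.exp (-(q ^ 2 / 2)) - Real.cos σ ^ 2 * Real.exp (-(p ^ 2 / 2)) +
      Real.cos σ * Real.cosh ρ * (Real.exp (-(p ^ 2 / 2)) * Real.exp (-(q ^ 2 / 2)))) ≤
      (3 * p * q) ^ 2 := by
  set a := Real.exp (-(p ^ 2 / 2)) with ha
  set b := Real.exp (-(q ^ 2 / 2)) with hb
  have a0 : 0 < a := Real.exp_pos _
  have b0 : 0 < b := Real.exp_pos _
  have a1 : a ≤ 1 := Real.exp_le_one_iff.2 (by nlinarith [sq_nonneg p])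
  have b1 : b ≤ 1 := Real.exp_le_one_iff.2 (by nlinarith [sq_nonneg q])
  have a2 : 1 - a ≤ p ^ 2 / 2 := by linarith [Real.add_one_le_exp (-(p ^ 2 / 2))]
  have b2 : 1 - b ≤ q ^ 2 / 2 := by linarith [Real.add_one_le_exp (-(q ^ 2 / 2))]
  have h1 : (1 - a) * (1 - b) ≤ (p ^ 2 / 2) * (q ^ 2 / 2) :=
    mul_le_mul a2 b2 (by linarith) (by positivity)
  have hσ2 : σ ^ 2 ≤ (p * q) ^ 2 := by
    rw [← sq_abs σ]; exact pow_le_pow_left₀ (abs_nonneg _) hσ 2
  have hρ2 : ρ ^ 2 ≤ (p * q) ^ 2 := by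
    rw [← sq_abs ρ]; exact pow_le_pow_left₀ (abs_nonneg _) hρ 2
  have h2 : a * (1 - Real.cos σ ^ 2) ≤ (p * q) ^ 2 := by
    have : 1 - Real.cos σ ^ 2 = Real.sin σ ^ 2 := by rw [Real.sin_sq]
    rw [this]
    have := Real.sin_sq_le_sq (x := σ)
    nlinarith [sq_nonneg (Real.sin σ)]
  have h3 : a * b * Real.exp |ρ| ≤ 1 := by
    rw [ha, hb, ← Real.exp_add, ← Real.exp_add]
    exact Real.exp_le_one_iff.2 (by nlinarith [sq_nonneg (p - q)])
  have h4 : a * b * (Real.cosh ρ - 1) ≤ (p * q) ^ 2 / 2 := by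
    calc a * b * (Real.cosh ρ - 1) ≤ a * b * (ρ ^ 2 / 2 * Real.exp |ρ|) := by
          have := QReg_cosh ρ
          gcongr
      _ = ρ ^ 2 / 2 * (a * b * Real.exp |ρ|) := by ring
      _ ≤ ρ ^ 2 / 2 * 1 := by gcongr
      _ ≤ _ := by linarith
  have h5 : Real.cos σ * Real.cosh ρ * (a * b) ≤ Real.cosh ρ * (a * b) := by
    have := Real.cos_le_one σ
    have h6 : 0 ≤ Real.cosh ρ * (a * b) := by have := Real.cosh_pos ρ; positivity
    nlinarith
  nlinarith [sq_nonneg (p * q)]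

end Crest.Agent.R339
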