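import Crest.Agent.R339.QBase
import Crest.Agent.R339.QRegAux

/-! # Row 339: regular vectors, the field operator, the energy functional -/

set_option autoImplicit false

namespace Crest.Agent.R339

open MeasureTheory ProbabilityTheory Complex Filter Topology Asymptotics
open scoped InnerProductSpace

variable {H : Type} [NormedAddCommGroup H] [InnerProductSpace ℂ H] [CompleteSpace H]

namespace Weyl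

variable {𝓜 : Weyl H} {ψ ξ : H} {c c' : ℝ}

theorem QReg_norm_unit {U : H →L[ℂ] H} (hU : U ∈ unitary (H →L[ℂ] H)) (x : H) :
    ‖U x‖ = ‖x‖ := ContinuousLinearMap.norm_map_of_mem_unitary hU x

theorem QReg_norm_W {u : H} (hu : u ∈ 𝓜.R) (x : H) : ‖𝓜.W u x‖ = ‖x‖ :=
  QReg_norm_unit (𝓜.W_unitary hu) x

theorem QReg_inner_W {u : H} (hu : u ∈ 𝓜.R) (x y : H) :
    ⟪𝓜.W u x, y⟫_ℂ = ⟪x, 𝓜.W (-u) y⟫_ℂ := by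
  rw [← 𝓜.W_star u hu, ContinuousLinearMap.star_eq_adjoint,
    ContinuousLinearMap.adjoint_inner_right]

theorem QReg_W_W {u v : H} (hu : u ∈ 𝓜.R) (hv : v ∈ 𝓜.R) (x : H) :
    𝓜.W u (𝓜.W v x) = exp (-(I * (⟪u, v⟫_ℂ).im)) • 𝓜.W (u + v) x := by
  have := congrArg (fun A : H →L[ℂ] H => A x) (𝓜.W_mul u hu v hv)
  simpa using this

theorem QReg_W_neg {u : H} (hu : u ∈ 𝓜.R) (x : H) : 𝓜.W u (𝓜.W (-u) x) = x := by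
  rw [QReg_W_W hu (𝓜.R.neg_mem hu)]
  simp [𝓜.W_zero, inner_self_eq_norm_sq_to_K, ← Complex.ofReal_pow]

omit [CompleteSpace H] in
theorem QReg_im_le (u v : H) : |(⟪u, v⟫_ℂ).im| ≤ ‖u‖ * ‖v‖ :=
  (Complex.abs_im_le_norm _).trans (norm_inner_le_norm _ _)

omit [CompleteSpace H] in
theorem QReg_re_le (u v : H) : |(⟪u, v⟫_ℂ).re| ≤ ‖u‖ * ‖v‖ :=
  (Complex.abs_re_le_norm _).trans (norm_inner_le_norm _ _)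

theorem QReg_phase (θ : ℝ) : ‖exp (-(I * θ)) - 1‖ ≤ |θ| := by
  have := QReg_norm_exp_sub_one (-θ)
  rw [abs_neg] at this
  simpa using this

theorem QReg_phase_norm (θ : ℝ) : ‖exp (-(I * θ))‖ = 1 := by
  have := Complex.norm_exp_I_mul_ofReal (-θ)
  simpa using this

theorem QReg_norm_sub_sq {u : H} (hu : u ∈ 𝓜.R) (x : H) :
    ‖𝓜.W u x - x‖ ^ 2 = 2 * ‖x‖ ^ 2 - 2 * (⟪x, 𝓜.W u x⟫_ℂ).re := by
  rw [norm_sub_rev, @norm_sub_sq ℂ, QReg_norm_W hu]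
  simp only [RCLike.re_to_complex]
  ring

theorem QReg_vac {u : H} (hu : u ∈ 𝓜.R) :
    ⟪𝓜.Ω, 𝓜.W u 𝓜.Ω⟫_ℂ = ((Real.exp (-(‖u‖ ^ 2 / 2)) : ℝ) : ℂ) := by
  rw [𝓜.vac u hu]; push_cast; rfl

theorem P1_Ω : 𝓜.P1 𝓜.Ω 1 := by
  intro u hu
  rw [one_mul]
  refine (pow_le_pow_iff_left₀ (norm_nonneg _) (norm_nonneg _) two_ne_zero).1 ?_
  rw [QReg_norm_sub_sq hu, QReg_vac hu, 𝓜.Ω_norm, Complex.ofReal_re]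
  linarith [Real.add_one_le_exp (-(‖u‖ ^ 2 / 2))]

theorem QReg_re_phase (θ r : ℝ) : (exp (-(I * θ)) * (r : ℂ)).re = Real.cos θ * r := by
  have : exp (-(I * θ)) = exp (((-θ : ℝ) : ℂ) * I) := by congr 1; push_cast; ring
  rw [this, Complex.mul_re, Complex.exp_ofReal_mul_I_re, Real.cos_neg]
  simp

theorem QReg_P2_Ω : 𝓜.P2 𝓜.Ω 3 := by
  intro u hu v hv
  have hnv := 𝓜.R.neg_mem hv
  refine (pow_le_pow_iff_left₀ (norm_nonneg _) (by positivity) two_ne_zero).1 ?_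
  set σ := (⟪u, v⟫_ℂ).im with hσ
  set ρ := (⟪u, v⟫_ℂ).re with hρ
  have e1 : ⟪𝓜.W v 𝓜.Ω, 𝓜.W u (𝓜.W v 𝓜.Ω)⟫_ℂ =
      exp (-(I * ((2 * σ : ℝ) : ℂ))) * ((Real.exp (-(‖u‖ ^ 2 / 2)) : ℝ) : ℂ) := by
    have := congrArg (fun A : H →L[ℂ] H => A 𝓜.Ω) (𝓜.W_comm hu hv)
    simp only [mul_apply_eq_comp, smul_apply] at this
    rw [this, inner_smul_right, QReg_inner_W hv]
    have h2 := QReg_W_neg hnv (𝓜.W u 𝓜.Ω)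
    rw [neg_neg] at h2
    rw [h2, QReg_vac hu]
    congr 2
    push_cast; ring
  have e2 : ⟪𝓜.W v 𝓜.Ω, 𝓜.W u 𝓜.Ω⟫_ℂ =
      exp (-(I * σ)) * ((Real.exp (-(‖u - v‖ ^ 2 / 2)) : ℝ) : ℂ) := by
    rw [QReg_inner_W hv, QReg_W_W hnv hu, inner_smul_right, QReg_vac (𝓜.R.add_mem hnv hu)]
    have : (⟪-v, u⟫_ℂ).im = σ := by
      rw [inner_neg_left, ← inner_conj_symm v u, hσ, Complex.neg_im, Complex.conj_im, neg_neg]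
    rw [this, neg_add_eq_sub]
  have e3 : ⟪𝓜.Ω, 𝓜.W u (𝓜.W v 𝓜.Ω)⟫_ℂ =
      exp (-(I * σ)) * ((Real.exp (-(‖u + v‖ ^ 2 / 2)) : ℝ) : ℂ) := by
    rw [QReg_W_W hu hv, inner_smul_right, QReg_vac (𝓜.R.add_mem hu hv)]
  have n1 : ‖u - v‖ ^ 2 = ‖u‖ ^ 2 - 2 * ρ + ‖v‖ ^ 2 := by
    rw [@norm_sub_sq ℂ]; rfl
  have n2 : ‖u + v‖ ^ 2 = ‖u‖ ^ 2 + 2 * ρ + ‖v‖ ^ 2 := by
    rw [@norm_add_sq ℂ]; rfl
  have x1 : Real.exp (-(‖u - v‖ ^ 2 / 2)) =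
      Real.exp (-(‖u‖ ^ 2 / 2)) * Real.exp (-(‖v‖ ^ 2 / 2)) * Real.exp ρ := by
    rw [← Real.exp_add, ← Real.exp_add, n1]; congr 1; ring
  have x2 : Real.exp (-(‖u + v‖ ^ 2 / 2)) =
      Real.exp (-(‖u‖ ^ 2 / 2)) * Real.exp (-(‖v‖ ^ 2 / 2)) * Real.exp (-ρ) := by
    rw [← Real.exp_add, ← Real.exp_add, n2]; congr 1; ring
  rw [QReg_norm_sub_sq hu, QReg_norm_sub_sq hv, QReg_vac hv, 𝓜.Ω_norm, map_sub, inner_sub_left,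
    inner_sub_right, inner_sub_right, e1, e2, e3, QReg_vac hu]
  simp only [Complex.sub_re, QReg_re_phase, Complex.ofReal_re]
  have := QReg_vac_bound ‖u‖ ‖v‖ σ ρ (QReg_im_le u v) (QReg_re_le u v)
  rw [Real.cosh_eq] at this
  rw [x1, x2, Real.cos_two_mul]
  nlinarith [this]

theorem regu_Ω : 𝓜.Regu 𝓜.Ω := by
  refine ⟨3, by rw [𝓜.Ω_norm]; norm_num, fun u hu => ?_, QReg_P2_Ω⟩
  have := P1_Ω u hu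
  nlinarith [norm_nonneg u]

theorem P1.mono (h : 𝓜.P1 ψ c) (hc : c ≤ c') : 𝓜.P1 ψ c' := by
  intro u hu
  exact (h u hu).trans (by gcongr)
theorem P.mono (h : 𝓜.P ψ c) (hc : c ≤ c') : 𝓜.P ψ c' := by
  refine ⟨h.1.trans hc, h.2.1.mono hc, fun u hu v hv => (h.2.2 u hu v hv).trans ?_⟩
  gcongr
theorem P.nonneg (h : 𝓜.P ψ c) : 0 ≤ c := (norm_nonneg _).trans h.1
/-- It suffices to test small displacements. -/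
theorem P1_of_small (hc : 2 * ‖ψ‖ ≤ c)
    (h : ∀ u ∈ 𝓜.R, ‖u‖ ≤ 1 → ‖𝓜.W u ψ - ψ‖ ≤ c * ‖u‖) : 𝓜.P1 ψ c := by
  intro u hu
  rcases le_total ‖u‖ 1 with h1 | h1
  · exact h u hu h1
  · have := norm_sub_le (𝓜.W u ψ) ψ
    rw [QReg_norm_W hu] at this
    nlinarith [norm_nonneg ψ]
theorem P1.add (h : 𝓜.P1 ψ c) (h' : 𝓜.P1 ξ c') : 𝓜.P1 (ψ + ξ) (c + c') := by
  intro u hu
  have e : 𝓜.W u (ψ + ξ) - (ψ + ξ) = (𝓜.W u ψ - ψ) + (𝓜.W u ξ - ξ) := by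
    rw [map_add]; abel
  rw [e, add_mul]
  exact (norm_add_le _ _).trans (add_le_add (h u hu) (h' u hu))
theorem QReg_P_mk (h0 : ‖ψ‖ ≤ c) (h1 : 𝓜.P1 ψ c)
    (h2 : ∀ v ∈ 𝓜.R, 𝓜.P1 (𝓜.W v ψ - ψ) (c * ‖v‖)) : 𝓜.P ψ c :=
  ⟨h0, h1, fun u hu v hv => by have := h2 v hv u hu; linarith [mul_right_comm c ‖u‖ ‖v‖]⟩
theorem QReg_P1_sub {v : H} (hv : v ∈ 𝓜.R) (h : 𝓜.P ψ c) : 𝓜.P1 (𝓜.W v ψ - ψ) (c * ‖v‖) :=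
  fun u hu => by have := h.2.2 u hu v hv; linarith [this, mul_right_comm c ‖u‖ ‖v‖]
theorem P.add (h : 𝓜.P ψ c) (h' : 𝓜.P ξ c') : 𝓜.P (ψ + ξ) (c + c') := by
  refine QReg_P_mk ((norm_add_le _ _).trans (add_le_add h.1 h'.1)) (h.2.1.add h'.2.1)
    fun v hv => ?_
  have e : 𝓜.W v (ψ + ξ) - (ψ + ξ) = (𝓜.W v ψ - ψ) + (𝓜.W v ξ - ξ) := by
    rw [map_add]; abel
  rw [e, add_mul]
  exact (QReg_P1_sub hv h).add (QReg_P1_sub hv h')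
theorem QReg_cw_apply {A : H →L[ℂ] H} (hA : 𝓜.CW A) {u : H} (hu : u ∈ 𝓜.R) (x : H) :
    𝓜.W u (A x) = A (𝓜.W u x) := by
  have := congrArg (fun B : H →L[ℂ] H => B x) (hA u hu)
  simpa using this.symm
theorem P1.cw {A : H →L[ℂ] H} (hA : 𝓜.CW A) (h : 𝓜.P1 ψ c) : 𝓜.P1 (A ψ) (‖A‖ * c) := by
  intro u hu
  rw [QReg_cw_apply hA hu, ← map_sub, mul_assoc]
  exact (A.le_opNorm _).trans (mul_le_mul_of_nonneg_left (h u hu) (norm_nonneg _))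
theorem P.cw {A : H →L[ℂ] H} (hA : 𝓜.CW A) (h : 𝓜.P ψ c) : 𝓜.P (A ψ) (‖A‖ * c) := by
  refine QReg_P_mk ((A.le_opNorm _).trans (mul_le_mul_of_nonneg_left h.1 (norm_nonneg _)))
    (h.2.1.cw hA) fun v hv => ?_
  rw [QReg_cw_apply hA hv, ← map_sub, mul_assoc]
  exact (QReg_P1_sub hv h).cw hA
theorem P1.smul (a : ℂ) (h : 𝓜.P1 ψ c) : 𝓜.P1 (a • ψ) (‖a‖ * c) := by
  intro u hu
  rw [map_smul, ← smul_sub, norm_smul, mul_assoc]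
  exact mul_le_mul_of_nonneg_left (h u hu) (norm_nonneg _)
theorem P.smul (a : ℂ) (h : 𝓜.P ψ c) : 𝓜.P (a • ψ) (‖a‖ * c) := by
  refine QReg_P_mk (by rw [norm_smul]; exact mul_le_mul_of_nonneg_left h.1 (norm_nonneg _))
    (h.2.1.smul a) fun v hv => ?_
  rw [map_smul, ← smul_sub, mul_assoc]
  exact (QReg_P1_sub hv h).smul a

/-- `V` commutes with the Weyl operators up to a small rotation. -/
def QReg_Tw (𝓜 : Weyl H) (V : H →L[ℂ] H) (k : ℝ) : Prop :=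
  (∀ x, ‖V x‖ = ‖x‖) ∧ ∀ u ∈ 𝓜.R, ∃ T : H →L[ℂ] H, 𝓜.CW T ∧ ‖T‖ ≤ 1 ∧ ‖T - 1‖ ≤ k * ‖u‖ ∧
    𝓜.W u * V = V * (T * 𝓜.W u)

theorem QReg_Tw.eq {V T : H →L[ℂ] H} {u : H} (h : 𝓜.W u * V = V * (T * 𝓜.W u)) (x : H) :
    𝓜.W u (V x) - V x = V (T (𝓜.W u x - x) + (T - 1) x) := by
  have := congrArg (fun B : H →L[ℂ] H => B x) h
  simp only [mul_apply_eq_comp] at this
  rw [this, ← map_sub]
  congr 1
  simp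

theorem QReg_Tw.P1 {V : H →L[ℂ] H} {k : ℝ} (hV : QReg_Tw 𝓜 V k) (h : 𝓜.P1 ψ c) :
    𝓜.P1 (V ψ) (c + k * ‖ψ‖) := by
  intro u hu
  obtain ⟨T, -, hT1, hT2, hT⟩ := hV.2 u hu
  rw [QReg_Tw.eq hT, hV.1]
  have h1 : ‖T (𝓜.W u ψ - ψ)‖ ≤ c * ‖u‖ := by
    refine (T.le_opNorm _).trans ?_
    have := h u hu
    nlinarith [norm_nonneg (𝓜.W u ψ - ψ), norm_nonneg T]
  have h2 : ‖(T - 1) ψ‖ ≤ k * ‖u‖ * ‖ψ‖ :=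
    ((T - 1).le_opNorm _).trans (mul_le_mul_of_nonneg_right hT2 (norm_nonneg _))
  calc _ ≤ _ := norm_add_le _ _
    _ ≤ c * ‖u‖ + k * ‖u‖ * ‖ψ‖ := add_le_add h1 h2
    _ = _ := by ring

theorem QReg_Tw.P {V : H →L[ℂ] H} {k : ℝ} (hk : 0 ≤ k) (hV : QReg_Tw 𝓜 V k) (h : 𝓜.P ψ c) :
    𝓜.P (V ψ) ((1 + k) ^ 2 * c) := by
  have hc := h.nonneg
  have hψ := h.1
  have hkc : 0 ≤ k * c := mul_nonneg hk hc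
  refine QReg_P_mk ?_ ((hV.P1 h.2.1).mono ?_) fun v hv => ?_
  · rw [hV.1]; nlinarith [mul_nonneg hk hkc]
  · have : k * ‖ψ‖ ≤ k * c := by gcongr
    nlinarith [mul_nonneg hk hkc]
  · obtain ⟨T, hT0, hT1, hT2, hT⟩ := hV.2 v hv
    rw [QReg_Tw.eq hT]
    have hT3 : 𝓜.CW (T - 1) := by
      intro g hg
      rw [sub_mul, mul_sub, hT0 g hg, one_mul, mul_one]
    have hv0 := norm_nonneg v
    have h1 : 𝓜.P1 (T (𝓜.W v ψ - ψ) + (T - 1) ψ) ((1 + k) * c * ‖v‖) := by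
      refine (((QReg_P1_sub hv h).cw hT0).add (h.2.1.cw hT3)).mono ?_
      have a1 : ‖T‖ * (c * ‖v‖) ≤ 1 * (c * ‖v‖) := by gcongr
      have a2 : ‖T - 1‖ * c ≤ k * ‖v‖ * c := by gcongr
      nlinarith
    have h2 : ‖T (𝓜.W v ψ - ψ) + (T - 1) ψ‖ ≤ (1 + k) * c * ‖v‖ := by
      have a1 : ‖T (𝓜.W v ψ - ψ)‖ ≤ 1 * (c * ‖v‖) :=
        (T.le_opNorm _).trans (mul_le_mul hT1 (h.2.1 v hv) (norm_nonneg _) zero_le_one)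
      have a2 : ‖(T - 1) ψ‖ ≤ k * ‖v‖ * c :=
        ((T - 1).le_opNorm _).trans (mul_le_mul hT2 hψ (norm_nonneg _) (by positivity))
      have := norm_add_le (T (𝓜.W v ψ - ψ)) ((T - 1) ψ)
      nlinarith
    refine (hV.P1 h1).mono ?_
    have : k * ‖T (𝓜.W v ψ - ψ) + (T - 1) ψ‖ ≤ k * ((1 + k) * c * ‖v‖) := by gcongr
    nlinarith

theorem QReg_Tw_W {v : H} (hv : v ∈ 𝓜.R) : QReg_Tw 𝓜 (𝓜.W v) (2 * ‖v‖) := by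
  refine ⟨QReg_norm_W hv, fun u hu => ?_⟩
  have e : exp (-(2 * I * (⟪u, v⟫_ℂ).im)) = exp (-(I * ((2 * (⟪u, v⟫_ℂ).im : ℝ) : ℂ))) := by
    congr 1; push_cast; ring
  refine ⟨exp (-(2 * I * (⟪u, v⟫_ℂ).im)) • 1, 𝓜.cw_one.smul _, ?_, ?_, ?_⟩
  · rw [norm_smul, e, QReg_phase_norm, one_mul]
    exact ContinuousLinearMap.norm_id_le
  · have : exp (-(2 * I * (⟪u, v⟫_ℂ).im)) • (1 : H →L[ℂ] H) - 1 =
        (exp (-(2 * I * (⟪u, v⟫_ℂ).im)) - 1) • (1 : H →L[ℂ] H) := by rw [sub_smul, one_smul]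
    rw [this, norm_smul, e]
    have h1 := QReg_phase (2 * (⟪u, v⟫_ℂ).im)
    have h2 : ‖(1 : H →L[ℂ] H)‖ ≤ 1 := ContinuousLinearMap.norm_id_le
    have h3 := QReg_im_le u v
    rw [abs_mul, abs_two] at h1
    calc _ ≤ (2 * |(⟪u, v⟫_ℂ).im|) * 1 := by gcongr
      _ ≤ _ := by nlinarith
  · rw [𝓜.W_comm hu hv, smul_mul_assoc, one_mul, mul_smul_comm]

theorem QReg_norm_rot {Q : H →L[ℂ] H} (hQ : 𝓜.Invol Q) (a b : ℝ) (x : H) :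
    ‖(a : ℂ) • x - (I * b) • Q x‖ ^ 2 = (a ^ 2 + b ^ 2) * ‖x‖ ^ 2 := by
  have hQx : ‖Q x‖ = ‖x‖ := QReg_norm_unit hQ.mem_unitary x
  have him : (⟪x, Q x⟫_ℂ).im = 0 := by
    have h1 : ⟪Q x, x⟫_ℂ = ⟪x, Q x⟫_ℂ := by
      conv_rhs => rw [← hQ.star_eq, ContinuousLinearMap.star_eq_adjoint,
        ContinuousLinearMap.adjoint_inner_right]
    have h2 := inner_conj_symm (𝕜 := ℂ) (Q x) x
    rw [h1] at h2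
    exact Complex.conj_eq_iff_im.1 h2
  rw [@norm_sub_sq ℂ, norm_smul, norm_smul, hQx, inner_smul_left, inner_smul_right]
  simp only [RCLike.re_to_complex, Complex.mul_re, Complex.mul_im, him, Complex.conj_ofReal,
    Complex.ofReal_re, Complex.ofReal_im, Complex.I_re, Complex.I_im, norm_mul, Complex.norm_I,
    Complex.norm_real, Real.norm_eq_abs, mul_pow, sq_abs]
  ring

theorem QReg_Tw_WQ {Q : H →L[ℂ] H} (hQ : 𝓜.Invol Q) {v : H} (hv : v ∈ 𝓜.R) :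
    QReg_Tw 𝓜 (𝓜.WQ Q v) (2 * ‖v‖) := by
  refine ⟨QReg_norm_unit (WQ_unitary hQ hv), fun u hu => ?_⟩
  have hnu := 𝓜.R.neg_mem hu
  have hnv := 𝓜.R.neg_mem hv
  have key := congrArg star (WQ_W hQ hnv hnu)
  set θ : ℝ := 2 * (⟪-v, -u⟫_ℂ).im with hθ
  set T : H →L[ℂ] H := ((Real.cos θ : ℝ) : ℂ) • 1 - (I * ((Real.sin θ : ℝ) : ℂ)) • Q with hT
  rw [star_mul, star_mul, star_mul, WQ_star hQ hnv, 𝓜.W_star _ hnu, neg_neg, neg_neg,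
    mul_assoc] at key
  have hTcw : 𝓜.CW T := by
    rw [hT, sub_eq_add_neg, ← neg_smul]
    exact (𝓜.cw_one.smul _).add (hQ.cw.smul _)
  refine ⟨star T, hTcw.star, ?_, ?_, key⟩
  · rw [norm_star]
    refine ContinuousLinearMap.opNorm_le_bound _ zero_le_one fun x => ?_
    refine (pow_le_pow_iff_left₀ (norm_nonneg _) (by positivity) two_ne_zero).1 ?_
    have := QReg_norm_rot hQ (Real.cos θ) (Real.sin θ) x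
    rw [Real.cos_sq_add_sin_sq] at this
    simp only [hT, sub_apply, smul_apply,
      one_apply_eq_self]
    rw [this]; simp
  · have : star T - 1 = star (T - 1) := by rw [star_sub T 1, star_one]
    rw [this, norm_star]
    refine ContinuousLinearMap.opNorm_le_bound _ (by positivity) fun x => ?_
    refine (pow_le_pow_iff_left₀ (norm_nonneg _) (by positivity) two_ne_zero).1 ?_
    have h1 := QReg_norm_rot hQ (Real.cos θ - 1) (Real.sin θ) x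
    have e : (T - 1) x = ((Real.cos θ - 1 : ℝ) : ℂ) • x - (I * (Real.sin θ : ℝ)) • Q x := by
      simp only [hT, sub_apply, smul_apply,
        one_apply_eq_self, Complex.ofReal_sub, Complex.ofReal_one, sub_smul, one_smul]
      abel
    rw [e, h1, mul_pow]
    gcongr
    have h2 := Real.one_sub_sq_div_two_le_cos (x := θ)
    have h3 := Real.cos_sq_add_sin_sq θ
    have h4 : |θ| ≤ 2 * ‖v‖ * ‖u‖ := by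
      have := QReg_im_le (-v) (-u)
      rw [norm_neg, norm_neg] at this
      rw [hθ, abs_mul, abs_two]; linarith
    have h5 : θ ^ 2 ≤ (2 * ‖v‖ * ‖u‖) ^ 2 := by
      rw [← sq_abs θ]; exact pow_le_pow_left₀ (abs_nonneg _) h4 2
    nlinarith

theorem P1.W {v : H} (hv : v ∈ 𝓜.R) (h : 𝓜.P1 ψ c) : 𝓜.P1 (𝓜.W v ψ) (c + 2 * ‖v‖ * ‖ψ‖) := by
  exact (QReg_Tw_W hv).P1 h
theorem P.W {v : H} (hv : v ∈ 𝓜.R) (h : 𝓜.P ψ c) : 𝓜.P (𝓜.W v ψ) ((1 + 2 * ‖v‖) ^ 2 * c) := by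
  exact (QReg_Tw_W hv).P (by positivity) h
theorem P1.WQ {Q : H →L[ℂ] H} (hQ : 𝓜.Invol Q) {v : H} (hv : v ∈ 𝓜.R) (h : 𝓜.P1 ψ c) :
    𝓜.P1 (𝓜.WQ Q v ψ) (c + 2 * ‖v‖ * ‖ψ‖) := by
  exact (QReg_Tw_WQ hQ hv).P1 h
theorem P.WQ {Q : H →L[ℂ] H} (hQ : 𝓜.Invol Q) {v : H} (hv : v ∈ 𝓜.R) (h : 𝓜.P ψ c) :
    𝓜.P (𝓜.WQ Q v ψ) ((1 + 2 * ‖v‖) ^ 2 * c) := by
  exact (QReg_Tw_WQ hQ hv).P (by positivity) h
/-- The increment of a regular vector is small and first order regular. -/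
theorem P.P1_sub {v : H} (hv : v ∈ 𝓜.R) (h : 𝓜.P ψ c) : 𝓜.P1 (𝓜.W v ψ - ψ) (c * ‖v‖) :=
  fun u hu => by have := h.2.2 u hu v hv; linarith [this, mul_right_comm c ‖u‖ ‖v‖]
theorem QReg_proj {Q : H →L[ℂ] H} (hQ : 𝓜.Invol Q) :
    ∃ A B : H →L[ℂ] H, 𝓜.CW A ∧ 𝓜.CW B ∧ ‖A‖ ≤ 1 ∧ ‖B‖ ≤ 1 ∧ (∀ x, A x + B x = x) ∧
      ∀ g x, 𝓜.WQ Q g x = A (𝓜.W g x) + B (𝓜.W (-g) x) := by
  have h1 : ‖(1 : H →L[ℂ] H)‖ ≤ 1 := ContinuousLinearMap.norm_id_le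
  have h2 : ‖Q‖ ≤ 1 := ContinuousLinearMap.opNorm_le_bound _ zero_le_one fun x => by
    rw [QReg_norm_unit hQ.mem_unitary, one_mul]
  have h3 : ‖(1 / 2 : ℂ)‖ = 1 / 2 := by simp
  refine ⟨(1 / 2 : ℂ) • (1 + Q), (1 / 2 : ℂ) • (1 - Q), (𝓜.cw_one.add hQ.cw).smul _, ?_, ?_, ?_,
    fun x => ?_, fun g x => ?_⟩
  · have : (1 : H →L[ℂ] H) - Q = 1 + (-1 : ℂ) • Q := by rw [neg_one_smul, sub_eq_add_neg]
    rw [this]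
    exact (𝓜.cw_one.add (hQ.cw.smul _)).smul _
  · rw [norm_smul, h3]; linarith [norm_add_le (1 : H →L[ℂ] H) Q]
  · rw [norm_smul, h3]; linarith [norm_sub_le (1 : H →L[ℂ] H) Q]
  · simp only [smul_apply, add_apply, sub_apply, one_apply_eq_self]
    module
  · rw [WQ_eq hQ]; rfl
omit [CompleteSpace H] in
theorem QReg_le_of {A : H →L[ℂ] H} (hA : ‖A‖ ≤ 1) (x : H) : ‖A x‖ ≤ ‖x‖ :=
  (A.le_opNorm x).trans (by nlinarith [norm_nonneg x])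
theorem P.P1_WQ_sub {Q : H →L[ℂ] H} (hQ : 𝓜.Invol Q) {v : H} (hv : v ∈ 𝓜.R) (h : 𝓜.P ψ c) :
    𝓜.P1 (𝓜.WQ Q v ψ - ψ) (2 * c * ‖v‖) := by
  obtain ⟨A, B, hA, hB, hA1, hB1, hAB, hW⟩ := QReg_proj hQ
  have e : 𝓜.WQ Q v ψ - ψ = A (𝓜.W v ψ - ψ) + B (𝓜.W (-v) ψ - ψ) := by
    rw [hW, map_sub, map_sub]
    conv_lhs => rw [← hAB ψ]
    rw [hAB ψ]
    have := hAB ψ
    linear_combination (norm := module) this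
  rw [e]
  refine (((h.P1_sub hv).cw hA).add ((h.P1_sub (𝓜.R.neg_mem hv)).cw hB)).mono ?_
  rw [norm_neg]
  have : 0 ≤ c * ‖v‖ := mul_nonneg h.nonneg (norm_nonneg _)
  nlinarith
theorem P1.norm_WQ_sub {Q : H →L[ℂ] H} (hQ : 𝓜.Invol Q) {v : H} (hv : v ∈ 𝓜.R) (h : 𝓜.P1 ψ c) :
    ‖𝓜.WQ Q v ψ - ψ‖ ≤ 2 * c * ‖v‖ := by
  obtain ⟨A, B, hA, hB, hA1, hB1, hAB, hW⟩ := QReg_proj hQ
  have e : 𝓜.WQ Q v ψ - ψ = A (𝓜.W v ψ - ψ) + B (𝓜.W (-v) ψ - ψ) := by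
    rw [hW, map_sub, map_sub]
    have := hAB ψ
    linear_combination (norm := module) this
  rw [e]
  have h1 := (QReg_le_of hA1 _).trans (h v hv)
  have h2 := (QReg_le_of hB1 _).trans (h _ (𝓜.R.neg_mem hv))
  rw [norm_neg] at h2
  linarith [norm_add_le (A (𝓜.W v ψ - ψ)) (B (𝓜.W (-v) ψ - ψ))]
omit [CompleteSpace H] in
theorem QReg_phase_sub (θ : ℝ) (x y : H) : ‖exp (-(I * θ)) • x - y‖ ≤ ‖x - y‖ + |θ| * ‖x‖ := by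
  have e : exp (-(I * θ)) • x - y = (x - y) + (exp (-(I * θ)) - 1) • x := by module
  rw [e]
  refine (norm_add_le _ _).trans ?_
  rw [norm_smul]
  have := QReg_phase θ
  gcongr
theorem QReg_W_add {u v : H} (hu : u ∈ 𝓜.R) (hv : v ∈ 𝓜.R) (x : H) :
    𝓜.W (u + v) x = exp (-(I * ((-(⟪u, v⟫_ℂ).im : ℝ) : ℂ))) • 𝓜.W u (𝓜.W v x) := by
  rw [QReg_W_W hu hv, smul_smul, ← Complex.exp_add]
  simp
theorem P1.norm_W_sub_W {u v : H} (hu : u ∈ 𝓜.R) (hv : v ∈ 𝓜.R) (h : 𝓜.P1 ψ c) :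
    ‖𝓜.W u ψ - 𝓜.W v ψ‖ ≤ (c + ‖v‖ * ‖ψ‖) * ‖u - v‖ := by
  have huv := 𝓜.R.sub_mem hu hv
  have e : 𝓜.W u ψ = 𝓜.W (v + (u - v)) ψ := by rw [add_sub_cancel]
  rw [e, QReg_W_add hv huv]
  refine (QReg_phase_sub _ _ _).trans ?_
  rw [← map_sub, QReg_norm_W hv, QReg_norm_W hv, QReg_norm_W huv, abs_neg]
  have h1 := h _ huv
  have h2 : |(⟪v, u - v⟫_ℂ).im| * ‖ψ‖ ≤ ‖v‖ * ‖u - v‖ * ‖ψ‖ := by
    have := QReg_im_le v (u - v)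
    gcongr
  nlinarith
theorem P1.norm_WQ_sub_WQ {Q : H →L[ℂ] H} (hQ : 𝓜.Invol Q) {u v : H} (hu : u ∈ 𝓜.R)
    (hv : v ∈ 𝓜.R) (h : 𝓜.P1 ψ c) :
    ‖𝓜.WQ Q u ψ - 𝓜.WQ Q v ψ‖ ≤ 2 * (c + ‖v‖ * ‖ψ‖) * ‖u - v‖ := by
  obtain ⟨A, B, hA, hB, hA1, hB1, hAB, hW⟩ := QReg_proj hQ
  have e : 𝓜.WQ Q u ψ - 𝓜.WQ Q v ψ =
      A (𝓜.W u ψ - 𝓜.W v ψ) + B (𝓜.W (-u) ψ - 𝓜.W (-v) ψ) := by
    rw [hW, hW, map_sub, map_sub]; abel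
  rw [e]
  have h1 := (QReg_le_of hA1 _).trans (h.norm_W_sub_W hu hv)
  have h2 := (QReg_le_of hB1 _).trans (h.norm_W_sub_W (𝓜.R.neg_mem hu) (𝓜.R.neg_mem hv))
  rw [norm_neg, neg_sub_neg, norm_sub_rev v u] at h2
  linarith [norm_add_le (A (𝓜.W u ψ - 𝓜.W v ψ)) (B (𝓜.W (-u) ψ - 𝓜.W (-v) ψ))]
theorem QReg_sinW_apply (u x : H) :
    𝓜.sinW u x = (1 / (2 * I) : ℂ) • (𝓜.W u x - 𝓜.W (-u) x) := rfl
theorem QReg_cosW_apply (u x : H) :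
    𝓜.cosW u x = (1 / 2 : ℂ) • (𝓜.W u x + 𝓜.W (-u) x) := rfl
theorem QReg_cosW_sub {u : H} (hu : u ∈ 𝓜.R) (x : H) : 𝓜.cosW u x - x =
    (-(1 / 2) : ℂ) • (𝓜.W u (𝓜.W (-u) x - x) - (𝓜.W (-u) x - x)) := by
  rw [QReg_cosW_apply, map_sub, QReg_W_neg hu]
  module
theorem P1.norm_sinW {u : H} (hu : u ∈ 𝓜.R) (h : 𝓜.P1 ψ c) : ‖𝓜.sinW u ψ‖ ≤ c * ‖u‖ := by
  have h3 : ‖(1 / (2 * I) : ℂ)‖ = 1 / 2 := by simp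
  rw [QReg_sinW_apply, norm_smul, h3, ← sub_sub_sub_cancel_right _ _ ψ]
  have h1 := h u hu
  have h2 := h _ (𝓜.R.neg_mem hu)
  rw [norm_neg] at h2
  linarith [norm_sub_le (𝓜.W u ψ - ψ) (𝓜.W (-u) ψ - ψ)]
theorem P.norm_cosW_sub {u : H} (hu : u ∈ 𝓜.R) (h : 𝓜.P ψ c) :
    ‖𝓜.cosW u ψ - ψ‖ ≤ c * ‖u‖ ^ 2 / 2 := by
  have h3 : ‖(-(1 / 2) : ℂ)‖ = 1 / 2 := by simp
  rw [QReg_cosW_sub hu, norm_smul, h3]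
  have h1 := h.2.2 u hu _ (𝓜.R.neg_mem hu)
  rw [norm_neg] at h1
  nlinarith
theorem P1.inner_cosW_sub {u : H} (hu : u ∈ 𝓜.R) (h : 𝓜.P1 ψ c) (h' : 𝓜.P1 ξ c') :
    ‖⟪ξ, 𝓜.cosW u ψ - ψ⟫_ℂ‖ ≤ c * c' * ‖u‖ ^ 2 / 2 := by
  have h3 : ‖(-(1 / 2) : ℂ)‖ = 1 / 2 := by simp
  have hn := 𝓜.R.neg_mem hu
  have e : ∀ y, ⟪ξ, 𝓜.W u y - y⟫_ℂ = ⟪𝓜.W (-u) ξ - ξ, y⟫_ℂ := fun y => by
    rw [inner_sub_left, inner_sub_right, QReg_inner_W hn, neg_neg]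
  rw [QReg_cosW_sub hu, inner_smul_right, norm_mul, h3, e]
  have h1 := h _ hn
  have h2 := h' _ hn
  rw [norm_neg] at h1 h2
  have h4 := (norm_inner_le_norm (𝕜 := ℂ) (𝓜.W (-u) ξ - ξ) (𝓜.W (-u) ψ - ψ)).trans
    (mul_le_mul h2 h1 (norm_nonneg _) ((norm_nonneg _).trans h2))
  nlinarith

/-- Dephasing: a large displacement makes regular vectors almost orthogonal. -/
theorem inner_W_le (hR : 𝓜.R = ⊤) (h : 𝓜.P1 ψ c) (h' : 𝓜.P1 ξ c') (u : H) :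
    ‖u‖ * ‖⟪ξ, 𝓜.W u ψ⟫_ℂ‖ ≤ c' * ‖ψ‖ + c * ‖ξ‖ := by
  have hm : ∀ g, g ∈ 𝓜.R := fun g => hR ▸ Submodule.mem_top
  have hc : 0 ≤ c := by
    have := (norm_nonneg _).trans (h _ (hm 𝓜.Ω))
    rwa [𝓜.Ω_norm, mul_one] at this
  have hc' : 0 ≤ c' := by
    have := (norm_nonneg _).trans (h' _ (hm 𝓜.Ω))
    rwa [𝓜.Ω_norm, mul_one] at this
  rcases eq_or_ne u 0 with rfl | hu0
  · rw [norm_zero, zero_mul]; positivity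
  have hu : 0 < ‖u‖ := norm_pos_iff.2 hu0
  set v : H := (I * ((Real.pi / (2 * ‖u‖ ^ 2) : ℝ) : ℂ)) • u with hv
  have hvn : ‖v‖ * ‖u‖ = Real.pi / 2 := by
    rw [hv, norm_smul, norm_mul, Complex.norm_I, Complex.norm_real,
      Real.norm_of_nonneg (by positivity)]
    field_simp
  have him : (⟪u, v⟫_ℂ).im = Real.pi / 2 := by
    rw [hv, inner_smul_right, inner_self_eq_norm_sq_to_K]
    have : ((‖u‖ : ℂ) ^ 2) = ((‖u‖ ^ 2 : ℝ) : ℂ) := by push_cast; rfl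
    change (I * ((Real.pi / (2 * ‖u‖ ^ 2) : ℝ) : ℂ) * (‖u‖ : ℂ) ^ 2).im = _
    rw [this, mul_assoc, ← Complex.ofReal_mul, Complex.I_mul_im, Complex.ofReal_re]
    field_simp
  have hph : exp (-(2 * I * (⟪u, v⟫_ℂ).im)) = -1 := by
    rw [him]
    have : -(2 * I * ((Real.pi / 2 : ℝ) : ℂ)) = -(Real.pi * I) := by push_cast; ring
    rw [this, Complex.exp_neg, Complex.exp_pi_mul_I]; norm_num
  have key : ⟪𝓜.W v ξ, 𝓜.W u (𝓜.W v ψ)⟫_ℂ = -⟪ξ, 𝓜.W u ψ⟫_ℂ := by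
    have := congrArg (fun A : H →L[ℂ] H => A ψ) (𝓜.W_comm (hm u) (hm v))
    simp only [mul_apply_eq_comp, smul_apply] at this
    rw [this, hph, inner_smul_right, QReg_inner_W (hm v)]
    have h2 := QReg_W_neg (hm (-v)) (𝓜.W u ψ)
    rw [neg_neg] at h2
    rw [h2, neg_one_mul]
  have e : (2 : ℂ) * ⟪ξ, 𝓜.W u ψ⟫_ℂ =
      -(⟪𝓜.W v ξ - ξ, 𝓜.W u (𝓜.W v ψ)⟫_ℂ + ⟪ξ, 𝓜.W u (𝓜.W v ψ - ψ)⟫_ℂ) := by
    rw [map_sub, inner_sub_left, inner_sub_right, key]; ring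
  have e2 := congrArg norm e
  rw [norm_mul, norm_neg, Complex.norm_two] at e2
  have h1 : ‖⟪𝓜.W v ξ - ξ, 𝓜.W u (𝓜.W v ψ)⟫_ℂ‖ ≤ c' * ‖v‖ * ‖ψ‖ := by
    refine (norm_inner_le_norm _ _).trans ?_
    rw [QReg_norm_W (hm u), QReg_norm_W (hm v)]
    have := h' v (hm v)
    gcongr
  have h2 : ‖⟪ξ, 𝓜.W u (𝓜.W v ψ - ψ)⟫_ℂ‖ ≤ ‖ξ‖ * (c * ‖v‖) := by
    refine (norm_inner_le_norm _ _).trans ?_
    rw [QReg_norm_W (hm u)]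
    have := h v (hm v)
    gcongr
  have h3 : 2 * ‖⟪ξ, 𝓜.W u ψ⟫_ℂ‖ ≤ ‖v‖ * (c' * ‖ψ‖ + c * ‖ξ‖) := by
    rw [e2]
    refine (norm_add_le _ _).trans ?_
    nlinarith
  have h4 : 0 ≤ c' * ‖ψ‖ + c * ‖ξ‖ := by positivity
  have h5 : ‖u‖ * (2 * ‖⟪ξ, 𝓜.W u ψ⟫_ℂ‖) ≤ Real.pi / 2 * (c' * ‖ψ‖ + c * ‖ξ‖) := by
    rw [← hvn]
    calc _ ≤ ‖u‖ * (‖v‖ * (c' * ‖ψ‖ + c * ‖ξ‖)) := by gcongr
      _ = _ := by ring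
  nlinarith [Real.pi_le_four]

/-! The field operator. -/

theorem QReg_lin (h : 𝓜.P ψ c) : ∃ L : 𝓜.R →L[ℝ] H,
    (∀ u : 𝓜.R, ‖𝓜.W u ψ - ψ - L u‖ ≤ c * ‖(u : H)‖ ^ 2) ∧
    (∀ u : 𝓜.R, HasDerivAt (fun t : ℝ => 𝓜.W (t • (u : H)) ψ) (L u) 0) ∧
    ∀ u : 𝓜.R, I • 𝓜.phi u ψ = L u := by
  obtain ⟨L, hL⟩ := QReg_exists_lin (fun u : 𝓜.R => 𝓜.W u ψ - ψ) (2 * c) c
    (fun u v => by
      have e : 𝓜.W ((u + v : 𝓜.R) : H) ψ - ψ - (𝓜.W u ψ - ψ) - (𝓜.W v ψ - ψ) =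
          (𝓜.W ((u : H) + v) ψ - 𝓜.W u (𝓜.W v ψ)) +
            (𝓜.W u (𝓜.W v ψ - ψ) - (𝓜.W v ψ - ψ)) := by
        rw [map_sub, Submodule.coe_add]; abel
      rw [e]
      have h1 : ‖𝓜.W ((u : H) + v) ψ - 𝓜.W u (𝓜.W v ψ)‖ ≤ ‖(u : H)‖ * ‖(v : H)‖ * c := by
        rw [QReg_W_add u.2 v.2]
        refine (QReg_phase_sub _ _ _).trans ?_
        rw [sub_self, norm_zero, zero_add, QReg_norm_W u.2, QReg_norm_W v.2, abs_neg]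
        exact mul_le_mul (QReg_im_le _ _) h.1 (norm_nonneg _) (by positivity)
      have h2 := h.2.2 u u.2 v v.2
      refine (norm_add_le _ _).trans ?_
      change _ ≤ 2 * c * ‖(u : H)‖ * ‖(v : H)‖
      nlinarith)
    (fun u => h.2.1 u u.2)
  have h1 : ∀ u : 𝓜.R, ‖𝓜.W u ψ - ψ - L u‖ ≤ c * ‖(u : H)‖ ^ 2 := fun u => by
    have := hL u
    rwa [mul_div_cancel_left₀ c two_ne_zero] at this
  have h2 : ∀ u : 𝓜.R, HasDerivAt (fun t : ℝ => 𝓜.W (t • (u : H)) ψ) (L u) 0 := fun u => by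
    refine QReg_hasDerivAt _ _ (c * ‖(u : H)‖ ^ 2) fun t => ?_
    have := h1 (t • u)
    rw [map_smul, Submodule.coe_smul, norm_smul, mul_pow, Real.norm_eq_abs, sq_abs] at this
    rw [zero_smul, 𝓜.W_zero, one_apply_eq_self]
    linarith
  refine ⟨L, h1, h2, fun u => ?_⟩
  rw [phi, (h2 u).deriv, smul_smul]
  simp

omit [CompleteSpace H] in
theorem QReg_I_inj {x y : H} (h : I • x = I • y) : x = y := smul_right_injective H I_ne_zero h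

theorem P.hasDerivAt_W {u : H} (hu : u ∈ 𝓜.R) (h : 𝓜.P ψ c) :
    HasDerivAt (fun t : ℝ => 𝓜.W (t • u) ψ) (I • 𝓜.phi u ψ) 0 := by
  obtain ⟨L, -, h2, h3⟩ := QReg_lin h
  rw [h3 ⟨u, hu⟩]
  exact h2 ⟨u, hu⟩
theorem P.norm_W_sub_phi {u : H} (hu : u ∈ 𝓜.R) (h : 𝓜.P ψ c) :
    ‖𝓜.W u ψ - ψ - I • 𝓜.phi u ψ‖ ≤ c * ‖u‖ ^ 2 := by
  obtain ⟨L, h1, -, h3⟩ := QReg_lin h
  rw [h3 ⟨u, hu⟩]
  exact h1 ⟨u, hu⟩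
theorem P.norm_sinW_sub_phi {u : H} (hu : u ∈ 𝓜.R) (h : 𝓜.P ψ c) :
    ‖𝓜.sinW u ψ - 𝓜.phi u ψ‖ ≤ c * ‖u‖ ^ 2 := by
  obtain ⟨L, h1, -, h3⟩ := QReg_lin h
  have a1 := h1 ⟨u, hu⟩
  have a2 := h1 (-⟨u, hu⟩)
  rw [map_neg, ← h3 ⟨u, hu⟩, Submodule.coe_neg, norm_neg] at a2
  rw [← h3 ⟨u, hu⟩] at a1
  have h4 : ‖(1 / (2 * I) : ℂ)‖ = 1 / 2 := by simp
  have e : 𝓜.sinW u ψ - 𝓜.phi u ψ = (1 / (2 * I) : ℂ) •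
      ((𝓜.W u ψ - ψ - I • 𝓜.phi u ψ) - (𝓜.W (-u) ψ - ψ - -(I • 𝓜.phi u ψ))) := by
    have : 𝓜.phi u ψ = (1 / (2 * I) : ℂ) • ((2 * I) • 𝓜.phi u ψ) := by
      rw [smul_smul, one_div, inv_mul_cancel₀ (by simp), one_smul]
    rw [QReg_sinW_apply]
    conv_lhs => rw [this]
    module
  rw [e, norm_smul, h4]
  dsimp only at a1 a2
  linarith [norm_sub_le (𝓜.W u ψ - ψ - I • 𝓜.phi u ψ) (𝓜.W (-u) ψ - ψ - -(I • 𝓜.phi u ψ))]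
theorem P.norm_WQ_sub_phi {Q : H →L[ℂ] H} (hQ : 𝓜.Invol Q) {u : H} (hu : u ∈ 𝓜.R) (h : 𝓜.P ψ c) :
    ‖𝓜.WQ Q u ψ - ψ - I • Q (𝓜.phi u ψ)‖ ≤ 2 * c * ‖u‖ ^ 2 := by
  have e : 𝓜.WQ Q u ψ - ψ - I • Q (𝓜.phi u ψ) =
      (𝓜.cosW u ψ - ψ) + I • Q (𝓜.sinW u ψ - 𝓜.phi u ψ) := by
    have : 𝓜.WQ Q u ψ = 𝓜.cosW u ψ + I • Q (𝓜.sinW u ψ) := rfl
    rw [this, map_sub]; module
  rw [e]
  refine (norm_add_le _ _).trans ?_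
  rw [norm_smul, Complex.norm_I, one_mul, QReg_norm_unit hQ.mem_unitary]
  have h1 := h.norm_cosW_sub hu
  have h2 := h.norm_sinW_sub_phi hu
  have h3 : 0 ≤ c * ‖u‖ ^ 2 := mul_nonneg h.nonneg (by positivity)
  linarith
theorem QReg_norm_phi {u : H} (hu : u ∈ 𝓜.R) (h : 𝓜.P ψ c) (h' : 𝓜.P1 ψ c') :
    ‖𝓜.phi u ψ‖ ≤ c' * ‖u‖ := by
  have := (h.hasDerivAt_W hu).le_of_lip' (C := c' * ‖u‖) ((norm_nonneg _).trans (h' u hu))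
    (Eventually.of_forall fun t => by
      have := h' _ (𝓜.R.smul_mem t hu)
      rw [norm_smul] at this
      rw [zero_smul, 𝓜.W_zero, one_apply_eq_self, sub_zero]
      linarith)
  rwa [norm_smul, Complex.norm_I, one_mul] at this
theorem P.norm_phi {u : H} (hu : u ∈ 𝓜.R) (h : 𝓜.P ψ c) : ‖𝓜.phi u ψ‖ ≤ c * ‖u‖ := by
  exact QReg_norm_phi hu h h.2.1
theorem P.phi_add {u v : H} (hu : u ∈ 𝓜.R) (hv : v ∈ 𝓜.R) (h : 𝓜.P ψ c) :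
    𝓜.phi (u + v) ψ = 𝓜.phi u ψ + 𝓜.phi v ψ := by
  obtain ⟨L, -, -, h3⟩ := QReg_lin h
  apply QReg_I_inj
  rw [smul_add, h3 ⟨u, hu⟩, h3 ⟨v, hv⟩, ← map_add]
  exact h3 (⟨u, hu⟩ + ⟨v, hv⟩)
theorem P.phi_smul {u : H} (hu : u ∈ 𝓜.R) (a : ℝ) (h : 𝓜.P ψ c) :
    𝓜.phi (a • u) ψ = a • 𝓜.phi u ψ := by
  obtain ⟨L, -, -, h3⟩ := QReg_lin h
  apply QReg_I_inj
  rw [smul_comm, h3 ⟨u, hu⟩, ← map_smul]
  exact h3 (a • ⟨u, hu⟩)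
theorem P.phi_cw {A : H →L[ℂ] H} (hA : 𝓜.CW A) {u : H} (hu : u ∈ 𝓜.R) (h : 𝓜.P ψ c) :
    𝓜.phi u (A ψ) = A (𝓜.phi u ψ) := by
  apply QReg_I_inj
  have h1 := (A.restrictScalars ℝ).hasFDerivAt.comp_hasDerivAt (0 : ℝ) (h.hasDerivAt_W hu)
  have h2 := (h.cw hA).hasDerivAt_W hu
  have e : (fun t : ℝ => 𝓜.W (t • u) (A ψ)) =
      (A.restrictScalars ℝ) ∘ fun t : ℝ => 𝓜.W (t • u) ψ := by
    funext t
    exact QReg_cw_apply hA (𝓜.R.smul_mem t hu) ψ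
  rw [e] at h2
  rw [h2.unique h1, ← map_smul]
  rfl

theorem energy_eq {g : H} (hg : g ∈ 𝓜.R) : 𝓜.energy g = (⟪g, 𝓜.phi g 𝓜.Ω⟫_ℂ).re := by
  obtain ⟨c, h⟩ := (regu_Ω : 𝓜.Regu 𝓜.Ω)
  have h1 := (Complex.imCLM ∘L ((innerSL ℂ g).restrictScalars ℝ)).hasFDerivAt.comp_hasDerivAt
    (0 : ℝ) (h.hasDerivAt_W hg)
  have h2 : HasDerivAt (fun t : ℝ => (⟪g, 𝓜.W (t • g) 𝓜.Ω⟫_ℂ).im)
      (⟪g, I • 𝓜.phi g 𝓜.Ω⟫_ℂ).im 0 := h1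
  rw [energy, h2.deriv, inner_smul_right, Complex.I_mul_im]
theorem norm_phi_Ω {g : H} (hg : g ∈ 𝓜.R) : ‖𝓜.phi g 𝓜.Ω‖ ≤ ‖g‖ := by
  obtain ⟨c, h⟩ := (regu_Ω : 𝓜.Regu 𝓜.Ω)
  simpa using QReg_norm_phi hg h P1_Ω
theorem abs_energy_sub_le {g h : H} (hg : g ∈ 𝓜.R) (hh : h ∈ 𝓜.R) :
    |𝓜.energy g - 𝓜.energy h| ≤ (‖g‖ + ‖h‖) * ‖g - h‖ := by
  obtain ⟨c, hP⟩ := (regu_Ω : 𝓜.Regu 𝓜.Ω)
  have hgh := 𝓜.R.sub_mem hg hh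
  have e1 : 𝓜.phi g 𝓜.Ω = 𝓜.phi h 𝓜.Ω + 𝓜.phi (g - h) 𝓜.Ω := by
    rw [← hP.phi_add hh hgh, add_sub_cancel]
  have e : 𝓜.energy g - 𝓜.energy h =
      (⟪g - h, 𝓜.phi g 𝓜.Ω⟫_ℂ).re + (⟪h, 𝓜.phi (g - h) 𝓜.Ω⟫_ℂ).re := by
    rw [energy_eq hg, energy_eq hh, inner_sub_left, Complex.sub_re]
    have : (⟪h, 𝓜.phi g 𝓜.Ω⟫_ℂ).re =
        (⟪h, 𝓜.phi h 𝓜.Ω⟫_ℂ).re + (⟪h, 𝓜.phi (g - h) 𝓜.Ω⟫_ℂ).re := by
      rw [e1, inner_add_right, Complex.add_re]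
    linarith
  rw [e]
  have h1 : |(⟪g - h, 𝓜.phi g 𝓜.Ω⟫_ℂ).re| ≤ ‖g - h‖ * ‖g‖ :=
    (QReg_re_le _ _).trans (mul_le_mul_of_nonneg_left (norm_phi_Ω hg) (norm_nonneg _))
  have h2 : |(⟪h, 𝓜.phi (g - h) 𝓜.Ω⟫_ℂ).re| ≤ ‖h‖ * ‖g - h‖ :=
    (QReg_re_le _ _).trans (mul_le_mul_of_nonneg_left (norm_phi_Ω hgh) (norm_nonneg _))
  refine (abs_add_le _ _).trans ?_
  nlinarith

end Weyl

end Crest.Agent.R339
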