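import Crest.Agent.R339.QSeedStep
import Crest.Agent.R339.QGeneric

/-! # Row 339: mixers and cost rotations simulate a Gaussian label -/

set_option autoImplicit false

namespace Crest.Agent.R339

open MeasureTheory ProbabilityTheory Complex Filter Topology Asymptotics
open scoped InnerProductSpace

variable {H : Type} [NormedAddCommGroup H] [InnerProductSpace ℂ H] [CompleteSpace H]

variable {H' : Type} [NormedAddCommGroup H'] [InnerProductSpace ℂ H'] [CompleteSpace H']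

theorem Weyl.QSeed_br {𝓜 : Weyl H} (hR : 𝓜.R = ⊤) {c : ℂ} (hc : ‖c‖ = 1) (g : H)
    (U : H →L[ℂ] H) : 𝓜.br (c • (𝓜.WZ g * U)) 𝓜.Z = 𝓜.br U 𝓜.Z := by
  have hg := Weyl.QSeedGram_mem hR g
  rw [𝓜.QBase_br_smul hc, 𝓜.br_mul, mul_assoc, Weyl.WQ_comm 𝓜.invol_Z 𝓜.invol_Z.cw rfl hg,
    ← mul_assoc, (Weyl.WQ_unitary 𝓜.invol_Z hg).1, one_mul]

theorem Weyl.seeds {𝓜 : Weyl H} (hR : 𝓜.R = ⊤) {𝓜' : Weyl H'} (h' : 𝓜'.EClosed)
    {U : H' →L[ℂ] H'} (hU : 𝓜'.EReach U) {ε : ℝ} (hε : 0 < ε) :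
    ∃ V, 𝓜.QReach V ∧ 𝓜'.energy (𝓜'.br U 𝓜'.Z) - ε ≤ 𝓜.energy (𝓜.br V 𝓜.Z) := by
  obtain ⟨p, b, c, t, hp, e⟩ := hU.exists_tri h'
  obtain ⟨b', c', t', h1, h2⟩ := Weyl.generic h' p b c t (half_pos hε)
  have hτ : t' 0 ≠ 0 := by
    intro h0
    apply h2 1 le_rfl (by omega)
    simp [Weyl.sE, fst3, h0]
  obtain ⟨Pr⟩ := Weyl.exists_prep hR (t' 0)
  have key : ∀ j, j < p →
      Nonempty (Weyl.SInv Pr (tri b') (fst3 c') (fst3 t') (3 * (j + 1)) 0) := by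
    intro j
    induction j with
    | zero =>
      intro hj
      obtain ⟨S⟩ := Weyl.sinv_zero hR Pr (tri b') (fst3 c') (fst3 t')
      exact Weyl.SInv.stepB (j := 0) hR h' hτ S (h2 _ (by omega) (by omega))
        (h2 _ (by omega) (by omega))
    | succ j ih =>
      intro hj
      obtain ⟨S⟩ := ih (by omega)
      obtain ⟨S'⟩ := S.stepE hR h' hτ (h2 _ (by omega) (by omega)) (t' (j + 1))
      exact S'.stepB hR h' hτ (h2 _ (by omega) (by omega)) (h2 _ (by omega) (by omega))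
  obtain ⟨q, rfl⟩ : ∃ q, p = q + 1 := ⟨p - 1, by omega⟩
  obtain ⟨S⟩ := key q (by omega)
  have e1 : ∀ σ, 𝓜.br (S.c σ • (𝓜.WZ (-S.xp σ) * 𝓜.Uo (tri b') (S.x σ) (3 * (q + 1)))) 𝓜.Z =
      𝓜.go (tri b') (S.x σ) (3 * (q + 1)) := fun σ => Weyl.QSeed_br hR (S.c_norm σ) _ _
  have a1 := S.sec.br_approx hR (O := 𝓜.Z) (by
    simp only [e1]
    exact Weyl.QSeedGram_reg hR Pr S.hx le_rfl)
  simp only [e1] at a1
  have a2 := tendsto_zero_iff_norm_tendsto_zero.1 (a1.trans_tendsto QSeedGram_id)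
  have a3 := Weyl.energy_conv hR h' hτ Pr S.hx
  obtain ⟨σ, s1, s2⟩ := ((a2.eventually (gt_mem_nhds (show (0 : ℝ) < ε / 8 by positivity))).and
    (a3.eventually (lt_mem_nhds (sub_lt_self _ (show 0 < ε / 4 by positivity))))).exists
  refine ⟨S.U σ, S.reach σ, ?_⟩
  have a4 := Weyl.abs_energy_sub_le (Weyl.QSeedGram_mem hR (𝓜.br (S.U σ) 𝓜.Z))
    (Weyl.QSeedGram_mem hR (𝓜.go (tri b') (S.x σ) (3 * (q + 1))))
  rw [𝓜.norm_br_invol (S.sec.uU σ) 𝓜.invol_Z, Weyl.QSeedGram_norm_go hR] at a4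
  rw [e]
  linarith [(abs_le.1 a4).1]

end Crest.Agent.R339
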