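import Crest.Agent.R339.QUniv

/-!
# Row 339: creating a Gaussian label from rare seeds: definitions

`σ → 0+` is the amplitude of the seeds.  The preparation `P = C(t) B(arcsin σ) C(-t)`, `t = τ₀/(2σ)`,
splits exactly into a majority branch and a seed branch displaced by `D ~ 1/σ`.
-/

set_option autoImplicit false

namespace Crest.Agent.R339

open MeasureTheory ProbabilityTheory Complex Filter Topology Asymptotics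
open scoped InnerProductSpace

variable {H : Type} [NormedAddCommGroup H] [InnerProductSpace ℂ H] [CompleteSpace H]

/-- The filter `σ → 0+`. -/
abbrev l0 : Filter ℝ := 𝓝[>] 0

namespace Weyl

variable (𝓜 : Weyl H)

/-- Unitary families preserving regular families, together with their adjoints. -/
structure Tame (A : ℝ → H →L[ℂ] H) : Prop where
  unit : ∀ σ, A σ ∈ unitary (H →L[ℂ] H)
  reg : ∀ ξ, 𝓜.RegF ξ → 𝓜.RegF fun σ => A σ (ξ σ)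
  reg' : ∀ ξ, 𝓜.RegF ξ → 𝓜.RegF fun σ => star (A σ) (ξ σ)

/-- The diagonal operator with entries `p` on `Z = 1` and `m` on `Z = -1`. -/
noncomputable def dg (p m : ℂ) : H →L[ℂ] H := (p / 2) • (1 + 𝓜.Z) + (m / 2) • (1 - 𝓜.Z)

/-- `X ^ ε`. -/
noncomputable def Xe (ε : Bool) : H →L[ℂ] H := if ε then 𝓜.X else 1

/-- The prepared state. -/
structure Prep (τ₀ : ℝ) where
  P : ℝ → H →L[ℂ] H
  e : ℝ → H
  D : ℝ → H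
  a₁ : ℝ → ℂ
  a₂ : ℝ → ℂ
  reach : ∀ σ, 𝓜.QReach (P σ)
  a₁_norm : ∀ σ, ‖a₁ σ‖ = 1
  a₂_norm : ∀ σ, ‖a₂ σ‖ = 1
  P_eq : ∀ᶠ σ in l0, P σ = (((√(1 - σ ^ 2) : ℝ) : ℂ) * a₁ σ) • 𝓜.WZ (-(τ₀ • e σ)) +
    ((σ : ℂ) * a₂ σ) • (𝓜.WZ (-D σ) * 𝓜.X)
  e_norm : ∀ᶠ σ in l0, ‖e σ‖ = 1
  P_e : ∀ᶠ σ in l0, P σ (e σ) = a₂ σ • 𝓜.Z (𝓜.WZ (-D σ) 𝓜.Ω)
  D_lim : Tendsto (fun σ => σ • D σ - τ₀ • 𝓜.Z 𝓜.Ω) l0 (𝓝 0)

variable {𝓜} {τ₀ : ℝ}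

/-- Embedding of the majority sector. -/
noncomputable def Prep.Jm (Pr : 𝓜.Prep τ₀) (σ : ℝ) : H →L[ℂ] H :=
  star (Pr.P σ) * (Pr.a₁ σ • 𝓜.WZ (-(τ₀ • Pr.e σ)))

/-- Embedding of the seed sector. -/
noncomputable def Prep.Js (Pr : 𝓜.Prep τ₀) (σ : ℝ) : H →L[ℂ] H :=
  star (Pr.P σ) * 𝓜.WZ (-Pr.D σ)

/-- `U` acts as `M` on the majority sector and as `S` on the seed sector. -/
structure Sec (Pr : 𝓜.Prep τ₀) (U M S : ℝ → H →L[ℂ] H) : Prop where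
  uU : ∀ σ, U σ ∈ unitary (H →L[ℂ] H)
  uM : ∀ σ, M σ ∈ unitary (H →L[ℂ] H)
  uS : ∀ σ, S σ ∈ unitary (H →L[ℂ] H)
  maj : ∀ ξ, 𝓜.RegF ξ → (fun σ => U σ (Pr.Jm σ (ξ σ)) - M σ (ξ σ)) =O[l0] fun σ => σ ^ 2
  seed : ∀ ζ, 𝓜.RegF ζ → (fun σ => U σ (Pr.Js σ (ζ σ)) - S σ (ζ σ)) =O[l0] fun σ => σ

/-- The sign `(-1) ^ ε`. -/
def sgE (ε : Bool) : ℝ := if ε then -1 else 1

/-- The invariant after `k` steps of the ideal protocol `(β, γ, τ)`, with a pending label gate of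
strength `τp`. -/
structure SInv (Pr : 𝓜.Prep τ₀) (β γ τ : ℕ → ℝ) (k : ℕ) (τp : ℝ) where
  U : ℝ → H →L[ℂ] H
  x : ℝ → ℕ → H
  xp : ℝ → H
  d : ℝ → H
  c : ℝ → ℂ
  p : ℝ → ℂ
  m : ℝ → ℂ
  ε : Bool
  reach : ∀ σ, 𝓜.QReach (U σ)
  c_norm : ∀ σ, ‖c σ‖ = 1
  p_norm : ∀ σ, ‖p σ‖ = 1
  m_norm : ∀ σ, ‖m σ‖ = 1
  sec : Sec Pr U (fun σ => c σ • (𝓜.WZ (-xp σ) * 𝓜.Uo β (x σ) k))
    fun σ => 𝓜.dg (p σ) (m σ) * 𝓜.WZ (-d σ) * 𝓜.Xe ε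
  hx : ∀ i < k, Tendsto (fun σ => x σ i - (γ i • 𝓜.go β (x σ) i + τ i • Pr.e σ)) l0 (𝓝 0)
  hxp : Tendsto (fun σ => xp σ - τp • Pr.e σ) l0 (𝓝 0)
  hd : Tendsto (fun σ => (sgE ε * σ) • d σ -
    (∑ i ∈ Finset.range k, τ i • 𝓜.go β (x σ) i + τp • 𝓜.go β (x σ) k)) l0 (𝓝 0)

end Weyl

end Crest.Agent.R339
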