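import Crest.Agent.R339.QSeedDefs

/-! # Row 339: calculus of regular families, the preparation, the two sectors -/

set_option autoImplicit false

namespace Crest.Agent.R339

open MeasureTheory ProbabilityTheory Complex Filter Topology Asymptotics
open scoped InnerProductSpace

variable {H : Type} [NormedAddCommGroup H] [InnerProductSpace ℂ H] [CompleteSpace H]

namespace Weyl

variable {𝓜 : Weyl H} {τ₀ : ℝ}

theorem QSF_mem (hR : 𝓜.R = ⊤) (g : H) : g ∈ 𝓜.R := by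
  rw [hR]
  trivial

theorem QSF_smul_unitary {c : ℂ} (hc : ‖c‖ = 1) {A : H →L[ℂ] H} (hA : A ∈ unitary (H →L[ℂ] H)) :
    c • A ∈ unitary (H →L[ℂ] H) := by
  have h1 : c * star c = 1 := by
    rw [RCLike.star_def, mul_conj', hc]
    simp
  refine Unitary.mem_iff.2 ⟨?_, ?_⟩
  · rw [star_smul, smul_mul_smul_comm, mul_comm (star c), h1, Unitary.star_mul_self_of_mem hA,
      one_smul]
  · rw [star_smul, smul_mul_smul_comm, h1, Unitary.mul_star_self_of_mem hA, one_smul]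

theorem QSF_norm_unitary {A : H →L[ℂ] H} (hA : A ∈ unitary (H →L[ℂ] H)) : ‖A‖ ≤ 1 :=
  ContinuousLinearMap.opNorm_le_bound _ zero_le_one fun x => by
    rw [ContinuousLinearMap.norm_map_of_mem_unitary hA, one_mul]

theorem QSF_star_apply {A : H →L[ℂ] H} (hA : A ∈ unitary (H →L[ℂ] H)) (x : H) :
    star A (A x) = x := by
  rw [← mul_apply_eq_comp, Unitary.star_mul_self_of_mem hA, one_apply_eq_self]

theorem QSF_apply_star {A : H →L[ℂ] H} (hA : A ∈ unitary (H →L[ℂ] H)) (x : H) :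
    A (star A x) = x := by
  rw [← mul_apply_eq_comp, Unitary.mul_star_self_of_mem hA, one_apply_eq_self]

theorem QSF_l0 : ∀ᶠ σ in l0, 0 < σ ∧ σ < 1 := Ioo_mem_nhdsGT zero_lt_one

theorem QSF_sqrt {σ : ℝ} (h : 0 < σ ∧ σ < 1) : |1 - √(1 - σ ^ 2)| ≤ σ ^ 2 ∧ |√(1 - σ ^ 2)| ≤ 1 := by
  have h0 : 0 ≤ 1 - σ ^ 2 := by nlinarith [h.1, h.2]
  have h1 : √(1 - σ ^ 2) ≤ 1 := Real.sqrt_le_one.2 (by nlinarith [sq_nonneg σ])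
  have h2 : 1 - σ ^ 2 ≤ √(1 - σ ^ 2) := Real.le_sqrt_of_sq_le (by nlinarith [sq_nonneg σ])
  exact ⟨by rw [abs_of_nonneg (by linarith)]; linarith,
    by rw [abs_of_nonneg (Real.sqrt_nonneg _)]; exact h1⟩

theorem QSF_sq : (fun σ : ℝ => σ ^ 2) =O[l0] fun σ => σ :=
  IsBigO.of_bound 1 (QSF_l0.mono fun σ h => by
    rw [Real.norm_of_nonneg (sq_nonneg σ), Real.norm_of_nonneg h.1.le]
    nlinarith [h.1, h.2])

theorem QSF_app {A : ℝ → H →L[ℂ] H} {ξ : ℝ → H} {f : ℝ → ℝ} (hA : A =O[l0] f)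
    (hξ : ξ =O[l0] fun _ => (1 : ℝ)) : (fun σ => A σ (ξ σ)) =O[l0] f := by
  have := hA.norm_left.mul hξ.norm_left
  simp only [mul_one] at this
  exact (IsBigO.of_norm_le fun σ => (A σ).le_opNorm (ξ σ)).trans this

theorem QSF_unit {A : ℝ → H →L[ℂ] H} {ξ : ℝ → H} {f : ℝ → ℝ}
    (hA : ∀ σ, A σ ∈ unitary (H →L[ℂ] H)) (hξ : ξ =O[l0] f) : (fun σ => A σ (ξ σ)) =O[l0] f :=
  (hξ.norm_left.congr_left fun σ =>
    (ContinuousLinearMap.norm_map_of_mem_unitary (hA σ) (ξ σ)).symm).of_norm_left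

theorem QSF_smul {a : ℝ → ℂ} {ξ : ℝ → H} {f g : ℝ → ℝ} (ha : ∀ᶠ σ in l0, ‖a σ‖ ≤ |g σ|)
    (hξ : ξ =O[l0] f) : (fun σ => a σ • ξ σ) =O[l0] fun σ => g σ * f σ := by
  have h1 : (fun σ => ‖a σ‖) =O[l0] g :=
    IsBigO.of_bound 1 (ha.mono fun σ h => by simpa using h)
  exact ((h1.mul hξ.norm_left).congr_left fun σ => (norm_smul _ _).symm).of_norm_left

theorem QSF_WZ_unitary (hR : 𝓜.R = ⊤) (g : H) : 𝓜.WZ g ∈ unitary (H →L[ℂ] H) :=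
  WQ_unitary 𝓜.invol_Z (QSF_mem hR g)

theorem QSF_Z_WZ (hR : 𝓜.R = ⊤) (g ψ : H) : 𝓜.WZ g (𝓜.Z ψ) = 𝓜.Z (𝓜.WZ g ψ) := by
  rw [← mul_apply_eq_comp, ← WQ_comm 𝓜.invol_Z 𝓜.invol_Z.cw rfl (QSF_mem hR g), mul_apply_eq_comp]

theorem regF_Ω : 𝓜.RegF fun _ => 𝓜.Ω := by
  obtain ⟨c, hc⟩ := regu_Ω (𝓜 := 𝓜)
  exact ⟨c, Eventually.of_forall fun _ => hc⟩
theorem RegF.isBigO {ξ : ℝ → H} (h : 𝓜.RegF ξ) : ξ =O[l0] fun _ => (1 : ℝ) := by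
  obtain ⟨c, hc⟩ := h
  exact IsBigO.of_bound c (hc.mono fun σ hσ => by simpa using hσ.1)
theorem RegF.add {ξ ζ : ℝ → H} (h : 𝓜.RegF ξ) (h' : 𝓜.RegF ζ) : 𝓜.RegF fun σ => ξ σ + ζ σ := by
  obtain ⟨c, hc⟩ := h
  obtain ⟨c', hc'⟩ := h'
  exact ⟨c + c', (hc.and hc').mono fun σ hσ => hσ.1.add hσ.2⟩
theorem RegF.cw {ξ : ℝ → H} (h : 𝓜.RegF ξ) {A : ℝ → H →L[ℂ] H} (hA : ∀ σ, 𝓜.CW (A σ)) {C : ℝ}
    (hC : ∀ᶠ σ in l0, ‖A σ‖ ≤ C) : 𝓜.RegF fun σ => A σ (ξ σ) := by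
  obtain ⟨c, hc⟩ := h
  exact ⟨C * c, (hc.and hC).mono fun σ hσ =>
    (hσ.1.cw (hA σ)).mono (mul_le_mul_of_nonneg_right hσ.2 hσ.1.nonneg)⟩
theorem RegF.smul {ξ : ℝ → H} (h : 𝓜.RegF ξ) {a : ℝ → ℂ} {C : ℝ} (hC : ∀ᶠ σ in l0, ‖a σ‖ ≤ C) :
    𝓜.RegF fun σ => a σ • ξ σ := by
  obtain ⟨c, hc⟩ := h
  exact ⟨C * c, (hc.and hC).mono fun σ hσ =>
    (hσ.1.smul (a σ)).mono (mul_le_mul_of_nonneg_right hσ.2 hσ.1.nonneg)⟩

theorem Tame.mul {A A' : ℝ → H →L[ℂ] H} (h : 𝓜.Tame A) (h' : 𝓜.Tame A') :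
    𝓜.Tame fun σ => A σ * A' σ := by
  refine ⟨fun σ => mul_mem (h.unit σ) (h'.unit σ), fun ξ hξ => h.reg _ (h'.reg _ hξ),
    fun ξ hξ => ?_⟩
  simp only [star_mul]
  exact h'.reg' _ (h.reg' _ hξ)
theorem Tame.star' {A : ℝ → H →L[ℂ] H} (h : 𝓜.Tame A) : 𝓜.Tame fun σ => star (A σ) := by
  refine ⟨fun σ => Unitary.star_mem (h.unit σ), h.reg', fun ξ hξ => ?_⟩
  simp only [star_star]
  exact h.reg _ hξ
theorem Tame.smul {A : ℝ → H →L[ℂ] H} (h : 𝓜.Tame A) {c : ℝ → ℂ} (hc : ∀ σ, ‖c σ‖ = 1) :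
    𝓜.Tame fun σ => c σ • A σ := by
  refine ⟨fun σ => QSF_smul_unitary (hc σ) (h.unit σ), fun ξ hξ =>
    (h.reg _ hξ).smul (C := 1) (Eventually.of_forall fun σ => (hc σ).le), fun ξ hξ => ?_⟩
  simp only [star_smul]
  exact (h.reg' _ hξ).smul (C := 1) (Eventually.of_forall fun σ => by rw [norm_star, hc])
theorem tame_cw {A : ℝ → H →L[ℂ] H} (hu : ∀ σ, A σ ∈ unitary (H →L[ℂ] H)) (hA : ∀ σ, 𝓜.CW (A σ)) :
    𝓜.Tame A := by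
  exact ⟨hu, fun ξ hξ => hξ.cw hA (Eventually.of_forall fun σ => QSF_norm_unitary (hu σ)),
    fun ξ hξ => hξ.cw (fun σ => (hA σ).star)
      (Eventually.of_forall fun σ => QSF_norm_unitary (Unitary.star_mem (hu σ)))⟩
theorem tame_WQ (hR : 𝓜.R = ⊤) {Q : ℝ → H →L[ℂ] H} (hQ : ∀ σ, 𝓜.Invol (Q σ)) {v : ℝ → H}
    (hv : v =O[l0] fun _ => (1 : ℝ)) : 𝓜.Tame fun σ => 𝓜.WQ (Q σ) (v σ) := by
  have key : ∀ {v : ℝ → H}, (v =O[l0] fun _ => (1 : ℝ)) → ∀ ξ, 𝓜.RegF ξ →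
      𝓜.RegF fun σ => 𝓜.WQ (Q σ) (v σ) (ξ σ) := by
    rintro v hv ξ ⟨c, hc⟩
    obtain ⟨C, hC⟩ := hv.bound
    refine ⟨(1 + 2 * C) ^ 2 * c, (hc.and hC).mono fun σ hσ =>
      (hσ.1.WQ (hQ σ) (QSF_mem hR _)).mono (mul_le_mul_of_nonneg_right ?_ hσ.1.nonneg)⟩
    have := hσ.2
    rw [norm_one, mul_one] at this
    gcongr
  refine ⟨fun σ => WQ_unitary (hQ σ) (QSF_mem hR _), key hv, fun ξ hξ => ?_⟩
  simp only [fun σ => WQ_star (hQ σ) (QSF_mem hR (v σ))]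
  exact key hv.neg_left ξ hξ
theorem tame_Uo (hR : 𝓜.R = ⊤) (β : ℕ → ℝ) {x : ℝ → ℕ → H} {k : ℕ}
    (hx : ∀ i < k, (fun σ => x σ i) =O[l0] fun _ => (1 : ℝ)) :
    𝓜.Tame fun σ => 𝓜.Uo β (x σ) k := by
  induction k with
  | zero => exact tame_cw (fun _ => one_mem _) fun _ => 𝓜.cw_one
  | succ k ih =>
    exact ((tame_cw (fun _ => 𝓜.B_unitary (β k)) fun _ => 𝓜.B_cw (β k)).mul
      (tame_WQ hR (fun _ => 𝓜.invol_Z) (hx k (Nat.lt_succ_self k)).neg_left)).mul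
        (ih fun i hi => hx i (Nat.lt_succ_of_lt hi))
theorem Tame.regF_br {A : ℝ → H →L[ℂ] H} (h : 𝓜.Tame A) {O : H →L[ℂ] H} (hO : 𝓜.CW O) :
    𝓜.RegF fun σ => 𝓜.br (A σ) O := by
  exact h.reg' _ ((h.reg _ regF_Ω).cw (A := fun _ => O) (fun _ => hO)
    (Eventually.of_forall fun _ => le_rfl))

theorem QSF_dg_mul (p m p' m' : ℂ) : 𝓜.dg p m * 𝓜.dg p' m' = 𝓜.dg (p * p') (m * m') := by
  simp only [dg, add_mul, mul_add, sub_mul, mul_sub, smul_mul_assoc, mul_smul_comm, one_mul,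
    mul_one, 𝓜.Z_sq]
  match_scalars <;> ring
theorem QSF_dg_one : 𝓜.dg 1 1 = 1 := by
  rw [dg]
  match_scalars <;> ring
theorem QSF_dg_star (p m : ℂ) : star (𝓜.dg p m) = 𝓜.dg (star p) (star m) := by
  simp only [dg, star_add, star_sub, star_smul, star_one, 𝓜.Z_star, star_div₀, star_ofNat]

theorem dg_unitary {p m : ℂ} (hp : ‖p‖ = 1) (hm : ‖m‖ = 1) : 𝓜.dg p m ∈ unitary (H →L[ℂ] H) := by
  have h1 : ∀ c : ℂ, ‖c‖ = 1 → c * star c = 1 := fun c hc => by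
    rw [RCLike.star_def, mul_conj', hc]
    simp
  refine Unitary.mem_iff.2 ⟨?_, ?_⟩
  · rw [QSF_dg_star, QSF_dg_mul, mul_comm (star p), mul_comm (star m), h1 p hp, h1 m hm, QSF_dg_one]
  · rw [QSF_dg_star, QSF_dg_mul, h1 p hp, h1 m hm, QSF_dg_one]
theorem dg_cw (p m : ℂ) : 𝓜.CW (𝓜.dg p m) := by
  intro g hg
  simp only [dg, add_mul, mul_add, sub_mul, mul_sub, smul_mul_assoc, mul_smul_comm, one_mul,
    mul_one, 𝓜.Z_W g hg]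
theorem dg_Z (p m : ℂ) : 𝓜.dg p m * 𝓜.Z = 𝓜.Z * 𝓜.dg p m := by
  simp only [dg, add_mul, mul_add, sub_mul, mul_sub, smul_mul_assoc, mul_smul_comm, one_mul,
    mul_one]
theorem X_dg (p m : ℂ) : 𝓜.X * 𝓜.dg p m = 𝓜.dg m p * 𝓜.X := by
  have hZX : 𝓜.Z * 𝓜.X = -(𝓜.X * 𝓜.Z) := by rw [𝓜.XZ, neg_neg]
  simp only [dg, add_mul, mul_add, sub_mul, mul_sub, smul_mul_assoc, mul_smul_comm, one_mul,
    mul_one, hZX]
  match_scalars <;> ring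
theorem dg_mul (p m p' m' : ℂ) : 𝓜.dg p m * 𝓜.dg p' m' = 𝓜.dg (p * p') (m * m') := by
  exact QSF_dg_mul p m p' m'

/-- Dephasing for families. -/
theorem inner_W_isBigO (hR : 𝓜.R = ⊤) {ξ ζ u : ℝ → H} (hξ : 𝓜.RegF ξ) (hζ : 𝓜.RegF ζ) {c : ℝ}
    (hc : 0 < c) (hu : ∀ᶠ σ in l0, c ≤ σ * ‖u σ‖) :
    (fun σ => ⟪ξ σ, 𝓜.W (u σ) (ζ σ)⟫_ℂ) =O[l0] fun σ => σ := by
  obtain ⟨a, ha⟩ := hξ
  obtain ⟨b, hb⟩ := hζ
  refine IsBigO.of_bound (2 * (a * b) / c) ?_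
  filter_upwards [ha, hb, hu, QSF_l0] with σ h1 h2 h3 h4
  have h5 := inner_W_le hR h2.2.1 h1.2.1 (u σ)
  have h6 : a * ‖ζ σ‖ + b * ‖ξ σ‖ ≤ 2 * (a * b) := by
    nlinarith [mul_le_mul_of_nonneg_left h2.1 h1.nonneg, mul_le_mul_of_nonneg_left h1.1 h2.nonneg]
  rw [Real.norm_of_nonneg h4.1.le, div_mul_eq_mul_div, le_div_iff₀ hc]
  nlinarith [mul_le_mul_of_nonneg_left h3 (norm_nonneg ⟪ξ σ, 𝓜.W (u σ) (ζ σ)⟫_ℂ),
    mul_le_mul_of_nonneg_left (h5.trans h6) h4.1.le]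

theorem QSF_inner_WZ (hR : 𝓜.R = ⊤) {ξ ζ u : ℝ → H} (hξ : 𝓜.RegF ξ) (hζ : 𝓜.RegF ζ) {c : ℝ}
    (hc : 0 < c) (hu : ∀ᶠ σ in l0, c ≤ σ * ‖u σ‖) :
    (fun σ => ⟪ξ σ, 𝓜.WZ (u σ) (ζ σ)⟫_ℂ) =O[l0] fun σ => σ := by
  have h1 := inner_W_isBigO hR hξ (hζ.cw (A := fun _ => 𝓜.dg 1 0) (fun _ => dg_cw 1 0)
    (Eventually.of_forall fun _ => le_rfl)) hc hu
  have h2 := inner_W_isBigO (u := fun σ => -u σ) hR hξ (hζ.cw (A := fun _ => 𝓜.dg 0 1)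
    (fun _ => dg_cw 0 1) (Eventually.of_forall fun _ => le_rfl)) hc (by simpa only [norm_neg] using hu)
  refine (h1.add h2).congr_left fun σ => ?_
  rw [← inner_add_right, ← mul_apply_eq_comp, ← mul_apply_eq_comp, ← dg_cw 1 0 _ (QSF_mem hR _),
    ← dg_cw 0 1 _ (QSF_mem hR _), WZ, WQ_eq 𝓜.invol_Z]
  congr 1
  simp [dg]

/-- the prepared state at a fixed amplitude -/
theorem QSF_prep (hR : 𝓜.R = ⊤) (τ₀ σ : ℝ) : ∃ (P : H →L[ℂ] H) (e D : H) (a₁ a₂ : ℂ),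
    𝓜.QReach P ∧ ‖a₁‖ = 1 ∧ ‖a₂‖ = 1 ∧ (0 < σ ∧ σ < 1 →
      P = (((√(1 - σ ^ 2) : ℝ) : ℂ) * a₁) • 𝓜.WZ (-(τ₀ • e)) + ((σ : ℂ) * a₂) • (𝓜.WZ (-D) * 𝓜.X) ∧
      ‖e‖ = 1 ∧ P e = a₂ • 𝓜.Z (𝓜.WZ (-D) 𝓜.Ω) ∧ σ • D - τ₀ • 𝓜.Z 𝓜.Ω = (τ₀ * σ) • e) := by
  obtain ⟨t, ht⟩ : ∃ t, t = τ₀ / (2 * σ) := ⟨_, rfl⟩
  obtain ⟨g₀, hg₀⟩ : ∃ g₀, g₀ = 𝓜.Z 𝓜.Ω := ⟨_, rfl⟩
  obtain ⟨V, hV⟩ : ∃ V, V = 𝓜.B (Real.arcsin σ) * 𝓜.C (-t) 1 := ⟨_, rfl⟩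
  obtain ⟨g, hg⟩ : ∃ g, g = 𝓜.br V 𝓜.Z := ⟨_, rfl⟩
  have rV : 𝓜.QReach V := hV ▸ QReach.B _ (QReach.C _ QReach.one)
  have rP : 𝓜.QReach (𝓜.C t V) := QReach.C _ rV
  have eV : V = 𝓜.B (Real.arcsin σ) * 𝓜.WZ (t • g₀) := by
    rw [hV, C, mul_one, br, star_one, one_apply_eq_self, one_apply_eq_self, neg_smul, neg_neg, hg₀]
  have eP : 𝓜.C t V = 𝓜.WZ (-(t • g)) * V := by rw [C, hg]
  refine ⟨𝓜.C t V, (1 / (2 * σ)) • (g - g₀), t • (g₀ + g),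
    exp (-(I * (⟪-(t • g), t • g₀⟫_ℂ).im)), -I * exp (-(I * (⟪-(t • g), -(t • g₀)⟫_ℂ).im)), rP,
    QBase_norm_phase _, by rw [norm_mul, norm_neg, norm_I, QBase_norm_phase, one_mul], fun h => ?_⟩
  have hσ : σ ≠ 0 := h.1.ne'
  have e1 : -(τ₀ • (1 / (2 * σ)) • (g - g₀)) = -(t • g) + t • g₀ := by
    rw [smul_smul, mul_one_div, ← ht, smul_sub, neg_sub, sub_eq_neg_add]
  have e2 : -(t • (g₀ + g)) = -(t • g) + -(t • g₀) := by rw [smul_add, neg_add, add_comm]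
  have hP : 𝓜.C t V = (((√(1 - σ ^ 2) : ℝ) : ℂ) * exp (-(I * (⟪-(t • g), t • g₀⟫_ℂ).im))) •
      𝓜.WZ (-(τ₀ • (1 / (2 * σ)) • (g - g₀))) +
      ((σ : ℂ) * (-I * exp (-(I * (⟪-(t • g), -(t • g₀)⟫_ℂ).im)))) •
        (𝓜.WZ (-(t • (g₀ + g))) * 𝓜.X) := by
    rw [e1, e2, eP]
    conv_lhs => rw [eV]
    rw [B, Real.cos_arcsin, Real.sin_arcsin (by linarith [h.1]) h.2.le, sub_mul, smul_mul_assoc,
      smul_mul_assoc, one_mul, WQ_anticomm 𝓜.invol_Z 𝓜.invol_X.cw 𝓜.XZ (QSF_mem hR _), mul_sub,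
      mul_smul_comm, mul_smul_comm, ← mul_assoc, 𝓜.QBase_WZ_mul (QSF_mem hR _) (QSF_mem hR _),
      𝓜.QBase_WZ_mul (QSF_mem hR _) (QSF_mem hR _), smul_mul_assoc]
    match_scalars <;> ring
  have h1 : 𝓜.C t V g = 𝓜.Z (𝓜.C t V 𝓜.Ω) := by
    rw [eP, mul_apply_eq_comp, mul_apply_eq_comp, ← QSF_Z_WZ hR, ← 𝓜.QBase_apply_br
      (rV.mem_unitary hR), ← hg]
  have hXZ : 𝓜.X (𝓜.Z 𝓜.Ω) = -𝓜.Z 𝓜.Ω := by
    rw [← mul_apply_eq_comp, 𝓜.XZ, ContinuousLinearMap.neg_apply, mul_apply_eq_comp, 𝓜.XΩ]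
  have h2 : 𝓜.C t V ((1 / (2 * σ)) • (g - g₀)) =
      (-I * exp (-(I * (⟪-(t • g), -(t • g₀)⟫_ℂ).im))) • 𝓜.Z (𝓜.WZ (-(t • (g₀ + g))) 𝓜.Ω) := by
    rw [← Complex.coe_smul, map_smul, map_sub, h1]
    conv_lhs => rw [hP]
    generalize -(τ₀ • (1 / (2 * σ)) • (g - g₀)) = u
    generalize -(t • (g₀ + g)) = v
    simp only [ContinuousLinearMap.add_apply, ContinuousLinearMap.smul_apply, mul_apply_eq_comp,
      map_add, map_smul, 𝓜.XΩ]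
    rw [hg₀, hXZ, map_neg, QSF_Z_WZ hR, QSF_Z_WZ hR]
    have : (σ : ℂ) ≠ 0 := ofReal_ne_zero.2 hσ
    push_cast
    match_scalars <;> field_simp <;> ring
  refine ⟨hP, ?_, h2, ?_⟩
  · rw [← ContinuousLinearMap.norm_map_of_mem_unitary (rP.mem_unitary hR), h2, norm_smul, norm_mul,
      norm_neg, norm_I, QBase_norm_phase,
      ContinuousLinearMap.norm_map_of_mem_unitary 𝓜.invol_Z.mem_unitary,
      ContinuousLinearMap.norm_map_of_mem_unitary (QSF_WZ_unitary hR _), 𝓜.Ω_norm]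
    norm_num
  · rw [← hg₀, ht]
    match_scalars <;> field_simp <;> ring

theorem exists_prep (hR : 𝓜.R = ⊤) (τ₀ : ℝ) : Nonempty (𝓜.Prep τ₀) := by
  choose P e D a₁ a₂ h1 h2 h3 h4 using QSF_prep hR τ₀
  refine ⟨⟨P, e, D, a₁, a₂, h1, h2, h3, QSF_l0.mono fun σ h => (h4 σ h).1,
    QSF_l0.mono fun σ h => (h4 σ h).2.1, QSF_l0.mono fun σ h => (h4 σ h).2.2.1, ?_⟩⟩
  have h5 : Tendsto (fun σ : ℝ => ‖τ₀ * σ‖) l0 (𝓝 0) := by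
    have : Continuous fun σ : ℝ => ‖τ₀ * σ‖ := by fun_prop
    simpa using (this.tendsto 0).mono_left nhdsWithin_le_nhds
  refine tendsto_zero_iff_norm_tendsto_zero.2 (h5.congr' (QSF_l0.mono fun σ h => ?_))
  simp only
  rw [(h4 σ h).2.2.2, norm_smul, (h4 σ h).2.1, mul_one]

theorem Prep.Jm_unitary (hR : 𝓜.R = ⊤) (Pr : 𝓜.Prep τ₀) (σ : ℝ) :
    Pr.Jm σ ∈ unitary (H →L[ℂ] H) := by
  exact mul_mem (Unitary.star_mem ((Pr.reach σ).mem_unitary hR))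
    (QSF_smul_unitary (Pr.a₁_norm σ) (QSF_WZ_unitary hR _))
theorem Prep.Jm_sub_one (hR : 𝓜.R = ⊤) (Pr : 𝓜.Prep τ₀) :
    (fun σ => Pr.Jm σ - 1) =O[l0] fun σ => σ := by
  refine IsBigO.of_bound 2 ?_
  filter_upwards [Pr.P_eq, QSF_l0] with σ h1 h2
  have hu := (Pr.reach σ).mem_unitary hR
  have e : Pr.Jm σ - 1 = star (Pr.P σ) *
      (((((1 - √(1 - σ ^ 2) : ℝ) : ℂ)) * Pr.a₁ σ) • 𝓜.WZ (-(τ₀ • Pr.e σ)) -
        ((σ : ℂ) * Pr.a₂ σ) • (𝓜.WZ (-Pr.D σ) * 𝓜.X)) := by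
    rw [Prep.Jm, ← Unitary.star_mul_self_of_mem hu, ← mul_sub]
    congr 1
    rw [h1]
    push_cast
    match_scalars <;> ring
  have n1 := QSF_norm_unitary (QSF_WZ_unitary hR (-(τ₀ • Pr.e σ)))
  have n2 := QSF_norm_unitary (mul_mem (QSF_WZ_unitary hR (-Pr.D σ)) 𝓜.invol_X.mem_unitary)
  have n3 := (QSF_sqrt h2).1
  rw [e]
  refine (norm_mul_le _ _).trans ((mul_le_of_le_one_left (norm_nonneg _)
    (QSF_norm_unitary (Unitary.star_mem hu))).trans ((norm_sub_le _ _).trans ?_))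
  rw [norm_smul, norm_smul, norm_mul, norm_mul, Pr.a₁_norm, Pr.a₂_norm, norm_real, norm_real,
    mul_one, mul_one, Real.norm_eq_abs, Real.norm_of_nonneg h2.1.le]
  nlinarith [mul_le_mul_of_nonneg_left n1 (abs_nonneg (1 - √(1 - σ ^ 2))),
    mul_le_mul_of_nonneg_left n2 h2.1.le, h2.1, h2.2]
theorem QSF_e_isBigO (Pr : 𝓜.Prep τ₀) : Pr.e =O[l0] fun _ => (1 : ℝ) :=
  IsBigO.of_bound 1 (Pr.e_norm.mono fun σ h => by simp [h])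
theorem QSF_D_large (hτ : τ₀ ≠ 0) (Pr : 𝓜.Prep τ₀) : ∀ᶠ σ in l0, |τ₀| / 2 ≤ σ * ‖Pr.D σ‖ := by
  have h0 : 0 < |τ₀| / 2 := half_pos (abs_pos.2 hτ)
  filter_upwards [(tendsto_zero_iff_norm_tendsto_zero.1 Pr.D_lim).eventually (gt_mem_nhds h0),
    QSF_l0] with σ h1 h2
  have h3 := norm_sub_norm_le (τ₀ • 𝓜.Z 𝓜.Ω) (σ • Pr.D σ)
  rw [norm_sub_rev, norm_smul, norm_smul,
    ContinuousLinearMap.norm_map_of_mem_unitary 𝓜.invol_Z.mem_unitary, 𝓜.Ω_norm, mul_one,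
    Real.norm_eq_abs, Real.norm_of_nonneg h2.1.le] at h3
  linarith
/-- The label vector is asymptotically orthogonal to regular families. -/
theorem Prep.inner_e (hR : 𝓜.R = ⊤) (hτ : τ₀ ≠ 0) (Pr : 𝓜.Prep τ₀) {ξ : ℝ → H} (hξ : 𝓜.RegF ξ) :
    (fun σ => ⟪Pr.e σ, ξ σ⟫_ℂ) =O[l0] fun σ => σ := by
  have hv : (fun σ => -(τ₀ • Pr.e σ)) =O[l0] fun _ => (1 : ℝ) :=
    ((QSF_e_isBigO Pr).const_smul_left τ₀).neg_left
  have h1 := ((tame_WQ hR (fun _ => 𝓜.invol_Z) hv).smul Pr.a₁_norm).reg _ hξ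
  have h2 := QSF_inner_WZ hR regF_Ω (h1.cw (A := fun _ => 𝓜.Z) (fun _ => 𝓜.invol_Z.cw)
    (Eventually.of_forall fun _ => le_rfl)) (half_pos (abs_pos.2 hτ)) (QSF_D_large hτ Pr)
  have h3 : (fun σ => ⟪Pr.e σ, Pr.Jm σ (ξ σ)⟫_ℂ) =O[l0] fun σ => σ := by
    refine (h2.norm_left.congr' ?_ EventuallyEq.rfl).of_norm_left
    filter_upwards [Pr.P_e] with σ h
    rw [Prep.Jm, mul_apply_eq_comp, ContinuousLinearMap.star_eq_adjoint,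
      ContinuousLinearMap.adjoint_inner_right, h, inner_smul_left, norm_mul, RCLike.norm_conj,
      Pr.a₂_norm, one_mul, ← ContinuousLinearMap.adjoint_inner_right 𝓜.Z,
      ← ContinuousLinearMap.adjoint_inner_right (𝓜.WZ (-Pr.D σ)),
      ← ContinuousLinearMap.star_eq_adjoint, ← ContinuousLinearMap.star_eq_adjoint, 𝓜.Z_star,
      WQ_star 𝓜.invol_Z (QSF_mem hR _), neg_neg]
  have h4 : (fun σ => ⟪Pr.e σ, (Pr.Jm σ - 1) (ξ σ)⟫_ℂ) =O[l0] fun σ => σ := by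
    refine IsBigO.trans (IsBigO.of_bound 1 ?_) (QSF_app (Pr.Jm_sub_one hR) hξ.isBigO)
    filter_upwards [Pr.e_norm] with σ h
    exact (norm_inner_le_norm _ _).trans (by rw [h])
  refine (h3.sub h4).congr_left fun σ => ?_
  rw [ContinuousLinearMap.sub_apply, inner_sub_right, one_apply_eq_self, sub_sub_cancel]

variable {Pr : 𝓜.Prep τ₀} {U M S : ℝ → H →L[ℂ] H}

theorem Sec.dec (hR : 𝓜.R = ⊤) (h : Sec Pr U M S) :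
    (fun σ => U σ 𝓜.Ω - (M σ 𝓜.Ω + (σ : ℂ) • Pr.a₂ σ • S σ 𝓜.Ω)) =O[l0] fun σ => σ ^ 2 := by
  have h1 := QSF_smul (a := fun σ => ((√(1 - σ ^ 2) : ℝ) : ℂ)) (g := fun _ => 1)
    (QSF_l0.mono fun σ h => by rw [norm_real, abs_one]; exact (QSF_sqrt h).2) (h.maj _ regF_Ω)
  have h2 := QSF_smul (a := fun σ => ((1 - √(1 - σ ^ 2) : ℝ) : ℂ)) (g := fun σ => σ ^ 2)
    (QSF_l0.mono fun σ h => by rw [norm_real, abs_sq]; exact (QSF_sqrt h).1)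
    (QSF_unit h.uM (regF_Ω (𝓜 := 𝓜)).isBigO)
  have h3 := QSF_smul (a := fun σ => (σ : ℂ) * Pr.a₂ σ) (g := fun σ => σ)
    (Eventually.of_forall fun σ => by rw [norm_mul, Pr.a₂_norm, norm_real, mul_one]; rfl)
    (h.seed _ regF_Ω)
  simp only [one_mul] at h1
  simp only [mul_one] at h2
  simp only [← pow_two] at h3
  refine ((h1.sub h2).add h3).congr' ?_ EventuallyEq.rfl
  filter_upwards [Pr.P_eq] with σ hσ
  have e : 𝓜.Ω = ((√(1 - σ ^ 2) : ℝ) : ℂ) • Pr.Jm σ 𝓜.Ω + ((σ : ℂ) * Pr.a₂ σ) • Pr.Js σ 𝓜.Ω := by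
    rw [Prep.Jm, Prep.Js, mul_apply_eq_comp, mul_apply_eq_comp, ← map_smul (star (Pr.P σ)),
      ← map_smul (star (Pr.P σ)), ← map_add]
    conv_lhs => rw [← QSF_star_apply ((Pr.reach σ).mem_unitary hR) 𝓜.Ω]
    congr 1
    rw [hσ]
    simp only [ContinuousLinearMap.add_apply, ContinuousLinearMap.smul_apply, mul_apply_eq_comp,
      𝓜.XΩ, smul_smul]
  have e' := congrArg (U σ) e
  rw [map_add, map_smul, map_smul] at e'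
  rw [e']
  push_cast
  match_scalars <;> ring

/-- First order description of `⟦Z⟧`. -/
theorem Sec.br_Z (hR : 𝓜.R = ⊤) (h : Sec Pr U M S) (hM : 𝓜.RegF fun σ => 𝓜.br (M σ) 𝓜.Z) {ς : ℝ}
    (hS : ∀ σ, star (S σ) * 𝓜.Z * S σ = (ς : ℂ) • 𝓜.Z) :
    (fun σ => 𝓜.br (U σ) 𝓜.Z - (Pr.Jm σ (𝓜.br (M σ) 𝓜.Z) + (ς * σ) • Pr.e σ)) =O[l0]
      fun σ => σ ^ 2 := by
  have hZ : 𝓜.RegF fun _ => 𝓜.Z 𝓜.Ω := regF_Ω.cw (A := fun _ => 𝓜.Z) (fun _ => 𝓜.invol_Z.cw)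
    (Eventually.of_forall fun _ => le_rfl)
  have hs := fun σ => Unitary.star_mem (h.uU σ)
  have h1 := QSF_unit hs (QSF_unit (fun _ => 𝓜.invol_Z.mem_unitary) (h.dec hR))
  have h2 := QSF_unit hs (h.maj _ hM)
  have h3 := (QSF_smul (a := fun σ => (σ : ℂ) * Pr.a₂ σ) (g := fun σ => σ)
    (Eventually.of_forall fun σ => by rw [norm_mul, Pr.a₂_norm, norm_real, mul_one]; rfl)
    (QSF_unit hs (h.seed _ hZ))).const_smul_left (ς : ℂ)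
  simp only [← pow_two] at h3
  refine ((h1.sub h2).sub h3).congr' ?_ EventuallyEq.rfl
  filter_upwards [Pr.P_e] with σ hσ
  have e1 : Pr.e σ = Pr.a₂ σ • Pr.Js σ (𝓜.Z 𝓜.Ω) := by
    rw [Prep.Js, mul_apply_eq_comp, ← map_smul, QSF_Z_WZ hR, ← hσ,
      QSF_star_apply ((Pr.reach σ).mem_unitary hR)]
  have e2 : 𝓜.Z (S σ 𝓜.Ω) = (ς : ℂ) • S σ (𝓜.Z 𝓜.Ω) := by
    rw [← map_smul, ← ContinuousLinearMap.smul_apply, ← hS σ, mul_apply_eq_comp, mul_apply_eq_comp,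
      QSF_apply_star (h.uS σ)]
  simp only [Pi.smul_apply, map_sub, map_add, map_smul, QSF_star_apply (h.uU σ), e2,
    𝓜.QBase_apply_br (h.uM σ)]
  have e3 : 𝓜.br (U σ) 𝓜.Z = star (U σ) (𝓜.Z (U σ 𝓜.Ω)) := rfl
  rw [← Complex.coe_smul, e1, e3]
  push_cast
  match_scalars <;> ring

/-- Zeroth order description of `⟦O⟧`. -/
theorem Sec.br_approx (hR : 𝓜.R = ⊤) (h : Sec Pr U M S) {O : H →L[ℂ] H}
    (hM : 𝓜.RegF fun σ => 𝓜.br (M σ) O) :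
    (fun σ => 𝓜.br (U σ) O - 𝓜.br (M σ) O) =O[l0] fun σ => σ := by
  have h1 := QSF_smul (a := fun σ => (σ : ℂ) * Pr.a₂ σ) (g := fun σ => σ)
    (Eventually.of_forall fun σ => by rw [norm_mul, Pr.a₂_norm, norm_real, mul_one]; rfl)
    (QSF_unit h.uS (regF_Ω (𝓜 := 𝓜)).isBigO)
  simp only [mul_one] at h1
  have h2 : (fun σ => U σ 𝓜.Ω - M σ 𝓜.Ω) =O[l0] fun σ => σ :=
    (((h.dec hR).trans QSF_sq).add h1).congr_left fun σ => by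
      rw [smul_smul]
      abel
  have h3 : (fun σ => U σ (𝓜.br (M σ) O) - M σ (𝓜.br (M σ) O)) =O[l0] fun σ => σ :=
    (((h.maj _ hM).trans QSF_sq).sub
      (QSF_unit h.uU (QSF_app (Pr.Jm_sub_one hR) hM.isBigO))).congr_left fun σ => by
        rw [ContinuousLinearMap.sub_apply, one_apply_eq_self, map_sub]
        abel
  exact (IsBigO.of_norm_le fun σ => 𝓜.norm_br_sub_le (h.uU σ) (h.uM σ) O).trans
    ((h2.norm_left.const_mul_left _).add h3.norm_left)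

theorem Sec.mul (h : Sec Pr U M S) {G : ℝ → H →L[ℂ] H} (hG : ∀ σ, G σ ∈ unitary (H →L[ℂ] H)) :
    Sec Pr (fun σ => G σ * U σ) (fun σ => G σ * M σ) fun σ => G σ * S σ := by
  refine ⟨fun σ => mul_mem (hG σ) (h.uU σ), fun σ => mul_mem (hG σ) (h.uM σ),
    fun σ => mul_mem (hG σ) (h.uS σ), fun ξ hξ => (QSF_unit hG (h.maj ξ hξ)).congr_left fun σ => ?_,
    fun ξ hξ => (QSF_unit hG (h.seed ξ hξ)).congr_left fun σ => ?_⟩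
  · rw [map_sub, mul_apply_eq_comp, mul_apply_eq_comp]
  · rw [map_sub, mul_apply_eq_comp, mul_apply_eq_comp]

theorem sinv_zero (hR : 𝓜.R = ⊤) (Pr : 𝓜.Prep τ₀) (β γ τ : ℕ → ℝ) :
    Nonempty (SInv Pr β γ τ 0 τ₀) := by
  have hu := fun σ => (Pr.reach σ).mem_unitary hR
  refine ⟨⟨Pr.P, fun _ _ => 0, fun σ => τ₀ • Pr.e σ, Pr.D, Pr.a₁, fun _ => 1, fun _ => 1, false,
    Pr.reach, Pr.a₁_norm, fun _ => norm_one, fun _ => norm_one, ?_,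
    fun i hi => absurd hi (Nat.not_lt_zero i), by simp, ?_⟩⟩
  · simp only [Uo, mul_one, QSF_dg_one, one_mul, Xe, Bool.false_eq_true, if_false]
    refine ⟨hu, fun σ => QSF_smul_unitary (Pr.a₁_norm σ) (QSF_WZ_unitary hR _),
      fun σ => QSF_WZ_unitary hR _, fun ξ _ => (isBigO_zero _ _).congr_left fun σ => ?_,
      fun ξ _ => (isBigO_zero _ _).congr_left fun σ => ?_⟩
    · rw [Prep.Jm, mul_apply_eq_comp, QSF_apply_star (hu σ), sub_self]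
    · rw [Prep.Js, mul_apply_eq_comp, QSF_apply_star (hu σ), sub_self]
  · simpa [sgE, go, Uo, br] using Pr.D_lim

end Weyl

end Crest.Agent.R339
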