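import Crest.Agent.R339.QSeedFlipAux2

/-! # Row 339: flipping the seeds between two large cost rotations -/

set_option autoImplicit false
set_option linter.unusedSectionVars false

namespace Crest.Agent.R339

open MeasureTheory ProbabilityTheory Complex Filter Topology Asymptotics
open scoped InnerProductSpace

variable {H : Type} [NormedAddCommGroup H] [InnerProductSpace ℂ H] [CompleteSpace H]

namespace Weyl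

variable {𝓜 : Weyl H}

theorem Fl_br_WQ (hR : 𝓜.R = ⊤) {Q : H →L[ℂ] H} (hQ : 𝓜.Invol Q) (u : H) (V : H →L[ℂ] H) :
    𝓜.br (𝓜.WQ Q u * V) Q = 𝓜.br V Q := by
  rw [br_mul, mul_assoc, WQ_comm hQ hQ.cw rfl (Fl_mem hR u), ← mul_assoc,
    Unitary.star_mul_self_of_mem (WQ_unitary hQ (Fl_mem hR u)), one_mul]

theorem Fl_br_sub (V O O' : H →L[ℂ] H) : 𝓜.br V O - 𝓜.br V O' = 𝓜.br V (O - O') := by
  simp only [br, sub_apply, map_sub]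

theorem Fl_reach (hR : 𝓜.R = ⊤) {V : H →L[ℂ] H} (hV : 𝓜.QReach V) (α γ : ℝ) :
    𝓜.QReach (𝓜.WQ (star (𝓜.B α) * 𝓜.Z * 𝓜.B α)
      (-(γ • 𝓜.br V (star (𝓜.B α) * 𝓜.Z * 𝓜.B α))) * V) := by
  have h := QReach.B (-α) (QReach.C γ (QReach.B α hV))
  rw [C, br_mul, ← B_star, ← mul_assoc, ← mul_assoc,
    WQ_conj 𝓜.invol_Z (𝓜.B_unitary α) (𝓜.B_cw α) (Fl_mem hR _)] at h
  exact h

theorem Fl_ZaZ (α : ℝ) : star (𝓜.B α) * 𝓜.Z * 𝓜.B α * (𝓜.Z * (star (𝓜.B α) * 𝓜.Z * 𝓜.B α * 𝓜.Z)) =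
    𝓜.B (-(4 * α)) := by
  have h : star (𝓜.B α) * 𝓜.Z * 𝓜.B α * 𝓜.Z = 𝓜.B (-(2 * α)) := by
    rw [B_star, mul_assoc (𝓜.B (-α)), Z_B, ← mul_assoc, ← B_add, mul_assoc, 𝓜.Z_sq, mul_one]
    congr 1
    ring
  rw [← mul_assoc, h, ← B_add]
  congr 1
  ring

theorem Fl_smul_O {r : ℝ → ℝ} {x : ℝ → H} {C : ℝ} (hr : r =O[l0] fun σ => σ)
    (hx : ∀ᶠ σ in l0, σ * ‖x σ‖ ≤ C) : (fun σ => r σ • x σ) =O[l0] fun _ => (1 : ℝ) := by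
  obtain ⟨B, hB0, hB⟩ := Fl_O1 hr
  refine Fl_of0 (C := B * C) ?_
  filter_upwards [hB, hx] with σ h1 h2
  rw [norm_smul]
  have h3 : ‖r σ‖ * ‖x σ‖ ≤ B * σ * ‖x σ‖ := mul_le_mul_of_nonneg_right h1 (norm_nonneg _)
  have h4 : B * (σ * ‖x σ‖) ≤ B * C := mul_le_mul_of_nonneg_left h2 hB0
  linarith

theorem Fl_inv_O {ω : ℝ → ℝ} {c : ℝ} (hc : 0 < c) (h : ∀ᶠ σ in l0, c ≤ |σ * ω σ|) :
    ((fun σ => Real.pi / (4 * ω σ)) =O[l0] fun σ => σ) ∧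
      ∀ᶠ σ in l0, 2 * (Real.pi / (4 * ω σ) * ω σ) = Real.pi / 2 := by
  constructor
  · refine Fl_of1 (C := 1 / c) ?_
    filter_upwards [h, Fl_pos] with σ h hσ
    rw [abs_mul, abs_of_pos hσ] at h
    have h0 : 0 < |ω σ| := by
      by_contra hcon
      have : σ * |ω σ| ≤ 0 := mul_nonpos_of_nonneg_of_nonpos hσ.le (not_lt.1 hcon)
      linarith
    rw [Real.norm_eq_abs, abs_div, abs_mul, abs_of_pos Real.pi_pos, abs_of_pos (by norm_num : (0 : ℝ) < 4),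
      div_mul_eq_mul_div, div_le_div_iff₀ (by positivity) hc]
    nlinarith [Real.pi_le_four]
  · filter_upwards [h] with σ h
    have h0 : ω σ ≠ 0 := by
      rintro h0
      rw [h0, mul_zero, abs_zero] at h
      linarith
    field_simp
    norm_num

theorem Fl_unit_smul {r : ℝ → ℝ} {x : ℝ → H} {k : ℝ → ℝ} (hr : r =O[l0] k) (hx : ∀ σ, ‖x σ‖ = 1) :
    (fun σ => r σ • x σ) =O[l0] k :=
  Fl_le hr 1 fun σ => by rw [norm_smul, hx, one_mul, mul_one]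

theorem Fl_smul11 {r : ℝ → ℝ} {x : ℝ → H} (hr : r =O[l0] fun σ => σ) (hx : x =O[l0] fun σ => σ) :
    (fun σ => r σ • x σ) =O[l0] fun σ => σ ^ 2 := by
  have := hr.norm_left.mul hx.norm_left
  simp only [← sq] at this
  exact Fl_le this 1 fun σ => by rw [norm_smul, one_mul, norm_mul, norm_norm, norm_norm]

theorem Fl_choice (ω y : ℝ) : ∃ ε : ℝ, (ε = 1 ∨ ε = -1) ∧
    |ω| / 2 ≤ |Real.cos (2 * (ε * (Real.pi / 8))) * ω + Real.sin (2 * (ε * (Real.pi / 8))) * y| := by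
  have key : ∀ y : ℝ, 0 ≤ ω * y → |ω| / 2 ≤ |√2 / 2 * ω + √2 / 2 * y| := fun y hy => by
    have h2 : √2 ^ 2 = 2 := Real.sq_sqrt (by norm_num)
    have h3 : |ω| / 2 = |ω / 2| := by rw [abs_div, abs_two]
    rw [h3, ← sq_le_sq]
    have : (√2 / 2 * ω + √2 / 2 * y) ^ 2 = √2 ^ 2 / 4 * (ω + y) ^ 2 := by ring
    rw [this, h2]
    nlinarith [sq_nonneg y, sq_nonneg ω]
  by_cases h : 0 ≤ ω * y
  · refine ⟨1, Or.inl rfl, ?_⟩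
    rw [show 2 * (1 * (Real.pi / 8)) = Real.pi / 4 by ring, Real.cos_pi_div_four,
      Real.sin_pi_div_four]
    exact key y h
  · refine ⟨-1, Or.inr rfl, ?_⟩
    rw [show 2 * (-1 * (Real.pi / 8)) = -(Real.pi / 4) by ring, Real.cos_neg, Real.sin_neg,
      Real.cos_pi_div_four, Real.sin_pi_div_four, neg_mul, ← mul_neg]
    exact key (-y) (by linarith)

theorem Fl_B_quarter {ε : ℝ} (hε : ε = 1 ∨ ε = -1) (x : H) :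
    𝓜.B (-(4 * (ε * (Real.pi / 8)))) x = 𝓜.X (𝓜.dg (I * ε) (I * ε) x) := by
  have h1 : 𝓜.dg (I * ε) (I * ε) = (I * ε) • (1 : H →L[ℂ] H) := by
    rw [dg]
    match_scalars <;> ring
  have h2 : 𝓜.B (-(4 * (ε * (Real.pi / 8)))) = (I * ε) • 𝓜.X := by
    rw [show -(4 * (ε * (Real.pi / 8))) = -(ε * (Real.pi / 2)) by ring, B]
    rcases hε with rfl | rfl <;> simp
  rw [h1, h2]
  simp

theorem flip (hR : 𝓜.R = ⊤) {U : ℝ → H →L[ℂ] H} (hU : ∀ σ, 𝓜.QReach (U σ)) {a b d : ℝ → H}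
    {t : ℝ → ℝ} (ha : 𝓜.RegF a) (hb : 𝓜.RegF b)
    (hdec : (fun σ => U σ 𝓜.Ω - (a σ + (σ : ℂ) • 𝓜.WZ (-d σ) (b σ))) =O[l0] fun σ => σ ^ 2)
    {c C : ℝ} (hc : 0 < c) (hd : ∀ᶠ σ in l0, c ≤ |σ * (⟪𝓜.br (U σ) 𝓜.Z, d σ⟫_ℂ).im|)
    (hdC : ∀ᶠ σ in l0, σ * ‖d σ‖ ≤ C) (ht : ∀ᶠ σ in l0, c ≤ |σ * t σ| ∧ |σ * t σ| ≤ C) :
    ∃ (F : ℝ → H →L[ℂ] H) (p m : ℝ → ℂ), (∀ σ, F σ ∈ unitary (H →L[ℂ] H)) ∧
      (∀ σ, ‖p σ‖ = 1) ∧ (∀ σ, ‖m σ‖ = 1) ∧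
      (∀ σ, 𝓜.QReach (F σ * (𝓜.WZ (t σ • 𝓜.br (U σ) 𝓜.Z) * U σ))) ∧
      (∀ ξ, 𝓜.RegF ξ → (fun σ => F σ (𝓜.WZ (t σ • 𝓜.br (U σ) 𝓜.Z) (ξ σ)) -
        𝓜.WZ (t σ • 𝓜.br (U σ) 𝓜.Z) (ξ σ)) =O[l0] fun σ => σ ^ 2) ∧
      ∀ ζ, 𝓜.RegF ζ → (fun σ => F σ (𝓜.WZ (-(d σ - t σ • 𝓜.br (U σ) 𝓜.Z)) (ζ σ)) -
        𝓜.X (𝓜.dg (p σ) (m σ) (𝓜.WZ (-(d σ - t σ • 𝓜.br (U σ) 𝓜.Z)) (ζ σ)))) =O[l0]
          fun σ => σ := by
  have mem := Fl_mem hR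
  have iZ := 𝓜.invol_Z
  obtain ⟨g, hg⟩ : ∃ g : ℝ → H, ∀ σ, g σ = 𝓜.br (U σ) 𝓜.Z := ⟨_, fun _ => rfl⟩
  simp only [← hg] at hd ⊢
  obtain ⟨v, hv⟩ : ∃ v : ℝ → H, ∀ σ, v σ = t σ • g σ := ⟨_, fun _ => rfl⟩
  simp only [← hv]
  obtain ⟨w, hw⟩ : ∃ w : ℝ → H, ∀ σ, w σ = d σ - v σ := ⟨_, fun _ => rfl⟩
  simp only [← hw]
  have uU := fun σ => (hU σ).mem_unitary hR
  have ng : ∀ σ, ‖g σ‖ = 1 := fun σ => by rw [hg, 𝓜.norm_br_invol (uU σ) iZ]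
  have nv : ∀ᶠ σ in l0, c ≤ σ * ‖v σ‖ ∧ σ * ‖v σ‖ ≤ C := by
    filter_upwards [ht, Fl_pos] with σ h hσ
    rwa [hv, norm_smul, ng, mul_one, Real.norm_eq_abs, ← abs_of_pos hσ, ← abs_mul, abs_of_pos hσ]
  have nw : ∀ᶠ σ in l0, σ * ‖w σ‖ ≤ C + C := by
    filter_upwards [nv, hdC, Fl_pos] with σ h h' hσ
    have := mul_le_mul_of_nonneg_left (norm_sub_le (d σ) (v σ)) hσ.le
    rw [hw]
    linarith [h.2]
  have nt : ∀ᶠ σ in l0, σ * ‖t σ‖ ≤ C := by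
    filter_upwards [ht, Fl_pos] with σ h hσ
    rw [Real.norm_eq_abs, ← abs_of_pos hσ, ← abs_mul, abs_of_pos hσ]
    exact h.2
  have igv : ∀ σ, (⟪g σ, v σ⟫_ℂ).im = 0 := fun σ => by
    rw [hv, Fl_im_smul_right, Fl_im_self, mul_zero]
  have hd' : ∀ᶠ σ in l0, c ≤ |σ * (⟪g σ, w σ⟫_ℂ).im| := by
    filter_upwards [hd] with σ h
    rwa [hw, inner_sub_right, sub_im, igv, sub_zero]
  -- the state after the large rotation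
  obtain ⟨U0, hU0⟩ : ∃ U0 : ℝ → H →L[ℂ] H, ∀ σ, U0 σ = 𝓜.WZ (v σ) * U σ := ⟨_, fun _ => rfl⟩
  have r0 : ∀ σ, 𝓜.QReach (U0 σ) := fun σ => by
    have := QReach.C (-t σ) (hU σ)
    rwa [Weyl.C, neg_smul, neg_neg, ← hg, ← hv, ← hU0] at this
  have g0 : ∀ σ, 𝓜.br (U0 σ) 𝓜.Z = g σ := fun σ => by rw [hU0, Fl_br_WQ hR iZ, hg]
  -- first gate
  obtain ⟨o1, e1⟩ := Fl_inv_O hc hd'
  obtain ⟨t1, ht1⟩ : ∃ t1 : ℝ → ℝ, ∀ σ, t1 σ = Real.pi / (4 * (⟪g σ, w σ⟫_ℂ).im) :=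
    ⟨_, fun _ => rfl⟩
  simp only [← ht1] at o1 e1
  obtain ⟨U1, hU1⟩ : ∃ U1 : ℝ → H →L[ℂ] H, ∀ σ, U1 σ = 𝓜.WZ (-(t1 σ • g σ)) * U0 σ :=
    ⟨_, fun _ => rfl⟩
  have r1 : ∀ σ, 𝓜.QReach (U1 σ) := fun σ => by
    have := QReach.C (t1 σ) (r0 σ)
    rwa [Weyl.C, g0, ← hU1] at this
  have u1 := fun σ => (r1 σ).mem_unitary hR
  have g1 : ∀ σ, 𝓜.br (U1 σ) 𝓜.Z = g σ := fun σ => by rw [hU1, Fl_br_WQ hR iZ, g0]
  -- second gate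
  choose ε hε hε' using fun σ => Fl_choice (⟪g σ, w σ⟫_ℂ).im (⟪𝓜.br (U1 σ) 𝓜.Y, w σ⟫_ℂ).im
  obtain ⟨Za, hZa⟩ : ∃ Za : ℝ → H →L[ℂ] H, ∀ σ, Za σ = star (𝓜.B (ε σ * (Real.pi / 8))) * 𝓜.Z *
      𝓜.B (ε σ * (Real.pi / 8)) := ⟨_, fun _ => rfl⟩
  have iA : ∀ σ, 𝓜.Invol (Za σ) := fun σ => by
    rw [hZa]
    exact iZ.conj (𝓜.B_unitary _) (𝓜.B_cw _)
  obtain ⟨h2, hh2⟩ : ∃ h2 : ℝ → H, ∀ σ, h2 σ = 𝓜.br (U1 σ) (Za σ) := ⟨_, fun _ => rfl⟩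
  have n2 : ∀ σ, ‖h2 σ‖ = 1 := fun σ => by rw [hh2, 𝓜.norm_br_invol (u1 σ) (iA σ)]
  have hd2 : ∀ᶠ σ in l0, c / 2 ≤ |σ * (⟪h2 σ, w σ⟫_ℂ).im| := by
    filter_upwards [hd', Fl_pos] with σ h hσ
    have e : h2 σ = Real.cos (2 * (ε σ * (Real.pi / 8))) • g σ +
        Real.sin (2 * (ε σ * (Real.pi / 8))) • 𝓜.br (U1 σ) 𝓜.Y := by
      rw [hh2, hZa, B_conj_Z, ← g1, ← Complex.coe_smul _ (𝓜.br _ 𝓜.Z),
        ← Complex.coe_smul _ (𝓜.br _ 𝓜.Y)]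
      simp only [br, add_apply, smul_apply, map_add, map_smul]
    have h3 := mul_le_mul_of_nonneg_left (hε' σ) hσ.le
    rw [e, inner_add_left, add_im, Fl_im_smul_left, Fl_im_smul_left, abs_mul, abs_of_pos hσ]
    rw [abs_mul, abs_of_pos hσ] at h
    linarith
  obtain ⟨o2, e2⟩ := Fl_inv_O (half_pos hc) hd2
  obtain ⟨t2, ht2⟩ : ∃ t2 : ℝ → ℝ, ∀ σ, t2 σ = Real.pi / (4 * (⟪h2 σ, w σ⟫_ℂ).im) :=
    ⟨_, fun _ => rfl⟩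
  simp only [← ht2] at o2 e2
  obtain ⟨K2, hK2⟩ : ∃ K2 : ℝ → H →L[ℂ] H, K2 = fun σ => 𝓜.WQ (Za σ) (-(t2 σ • h2 σ)) := ⟨_, rfl⟩
  have r2 : ∀ σ, 𝓜.QReach (K2 σ * U1 σ) := fun σ => by
    have := Fl_reach hR (r1 σ) (ε σ * (Real.pi / 8)) (t2 σ)
    rw [← hZa, ← hh2] at this
    rw [hK2]
    exact this
  -- third gate
  obtain ⟨h3, hh3⟩ : ∃ h3 : ℝ → H, ∀ σ, h3 σ = 𝓜.br (K2 σ * U1 σ) 𝓜.Z := ⟨_, fun _ => rfl⟩
  have n3 : ∀ σ, ‖h3 σ‖ = 1 := fun σ => by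
    rw [hh3, 𝓜.norm_br_invol ((r2 σ).mem_unitary hR) iZ]
  obtain ⟨K3, hK3⟩ : ∃ K3 : ℝ → H →L[ℂ] H, K3 = fun σ => 𝓜.WQ 𝓜.Z (t1 σ • h3 σ) := ⟨_, rfl⟩
  have r3 : ∀ σ, 𝓜.QReach (K3 σ * K2 σ * U1 σ) := fun σ => by
    have := QReach.C (-t1 σ) (r2 σ)
    rw [Weyl.C, neg_smul, neg_neg, ← hh3, ← mul_assoc] at this
    rw [hK3]
    exact this
  -- fourth gate
  obtain ⟨h4, hh4⟩ : ∃ h4 : ℝ → H, ∀ σ, h4 σ = 𝓜.br (K3 σ * K2 σ * U1 σ) (Za σ) :=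
    ⟨_, fun _ => rfl⟩
  have n4 : ∀ σ, ‖h4 σ‖ = 1 := fun σ => by
    rw [hh4, 𝓜.norm_br_invol ((r3 σ).mem_unitary hR) (iA σ)]
  have r4 : ∀ σ, 𝓜.QReach (𝓜.WQ (Za σ) (t2 σ • h4 σ) * (K3 σ * K2 σ * U1 σ)) := fun σ => by
    have := Fl_reach hR (r3 σ) (ε σ * (Real.pi / 8)) (-t2 σ)
    rwa [← hZa, ← hh4, neg_smul, neg_neg] at this
  -- sizes
  have s1 : (fun σ => -(t1 σ • g σ)) =O[l0] fun σ => σ := (Fl_unit_smul o1 ng).neg_left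
  have s2 : (fun σ => -(t2 σ • h2 σ)) =O[l0] fun σ => σ := (Fl_unit_smul o2 n2).neg_left
  have s3 : (fun σ => t1 σ • h3 σ) =O[l0] fun σ => σ := Fl_unit_smul o1 n3
  have s4 : (fun σ => t2 σ • h4 σ) =O[l0] fun σ => σ := Fl_unit_smul o2 n4
  have tt : ∀ {r : ℝ → ℝ}, (r =O[l0] fun σ => σ) → (fun σ => r σ * t σ) =O[l0] fun _ => (1 : ℝ) := by
    intro r hr
    obtain ⟨B, hB0, hB⟩ := Fl_O1 hr
    refine Fl_of0 (C := B * C) ?_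
    filter_upwards [hB, nt] with σ h1 h2
    rw [norm_mul]
    have h3 : ‖r σ‖ * ‖t σ‖ ≤ B * σ * ‖t σ‖ := mul_le_mul_of_nonneg_right h1 (norm_nonneg _)
    have h4 : B * (σ * ‖t σ‖) ≤ B * C := mul_le_mul_of_nonneg_left h2 hB0
    linarith
  have ang : ∀ {r k : ℝ → ℝ} {x : ℝ → H}, (r =O[l0] fun σ => σ) →
      ((fun σ => (⟪g σ, x σ⟫_ℂ).im) =O[l0] k) →
      (fun σ => (⟪r σ • x σ, v σ⟫_ℂ).im) =O[l0] k := by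
    intro r k x hr hx
    have := ((tt hr).mul hx).neg_left
    simp only [one_mul] at this
    refine this.congr_left fun σ => ?_
    rw [hv, Fl_im_smul_left, Fl_im_smul_right, QBase_im_symm (x σ)]
    ring
  have i1 : (fun σ => (⟪-(t1 σ • g σ), v σ⟫_ℂ).im) =O[l0] fun σ => σ :=
    Fl_im_neg' (ang o1 (by simpa only [Fl_im_self] using isBigO_zero _ _))
  have hψ : (fun σ => U1 σ 𝓜.Ω - 𝓜.WZ (v σ) (a σ)) =O[l0] fun σ => σ := by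
    have b1 : (fun σ => (σ : ℂ) • 𝓜.WZ (-d σ) (b σ)) =O[l0] fun σ => σ := by
      have := (isBigO_refl (fun σ : ℝ => σ) l0).norm_left.mul hb.isBigO.norm_left
      simp only [mul_one] at this
      refine Fl_le this 1 fun σ => ?_
      rw [norm_smul, ContinuousLinearMap.norm_map_of_mem_unitary (WQ_unitary iZ (mem _)),
        Complex.norm_real, one_mul, norm_mul, norm_norm, norm_norm]
    have b2 : (fun σ => U σ 𝓜.Ω - a σ) =O[l0] fun σ => σ :=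
      ((Fl_21 hdec).add b1).congr_left fun σ => by abel
    have b3 := Fl_unit (fun σ => WQ_unitary iZ (mem (-(t1 σ • g σ))))
      (Fl_unit (fun σ => WQ_unitary iZ (mem (v σ))) b2)
    have b4 := Fl_split hR (v := v) (F := fun σ => 𝓜.WZ (-(t1 σ • g σ))) (A := fun _ => 1)
      (fun _ => 𝓜.cw_one) (fun η hη => ((smG_cj hR (fun _ => iZ) s1 i1).d1 η hη).isBigO)
      (fun η hη => ((smG_cj hR (fun _ => iZ) s1 (Fl_im_neg i1)).d1 η hη).isBigO) ha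
    refine (b3.add b4).congr_left fun σ => ?_
    simp only [hU1, hU0, mul_apply_eq_comp, map_sub, one_apply_eq_self]
    abel
  have hv' := nv.mono fun σ h => h.1
  have ib : ∀ σ O, ⟪g σ, 𝓜.br (U1 σ) O⟫_ℂ = ⟪𝓜.Z (U1 σ 𝓜.Ω), O (U1 σ 𝓜.Ω)⟫_ℂ := fun σ O => by
    rw [← g1, 𝓜.inner_br (u1 σ)]
  have i2 : (fun σ => (⟪-(t2 σ • h2 σ), v σ⟫_ℂ).im) =O[l0] fun σ => σ :=
    Fl_im_neg' (ang o2 (by simpa only [hh2, ib] using Fl_img0 hR iA ha hψ hc hv'))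
  have f2 : 𝓜.Fr v K2 := by rw [hK2]; exact fr_WQ hR iA s2 i2
  have f2' : 𝓜.Fr (fun σ => -v σ) K2 := by rw [hK2]; exact fr_WQ hR iA s2 (Fl_im_neg i2)
  have uK2 : ∀ σ, K2 σ ∈ unitary (H →L[ℂ] H) := fun σ => by
    rw [hK2]; exact WQ_unitary (iA σ) (mem _)
  have uK3 : ∀ σ, K3 σ ∈ unitary (H →L[ℂ] H) := fun σ => by
    rw [hK3]; exact WQ_unitary iZ (mem _)
  obtain ⟨m3, m3'⟩ := Fl_img hR (fun _ => iZ) uK2 f2 f2' ha hψ hc hv'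
  have d3 : ∀ σ, h3 σ - g σ = 𝓜.br (U1 σ) (star (K2 σ) * 𝓜.Z * K2 σ - 𝓜.Z) := fun σ => by
    rw [hh3, br_mul, ← g1, Fl_br_sub]
  have c3 : (fun σ => h3 σ - g σ) =O[l0] fun σ => σ :=
    Fl_le m3 1 fun σ => by rw [d3, 𝓜.norm_br (u1 σ), one_mul]
  have j3 : (fun σ => (⟪t1 σ • h3 σ + -(t1 σ • g σ), v σ⟫_ℂ).im) =O[l0] fun σ => σ ^ 2 := by
    simp only [← sub_eq_add_neg, ← smul_sub]
    exact ang o1 (by simpa only [d3, ib] using m3')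
  have i3 : (fun σ => (⟪t1 σ • h3 σ, v σ⟫_ℂ).im) =O[l0] fun σ => σ :=
    ((Fl_21 j3).sub i1).congr_left fun σ => by rw [inner_add_left, add_im]; ring
  have f3 : 𝓜.Fr v K3 := by rw [hK3]; exact fr_WQ hR (fun _ => iZ) s3 i3
  have f3' : 𝓜.Fr (fun σ => -v σ) K3 := by
    rw [hK3]; exact fr_WQ hR (fun _ => iZ) s3 (Fl_im_neg i3)
  obtain ⟨m4, m4'⟩ := Fl_img hR iA (fun σ => mul_mem (uK3 σ) (uK2 σ)) (f3.mul hR f2)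
    (f3'.mul hR f2') ha hψ hc hv'
  have d4 : ∀ σ, h4 σ - h2 σ =
      𝓜.br (U1 σ) (star (K3 σ * K2 σ) * Za σ * (K3 σ * K2 σ) - Za σ) := fun σ => by
    rw [hh4, br_mul, hh2, Fl_br_sub]
  have c4 : (fun σ => h4 σ - h2 σ) =O[l0] fun σ => σ :=
    Fl_le m4 1 fun σ => by rw [d4, 𝓜.norm_br (u1 σ), one_mul]
  have j4 : (fun σ => (⟪t2 σ • h4 σ + -(t2 σ • h2 σ), v σ⟫_ℂ).im) =O[l0] fun σ => σ ^ 2 := by
    simp only [← sub_eq_add_neg, ← smul_sub]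
    exact ang o2 (by simpa only [d4, ib] using m4')
  have s13 : (fun σ => t1 σ • h3 σ + -(t1 σ • g σ)) =O[l0] fun σ => σ ^ 2 := by
    simp only [← sub_eq_add_neg, ← smul_sub]
    exact Fl_smul11 o1 c3
  have s24 : (fun σ => t2 σ • h4 σ + -(t2 σ • h2 σ)) =O[l0] fun σ => σ ^ 2 := by
    simp only [← sub_eq_add_neg, ← smul_sub]
    exact Fl_smul11 o2 c4
  -- the seed frame
  have ws : ∀ {r : ℝ → ℝ} {x : ℝ → H}, (r =O[l0] fun σ => σ) → (x =O[l0] fun σ => σ) →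
      (fun σ => (⟪r σ • x σ, w σ⟫_ℂ).im) =O[l0] fun σ => σ := by
    intro r x hr hx
    have := Fl_im_O hx (Fl_smul_O hr nw)
    simp only [mul_one] at this
    refine this.congr_left fun σ => ?_
    rw [Fl_im_smul_left, Fl_im_smul_right]
  have k3 : (fun σ => (⟪t1 σ • h3 σ + -(t1 σ • g σ), w σ⟫_ℂ).im) =O[l0] fun σ => σ := by
    simp only [← sub_eq_add_neg, ← smul_sub]
    exact ws o1 c3
  have k4 : (fun σ => (⟪t2 σ • h4 σ + -(t2 σ • h2 σ), w σ⟫_ℂ).im) =O[l0] fun σ => σ := by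
    simp only [← sub_eq_add_neg, ← smul_sub]
    exact ws o2 c4
  have ex : ∀ {r : ℝ → ℝ} {x : ℝ → H}, (∀ᶠ σ in l0, 2 * (r σ * (⟪x σ, w σ⟫_ℂ).im) = Real.pi / 2) →
      ((fun σ => 2 * (⟪-(r σ • x σ), -w σ⟫_ℂ).im - 1 * (Real.pi / 2)) =O[l0] fun σ => σ) ∧
      (fun σ => 2 * (⟪-(r σ • x σ), - -w σ⟫_ℂ).im - -1 * (Real.pi / 2)) =O[l0] fun σ => σ := by
    intro r x h
    constructor
    · refine (isBigO_zero _ _).congr' ?_ EventuallyEq.rfl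
      filter_upwards [h] with σ h
      rw [inner_neg_neg, Fl_im_smul_left, h]
      ring
    · refine (isBigO_zero _ _).congr' ?_ EventuallyEq.rfl
      filter_upwards [h] with σ h
      rw [inner_neg_neg, inner_neg_right, neg_im, Fl_im_smul_left, mul_neg, h]
      ring
  refine ⟨fun σ => 𝓜.WQ (Za σ) (t2 σ • h4 σ) * (𝓜.WQ 𝓜.Z (t1 σ • h3 σ) *
    (𝓜.WQ (Za σ) (-(t2 σ • h2 σ)) * 𝓜.WQ 𝓜.Z (-(t1 σ • g σ)))), fun σ => I * ε σ, fun σ => I * ε σ,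
    fun σ => ?_, fun σ => ?_, fun σ => ?_, fun σ => ?_, fun ξ hξ => ?_, fun ζ hζ => ?_⟩
  · exact mul_mem (WQ_unitary (iA σ) (mem _)) (mul_mem (WQ_unitary iZ (mem _))
      (mul_mem (WQ_unitary (iA σ) (mem _)) (WQ_unitary iZ (mem _))))
  · rcases hε σ with h | h <;> simp [h]
  · rcases hε σ with h | h <;> simp [h]
  · have := r4 σ
    rw [hK3, hK2, hU1, hU0] at this
    simpa only [mul_assoc] using this
  · exact Fl_split hR (A := fun _ => 1) (fun _ => 𝓜.cw_one)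
      (Fl_maj hR (fun _ => iZ) iA s1 s2 s3 i1 i2 i3 s13 s24 j3 j4)
      (Fl_maj hR (fun _ => iZ) iA s1 s2 s3 (Fl_im_neg i1) (Fl_im_neg i2) (Fl_im_neg i3) s13 s24
        (Fl_im_neg j3) (Fl_im_neg j4)) hξ
  · have := Fl_split hR (v := fun σ => -w σ) (A := fun σ => Za σ * (𝓜.Z * (Za σ * 𝓜.Z)))
      (fun σ => (iA σ).cw.mul (iZ.cw.mul ((iA σ).cw.mul iZ.cw)))
      (Fl_seed hR (fun _ => iZ) iA s1 s2 s3 s4 (Or.inl rfl) (ex e1).1 (ex e2).1 (Fl_im_neg k3)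
        (Fl_im_neg k4))
      (Fl_seed hR (fun _ => iZ) iA s1 s2 s3 s4 (Or.inr rfl) (ex e1).2 (ex e2).2
        (Fl_im_neg (Fl_im_neg k3)) (Fl_im_neg (Fl_im_neg k4))) hζ
    refine this.congr_left fun σ => ?_
    rw [← Fl_B_quarter (hε σ), ← Fl_ZaZ, ← hZa]

end Weyl

end Crest.Agent.R339
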