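import Crest.Agent.R339.QSeedFam

/-! # Row 339: small families and small gates (auxiliary file for the displaced flip) -/

set_option autoImplicit false
set_option linter.unusedSectionVars false
set_option linter.unusedVariables false

namespace Crest.Agent.R339

open MeasureTheory ProbabilityTheory Complex Filter Topology Asymptotics
open scoped InnerProductSpace

variable {H : Type} [NormedAddCommGroup H] [InnerProductSpace ℂ H] [CompleteSpace H]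

theorem Fl_pos : ∀ᶠ σ in l0, (0 : ℝ) < σ := self_mem_nhdsWithin

theorem Fl_le_one : ∀ᶠ σ in l0, σ ≤ (1 : ℝ) :=
  mem_nhdsWithin_of_mem_nhds (Iic_mem_nhds one_pos)

section O
variable {E : Type} [NormedAddCommGroup E] {f : ℝ → E}

theorem Fl_O1 (h : f =O[l0] fun σ => σ) : ∃ C : ℝ, 0 ≤ C ∧ ∀ᶠ σ in l0, ‖f σ‖ ≤ C * σ := by
  obtain ⟨C, hC, h⟩ := h.exists_pos
  refine ⟨C, hC.le, ?_⟩
  filter_upwards [h.bound, Fl_pos] with σ h1 h2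
  rwa [Real.norm_eq_abs, abs_of_pos h2] at h1

theorem Fl_O0 (h : f =O[l0] fun _ => (1 : ℝ)) : ∃ C : ℝ, 0 ≤ C ∧ ∀ᶠ σ in l0, ‖f σ‖ ≤ C := by
  obtain ⟨C, hC, h⟩ := h.exists_pos
  refine ⟨C, hC.le, ?_⟩
  filter_upwards [h.bound] with σ h1
  rwa [norm_one, mul_one] at h1

theorem Fl_of1 {C : ℝ} (h : ∀ᶠ σ in l0, ‖f σ‖ ≤ C * σ) : f =O[l0] fun σ => σ := by
  refine IsBigO.of_bound C ?_
  filter_upwards [h, Fl_pos] with σ h1 h2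
  rwa [Real.norm_eq_abs, abs_of_pos h2]

theorem Fl_of0 {C : ℝ} (h : ∀ᶠ σ in l0, ‖f σ‖ ≤ C) : f =O[l0] fun _ => (1 : ℝ) := by
  refine IsBigO.of_bound C ?_
  filter_upwards [h] with σ h1
  rwa [norm_one, mul_one]

theorem Fl_of2 {C : ℝ} (h : ∀ᶠ σ in l0, ‖f σ‖ ≤ C * σ ^ 2) : f =O[l0] fun σ => σ ^ 2 := by
  refine IsBigO.of_bound C ?_
  filter_upwards [h] with σ h1
  rwa [Real.norm_eq_abs, abs_of_nonneg (sq_nonneg σ)]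

theorem Fl_10 (h : f =O[l0] fun σ => σ) : f =O[l0] fun _ => (1 : ℝ) := by
  obtain ⟨C, hC, h⟩ := Fl_O1 h
  refine Fl_of0 (C := C) ?_
  filter_upwards [h, Fl_le_one] with σ h1 h2
  nlinarith

theorem Fl_21 (h : f =O[l0] fun σ => σ ^ 2) : f =O[l0] fun σ => σ := by
  refine h.trans (Fl_of1 (C := 1) ?_)
  filter_upwards [Fl_pos, Fl_le_one] with σ h1 h2
  rw [Real.norm_eq_abs, abs_of_nonneg (sq_nonneg σ)]
  nlinarith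

theorem Fl_le {F : Type} [NormedAddCommGroup F] {g : ℝ → F} {k : ℝ → ℝ} (h : g =O[l0] k) (C : ℝ)
    (hle : ∀ σ, ‖f σ‖ ≤ C * ‖g σ‖) : f =O[l0] k :=
  (IsBigO.of_bound C (Eventually.of_forall hle)).trans h

end O

theorem Fl_norm_unitary {u : H →L[ℂ] H} (hu : u ∈ unitary (H →L[ℂ] H)) : ‖u‖ ≤ 1 :=
  ContinuousLinearMap.opNorm_le_bound _ zero_le_one fun x => by
    rw [ContinuousLinearMap.norm_map_of_mem_unitary hu, one_mul]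

theorem Fl_unit {u : ℝ → H →L[ℂ] H} (hu : ∀ σ, u σ ∈ unitary (H →L[ℂ] H)) {x : ℝ → H} {k : ℝ → ℝ}
    (h : x =O[l0] k) : (fun σ => u σ (x σ)) =O[l0] k :=
  Fl_le h 1 fun σ => by rw [ContinuousLinearMap.norm_map_of_mem_unitary (hu σ), one_mul]

theorem Fl_im_le (x y : H) : ‖(⟪x, y⟫_ℂ).im‖ ≤ ‖x‖ * ‖y‖ :=
  (Complex.abs_im_le_norm _).trans (norm_inner_le_norm x y)

theorem Fl_im_smul_left (r : ℝ) (x y : H) : (⟪r • x, y⟫_ℂ).im = r * (⟪x, y⟫_ℂ).im := by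
  rw [← Complex.coe_smul, inner_smul_left, conj_ofReal, im_ofReal_mul]

theorem Fl_im_smul_right (r : ℝ) (x y : H) : (⟪x, r • y⟫_ℂ).im = r * (⟪x, y⟫_ℂ).im := by
  rw [← Complex.coe_smul, inner_smul_right, im_ofReal_mul]

theorem Fl_im_self (x : H) : (⟪x, x⟫_ℂ).im = 0 := inner_self_im (𝕜 := ℂ) x

theorem Fl_im_O {x y : ℝ → H} {k k' : ℝ → ℝ} (hx : x =O[l0] k) (hy : y =O[l0] k') :
    (fun σ => (⟪x σ, y σ⟫_ℂ).im) =O[l0] fun σ => k σ * k' σ :=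
  Fl_le (hx.norm_left.mul hy.norm_left) 1 fun σ => by
    rw [one_mul, norm_mul, norm_norm, norm_norm]
    exact Fl_im_le _ _

theorem Fl_im_neg {x y : ℝ → H} {k : ℝ → ℝ} (h : (fun σ => (⟪x σ, y σ⟫_ℂ).im) =O[l0] k) :
    (fun σ => (⟪x σ, -y σ⟫_ℂ).im) =O[l0] k := by
  simpa only [inner_neg_right, neg_im] using h.neg_left

theorem Fl_im_neg' {x y : ℝ → H} {k : ℝ → ℝ} (h : (fun σ => (⟪x σ, y σ⟫_ℂ).im) =O[l0] k) :
    (fun σ => (⟪-x σ, y σ⟫_ℂ).im) =O[l0] k := by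
  simpa only [inner_neg_left, neg_im] using h.neg_left

/-- `exp (-i θ Q)`. -/
noncomputable def Rot (Q : H →L[ℂ] H) (θ : ℝ) : H →L[ℂ] H :=
  ((Real.cos θ : ℝ) : ℂ) • 1 - (I * ((Real.sin θ : ℝ) : ℂ)) • Q

theorem Rot_zero (Q : H →L[ℂ] H) : Rot Q 0 = 1 := by simp [Rot]

theorem norm_Rot_sub {Q : H →L[ℂ] H} (hQ : ‖Q‖ ≤ 1) (θ θ' : ℝ) :
    ‖Rot Q θ - Rot Q θ'‖ ≤ 2 * |θ - θ'| := by
  have e : Rot Q θ - Rot Q θ' = ((Real.cos θ - Real.cos θ' : ℝ) : ℂ) • (1 : H →L[ℂ] H) -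
      (I * ((Real.sin θ - Real.sin θ' : ℝ) : ℂ)) • Q := by
    simp only [Rot]
    push_cast
    match_scalars <;> ring
  have h1 : ‖(1 : H →L[ℂ] H)‖ ≤ 1 := ContinuousLinearMap.norm_id_le
  have h2 := Real.abs_cos_sub_cos_le θ θ'
  have h3 := Real.abs_sin_sub_sin_le θ θ'
  rw [e]
  refine (norm_sub_le _ _).trans ?_
  rw [norm_smul, norm_smul, norm_mul, norm_I, one_mul, Complex.norm_real, Complex.norm_real,
    Real.norm_eq_abs, Real.norm_eq_abs]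
  nlinarith [abs_nonneg (Real.cos θ - Real.cos θ'), abs_nonneg (Real.sin θ - Real.sin θ'),
    norm_nonneg Q, norm_nonneg (1 : H →L[ℂ] H)]

theorem norm_Rot {Q : H →L[ℂ] H} (hQ : ‖Q‖ ≤ 1) (θ : ℝ) : ‖Rot Q θ‖ ≤ 2 := by
  have h1 : ‖(1 : H →L[ℂ] H)‖ ≤ 1 := ContinuousLinearMap.norm_id_le
  have h2 := Real.abs_cos_le_one θ
  have h3 := Real.abs_sin_le_one θ
  refine (norm_sub_le _ _).trans ?_
  rw [norm_smul, norm_smul, norm_mul, norm_I, one_mul, Complex.norm_real, Complex.norm_real,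
    Real.norm_eq_abs, Real.norm_eq_abs]
  nlinarith [abs_nonneg (Real.cos θ), abs_nonneg (Real.sin θ),
    norm_nonneg Q, norm_nonneg (1 : H →L[ℂ] H)]

namespace Weyl

variable {𝓜 : Weyl H}

theorem CW.sub' {A A' : H →L[ℂ] H} (h : 𝓜.CW A) (h' : 𝓜.CW A') : 𝓜.CW (A - A') := by
  intro g hg
  rw [sub_mul, mul_sub, h g hg, h' g hg]

theorem Rot_cw {Q : H →L[ℂ] H} (hQ : 𝓜.CW Q) (θ : ℝ) : 𝓜.CW (Rot Q θ) :=
  (𝓜.cw_one.smul _).sub' (hQ.smul _)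

theorem Invol.norm_le {Q : H →L[ℂ] H} (hQ : 𝓜.Invol Q) : ‖Q‖ ≤ 1 := Fl_norm_unitary hQ.mem_unitary

theorem Fl_mem (hR : 𝓜.R = ⊤) (g : H) : g ∈ 𝓜.R := by rw [hR]; trivial

variable (𝓜) in
/-- Families of size `σ`, also in the first order seminorm. -/
def Sm (χ : ℝ → H) : Prop := ∃ C : ℝ, 0 ≤ C ∧ ∀ᶠ σ in l0, ‖χ σ‖ ≤ C * σ ∧ 𝓜.P1 (χ σ) (C * σ)

theorem Sm.isBigO {χ : ℝ → H} (h : 𝓜.Sm χ) : χ =O[l0] fun σ => σ := by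
  obtain ⟨C, -, h⟩ := h
  exact Fl_of1 (C := C) (h.mono fun σ h => h.1)

theorem Sm.add {χ χ' : ℝ → H} (h : 𝓜.Sm χ) (h' : 𝓜.Sm χ') : 𝓜.Sm fun σ => χ σ + χ' σ := by
  obtain ⟨C, hC, h⟩ := h
  obtain ⟨C', hC', h'⟩ := h'
  refine ⟨C + C', by positivity, ?_⟩
  filter_upwards [h, h'] with σ h h'
  rw [add_mul]
  exact ⟨(norm_add_le _ _).trans (add_le_add h.1 h'.1), h.2.add h'.2⟩

theorem Sm.cw {χ : ℝ → H} (h : 𝓜.Sm χ) {A : ℝ → H →L[ℂ] H} (hA : ∀ σ, 𝓜.CW (A σ)) {B : ℝ}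
    (hB : ∀ σ, ‖A σ‖ ≤ B) : 𝓜.Sm fun σ => A σ (χ σ) := by
  obtain ⟨C, hC, h⟩ := h
  have hB0 : 0 ≤ B := (norm_nonneg _).trans (hB 0)
  refine ⟨B * C, by positivity, ?_⟩
  filter_upwards [h, Fl_pos] with σ h hσ
  have h1 : ‖A σ‖ * (C * σ) ≤ B * C * σ := by
    rw [mul_assoc]
    exact mul_le_mul_of_nonneg_right (hB σ) (by positivity)
  exact ⟨((A σ).le_opNorm _).trans ((mul_le_mul_of_nonneg_left h.1 (norm_nonneg _)).trans h1),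
    (h.2.cw (hA σ)).mono h1⟩

theorem RegF.sm_cw {η : ℝ → H} (h : 𝓜.RegF η) {A : ℝ → H →L[ℂ] H} (hA : ∀ σ, 𝓜.CW (A σ))
    (hB : A =O[l0] fun σ => σ) : 𝓜.Sm fun σ => A σ (η σ) := by
  obtain ⟨c, h⟩ := h
  obtain ⟨B, hB0, hB⟩ := Fl_O1 hB
  refine ⟨B * |c|, by positivity, ?_⟩
  filter_upwards [h, hB, Fl_pos] with σ h hB hσ
  have hc := h.nonneg
  have h1 : ‖A σ‖ * c ≤ B * |c| * σ := by
    rw [abs_of_nonneg hc]
    nlinarith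
  exact ⟨((A σ).le_opNorm _).trans ((mul_le_mul_of_nonneg_left h.1 (norm_nonneg _)).trans h1),
    (h.2.1.cw (hA σ)).mono h1⟩

variable (𝓜) in
/-- Small gates. -/
structure SmG (G : ℝ → H →L[ℂ] H) : Prop where
  reg : ∀ η, 𝓜.RegF η → 𝓜.RegF fun σ => G σ (η σ)
  sm : ∀ χ, 𝓜.Sm χ → 𝓜.Sm fun σ => G σ (χ σ)
  d1 : ∀ η, 𝓜.RegF η → 𝓜.Sm fun σ => G σ (η σ) - η σ
  d2 : ∀ χ, 𝓜.Sm χ → (fun σ => G σ (χ σ) - χ σ) =O[l0] fun σ => σ ^ 2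

theorem SmG.mul {G G' : ℝ → H →L[ℂ] H} (h : 𝓜.SmG G) (h' : 𝓜.SmG G') :
    𝓜.SmG fun σ => G σ * G' σ := by
  refine ⟨fun η hη => h.reg _ (h'.reg η hη), fun χ hχ => h.sm _ (h'.sm χ hχ), fun η hη => ?_,
    fun χ hχ => ?_⟩
  · have := (h.d1 _ (h'.reg η hη)).add (h'.d1 η hη)
    simpa only [sub_add_sub_cancel, mul_apply_eq_comp] using this
  · have := (h.d2 _ (h'.sm χ hχ)).add (h'.d2 χ hχ)
    simpa only [sub_add_sub_cancel, mul_apply_eq_comp] using this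

theorem smG_Rot {Q : ℝ → H →L[ℂ] H} (hQ : ∀ σ, 𝓜.Invol (Q σ)) {θ : ℝ → ℝ}
    (hθ : θ =O[l0] fun σ => σ) : 𝓜.SmG fun σ => Rot (Q σ) (θ σ) := by
  have hcw := fun σ => Rot_cw (hQ σ).cw (θ σ)
  have hn := fun σ => norm_Rot (hQ σ).norm_le (θ σ)
  have hs : (fun σ => Rot (Q σ) (θ σ) - 1) =O[l0] fun σ => σ := Fl_le hθ 2 fun σ => by
    have := norm_Rot_sub (hQ σ).norm_le (θ σ) 0
    rwa [Rot_zero, sub_zero] at this
  refine ⟨fun η hη => hη.cw hcw (Eventually.of_forall hn), fun χ hχ => hχ.cw hcw hn,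
    fun η hη => hη.sm_cw (fun σ => (hcw σ).sub' 𝓜.cw_one) hs, fun χ hχ => ?_⟩
  have h1 := hs.norm_left.mul hχ.isBigO.norm_left
  simp only [← sq] at h1
  refine Fl_le h1 1 fun σ => ?_
  rw [one_mul, norm_mul, norm_norm, norm_norm]
  exact (Rot (Q σ) (θ σ) - 1).le_opNorm _

theorem smG_WQ (hR : 𝓜.R = ⊤) {Q : ℝ → H →L[ℂ] H} (hQ : ∀ σ, 𝓜.Invol (Q σ)) {u : ℝ → H}
    (hu : u =O[l0] fun σ => σ) : 𝓜.SmG fun σ => 𝓜.WQ (Q σ) (u σ) := by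
  have mem := Fl_mem hR
  refine ⟨(tame_WQ hR hQ (Fl_10 hu)).reg, fun χ hχ => ?_, fun η hη => ?_, fun χ hχ => ?_⟩
  · obtain ⟨C, hC, h⟩ := hχ
    obtain ⟨B, hB0, hB⟩ := Fl_O0 (Fl_10 hu)
    refine ⟨C + 2 * B * C, by positivity, ?_⟩
    filter_upwards [h, hB, Fl_pos] with σ h hB hσ
    have h1 : ‖u σ‖ * ‖χ σ‖ ≤ B * (C * σ) := mul_le_mul hB h.1 (norm_nonneg _) hB0
    have h2 : 0 ≤ B * (C * σ) := by positivity
    refine ⟨?_, (h.2.WQ (hQ σ) (mem _)).mono (by nlinarith)⟩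
    rw [ContinuousLinearMap.norm_map_of_mem_unitary (WQ_unitary (hQ σ) (mem _))]
    nlinarith [h.1]
  · obtain ⟨c, h⟩ := hη
    obtain ⟨B, hB0, hB⟩ := Fl_O1 hu
    refine ⟨2 * |c| * B, by positivity, ?_⟩
    filter_upwards [h, hB, Fl_pos] with σ h hB hσ
    have hc := h.nonneg
    have h1 : 2 * c * ‖u σ‖ ≤ 2 * |c| * B * σ := by
      rw [abs_of_nonneg hc]
      nlinarith
    exact ⟨(h.2.1.norm_WQ_sub (hQ σ) (mem _)).trans h1, (h.P1_WQ_sub (hQ σ) (mem _)).mono h1⟩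
  · obtain ⟨C, hC, h⟩ := hχ
    obtain ⟨B, hB0, hB⟩ := Fl_O1 hu
    refine Fl_of2 (C := 2 * C * B) ?_
    filter_upwards [h, hB, Fl_pos] with σ h hB hσ
    refine (h.2.norm_WQ_sub (hQ σ) (mem _)).trans ?_
    have : 2 * (C * σ) * ‖u σ‖ ≤ 2 * (C * σ) * (B * σ) :=
      mul_le_mul_of_nonneg_left hB (by positivity)
    nlinarith

/-- The commutator of two small gates. -/
theorem SmG.comm {G G' : ℝ → H →L[ℂ] H} (h : 𝓜.SmG G) (h' : 𝓜.SmG G') {η : ℝ → H}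
    (hη : 𝓜.RegF η) :
    (fun σ => G σ (G' σ (η σ)) - G' σ (G σ (η σ))) =O[l0] fun σ => σ ^ 2 := by
  refine ((h.d2 _ (h'.d1 η hη)).sub (h'.d2 _ (h.d1 η hη))).congr_left fun σ => ?_
  simp only [map_sub]
  abel

variable (𝓜) in
/-- The operator seen from a displaced frame. -/
noncomputable def cj (v : H) (K : H →L[ℂ] H) : H →L[ℂ] H := 𝓜.W (-v) * K * 𝓜.W v

section cj
variable (hR : 𝓜.R = ⊤)
include hR

theorem W_neg_W (v : H) : 𝓜.W (-v) * 𝓜.W v = 1 := by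
  rw [← 𝓜.W_star v (Fl_mem hR v)]
  exact Unitary.star_mul_self_of_mem (𝓜.W_unitary (Fl_mem hR v))

theorem W_W_neg (v : H) : 𝓜.W v * 𝓜.W (-v) = 1 := by
  have := W_neg_W hR (-v)
  rwa [neg_neg] at this

theorem W_cj (v : H) (K : H →L[ℂ] H) (x : H) : K (𝓜.W v x) = 𝓜.W v (𝓜.cj v K x) := by
  have : 𝓜.W v * 𝓜.cj v K = K * 𝓜.W v := by
    rw [cj, ← mul_assoc, ← mul_assoc, W_W_neg hR, one_mul]
  exact (congrArg (fun A : H →L[ℂ] H => A x) this).symm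

theorem cj_mul (v : H) (K K' : H →L[ℂ] H) : 𝓜.cj v (K * K') = 𝓜.cj v K * 𝓜.cj v K' := by
  simp only [cj, mul_assoc]
  rw [← mul_assoc (𝓜.W v), W_W_neg hR, one_mul]

theorem cj_cw (v : H) {A : H →L[ℂ] H} (hA : 𝓜.CW A) : 𝓜.cj v A = A := by
  rw [cj, mul_assoc, hA v (Fl_mem hR v), ← mul_assoc, W_neg_W hR, one_mul]

theorem cj_unitary (v : H) {K : H →L[ℂ] H} (hK : K ∈ unitary (H →L[ℂ] H)) :
    𝓜.cj v K ∈ unitary (H →L[ℂ] H) :=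
  mul_mem (mul_mem (𝓜.W_unitary (Fl_mem hR _)) hK) (𝓜.W_unitary (Fl_mem hR _))

theorem cj_WQ {Q : H →L[ℂ] H} (hQ : 𝓜.Invol Q) (v u : H) :
    𝓜.cj v (𝓜.WQ Q u) = Rot Q (2 * (⟪u, v⟫_ℂ).im) * 𝓜.WQ Q u := by
  rw [cj, mul_assoc, WQ_W hQ (Fl_mem hR u) (Fl_mem hR v), ← mul_assoc, W_neg_W hR, one_mul, Rot]

end cj

theorem cj_sub (v : H) (K K' : H →L[ℂ] H) : 𝓜.cj v (K - K') = 𝓜.cj v K - 𝓜.cj v K' := by
  simp only [cj, mul_sub, sub_mul]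

theorem cj_smul (v : H) (c : ℂ) (K : H →L[ℂ] H) : 𝓜.cj v (c • K) = c • 𝓜.cj v K := by
  simp only [cj, mul_smul_comm, smul_mul_assoc]

variable (𝓜) in
/-- Gates which are small, together with their adjoints, in the frame displaced by `v`. -/
def Fr (v : ℝ → H) (K : ℝ → H →L[ℂ] H) : Prop :=
  (𝓜.SmG fun σ => 𝓜.cj (v σ) (K σ)) ∧ 𝓜.SmG fun σ => 𝓜.cj (v σ) (star (K σ))

theorem smG_cj (hR : 𝓜.R = ⊤) {Q : ℝ → H →L[ℂ] H} (hQ : ∀ σ, 𝓜.Invol (Q σ)) {u v : ℝ → H}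
    (hu : u =O[l0] fun σ => σ) (hθ : (fun σ => (⟪u σ, v σ⟫_ℂ).im) =O[l0] fun σ => σ) :
    𝓜.SmG fun σ => 𝓜.cj (v σ) (𝓜.WQ (Q σ) (u σ)) := by
  simp only [fun σ => cj_WQ hR (hQ σ) (v σ) (u σ)]
  exact (smG_Rot hQ (hθ.const_mul_left 2)).mul (smG_WQ hR hQ hu)

theorem fr_WQ (hR : 𝓜.R = ⊤) {Q : ℝ → H →L[ℂ] H} (hQ : ∀ σ, 𝓜.Invol (Q σ)) {u v : ℝ → H}
    (hu : u =O[l0] fun σ => σ) (hθ : (fun σ => (⟪u σ, v σ⟫_ℂ).im) =O[l0] fun σ => σ) :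
    𝓜.Fr v fun σ => 𝓜.WQ (Q σ) (u σ) := by
  refine ⟨smG_cj hR hQ hu hθ, ?_⟩
  simp only [fun σ => WQ_star (hQ σ) (Fl_mem hR (u σ))]
  exact smG_cj hR hQ hu.neg_left (Fl_im_neg' hθ)

theorem Fr.mul (hR : 𝓜.R = ⊤) {v : ℝ → H} {K K' : ℝ → H →L[ℂ] H} (h : 𝓜.Fr v K)
    (h' : 𝓜.Fr v K') : 𝓜.Fr v fun σ => K σ * K' σ := by
  constructor
  · simp only [cj_mul hR]
    exact h.1.mul h'.1
  · simp only [star_mul, cj_mul hR]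
    exact h'.2.mul h.2

theorem Fr.N (hR : 𝓜.R = ⊤) {v : ℝ → H} {K Q : ℝ → H →L[ℂ] H} (h : 𝓜.Fr v K)
    (hQ : ∀ σ, 𝓜.Invol (Q σ)) {η : ℝ → H} (hη : 𝓜.RegF η) :
    𝓜.Sm fun σ => 𝓜.cj (v σ) (star (K σ) * Q σ * K σ - Q σ) (η σ) := by
  have hcw := fun σ => (hQ σ).cw
  have hn := fun σ => (hQ σ).norm_le
  have h1 := (h.2.sm _ ((h.1.d1 η hη).cw hcw hn)).add
    (h.2.d1 _ (hη.cw hcw (Eventually.of_forall hn)))
  have e : (fun σ => 𝓜.cj (v σ) (star (K σ) * Q σ * K σ - Q σ) (η σ)) = fun σ =>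
      𝓜.cj (v σ) (star (K σ)) (Q σ (𝓜.cj (v σ) (K σ) (η σ) - η σ)) +
        (𝓜.cj (v σ) (star (K σ)) (Q σ (η σ)) - Q σ (η σ)) := by
    funext σ
    rw [cj_sub, cj_mul hR, cj_mul hR, cj_cw hR _ (hcw σ)]
    simp only [sub_apply, mul_apply_eq_comp, map_sub]
    abel
  rw [e]
  exact h1

end Weyl

end Crest.Agent.R339
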