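import Crest.Agent.R339.QSeedFlipAux1

/-! # Row 339: the two sectors of the displaced flip (abstract estimates) -/

set_option autoImplicit false
set_option linter.unusedSectionVars false
set_option linter.unusedVariables false

namespace Crest.Agent.R339

open MeasureTheory ProbabilityTheory Complex Filter Topology Asymptotics
open scoped InnerProductSpace

variable {H : Type} [NormedAddCommGroup H] [InnerProductSpace ℂ H] [CompleteSpace H]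

theorem Fl_img_le {N Z : H →L[ℂ] H} (hN : star N = N) (hZ : ∀ x, ‖Z x‖ = ‖x‖) {A B ρ : H}
    (hA : Z A = A) (hB : Z B = -B) :
    ‖(⟪Z (A + B + ρ), N (A + B + ρ)⟫_ℂ).im‖ ≤
      2 * ‖⟪A, N B⟫_ℂ‖ + 2 * (‖N A‖ * ‖ρ‖) + 2 * (‖N B‖ * ‖ρ‖) + ‖N‖ * (‖ρ‖ * ‖ρ‖) := by
  have hs : ∀ x y, ⟪x, N y⟫_ℂ = ⟪N x, y⟫_ℂ := fun x y => by
    rw [← ContinuousLinearMap.adjoint_inner_left, ← ContinuousLinearMap.star_eq_adjoint, hN]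
  have h0 : ∀ x, (⟪x, N x⟫_ℂ).im = 0 := fun x => by
    have h1 := Weyl.QBase_im_symm x (N x)
    rw [← hs] at h1
    linarith
  have h1 : (⟪B, N A⟫_ℂ).im = -(⟪A, N B⟫_ℂ).im := by
    rw [hs, Weyl.QBase_im_symm]
  have e : (⟪Z (A + B + ρ), N (A + B + ρ)⟫_ℂ).im = 2 * (⟪A, N B⟫_ℂ).im + (⟪N A, ρ⟫_ℂ).im -
      (⟪N B, ρ⟫_ℂ).im + (⟪Z ρ, N A⟫_ℂ).im + (⟪Z ρ, N B⟫_ℂ).im + (⟪Z ρ, N ρ⟫_ℂ).im := by
    simp only [map_add, hA, hB, inner_add_left, inner_add_right, inner_neg_left, add_im, neg_im,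
      h0, h1, hs A ρ, hs B ρ]
    ring
  have b1 := Complex.abs_im_le_norm ⟪A, N B⟫_ℂ
  have b2 := Fl_im_le (N A) ρ
  have b3 := Fl_im_le (N B) ρ
  have b4 := Fl_im_le (Z ρ) (N A)
  have b5 := Fl_im_le (Z ρ) (N B)
  have b6 := Fl_im_le (Z ρ) (N ρ)
  have b7 : ‖ρ‖ * ‖N ρ‖ ≤ ‖ρ‖ * (‖N‖ * ‖ρ‖) :=
    mul_le_mul_of_nonneg_left (N.le_opNorm ρ) (norm_nonneg _)
  rw [hZ] at b4 b5 b6
  rw [Real.norm_eq_abs, abs_le] at b2 b3 b4 b5 b6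
  rw [abs_le] at b1
  rw [e, Real.norm_eq_abs, abs_le]
  constructor <;> nlinarith

namespace Weyl

variable {𝓜 : Weyl H}

variable (𝓜) in
/-- Projection on `Z = 1`. -/
noncomputable def Pp : H →L[ℂ] H := (1 / 2 : ℂ) • (1 + 𝓜.Z)

variable (𝓜) in
/-- Projection on `Z = -1`. -/
noncomputable def Pm : H →L[ℂ] H := (1 / 2 : ℂ) • (1 - 𝓜.Z)

theorem Pp_cw : 𝓜.CW 𝓜.Pp := (𝓜.cw_one.add 𝓜.invol_Z.cw).smul _
theorem Pm_cw : 𝓜.CW 𝓜.Pm := (𝓜.cw_one.sub' 𝓜.invol_Z.cw).smul _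

theorem RegF.Pp {ξ : ℝ → H} (h : 𝓜.RegF ξ) : 𝓜.RegF fun σ => 𝓜.Pp (ξ σ) :=
  h.cw (A := fun _ => 𝓜.Pp) (fun _ => Pp_cw) (Eventually.of_forall fun _ => le_rfl)

theorem RegF.Pm {ξ : ℝ → H} (h : 𝓜.RegF ξ) : 𝓜.RegF fun σ => 𝓜.Pm (ξ σ) :=
  h.cw (A := fun _ => 𝓜.Pm) (fun _ => Pm_cw) (Eventually.of_forall fun _ => le_rfl)

theorem WZ_split (hR : 𝓜.R = ⊤) (v x : H) :
    𝓜.WZ v x = 𝓜.W v (𝓜.Pp x) + 𝓜.W (-v) (𝓜.Pm x) := by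
  have : 𝓜.WZ v = 𝓜.W v * 𝓜.Pp + 𝓜.W (-v) * 𝓜.Pm := by
    rw [← Pp_cw v (Fl_mem hR _), ← Pm_cw (-v) (Fl_mem hR _), Pp, Pm, smul_mul_assoc, smul_mul_assoc]
    exact WQ_eq 𝓜.invol_Z v
  rw [this]
  rfl

theorem Z_W_Pp (hR : 𝓜.R = ⊤) (v x : H) : 𝓜.Z (𝓜.W v (𝓜.Pp x)) = 𝓜.W v (𝓜.Pp x) := by
  have : 𝓜.Z * (𝓜.W v * 𝓜.Pp) = 𝓜.W v * 𝓜.Pp := by
    rw [← mul_assoc, 𝓜.Z_W v (Fl_mem hR _), mul_assoc, Pp, mul_smul_comm, mul_add, 𝓜.Z_sq, mul_one,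
      add_comm]
  exact congrArg (fun A : H →L[ℂ] H => A x) this

theorem Z_W_Pm (hR : 𝓜.R = ⊤) (v x : H) : 𝓜.Z (𝓜.W v (𝓜.Pm x)) = -𝓜.W v (𝓜.Pm x) := by
  have : 𝓜.Z * (𝓜.W v * 𝓜.Pm) = -(𝓜.W v * 𝓜.Pm) := by
    rw [← mul_assoc, 𝓜.Z_W v (Fl_mem hR _), mul_assoc, Pm, mul_smul_comm, mul_sub, 𝓜.Z_sq, mul_one,
      ← mul_neg, ← smul_neg, neg_sub]
  exact congrArg (fun A : H →L[ℂ] H => A x) this

theorem Fl_cw_apply (hR : 𝓜.R = ⊤) {A : H →L[ℂ] H} (hA : 𝓜.CW A) (v x : H) :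
    A (𝓜.W v x) = 𝓜.W v (A x) :=
  congrArg (fun B : H →L[ℂ] H => B x) (hA v (Fl_mem hR v))

/-- From the two displaced frames to `WZ`. -/
theorem Fl_split (hR : 𝓜.R = ⊤) {v : ℝ → H} {F A : ℝ → H →L[ℂ] H} (hA : ∀ σ, 𝓜.CW (A σ))
    {k : ℝ → ℝ}
    (h1 : ∀ η, 𝓜.RegF η → (fun σ => 𝓜.cj (v σ) (F σ) (η σ) - A σ (η σ)) =O[l0] k)
    (h2 : ∀ η, 𝓜.RegF η → (fun σ => 𝓜.cj (-v σ) (F σ) (η σ) - A σ (η σ)) =O[l0] k)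
    {ξ : ℝ → H} (hξ : 𝓜.RegF ξ) :
    (fun σ => F σ (𝓜.WZ (v σ) (ξ σ)) - A σ (𝓜.WZ (v σ) (ξ σ))) =O[l0] k := by
  have a1 := Fl_unit (fun σ => 𝓜.W_unitary (Fl_mem hR (v σ))) (h1 _ hξ.Pp)
  have a2 := Fl_unit (fun σ => 𝓜.W_unitary (Fl_mem hR (-v σ))) (h2 _ hξ.Pm)
  refine (a1.add a2).congr_left fun σ => ?_
  rw [WZ_split hR, map_add, map_add, W_cj hR (v σ) (F σ), W_cj hR (-v σ) (F σ),
    Fl_cw_apply hR (hA σ), Fl_cw_apply hR (hA σ), map_sub, map_sub]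
  abel

/-- Dephasing against a small family. -/
theorem Fl_deph (hR : 𝓜.R = ⊤) {ξ χ u : ℝ → H} (hξ : 𝓜.RegF ξ) (hχ : 𝓜.Sm χ) {c : ℝ}
    (hc : 0 < c) (hu : ∀ᶠ σ in l0, c ≤ σ * ‖u σ‖) :
    (fun σ => ⟪ξ σ, 𝓜.W (u σ) (χ σ)⟫_ℂ) =O[l0] fun σ => σ ^ 2 := by
  obtain ⟨c', hξ⟩ := hξ
  obtain ⟨C, hC, hχ⟩ := hχ
  refine Fl_of2 (C := 2 * C * |c'| / c) ?_
  filter_upwards [hξ, hχ, hu, Fl_pos] with σ hξ hχ hu hσ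
  have h0 := hξ.nonneg
  have h1 := inner_W_le hR hχ.2 hξ.2.1 (u σ)
  have h2 : c' * ‖χ σ‖ ≤ c' * (C * σ) := mul_le_mul_of_nonneg_left hχ.1 h0
  have h3 : C * σ * ‖ξ σ‖ ≤ C * σ * c' := mul_le_mul_of_nonneg_left hξ.1 (by positivity)
  have h4 : c * ‖⟪ξ σ, 𝓜.W (u σ) (χ σ)⟫_ℂ‖ ≤ σ * ‖u σ‖ * ‖⟪ξ σ, 𝓜.W (u σ) (χ σ)⟫_ℂ‖ :=
    mul_le_mul_of_nonneg_right hu (norm_nonneg _)
  have h5 : σ * (‖u σ‖ * ‖⟪ξ σ, 𝓜.W (u σ) (χ σ)⟫_ℂ‖) ≤ σ * (2 * C * c' * σ) :=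
    mul_le_mul_of_nonneg_left (by linarith) hσ.le
  rw [abs_of_nonneg h0, div_mul_eq_mul_div, le_div_iff₀ hc]
  nlinarith

theorem Fl_inner_WW (hR : 𝓜.R = ⊤) (v x y : H) :
    ⟪𝓜.W v x, 𝓜.W (-v) y⟫_ℂ = ⟪x, 𝓜.W (-v + -v) y⟫_ℂ := by
  have h1 : 𝓜.W (-v) * 𝓜.W (-v) = 𝓜.W (-v + -v) := by
    rw [𝓜.W_mul _ (Fl_mem hR _) _ (Fl_mem hR _), Fl_im_self]
    simp
  rw [← ContinuousLinearMap.adjoint_inner_right, ← ContinuousLinearMap.star_eq_adjoint,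
    𝓜.W_star v (Fl_mem hR _), ← h1]
  rfl

theorem Fl_big {v : ℝ → H} {c : ℝ} (hc : 0 < c) (hv : ∀ᶠ σ in l0, c ≤ σ * ‖v σ‖) :
    ∀ᶠ σ in l0, c ≤ σ * ‖-v σ + -v σ‖ := by
  filter_upwards [hv] with σ h
  rw [← neg_add, norm_neg, ← two_smul ℂ, norm_smul, Complex.norm_two]
  linarith

theorem Fl_img_gen (hR : 𝓜.R = ⊤) {v a ψ : ℝ → H} {N : ℝ → H →L[ℂ] H} (hN : ∀ σ, star (N σ) = N σ)
    (hN2 : ∀ σ, ‖N σ‖ ≤ 2) (hψ : (fun σ => ψ σ - 𝓜.WZ (v σ) (a σ)) =O[l0] fun σ => σ)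
    {k k' : ℝ → ℝ} (hk : (fun σ => k σ * σ) =O[l0] k') (hk' : (fun σ => σ * σ) =O[l0] k')
    (h1 : (fun σ => 𝓜.cj (v σ) (N σ) (𝓜.Pp (a σ))) =O[l0] k)
    (h2 : (fun σ => 𝓜.cj (-v σ) (N σ) (𝓜.Pm (a σ))) =O[l0] k)
    (h3 : (fun σ => ⟪𝓜.Pp (a σ), 𝓜.W (-v σ + -v σ) (𝓜.cj (-v σ) (N σ) (𝓜.Pm (a σ)))⟫_ℂ)
      =O[l0] k') :
    (fun σ => (⟪𝓜.Z (ψ σ), N σ (ψ σ)⟫_ℂ).im) =O[l0] k' := by
  have a1 := (h1.norm_left.mul hψ.norm_left).trans hk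
  have a2 := (h2.norm_left.mul hψ.norm_left).trans hk
  have a3 := (hψ.norm_left.mul hψ.norm_left).trans hk'
  have a4 := ((h3.norm_left.add a1).add a2).add a3
  refine Fl_le a4 2 fun σ => ?_
  have b := Fl_img_le (hN σ)
    (fun x => ContinuousLinearMap.norm_map_of_mem_unitary 𝓜.invol_Z.mem_unitary x)
    (ρ := ψ σ - 𝓜.WZ (v σ) (a σ)) (Z_W_Pp hR (v σ) (a σ)) (Z_W_Pm hR (-v σ) (a σ))
  rw [← WZ_split hR, add_sub_cancel, W_cj hR (v σ) (N σ), W_cj hR (-v σ) (N σ), Fl_inner_WW hR,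
    ContinuousLinearMap.norm_map_of_mem_unitary (𝓜.W_unitary (Fl_mem hR _)),
    ContinuousLinearMap.norm_map_of_mem_unitary (𝓜.W_unitary (Fl_mem hR _))] at b
  refine b.trans ?_
  rw [Real.norm_of_nonneg (by positivity)]
  have := mul_le_mul_of_nonneg_right (hN2 σ)
    (mul_self_nonneg ‖ψ σ - 𝓜.WZ (v σ) (a σ)‖)
  linarith

theorem Fl_img0 (hR : 𝓜.R = ⊤) {v a ψ : ℝ → H} {Q : ℝ → H →L[ℂ] H} (hQ : ∀ σ, 𝓜.Invol (Q σ))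
    (ha : 𝓜.RegF a) (hψ : (fun σ => ψ σ - 𝓜.WZ (v σ) (a σ)) =O[l0] fun σ => σ) {c : ℝ}
    (hc : 0 < c) (hv : ∀ᶠ σ in l0, c ≤ σ * ‖v σ‖) :
    (fun σ => (⟪𝓜.Z (ψ σ), Q σ (ψ σ)⟫_ℂ).im) =O[l0] fun σ => σ := by
  have hcw := fun σ => (hQ σ).cw
  have hn := fun σ => (hQ σ).norm_le
  have r1 := ha.Pp.cw hcw (Eventually.of_forall hn)
  have r2 := ha.Pm.cw hcw (Eventually.of_forall hn)
  refine Fl_img_gen hR (fun σ => (hQ σ).star_eq) (fun σ => (hn σ).trans one_le_two) hψ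
    (k := fun _ => 1) (by simpa only [one_mul] using isBigO_refl _ _)
    (Fl_21 (by simpa only [sq] using isBigO_refl _ _)) ?_ ?_ ?_
  · simpa only [fun σ => cj_cw hR (v σ) (hcw σ)] using r1.isBigO
  · simpa only [fun σ => cj_cw hR (-v σ) (hcw σ)] using r2.isBigO
  · simpa only [fun σ => cj_cw hR (-v σ) (hcw σ)] using
      inner_W_isBigO hR ha.Pp r2 hc (Fl_big hc hv)

theorem Fl_img (hR : 𝓜.R = ⊤) {v a ψ : ℝ → H} {K Q : ℝ → H →L[ℂ] H} (hQ : ∀ σ, 𝓜.Invol (Q σ))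
    (hK : ∀ σ, K σ ∈ unitary (H →L[ℂ] H)) (h1 : 𝓜.Fr v K) (h2 : 𝓜.Fr (fun σ => -v σ) K)
    (ha : 𝓜.RegF a) (hψ : (fun σ => ψ σ - 𝓜.WZ (v σ) (a σ)) =O[l0] fun σ => σ) {c : ℝ}
    (hc : 0 < c) (hv : ∀ᶠ σ in l0, c ≤ σ * ‖v σ‖) :
    ((fun σ => (star (K σ) * Q σ * K σ - Q σ) (ψ σ)) =O[l0] fun σ => σ) ∧
    (fun σ => (⟪𝓜.Z (ψ σ), (star (K σ) * Q σ * K σ - Q σ) (ψ σ)⟫_ℂ).im) =O[l0] fun σ => σ ^ 2 := by
  have hN2 : ∀ σ, ‖star (K σ) * Q σ * K σ - Q σ‖ ≤ 2 := fun σ => by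
    have a1 := Fl_norm_unitary (mul_mem (mul_mem (Unitary.star_mem (hK σ)) (hQ σ).mem_unitary) (hK σ))
    have a2 := (hQ σ).norm_le
    linarith [norm_sub_le (star (K σ) * Q σ * K σ) (Q σ)]
  have s1 := h1.N hR hQ ha.Pp
  have s2 := h2.N hR hQ ha.Pm
  constructor
  · have a1 := Fl_unit (fun σ => 𝓜.W_unitary (Fl_mem hR (v σ))) s1.isBigO
    have a2 := Fl_unit (fun σ => 𝓜.W_unitary (Fl_mem hR (-v σ))) s2.isBigO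
    have a3 : (fun σ => (star (K σ) * Q σ * K σ - Q σ) (ψ σ - 𝓜.WZ (v σ) (a σ))) =O[l0]
        fun σ => σ := Fl_le hψ 2 fun σ =>
      (ContinuousLinearMap.le_opNorm _ _).trans (mul_le_mul_of_nonneg_right (hN2 σ) (norm_nonneg _))
    refine ((a1.add a2).add a3).congr_left fun σ => ?_
    rw [← W_cj hR, ← W_cj hR, ← map_add, ← map_add, ← WZ_split hR, add_sub_cancel]
  · refine Fl_img_gen hR (fun σ => ?_) hN2 hψ (k := fun σ => σ)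
      (by simpa only [sq] using isBigO_refl _ _) (by simpa only [sq] using isBigO_refl _ _)
      s1.isBigO s2.isBigO (Fl_deph hR ha.Pp s2 hc (Fl_big hc hv))
    rw [star_sub, star_mul, star_mul, star_star, (hQ σ).star_eq, mul_assoc]

/-- Two almost inverse gates cancel to second order. -/
theorem Fl_pair (hR : 𝓜.R = ⊤) {Q : ℝ → H →L[ℂ] H} (hQ : ∀ σ, 𝓜.Invol (Q σ)) {u u' v : ℝ → H}
    (hu : u =O[l0] fun _ => (1 : ℝ)) (hs : (fun σ => u' σ + u σ) =O[l0] fun σ => σ ^ 2)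
    (hθ : (fun σ => (⟪u' σ + u σ, v σ⟫_ℂ).im) =O[l0] fun σ => σ ^ 2) {η : ℝ → H}
    (hη : 𝓜.RegF η) :
    (fun σ => 𝓜.cj (v σ) (𝓜.WQ (Q σ) (u' σ)) (𝓜.cj (v σ) (𝓜.WQ (Q σ) (u σ)) (η σ)) - η σ)
      =O[l0] fun σ => σ ^ 2 := by
  have mem := Fl_mem hR
  have hn := fun σ => (hQ σ).norm_le
  have a1 : (fun σ => (⟪u' σ, u σ⟫_ℂ).im) =O[l0] fun σ => σ ^ 2 := by
    have := Fl_im_O hs hu
    simpa only [inner_add_left, add_im, Fl_im_self, add_zero, mul_one] using this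
  have a2 : (fun σ => 𝓜.WQ (Q σ) (u' σ + u σ) (η σ) - η σ) =O[l0] fun σ => σ ^ 2 := by
    obtain ⟨c, h⟩ := hη
    refine IsBigO.trans (IsBigO.of_bound (2 * c) ?_) hs
    filter_upwards [h] with σ h
    exact h.2.1.norm_WQ_sub (hQ σ) (mem _)
  have b0 := hη.isBigO.norm_left
  have a3 := a1.norm_left.mul b0
  have a4 := hθ.norm_left.mul b0
  simp only [mul_one] at a3 a4
  refine Fl_le ((a2.norm_left.add a3).add a4) 4 fun σ => ?_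
  rw [← mul_apply_eq_comp, ← cj_mul hR, WQ_mul (hQ σ) (mem _) (mem _), cj_smul, cj_WQ hR (hQ σ)]
  generalize (⟪u' σ, u σ⟫_ℂ).im = s
  generalize (⟪u' σ + u σ, v σ⟫_ℂ).im = θ
  generalize 𝓜.WQ (Q σ) (u' σ + u σ) = K
  have e : (exp (-(I * (s : ℂ))) • (Rot (Q σ) (2 * θ) * K)) (η σ) - η σ =
      exp (-(I * (s : ℂ))) • Rot (Q σ) (2 * θ) (K (η σ) - η σ) +
      exp (-(I * (s : ℂ))) • (Rot (Q σ) (2 * θ) - Rot (Q σ) 0) (η σ) +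
      (exp (-(I * (s : ℂ))) - 1) • η σ := by
    simp only [smul_apply, mul_apply_eq_comp, map_sub, sub_apply, Rot_zero, one_apply_eq_self,
      smul_sub, sub_smul, one_smul]
    abel
  have n1 : ‖exp (-(I * (s : ℂ))) • Rot (Q σ) (2 * θ) (K (η σ) - η σ)‖ ≤ 2 * ‖K (η σ) - η σ‖ := by
    rw [norm_smul, QBase_norm_phase, one_mul]
    exact (ContinuousLinearMap.le_opNorm _ _).trans
      (mul_le_mul_of_nonneg_right (norm_Rot (hn σ) _) (norm_nonneg _))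
  have n2 : ‖exp (-(I * (s : ℂ))) • (Rot (Q σ) (2 * θ) - Rot (Q σ) 0) (η σ)‖ ≤
      4 * (‖θ‖ * ‖η σ‖) := by
    rw [norm_smul, QBase_norm_phase, one_mul]
    refine (ContinuousLinearMap.le_opNorm _ _).trans ?_
    have := norm_Rot_sub (hn σ) (2 * θ) 0
    rw [sub_zero, abs_mul, abs_two] at this
    rw [Real.norm_eq_abs]
    nlinarith [norm_nonneg (η σ)]
  have n3 : ‖(exp (-(I * (s : ℂ))) - 1) • η σ‖ ≤ ‖s‖ * ‖η σ‖ := by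
    rw [norm_smul]
    refine mul_le_mul_of_nonneg_right ?_ (norm_nonneg _)
    have := Real.norm_exp_I_mul_ofReal_sub_one_le (x := -s)
    rwa [norm_neg, ofReal_neg, mul_neg] at this
  rw [e, Real.norm_of_nonneg (by positivity)]
  have t1 := norm_add₃_le (a := exp (-(I * (s : ℂ))) • Rot (Q σ) (2 * θ) (K (η σ) - η σ))
    (b := exp (-(I * (s : ℂ))) • (Rot (Q σ) (2 * θ) - Rot (Q σ) 0) (η σ))
    (c := (exp (-(I * (s : ℂ))) - 1) • η σ)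
  have p1 := norm_nonneg (K (η σ) - η σ)
  have p2 : 0 ≤ ‖s‖ * ‖η σ‖ := by positivity
  linarith

/-- The majority sector. -/
theorem Fl_maj (hR : 𝓜.R = ⊤) {Q Q' : ℝ → H →L[ℂ] H} (hQ : ∀ σ, 𝓜.Invol (Q σ))
    (hQ' : ∀ σ, 𝓜.Invol (Q' σ)) {u1 u2 u3 u4 v : ℝ → H}
    (h1 : u1 =O[l0] fun σ => σ) (h2 : u2 =O[l0] fun σ => σ) (h3 : u3 =O[l0] fun σ => σ)
    (i1 : (fun σ => (⟪u1 σ, v σ⟫_ℂ).im) =O[l0] fun σ => σ)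
    (i2 : (fun σ => (⟪u2 σ, v σ⟫_ℂ).im) =O[l0] fun σ => σ)
    (i3 : (fun σ => (⟪u3 σ, v σ⟫_ℂ).im) =O[l0] fun σ => σ)
    (s13 : (fun σ => u3 σ + u1 σ) =O[l0] fun σ => σ ^ 2)
    (s24 : (fun σ => u4 σ + u2 σ) =O[l0] fun σ => σ ^ 2)
    (j13 : (fun σ => (⟪u3 σ + u1 σ, v σ⟫_ℂ).im) =O[l0] fun σ => σ ^ 2)
    (j24 : (fun σ => (⟪u4 σ + u2 σ, v σ⟫_ℂ).im) =O[l0] fun σ => σ ^ 2) (η : ℝ → H)
    (hη : 𝓜.RegF η) :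
    (fun σ => 𝓜.cj (v σ) (𝓜.WQ (Q' σ) (u4 σ) * (𝓜.WQ (Q σ) (u3 σ) * (𝓜.WQ (Q' σ) (u2 σ) *
      𝓜.WQ (Q σ) (u1 σ)))) (η σ) - (1 : H →L[ℂ] H) (η σ)) =O[l0] fun σ => σ ^ 2 := by
  have mem := Fl_mem hR
  have g1 := smG_cj hR hQ h1 i1
  have g2 := smG_cj hR hQ' h2 i2
  have g3 := smG_cj hR hQ h3 i3
  have U4 := fun σ => cj_unitary hR (v σ) (WQ_unitary (hQ' σ) (mem (u4 σ)))
  have U2 := fun σ => cj_unitary hR (v σ) (WQ_unitary (hQ' σ) (mem (u2 σ)))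
  have a1 := Fl_unit U4 (g3.comm g2 (g1.reg η hη))
  have a2 := Fl_unit U4 (Fl_unit U2 (Fl_pair hR hQ (Fl_10 h1) s13 j13 hη))
  have a3 := Fl_pair hR hQ' (Fl_10 h2) s24 j24 hη
  refine ((a1.add a2).add a3).congr_left fun σ => ?_
  simp only [cj_mul hR, mul_apply_eq_comp, map_sub, one_apply_eq_self]
  abel

variable (𝓜) in
/-- `G` acts as `A` up to `O(σ)` on regular families. -/
def Ap (G A : ℝ → H →L[ℂ] H) : Prop :=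
  ∀ η, 𝓜.RegF η → (fun σ => G σ (η σ) - A σ (η σ)) =O[l0] fun σ => σ

theorem Ap.mul {G G' A A' : ℝ → H →L[ℂ] H} (h : 𝓜.Ap G A) (h' : 𝓜.Ap G' A')
    (hG : ∀ σ, G σ ∈ unitary (H →L[ℂ] H)) (hA : ∀ σ, 𝓜.CW (A' σ)) {B : ℝ}
    (hB : ∀ σ, ‖A' σ‖ ≤ B) : 𝓜.Ap (fun σ => G σ * G' σ) fun σ => A σ * A' σ := by
  intro η hη
  refine ((Fl_unit hG (h' η hη)).add (h _ (hη.cw hA (Eventually.of_forall hB)))).congr_left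
    fun σ => ?_
  simp only [mul_apply_eq_comp, map_sub]
  abel

theorem ap_WQ (hR : 𝓜.R = ⊤) {Q : ℝ → H →L[ℂ] H} (hQ : ∀ σ, 𝓜.Invol (Q σ)) {u v : ℝ → H}
    (hu : u =O[l0] fun σ => σ) {θ : ℝ}
    (hθ : (fun σ => 2 * (⟪u σ, v σ⟫_ℂ).im - θ) =O[l0] fun σ => σ) :
    𝓜.Ap (fun σ => 𝓜.cj (v σ) (𝓜.WQ (Q σ) (u σ))) fun σ => Rot (Q σ) θ := by
  intro η hη
  have hn := fun σ => (hQ σ).norm_le
  have a1 := ((smG_WQ hR hQ hu).d1 η hη).isBigO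
  have a2 := hθ.norm_left.mul hη.isBigO.norm_left
  simp only [mul_one] at a2
  refine Fl_le (a1.norm_left.add a2) 2 fun σ => ?_
  beta_reduce
  rw [cj_WQ hR (hQ σ)]
  generalize 2 * (⟪u σ, v σ⟫_ℂ).im = θ'
  generalize 𝓜.WQ (Q σ) (u σ) = K
  have e : (Rot (Q σ) θ' * K) (η σ) - Rot (Q σ) θ (η σ) =
      Rot (Q σ) θ' (K (η σ) - η σ) + (Rot (Q σ) θ' - Rot (Q σ) θ) (η σ) := by
    simp only [mul_apply_eq_comp, map_sub, sub_apply]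
    abel
  have n1 : ‖Rot (Q σ) θ' (K (η σ) - η σ)‖ ≤ 2 * ‖K (η σ) - η σ‖ :=
    (ContinuousLinearMap.le_opNorm _ _).trans
      (mul_le_mul_of_nonneg_right (norm_Rot (hn σ) _) (norm_nonneg _))
  have n2 : ‖(Rot (Q σ) θ' - Rot (Q σ) θ) (η σ)‖ ≤ 2 * |θ' - θ| * ‖η σ‖ :=
    (ContinuousLinearMap.le_opNorm _ _).trans
      (mul_le_mul_of_nonneg_right (norm_Rot_sub (hn σ) _ _) (norm_nonneg _))
  rw [e, Real.norm_of_nonneg (by positivity), Real.norm_eq_abs]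
  linarith [norm_add_le (Rot (Q σ) θ' (K (η σ) - η σ)) ((Rot (Q σ) θ' - Rot (Q σ) θ) (η σ))]

theorem Fl_Rot_half (Q : H →L[ℂ] H) {s : ℝ} (hs : s = 1 ∨ s = -1) :
    Rot Q (s * (Real.pi / 2)) = (-(I * s)) • Q := by
  rcases hs with rfl | rfl
  · simp [Rot]
  · simp [Rot]

/-- The seed sector. -/
theorem Fl_seed (hR : 𝓜.R = ⊤) {Q Q' : ℝ → H →L[ℂ] H} (hQ : ∀ σ, 𝓜.Invol (Q σ))
    (hQ' : ∀ σ, 𝓜.Invol (Q' σ)) {u1 u2 u3 u4 w : ℝ → H}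
    (h1 : u1 =O[l0] fun σ => σ) (h2 : u2 =O[l0] fun σ => σ) (h3 : u3 =O[l0] fun σ => σ)
    (h4 : u4 =O[l0] fun σ => σ) {s : ℝ} (hs : s = 1 ∨ s = -1)
    (i1 : (fun σ => 2 * (⟪u1 σ, w σ⟫_ℂ).im - s * (Real.pi / 2)) =O[l0] fun σ => σ)
    (i2 : (fun σ => 2 * (⟪u2 σ, w σ⟫_ℂ).im - s * (Real.pi / 2)) =O[l0] fun σ => σ)
    (j13 : (fun σ => (⟪u3 σ + u1 σ, w σ⟫_ℂ).im) =O[l0] fun σ => σ)
    (j24 : (fun σ => (⟪u4 σ + u2 σ, w σ⟫_ℂ).im) =O[l0] fun σ => σ) (η : ℝ → H)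
    (hη : 𝓜.RegF η) :
    (fun σ => 𝓜.cj (w σ) (𝓜.WQ (Q' σ) (u4 σ) * (𝓜.WQ (Q σ) (u3 σ) * (𝓜.WQ (Q' σ) (u2 σ) *
      𝓜.WQ (Q σ) (u1 σ)))) (η σ) - (Q' σ * (Q σ * (Q' σ * Q σ))) (η σ)) =O[l0] fun σ => σ := by
  have mem := Fl_mem hR
  have hs' : -s = 1 ∨ -s = -1 := by rcases hs with rfl | rfl <;> simp
  have i3 : (fun σ => 2 * (⟪u3 σ, w σ⟫_ℂ).im - (-s) * (Real.pi / 2)) =O[l0] fun σ => σ :=
    ((j13.const_mul_left 2).sub i1).congr_left fun σ => by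
      rw [inner_add_left, add_im]; ring
  have i4 : (fun σ => 2 * (⟪u4 σ, w σ⟫_ℂ).im - (-s) * (Real.pi / 2)) =O[l0] fun σ => σ :=
    ((j24.const_mul_left 2).sub i2).congr_left fun σ => by
      rw [inner_add_left, add_im]; ring
  have a1 := ap_WQ hR hQ h1 i1
  have a2 := ap_WQ hR hQ' h2 i2
  have a3 := ap_WQ hR hQ h3 i3
  have a4 := ap_WQ hR hQ' h4 i4
  have c1 := fun σ θ => Rot_cw (hQ σ).cw θ
  have c2 := fun σ θ => Rot_cw (hQ' σ).cw θ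
  have n1 := fun σ θ => norm_Rot (hQ σ).norm_le θ
  have n2 := fun σ θ => norm_Rot (hQ' σ).norm_le θ
  have nm : ∀ (A A' : H →L[ℂ] H) (x y : ℝ), ‖A‖ ≤ x → ‖A'‖ ≤ y → ‖A * A'‖ ≤ x * y :=
    fun A A' x y hA hA' => (norm_mul_le _ _).trans
      (mul_le_mul hA hA' (norm_nonneg _) ((norm_nonneg _).trans hA))
  have b1 := a2.mul a1 (fun σ => cj_unitary hR _ (WQ_unitary (hQ' σ) (mem _))) (fun σ => c1 σ _)
    (fun σ => n1 σ _)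
  have b2 := a3.mul b1 (fun σ => cj_unitary hR _ (WQ_unitary (hQ σ) (mem _)))
    (fun σ => (c2 σ _).mul (c1 σ _)) (fun σ => nm _ _ _ _ (n2 σ _) (n1 σ _))
  have b3 := a4.mul b2 (fun σ => cj_unitary hR _ (WQ_unitary (hQ' σ) (mem _)))
    (fun σ => (c1 σ _).mul ((c2 σ _).mul (c1 σ _)))
    (fun σ => nm _ _ _ _ (n1 σ _) (nm _ _ _ _ (n2 σ _) (n1 σ _)))
  refine (b3 η hη).congr_left fun σ => ?_
  have e : Rot (Q' σ) (-s * (Real.pi / 2)) * (Rot (Q σ) (-s * (Real.pi / 2)) *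
      (Rot (Q' σ) (s * (Real.pi / 2)) * Rot (Q σ) (s * (Real.pi / 2)))) =
      Q' σ * (Q σ * (Q' σ * Q σ)) := by
    rw [Fl_Rot_half _ hs, Fl_Rot_half _ hs, Fl_Rot_half _ hs', Fl_Rot_half _ hs']
    simp only [smul_mul_smul_comm]
    have : -(I * ((-s : ℝ) : ℂ)) * (-(I * ((-s : ℝ) : ℂ)) * (-(I * (s : ℂ)) * -(I * (s : ℂ)))) = 1 := by
      rcases hs with rfl | rfl
      · push_cast
        linear_combination (I * I - 1) * I_mul_I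
      · push_cast
        linear_combination (I * I - 1) * I_mul_I
    rw [this, one_smul]
  simp only [cj_mul hR, e]

end Weyl

end Crest.Agent.R339
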