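import Crest.Agent.R339.QSeedFam
import Crest.Agent.R339.QGeneric

/-! # Row 339: convergence of the Gram data to those of the ideal label protocol -/

set_option autoImplicit false

namespace Crest.Agent.R339

open MeasureTheory ProbabilityTheory Complex Filter Topology Asymptotics
open scoped InnerProductSpace

variable {H : Type} [NormedAddCommGroup H] [InnerProductSpace ℂ H] [CompleteSpace H]

variable {H' : Type} [NormedAddCommGroup H'] [InnerProductSpace ℂ H'] [CompleteSpace H']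

omit [CompleteSpace H] in
theorem QSeedGram_left {a a' b : ℝ → H} {z : ℂ} (h : Tendsto (fun σ => a σ - a' σ) l0 (𝓝 0))
    (hb : b =O[l0] fun _ => (1 : ℝ)) (h' : Tendsto (fun σ => ⟪a' σ, b σ⟫_ℂ) l0 (𝓝 z)) :
    Tendsto (fun σ => ⟪a σ, b σ⟫_ℂ) l0 (𝓝 z) := by
  obtain ⟨C, hC⟩ := hb.bound
  have h1 : Tendsto (fun σ => ⟪a σ - a' σ, b σ⟫_ℂ) l0 (𝓝 0) := by
    have h2 := (tendsto_zero_iff_norm_tendsto_zero.1 h).mul_const C
    rw [zero_mul] at h2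
    refine squeeze_zero_norm' ?_ h2
    filter_upwards [hC] with σ hσ
    rw [norm_one, mul_one] at hσ
    exact (norm_inner_le_norm _ _).trans (mul_le_mul_of_nonneg_left hσ (norm_nonneg _))
  have h3 := h'.add h1
  rw [add_zero] at h3
  refine h3.congr fun σ => ?_
  rw [inner_sub_left]
  ring

omit [CompleteSpace H] in
theorem QSeedGram_conj {a b : ℝ → H} {z : ℂ} (h : Tendsto (fun σ => ⟪a σ, b σ⟫_ℂ) l0 (𝓝 z)) :
    Tendsto (fun σ => ⟪b σ, a σ⟫_ℂ) l0 (𝓝 ((starRingEnd ℂ) z)) := by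
  have := (continuous_conj.tendsto z).comp h
  refine this.congr fun σ => ?_
  exact inner_conj_symm _ _

omit [CompleteSpace H] in
theorem QSeedGram_right {a b b' : ℝ → H} {z : ℂ} (h : Tendsto (fun σ => b σ - b' σ) l0 (𝓝 0))
    (ha : a =O[l0] fun _ => (1 : ℝ)) (h' : Tendsto (fun σ => ⟪a σ, b' σ⟫_ℂ) l0 (𝓝 z)) :
    Tendsto (fun σ => ⟪a σ, b σ⟫_ℂ) l0 (𝓝 z) := by
  simpa using QSeedGram_conj (QSeedGram_left h ha (QSeedGram_conj h'))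

theorem QSeedGram_id : Tendsto (fun σ : ℝ => σ) l0 (𝓝 0) :=
  tendsto_id.mono_left nhdsWithin_le_nhds

namespace Weyl

variable {𝓜 : Weyl H} {τ₀ : ℝ} {𝓜' : Weyl H'} {β γ τ : ℕ → ℝ} {x : ℝ → ℕ → H} {k : ℕ}

theorem QSeedGram_mem (hR : 𝓜.R = ⊤) (g : H) : g ∈ 𝓜.R := hR ▸ Submodule.mem_top

theorem QSeedGram_norm_go (hR : 𝓜.R = ⊤) (β : ℕ → ℝ) (y : ℕ → H) (i : ℕ) : ‖𝓜.go β y i‖ = 1 :=
  𝓜.norm_br_invol (𝓜.Uo_unitary β (fun _ => QSeedGram_mem hR _) i) 𝓜.invol_Z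

theorem QSeedGram_go_O (hR : 𝓜.R = ⊤) (i : ℕ) :
    (fun σ => 𝓜.go β (x σ) i) =O[l0] fun _ => (1 : ℝ) :=
  IsBigO.of_bound 1 (Eventually.of_forall fun σ => by simp [QSeedGram_norm_go hR])

theorem QSeedGram_y_O (hR : 𝓜.R = ⊤) (Pr : 𝓜.Prep τ₀) (i : ℕ) :
    (fun σ => γ i • 𝓜.go β (x σ) i + τ i • Pr.e σ) =O[l0] fun _ => (1 : ℝ) := by
  have he : (fun σ => Pr.e σ) =O[l0] fun _ => (1 : ℝ) :=
    IsBigO.of_bound 1 (Pr.e_norm.mono fun σ h => by simp [h])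
  exact ((QSeedGram_go_O hR i).const_smul_left (γ i)).add (he.const_smul_left (τ i))

theorem x_isBigO (hR : 𝓜.R = ⊤) (Pr : 𝓜.Prep τ₀)
    (hx : ∀ i < k, Tendsto (fun σ => x σ i - (γ i • 𝓜.go β (x σ) i + τ i • Pr.e σ)) l0 (𝓝 0)) :
    ∀ i < k, (fun σ => x σ i) =O[l0] fun _ => (1 : ℝ) := by
  intro i hi
  have := ((hx i hi).isBigO_one ℝ).add (QSeedGram_y_O (β := β) (γ := γ) (τ := τ) (x := x) hR Pr i)
  simpa using this

theorem QSeedGram_reg (hR : 𝓜.R = ⊤) (Pr : 𝓜.Prep τ₀)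
    (hx : ∀ i < k, Tendsto (fun σ => x σ i - (γ i • 𝓜.go β (x σ) i + τ i • Pr.e σ)) l0 (𝓝 0))
    {a : ℕ} (ha : a ≤ k) : 𝓜.RegF fun σ => 𝓜.go β (x σ) a :=
  (tame_Uo hR β fun i hi => x_isBigO hR Pr hx i (hi.trans_le ha)).regF_br 𝓜.invol_Z.cw

theorem QSeedGram_e (hR : 𝓜.R = ⊤) (hτ : τ₀ ≠ 0) (Pr : 𝓜.Prep τ₀)
    (hx : ∀ i < k, Tendsto (fun σ => x σ i - (γ i • 𝓜.go β (x σ) i + τ i • Pr.e σ)) l0 (𝓝 0))
    {a : ℕ} (ha : a ≤ k) : Tendsto (fun σ => ⟪Pr.e σ, 𝓜.go β (x σ) a⟫_ℂ) l0 (𝓝 0) :=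
  (Pr.inner_e hR hτ (QSeedGram_reg hR Pr hx ha)).trans_tendsto QSeedGram_id

theorem QSeedGram_xg (hR : 𝓜.R = ⊤) (hτ : τ₀ ≠ 0) (Pr : 𝓜.Prep τ₀)
    (hx : ∀ i < k, Tendsto (fun σ => x σ i - (γ i • 𝓜.go β (x σ) i + τ i • Pr.e σ)) l0 (𝓝 0))
    {a b : ℕ} (ha : a < k) (hb : b ≤ k) {z : ℂ}
    (h : Tendsto (fun σ => ⟪𝓜.go β (x σ) a, 𝓜.go β (x σ) b⟫_ℂ) l0 (𝓝 z)) :
    Tendsto (fun σ => ⟪x σ a, 𝓜.go β (x σ) b⟫_ℂ) l0 (𝓝 (γ a * z)) := by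
  refine QSeedGram_left (hx a ha) (QSeedGram_go_O hR b) ?_
  have := (h.const_mul (γ a : ℂ)).add ((QSeedGram_e hR hτ Pr hx hb).const_mul (τ a : ℂ))
  rw [mul_zero, add_zero] at this
  refine this.congr fun σ => ?_
  rw [inner_add_left, QGeneric_inl, QGeneric_inl]

theorem QSeedGram_xe (hR : 𝓜.R = ⊤) (hτ : τ₀ ≠ 0) (Pr : 𝓜.Prep τ₀)
    (hx : ∀ i < k, Tendsto (fun σ => x σ i - (γ i • 𝓜.go β (x σ) i + τ i • Pr.e σ)) l0 (𝓝 0))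
    {a : ℕ} (ha : a < k) : Tendsto (fun σ => ⟪x σ a, Pr.e σ⟫_ℂ) l0 (𝓝 (τ a)) := by
  refine QSeedGram_left (hx a ha) (IsBigO.of_bound 1 (Pr.e_norm.mono fun σ h => by simp [h])) ?_
  have := ((QSeedGram_conj (QSeedGram_e hR hτ Pr hx ha.le)).const_mul (γ a : ℂ)).add_const
    (τ a : ℂ)
  rw [map_zero, mul_zero, zero_add] at this
  refine this.congr' ?_
  filter_upwards [Pr.e_norm] with σ hσ
  rw [inner_add_left, QGeneric_inl, QGeneric_inl, inner_self_eq_norm_sq_to_K, hσ]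
  simp

theorem gram_conv (hR : 𝓜.R = ⊤) (h' : 𝓜'.EClosed) (hτ : τ₀ ≠ 0) (Pr : 𝓜.Prep τ₀)
    (hx : ∀ i < k, Tendsto (fun σ => x σ i - (γ i • 𝓜.go β (x σ) i + τ i • Pr.e σ)) l0 (𝓝 0)) :
    ∀ i ≤ k, ∀ j ≤ k, Tendsto (fun σ => ⟪𝓜.go β (x σ) i, 𝓜.go β (x σ) j⟫_ℂ) l0
      (𝓝 ⟪𝓜'.gE β γ τ i, 𝓜'.gE β γ τ j⟫_ℂ) := by
  have key : ∀ n, ∀ i ≤ k, ∀ j ≤ k, i < n → j < n →
      Tendsto (fun σ => ⟪𝓜.go β (x σ) i, 𝓜.go β (x σ) j⟫_ℂ) l0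
        (𝓝 ⟪𝓜'.gE β γ τ i, 𝓜'.gE β γ τ j⟫_ℂ) := by
    intro n
    induction n with
    | zero => intro i _ j _ hi; omega
    | succ n ih =>
      intro i hi j hj hi' hj'
      obtain ⟨Ψ, h1, h2, -⟩ := gram_univ i j
      rw [QGeneric_gE β γ τ i, QGeneric_gE β γ τ j, h1 _ 𝓜' β _ (QGeneric_x_mem h' β γ τ)]
      simp_rw [fun σ => h1 _ 𝓜 β (x σ) fun _ => QSeedGram_mem hR _]
      refine h2 β ℝ l0 _ _ fun a ha b hb => ?_
      have ha' : a < k := by omega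
      have hb' : b < k := by omega
      refine QSeedGram_right (hx b hb') (x_isBigO hR Pr hx a ha') ?_
      have h3 := ((QSeedGram_xg hR hτ Pr hx ha' hb'.le
        (ih a ha'.le b hb'.le (by omega) (by omega))).const_mul (γ b : ℂ)).add
        ((QSeedGram_xe hR hτ Pr hx ha').const_mul (τ b : ℂ))
      convert h3 using 2
      · rw [inner_add_right, QGeneric_inr, QGeneric_inr]
      · simp only [inner_add_right, inner_add_left, QGeneric_inr, QGeneric_inl, QGeneric_Ωg h',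
          QGeneric_gΩ h', QGeneric_ΩΩ]
        ring
  exact fun i hi j hj => key (k + 1) i hi j hj (by omega) (by omega)

theorem energy_conv (hR : 𝓜.R = ⊤) (h' : 𝓜'.EClosed) (hτ : τ₀ ≠ 0) (Pr : 𝓜.Prep τ₀)
    (hx : ∀ i < k, Tendsto (fun σ => x σ i - (γ i • 𝓜.go β (x σ) i + τ i • Pr.e σ)) l0 (𝓝 0)) :
    Tendsto (fun σ => 𝓜.energy (𝓜.go β (x σ) k)) l0 (𝓝 (𝓜'.energy (𝓜'.gE β γ τ k))) := by
  rw [QGeneric_energy h']
  simp_rw [fun σ => 𝓜.energy_go β (x := x σ) (fun _ => QSeedGram_mem hR _) k (QSeedGram_mem hR _)]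
  refine tendsto_finsetSum _ fun a ha => ?_
  have ha' := Finset.mem_range.1 ha
  have h1 := QSeedGram_xg hR hτ Pr hx ha' le_rfl (gram_conv hR h' hτ Pr hx a ha'.le k le_rfl)
  exact (((continuous_re.tendsto _).comp h1).const_mul 2).mul
    ((continuous_im.tendsto _).comp (gram_conv hR h' hτ Pr hx k le_rfl a ha'.le))

end Weyl

end Crest.Agent.R339
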