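import Crest.Agent.R339.QSeedGram
import Crest.Agent.R339.QSeedFlip

/-! # Row 339: auxiliary lemmas for the simulation steps -/

set_option autoImplicit false

namespace Crest.Agent.R339

open MeasureTheory ProbabilityTheory Complex Filter Topology Asymptotics
open scoped InnerProductSpace

variable {H : Type} [NormedAddCommGroup H] [InnerProductSpace ℂ H] [CompleteSpace H]

variable {H' : Type} [NormedAddCommGroup H'] [InnerProductSpace ℂ H'] [CompleteSpace H']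

theorem QSS_id : Tendsto (fun σ : ℝ => σ) l0 (𝓝 0) :=
  tendsto_nhdsWithin_of_tendsto_nhds tendsto_id

theorem QSS_pos : ∀ᶠ σ in l0, 0 < σ := self_mem_nhdsWithin

theorem QSS_tendsto {E : Type} [NormedAddCommGroup E] {f : ℝ → E} (h : f =O[l0] fun σ => σ) :
    Tendsto f l0 (𝓝 0) := h.trans_tendsto QSS_id

theorem QSS_unit {A : ℝ → H →L[ℂ] H} (hA : ∀ σ, A σ ∈ unitary (H →L[ℂ] H)) {f : ℝ → H}
    {g : ℝ → ℝ} (h : f =O[l0] g) : (fun σ => A σ (f σ)) =O[l0] g := by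
  refine (IsBigO.of_bound 1 (Eventually.of_forall fun σ => ?_)).trans h
  rw [ContinuousLinearMap.norm_map_of_mem_unitary (hA σ), one_mul]

theorem QSS_norm_le {A : H →L[ℂ] H} (hA : A ∈ unitary (H →L[ℂ] H)) : ‖A‖ ≤ 1 :=
  ContinuousLinearMap.opNorm_le_bound _ zero_le_one fun x => by
    rw [ContinuousLinearMap.norm_map_of_mem_unitary hA, one_mul]

omit [CompleteSpace H] in
theorem QSS_inner_right (r : ℝ) (x y : H) : ⟪x, r • y⟫_ℂ = r * ⟪x, y⟫_ℂ := by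
  rw [← Complex.coe_smul, inner_smul_right]

omit [CompleteSpace H] in
theorem QSS_inner_left (r : ℝ) (x y : H) : ⟪r • x, y⟫_ℂ = r * ⟪x, y⟫_ℂ := by
  rw [← Complex.coe_smul, inner_smul_left, conj_ofReal]

theorem QSS_sq (ε : Bool) : Weyl.sgE ε * Weyl.sgE ε = 1 := by
  cases ε <;> simp [Weyl.sgE]

theorem QSS_abs (ε : Bool) : |Weyl.sgE ε| = 1 := by
  cases ε <;> simp [Weyl.sgE]

theorem QSS_not (ε : Bool) : Weyl.sgE (!ε) = -Weyl.sgE ε := by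
  cases ε <;> simp [Weyl.sgE]

namespace Weyl

variable {𝓜 : Weyl H} {τ₀ : ℝ} {𝓜' : Weyl H'} {Pr : 𝓜.Prep τ₀}

theorem QSS_mem (hR : 𝓜.R = ⊤) (g : H) : g ∈ 𝓜.R := by rw [hR]; trivial

theorem QSS_WZ_unit (hR : 𝓜.R = ⊤) (g : H) : 𝓜.WZ g ∈ unitary (H →L[ℂ] H) :=
  WQ_unitary 𝓜.invol_Z (QSS_mem hR g)

theorem QSS_WZ_mul (hR : 𝓜.R = ⊤) (g h : H) :
    ∃ a : ℂ, ‖a‖ = 1 ∧ 𝓜.WZ g * 𝓜.WZ h = a • 𝓜.WZ (g + h) :=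
  ⟨_, QBase_norm_phase _, 𝓜.QBase_WZ_mul (QSS_mem hR g) (QSS_mem hR h)⟩

theorem QSS_dg_WZ (hR : 𝓜.R = ⊤) (p m : ℂ) (g : H) :
    𝓜.WZ g * 𝓜.dg p m = 𝓜.dg p m * 𝓜.WZ g :=
  (WQ_comm 𝓜.invol_Z (dg_cw p m) (dg_Z p m) (QSS_mem hR g)).symm

theorem QSS_X_WZ (hR : 𝓜.R = ⊤) (g : H) : 𝓜.X * 𝓜.WZ g = 𝓜.WZ (-g) * 𝓜.X :=
  WQ_anticomm 𝓜.invol_Z 𝓜.invol_X.cw 𝓜.XZ (QSS_mem hR g)

theorem QSS_smul_dg (a p m : ℂ) : a • 𝓜.dg p m = 𝓜.dg (a * p) (a * m) := by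
  simp only [dg, smul_add, smul_smul, mul_div_assoc]

theorem QSS_Xe_unit (ε : Bool) : 𝓜.Xe ε ∈ unitary (H →L[ℂ] H) := by
  cases ε
  · exact one_mem _
  · exact 𝓜.invol_X.mem_unitary

theorem QSS_Xe_cw (ε : Bool) : 𝓜.CW (𝓜.Xe ε) := by
  cases ε
  · exact 𝓜.cw_one
  · exact 𝓜.invol_X.cw

theorem QSS_X_Xe (ε : Bool) : 𝓜.X * 𝓜.Xe ε = 𝓜.Xe (!ε) := by
  cases ε
  · exact mul_one _
  · exact 𝓜.X_sq

/-- `A† Z A = ς Z`. -/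
def QSS_ZS (𝓜 : Weyl H) (A : H →L[ℂ] H) (ς : ℝ) : Prop := star A * 𝓜.Z * A = (ς : ℂ) • 𝓜.Z

theorem QSS_ZS.mul {A A' : H →L[ℂ] H} {a a' : ℝ} (h : 𝓜.QSS_ZS A a) (h' : 𝓜.QSS_ZS A' a') :
    𝓜.QSS_ZS (A * A') (a * a') := by
  have h1 : star (A * A') * 𝓜.Z * (A * A') = star A' * (star A * 𝓜.Z * A) * A' := by
    simp only [star_mul, mul_assoc]
  unfold QSS_ZS at h h' ⊢
  rw [h1, h, mul_smul_comm, smul_mul_assoc, h', smul_smul, ofReal_mul]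

theorem QSS_ZS_comm {A : H →L[ℂ] H} (hA : A ∈ unitary (H →L[ℂ] H)) (h : 𝓜.Z * A = A * 𝓜.Z) :
    𝓜.QSS_ZS A 1 := by
  unfold QSS_ZS
  rw [mul_assoc, h, ← mul_assoc, Unitary.star_mul_self_of_mem hA, one_mul, ofReal_one, one_smul]

theorem QSS_ZS_WZ (hR : 𝓜.R = ⊤) (g : H) : 𝓜.QSS_ZS (𝓜.WZ g) 1 :=
  QSS_ZS_comm (QSS_WZ_unit hR g) (WQ_comm 𝓜.invol_Z 𝓜.invol_Z.cw rfl (QSS_mem hR g))

theorem QSS_ZS_dg {p m : ℂ} (hp : ‖p‖ = 1) (hm : ‖m‖ = 1) : 𝓜.QSS_ZS (𝓜.dg p m) 1 :=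
  QSS_ZS_comm (dg_unitary hp hm) (dg_Z p m).symm

theorem QSS_ZS_X : 𝓜.QSS_ZS 𝓜.X (-1) := by
  unfold QSS_ZS
  rw [𝓜.X_star, 𝓜.XZ, neg_mul, mul_assoc, 𝓜.X_sq, mul_one]
  simp

theorem QSS_ZS_Xe (ε : Bool) : 𝓜.QSS_ZS (𝓜.Xe ε) (sgE ε) := by
  cases ε
  · exact QSS_ZS_comm (one_mem _) (by simp [Xe])
  · exact QSS_ZS_X

theorem QSS_br_WZ (hR : 𝓜.R = ⊤) (g : H) (U : H →L[ℂ] H) :
    𝓜.br (𝓜.WZ g * U) 𝓜.Z = 𝓜.br U 𝓜.Z := by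
  have h := QSS_ZS_WZ hR g
  unfold QSS_ZS at h
  rw [br_mul, h, ofReal_one, one_smul]

theorem QSS_norm_go (hR : 𝓜.R = ⊤) (β : ℕ → ℝ) (x : ℕ → H) (k : ℕ) : ‖𝓜.go β x k‖ = 1 :=
  𝓜.norm_br_invol (𝓜.Uo_unitary β (fun j => QSS_mem hR (x j)) k) 𝓜.invol_Z

theorem QSS_br_maj (hR : 𝓜.R = ⊤) {c : ℂ} (hc : ‖c‖ = 1) (xp : H) (β : ℕ → ℝ) (x : ℕ → H)
    (k : ℕ) : 𝓜.br (c • (𝓜.WZ (-xp) * 𝓜.Uo β x k)) 𝓜.Z = 𝓜.go β x k := by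
  rw [𝓜.QBase_br_smul hc, QSS_br_WZ hR, go]

section
variable {β γ τ : ℕ → ℝ} {k : ℕ} {x : ℝ → ℕ → H}

theorem QSS_reg_go (hR : 𝓜.R = ⊤)
    (hx : ∀ i < k, Tendsto (fun σ => x σ i - (γ i • 𝓜.go β (x σ) i + τ i • Pr.e σ)) l0 (𝓝 0)) :
    𝓜.RegF fun σ => 𝓜.go β (x σ) k :=
  (tame_Uo hR β (x_isBigO hR Pr hx)).regF_br 𝓜.invol_Z.cw

theorem QSS_g_approx (hR : 𝓜.R = ⊤) {U S : ℝ → H →L[ℂ] H} {xp : ℝ → H} {c : ℝ → ℂ}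
    (hc : ∀ σ, ‖c σ‖ = 1)
    (sec : Sec Pr U (fun σ => c σ • (𝓜.WZ (-xp σ) * 𝓜.Uo β (x σ) k)) S)
    (hx : ∀ i < k, Tendsto (fun σ => x σ i - (γ i • 𝓜.go β (x σ) i + τ i • Pr.e σ)) l0 (𝓝 0)) :
    Tendsto (fun σ => 𝓜.br (U σ) 𝓜.Z - 𝓜.go β (x σ) k) l0 (𝓝 0) := by
  have h := sec.br_approx hR (O := 𝓜.Z) (by
    simp only [QSS_br_maj hR (hc _)]
    exact QSS_reg_go hR hx)
  simp only [QSS_br_maj hR (hc _)] at h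
  exact QSS_tendsto h

theorem QSS_norm_sum (hR : 𝓜.R = ⊤) (τp : ℝ) (σ : ℝ) :
    ‖∑ i ∈ Finset.range k, τ i • 𝓜.go β (x σ) i + τp • 𝓜.go β (x σ) k‖ ≤
      ∑ i ∈ Finset.range k, |τ i| + |τp| := by
  refine (norm_add_le _ _).trans (add_le_add ((norm_sum_le _ _).trans (le_of_eq ?_)) ?_)
  · refine Finset.sum_congr rfl fun i _ => ?_
    rw [norm_smul, QSS_norm_go hR, mul_one, Real.norm_eq_abs]
  · rw [norm_smul, QSS_norm_go hR, mul_one, Real.norm_eq_abs]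

theorem QSS_im_conv (hR : 𝓜.R = ⊤) (h' : 𝓜'.EClosed) (hτ : τ₀ ≠ 0)
    (hx : ∀ i < k, Tendsto (fun σ => x σ i - (γ i • 𝓜.go β (x σ) i + τ i • Pr.e σ)) l0 (𝓝 0))
    {g d : ℝ → H} {s τp : ℝ} (hg1 : ∀ σ, ‖g σ‖ = 1)
    (hg : Tendsto (fun σ => g σ - 𝓜.go β (x σ) k) l0 (𝓝 0))
    (hd : Tendsto (fun σ => (s * σ) • d σ -
      (∑ i ∈ Finset.range k, τ i • 𝓜.go β (x σ) i + τp • 𝓜.go β (x σ) k)) l0 (𝓝 0)) :
    Tendsto (fun σ => s * σ * (⟪g σ, d σ⟫_ℂ).im) l0 (𝓝 (-𝓜'.sE β γ τ k)) := by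
  set y : ℝ → H := fun σ =>
    ∑ i ∈ Finset.range k, τ i • 𝓜.go β (x σ) i + τp • 𝓜.go β (x σ) k with hy
  have hG := gram_conv hR h' hτ Pr hx
  have h1 : Tendsto (fun σ => ⟪𝓜.go β (x σ) k, y σ⟫_ℂ) l0
      (𝓝 (∑ i ∈ Finset.range k, τ i * ⟪𝓜'.gE β γ τ k, 𝓜'.gE β γ τ i⟫_ℂ +
        τp * ⟪𝓜'.gE β γ τ k, 𝓜'.gE β γ τ k⟫_ℂ)) := by
    simp only [hy, inner_add_right, inner_sum, QSS_inner_right]
    refine Tendsto.add (tendsto_finsetSum _ fun i hi => ?_) ((hG k le_rfl k le_rfl).const_mul _)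
    exact (hG k le_rfl i (Finset.mem_range.mp hi).le).const_mul _
  have h2 : Tendsto (fun σ => ⟪g σ - 𝓜.go β (x σ) k, y σ⟫_ℂ) l0 (𝓝 0) := by
    have h3 := (tendsto_zero_iff_norm_tendsto_zero.mp hg).mul_const
      (∑ i ∈ Finset.range k, |τ i| + |τp|)
    rw [zero_mul] at h3
    exact squeeze_zero_norm (fun σ => (norm_inner_le_norm _ _).trans
      (mul_le_mul_of_nonneg_left (QSS_norm_sum hR τp σ) (norm_nonneg _))) h3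
  have h3 : Tendsto (fun σ => ⟪g σ, (s * σ) • d σ - y σ⟫_ℂ) l0 (𝓝 0) :=
    squeeze_zero_norm (fun σ => (norm_inner_le_norm _ _).trans (by rw [hg1, one_mul]))
      (tendsto_zero_iff_norm_tendsto_zero.mp hd)
  have h4 := (continuous_im.tendsto _).comp ((h1.add h2).add h3)
  have h5 : (∑ i ∈ Finset.range k, τ i * ⟪𝓜'.gE β γ τ k, 𝓜'.gE β γ τ i⟫_ℂ +
      τp * ⟪𝓜'.gE β γ τ k, 𝓜'.gE β γ τ k⟫_ℂ + 0 + 0).im = -𝓜'.sE β γ τ k := by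
    have h0 : (⟪𝓜'.gE β γ τ k, 𝓜'.gE β γ τ k⟫_ℂ).im = 0 := inner_self_im (𝕜 := ℂ) _
    rw [add_zero, add_zero, add_im, im_ofReal_mul, h0, mul_zero, add_zero, im_sum, sE,
      ← Finset.sum_neg_distrib]
    refine Finset.sum_congr rfl fun i _ => ?_
    rw [im_ofReal_mul, QBase_im_symm, mul_neg]
  rw [h5] at h4
  refine h4.congr fun σ => ?_
  rw [Function.comp_apply, ← inner_add_left, add_sub_cancel, ← inner_add_right, add_sub_cancel,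
    QSS_inner_right, im_ofReal_mul]

/-- One exact step on the majority sector. -/
theorem QSS_majStep (hR : 𝓜.R = ⊤) {U S : ℝ → H →L[ℂ] H} {xp : ℝ → H} {c : ℝ → ℂ}
    (hc : ∀ σ, ‖c σ‖ = 1)
    (sec : Sec Pr U (fun σ => c σ • (𝓜.WZ (-xp σ) * 𝓜.Uo β (x σ) k)) S)
    (hx : ∀ i < k, Tendsto (fun σ => x σ i - (γ i • 𝓜.go β (x σ) i + τ i • Pr.e σ)) l0 (𝓝 0))
    (θ : ℝ → ℝ) (hθ : Tendsto θ l0 (𝓝 (γ k)))
    (hxp : Tendsto (fun σ => xp σ - τ k • Pr.e σ) l0 (𝓝 0)) :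
    ∃ (x' : ℝ → ℕ → H) (c' : ℝ → ℂ), (∀ σ, ‖c' σ‖ = 1) ∧
      Sec Pr (fun σ => 𝓜.B (β k) * 𝓜.C (θ σ) (U σ))
        (fun σ => c' σ • (𝓜.WZ (-(fun _ => (0 : H)) σ) * 𝓜.Uo β (x' σ) (k + 1)))
        (fun σ => 𝓜.B (β k) * (𝓜.WZ (-(θ σ • 𝓜.br (U σ) 𝓜.Z)) * S σ)) ∧
      (∀ i < k + 1,
        Tendsto (fun σ => x' σ i - (γ i • 𝓜.go β (x' σ) i + τ i • Pr.e σ)) l0 (𝓝 0)) ∧
      ∀ σ, ∀ i ≤ k, 𝓜.go β (x' σ) i = 𝓜.go β (x σ) i := by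
  classical
  set g : ℝ → H := fun σ => 𝓜.br (U σ) 𝓜.Z with hgdef
  choose a ha ha' using fun σ => QSS_WZ_mul hR (-(θ σ • g σ)) (-xp σ)
  let x' : ℝ → ℕ → H := fun σ => Function.update (x σ) k (xp σ + θ σ • g σ)
  have hx' : ∀ σ, ∀ i < k, x' σ i = x σ i := fun σ i hi => Function.update_of_ne hi.ne _ _
  have hx'k : ∀ σ, x' σ k = xp σ + θ σ • g σ := fun σ => Function.update_self _ _ _
  have hUo : ∀ σ, ∀ i ≤ k, 𝓜.Uo β (x' σ) i = 𝓜.Uo β (x σ) i := fun σ i hi =>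
    𝓜.Uo_congr (fun _ _ => rfl) fun j hj => hx' σ j (lt_of_lt_of_le hj hi)
  have hgo : ∀ σ, ∀ i ≤ k, 𝓜.go β (x' σ) i = 𝓜.go β (x σ) i := fun σ i hi => by
    rw [go, go, hUo σ i hi]
  refine ⟨x', fun σ => c σ * a σ, fun σ => by rw [norm_mul, hc, ha, one_mul], ?_, ?_, hgo⟩
  · have h1 := (sec.mul (G := fun σ => 𝓜.WZ (-(θ σ • g σ))) fun σ => QSS_WZ_unit hR _).mul
      (G := fun _ => 𝓜.B (β k)) fun _ => 𝓜.B_unitary _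
    have h2 : (fun σ => 𝓜.B (β k) * (𝓜.WZ (-(θ σ • g σ)) *
        (c σ • (𝓜.WZ (-xp σ) * 𝓜.Uo β (x σ) k)))) = fun σ => (c σ * a σ) •
        (𝓜.WZ (-(fun _ => (0 : H)) σ) * 𝓜.Uo β (x' σ) (k + 1)) := by
      funext σ
      rw [neg_zero, 𝓜.QBase_WZ_zero, one_mul, Uo, hUo σ k le_rfl, hx'k, mul_smul_comm,
        ← mul_assoc (𝓜.WZ _), ha', smul_mul_assoc, smul_smul, mul_smul_comm, neg_add, add_comm,
        mul_assoc]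
    rw [h2] at h1
    exact h1
  · intro i hi
    rcases Nat.lt_succ_iff_lt_or_eq.mp hi with hi | rfl
    · simp only [hx' _ i hi, hgo _ i hi.le]
      exact hx i hi
    · simp only [hx'k, hgo _ i le_rfl]
      have h1 := (QSS_g_approx hR hc sec hx).const_smul (γ i)
      have h2 : Tendsto (fun σ => (θ σ - γ i) • g σ) l0 (𝓝 0) := by
        have h3 := (hθ.sub_const (γ i)).norm
        rw [sub_self, norm_zero] at h3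
        refine squeeze_zero_norm (fun σ => le_of_eq ?_) h3
        rw [norm_smul, hgdef, 𝓜.norm_br_invol (sec.uU σ) 𝓜.invol_Z, mul_one]
      have h4 := (hxp.add h1).add h2
      rw [smul_zero, add_zero, add_zero] at h4
      refine h4.congr fun σ => ?_
      simp only [hgdef]
      module

end

theorem QSS_sec_seed {U M S S' : ℝ → H →L[ℂ] H} (h : Sec Pr U M S)
    (hu : ∀ σ, S' σ ∈ unitary (H →L[ℂ] H))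
    (hS : ∀ ζ, 𝓜.RegF ζ → (fun σ => S σ (ζ σ) - S' σ (ζ σ)) =O[l0] fun σ => σ) : Sec Pr U M S' :=
  ⟨h.uU, h.uM, hu, h.maj, fun ζ hζ => ((h.seed ζ hζ).add (hS ζ hζ)).congr_left fun σ => by abel⟩

theorem QSS_reg_cw {ξ : ℝ → H} (h : 𝓜.RegF ξ) {A : ℝ → H →L[ℂ] H} (hA : ∀ σ, 𝓜.CW (A σ))
    (hu : ∀ σ, A σ ∈ unitary (H →L[ℂ] H)) : 𝓜.RegF fun σ => A σ (ξ σ) :=
  h.cw hA (Eventually.of_forall fun σ => QSS_norm_le (hu σ))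

/-- A small cost rotation acts on a far displaced sector as a quarter turn about `Z`. -/
theorem QSS_gate (hR : 𝓜.R = ⊤) {u v η : ℝ → H} {ς : ℝ} (hv : v =O[l0] fun σ => σ)
    (hη : 𝓜.RegF η) (hq : ∀ᶠ σ in l0, Real.cos (2 * (⟪v σ, u σ⟫_ℂ).im) = 0 ∧
      Real.sin (2 * (⟪v σ, u σ⟫_ℂ).im) = ς) :
    (fun σ => 𝓜.WZ (v σ) (𝓜.W (u σ) (η σ)) -
      𝓜.W (u σ) ((-(I * ς)) • 𝓜.Z (η σ))) =O[l0] fun σ => σ := by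
  obtain ⟨c, hc⟩ := hη
  refine (IsBigO.of_bound (|ς| * (2 * c)) ?_).trans hv
  filter_upwards [hc, hq] with σ hσ hq
  have h1 := congrArg (fun A : H →L[ℂ] H => A (η σ))
    (WQ_W 𝓜.invol_Z (QSS_mem hR (v σ)) (QSS_mem hR (u σ)))
  simp only [hq.1, hq.2, ofReal_zero, zero_smul, zero_sub, mul_apply_eq_comp] at h1
  have h2 : 𝓜.WZ (v σ) (𝓜.W (u σ) (η σ)) - 𝓜.W (u σ) ((-(I * ς)) • 𝓜.Z (η σ)) =
      𝓜.W (u σ) ((-(I * ς)) • 𝓜.Z (𝓜.WZ (v σ) (η σ) - η σ)) := by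
    rw [WZ, h1, ← map_sub, map_sub 𝓜.Z, smul_sub]
    simp
  rw [h2, ContinuousLinearMap.norm_map_of_mem_unitary (𝓜.W_unitary (QSS_mem hR _)), norm_smul,
    ContinuousLinearMap.norm_map_of_mem_unitary 𝓜.invol_Z.mem_unitary, norm_neg, norm_mul, norm_I,
    one_mul, Complex.norm_real, Real.norm_eq_abs, mul_assoc]
  exact mul_le_mul_of_nonneg_left (hσ.2.1.norm_WQ_sub 𝓜.invol_Z (QSS_mem hR _)) (abs_nonneg _)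

theorem QSS_echo (b : ℝ) : 𝓜.B b * (𝓜.Z * (𝓜.B (2 * b) * (𝓜.Z * 𝓜.B b))) = 1 := by
  rw [← mul_assoc 𝓜.Z, Z_B, mul_assoc, ← mul_assoc 𝓜.Z, 𝓜.Z_sq, one_mul, ← B_add, ← B_add,
    show b + (-(2 * b) + b) = 0 by ring, B_zero]

/-- The block of three mixers acts as `-1` on a far displaced sector. -/
theorem QSS_block (hR : 𝓜.R = ⊤) (b : ℝ) {u v₁ v₂ η : ℝ → H} {ς : ℝ} (hς : ς * ς = 1)
    (hv₁ : v₁ =O[l0] fun σ => σ) (hv₂ : v₂ =O[l0] fun σ => σ) (hη : 𝓜.RegF η)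
    (hq₁ : ∀ᶠ σ in l0, Real.cos (2 * (⟪v₁ σ, u σ⟫_ℂ).im) = 0 ∧
      Real.sin (2 * (⟪v₁ σ, u σ⟫_ℂ).im) = ς)
    (hq₂ : ∀ᶠ σ in l0, Real.cos (2 * (⟪v₂ σ, u σ⟫_ℂ).im) = 0 ∧
      Real.sin (2 * (⟪v₂ σ, u σ⟫_ℂ).im) = ς) :
    (fun σ => 𝓜.B b (𝓜.WZ (v₂ σ) (𝓜.B (2 * b) (𝓜.WZ (v₁ σ) (𝓜.B b (𝓜.W (u σ) (η σ)))))) +
      𝓜.W (u σ) (η σ)) =O[l0] fun σ => σ := by
  have hB : ∀ (β : ℝ) (w ξ : H), 𝓜.B β (𝓜.W w ξ) = 𝓜.W w (𝓜.B β ξ) := fun β w ξ =>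
    congrArg (fun A : H →L[ℂ] H => A ξ) (𝓜.B_cw β w (QSS_mem hR w))
  have hrB : ∀ (β : ℝ) {ξ : ℝ → H}, 𝓜.RegF ξ → 𝓜.RegF fun σ => 𝓜.B β (ξ σ) := fun β _ h =>
    QSS_reg_cw h (fun _ => 𝓜.B_cw β) fun _ => 𝓜.B_unitary β
  have hrZ : ∀ {ξ : ℝ → H}, 𝓜.RegF ξ → 𝓜.RegF fun σ => (-(I * ς)) • 𝓜.Z (ξ σ) := fun h =>
    (QSS_reg_cw h (fun _ => 𝓜.invol_Z.cw) fun _ => 𝓜.invol_Z.mem_unitary).smul
      (Eventually.of_forall fun _ => le_rfl)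
  have h1 := QSS_gate hR hv₁ (hrB b hη) hq₁
  have h2 := QSS_gate hR hv₂ (hrB (2 * b) (hrZ (hrB b hη))) hq₂
  have h3 := QSS_unit (A := fun σ => 𝓜.B b * 𝓜.WZ (v₂ σ) * 𝓜.B (2 * b))
    (fun σ => mul_mem (mul_mem (𝓜.B_unitary _) (QSS_WZ_unit hR _)) (𝓜.B_unitary _)) h1
  have h4 := QSS_unit (A := fun _ => 𝓜.B b) (fun _ => 𝓜.B_unitary _) h2
  refine (h3.add h4).congr_left fun σ => ?_
  have h5 := congrArg (fun A : H →L[ℂ] H => A (η σ)) (QSS_echo (𝓜 := 𝓜) b)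
  simp only [mul_apply_eq_comp, one_apply_eq_self] at h5
  have h6 : (-(I * ς)) * (-(I * ς)) = (-1 : ℂ) := by
    have : (ς : ℂ) * ς = 1 := by rw [← ofReal_mul, hς, ofReal_one]
    linear_combination (ς : ℂ) * ς * I_mul_I - this
  simp only [mul_apply_eq_comp, map_sub, map_smul, hB, h5, smul_smul, h6]
  simp

omit [CompleteSpace H] in
/-- The tuned angle. -/
theorem QSS_angle {g d : ℝ → H} {s L : ℝ} (hL : L ≠ 0) (hg1 : ∀ σ, ‖g σ‖ = 1)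
    (h : Tendsto (fun σ => s * σ * (⟪g σ, d σ⟫_ℂ).im) l0 (𝓝 L)) :
    ∃ θ : ℝ → ℝ, Tendsto θ l0 (𝓝 0) ∧ (fun σ => -(θ σ • g σ)) =O[l0] (fun σ => σ) ∧
      (∀ᶠ σ in l0, Real.cos (2 * (⟪-(θ σ • g σ), -d σ⟫_ℂ).im) = 0 ∧
        Real.sin (2 * (⟪-(θ σ • g σ), -d σ⟫_ℂ).im) = 1) ∧
      ∀ᶠ σ in l0, Real.cos (2 * (⟪-(θ σ • g σ), - -d σ⟫_ℂ).im) = 0 ∧
        Real.sin (2 * (⟪-(θ σ • g σ), - -d σ⟫_ℂ).im) = -1 := by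
  have hne : ∀ᶠ σ in l0, s * σ * (⟪g σ, d σ⟫_ℂ).im ≠ 0 := h.eventually_ne hL
  have h1 : (fun σ => Real.pi / (4 * (⟪g σ, d σ⟫_ℂ).im)) =O[l0] fun σ => σ := by
    have h2 := ((h.inv₀ hL).const_mul (Real.pi * s / 4)).isBigO_one ℝ
    have h3 := h2.mul (isBigO_refl (fun σ : ℝ => σ) l0)
    refine h3.congr' ?_ (Eventually.of_forall fun σ => one_mul _)
    filter_upwards [hne] with σ hσ
    have h4 := (mul_ne_zero_iff.mp hσ).2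
    have h5 := (mul_ne_zero_iff.mp (mul_ne_zero_iff.mp hσ).1).1
    have h6 := (mul_ne_zero_iff.mp (mul_ne_zero_iff.mp hσ).1).2
    field_simp
  have h7 : ∀ᶠ σ in l0, 2 * (⟪-((Real.pi / (4 * (⟪g σ, d σ⟫_ℂ).im)) • g σ), -d σ⟫_ℂ).im =
      Real.pi / 2 := by
    filter_upwards [hne] with σ hσ
    have h4 := (mul_ne_zero_iff.mp hσ).2
    rw [inner_neg_neg, QSS_inner_left, im_ofReal_mul]
    field_simp
    ring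
  refine ⟨fun σ => Real.pi / (4 * (⟪g σ, d σ⟫_ℂ).im), QSS_tendsto h1, ?_, ?_, ?_⟩
  · refine (IsBigO.of_bound 1 (Eventually.of_forall fun σ => ?_)).trans h1
    rw [norm_neg, norm_smul, hg1, mul_one, one_mul]
  · filter_upwards [h7] with σ hσ
    rw [hσ, Real.cos_pi_div_two, Real.sin_pi_div_two]
    exact ⟨rfl, rfl⟩
  · filter_upwards [h7] with σ hσ
    rw [inner_neg_right, neg_im, mul_neg, hσ, Real.cos_neg, Real.sin_neg, Real.cos_pi_div_two,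
      Real.sin_pi_div_two]
    exact ⟨rfl, rfl⟩

theorem QSS_anchor : True := by
  have := @QSS_ZS.eq_1
  trivial

end Weyl

end Crest.Agent.R339
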