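import Crest.Agent.R339.QSeedGram
import Crest.Agent.R339.QSeedFlip
import Crest.Agent.R339.QSeedStepAux

/-! # Row 339: simulation of the label gate and of the selective mixer -/

set_option autoImplicit false

namespace Crest.Agent.R339

open MeasureTheory ProbabilityTheory Complex Filter Topology Asymptotics
open scoped InnerProductSpace

variable {H : Type} [NormedAddCommGroup H] [InnerProductSpace ℂ H] [CompleteSpace H]

variable {H' : Type} [NormedAddCommGroup H'] [InnerProductSpace ℂ H'] [CompleteSpace H']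

namespace Weyl

variable {𝓜 : Weyl H} {τ₀ : ℝ} {𝓜' : Weyl H'} {Pr : 𝓜.Prep τ₀}

theorem SInv.stepE (hR : 𝓜.R = ⊤) (h' : 𝓜'.EClosed) (hτ : τ₀ ≠ 0) {β γ τ : ℕ → ℝ} {k : ℕ}
    (S : SInv Pr β γ τ k 0) (hs : 𝓜'.sE β γ τ k ≠ 0) (τp : ℝ) :
    Nonempty (SInv Pr β γ τ k τp) := by
  by_cases hτp : τp = 0
  · subst hτp
    exact ⟨S⟩
  obtain ⟨U, x, xp, d, c, p, m, ε, reach, hc, hp, hm, sec, hx, hxp, hd⟩ := S
  set s := sgE ε with hsdef
  have hss : s * s = 1 := QSS_sq ε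
  have hsa : |s| = 1 := QSS_abs ε
  set g : ℝ → H := fun σ => 𝓜.br (U σ) 𝓜.Z with hgdef
  set t : ℝ → ℝ := fun σ => -(s * τp) / (2 * σ) with htdef
  have hg1 : ∀ σ, ‖g σ‖ = 1 := fun σ => 𝓜.norm_br_invol (sec.uU σ) 𝓜.invol_Z
  have hga := QSS_g_approx hR hc sec hx
  have him := QSS_im_conv hR h' hτ hx hg1 hga hd
  have hxp0 : Tendsto xp l0 (𝓝 0) := by simpa using hxp
  have hMt : 𝓜.Tame fun σ => c σ • (𝓜.WZ (-xp σ) * 𝓜.Uo β (x σ) k) :=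
    ((tame_WQ hR (Q := fun _ => 𝓜.Z) (fun _ => 𝓜.invol_Z) (hxp0.neg.isBigO_one ℝ)).mul
      (tame_Uo hR β (x_isBigO hR Pr hx))).smul hc
  have hdX : ∀ {ζ : ℝ → H}, 𝓜.RegF ζ → 𝓜.RegF fun σ => 𝓜.dg (p σ) (m σ) (𝓜.Xe ε (ζ σ)) :=
    fun h => QSS_reg_cw (QSS_reg_cw h (fun _ => QSS_Xe_cw ε) fun _ => QSS_Xe_unit ε)
      (fun _ => dg_cw _ _) fun σ => dg_unitary (hp σ) (hm σ)
  have hσt : ∀ᶠ σ in l0, σ * t σ = -(s * τp) / 2 := by
    filter_upwards [QSS_pos] with σ hσ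
    simp only [htdef]
    field_simp
  obtain ⟨F, p', m', hF, hp', hm', hreach, hFm, hFs⟩ := flip hR reach
    (a := fun σ => (c σ • (𝓜.WZ (-xp σ) * 𝓜.Uo β (x σ) k)) 𝓜.Ω)
    (b := fun σ => Pr.a₂ σ • 𝓜.dg (p σ) (m σ) (𝓜.Xe ε 𝓜.Ω)) (d := d) (t := t)
    (hMt.reg _ regF_Ω)
    ((hdX regF_Ω).smul (Eventually.of_forall fun σ => (Pr.a₂_norm σ).le))
    ((sec.dec hR).congr_left fun σ => by
      rw [← QSS_dg_WZ hR, map_smul]
      rfl)
    (c := min (|𝓜'.sE β γ τ k| / 2) (|τp| / 2))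
    (C := max (∑ i ∈ Finset.range k, |τ i| + |(0 : ℝ)| + 1) (|τp| / 2))
    (lt_min (half_pos (abs_pos.mpr hs)) (half_pos (abs_pos.mpr hτp)))
    (by
      have h1 := him.abs
      rw [abs_neg] at h1
      filter_upwards [h1.eventually_const_lt (half_lt_self (abs_pos.mpr hs))] with σ hσ
      rw [mul_assoc, abs_mul, hsa, one_mul] at hσ
      exact (min_le_left _ _).trans hσ.le)
    (by
      filter_upwards [(tendsto_zero_iff_norm_tendsto_zero.mp hd).eventually_lt_const one_pos,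
        QSS_pos] with σ hσ hpos
      refine le_trans ?_ (le_max_left _ _)
      have h1 := QSS_norm_sum (β := β) (τ := τ) (k := k) (x := x) hR 0 σ
      have h2 := norm_le_norm_add_norm_sub' ((s * σ) • d σ)
        (∑ i ∈ Finset.range k, τ i • 𝓜.go β (x σ) i + (0 : ℝ) • 𝓜.go β (x σ) k)
      rw [norm_smul, Real.norm_eq_abs, abs_mul, hsa, one_mul, abs_of_pos hpos] at h2
      linarith)
    (by
      filter_upwards [hσt] with σ hσ
      rw [hσ, abs_div, abs_neg, abs_mul, hsa, one_mul, abs_two]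
      exact ⟨min_le_right _ _, le_max_right _ _⟩)
  choose a₁ ha₁ ha₁' using fun σ => QSS_WZ_mul hR (t σ • g σ) (-d σ)
  have sec1 := sec.mul (G := fun σ => 𝓜.WZ (t σ • g σ)) fun σ => QSS_WZ_unit hR _
  have sec2 : Sec Pr (fun σ => F σ * (𝓜.WZ (t σ • g σ) * U σ))
      (fun σ => 𝓜.WZ (t σ • g σ) * (c σ • (𝓜.WZ (-xp σ) * 𝓜.Uo β (x σ) k)))
      fun σ => 𝓜.X * (𝓜.dg (p' σ) (m' σ) * (𝓜.WZ (t σ • g σ) *
        (𝓜.dg (p σ) (m σ) * 𝓜.WZ (-d σ) * 𝓜.Xe ε))) := by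
    refine ⟨fun σ => mul_mem (hF σ) (sec1.uU σ), sec1.uM, fun σ => mul_mem
      𝓜.invol_X.mem_unitary (mul_mem (dg_unitary (hp' σ) (hm' σ)) (sec1.uS σ)),
      fun ξ hξ => ?_, fun ζ hζ => ?_⟩
    · refine ((QSS_unit hF (sec1.maj ξ hξ)).add (hFm _ (hMt.reg ξ hξ))).congr_left fun σ => ?_
      simp only [map_sub, mul_apply_eq_comp, hgdef]
      abel
    · have h1 : ∀ σ, (𝓜.WZ (t σ • g σ) * (𝓜.dg (p σ) (m σ) * 𝓜.WZ (-d σ) * 𝓜.Xe ε)) (ζ σ) =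
          𝓜.WZ (-(d σ - t σ • g σ)) (a₁ σ • 𝓜.dg (p σ) (m σ) (𝓜.Xe ε (ζ σ))) := by
        intro σ
        rw [← QSS_dg_WZ hR, mul_assoc, ← mul_assoc, ha₁', neg_sub, sub_eq_add_neg, map_smul]
        rfl
      refine ((QSS_unit hF (sec1.seed ζ hζ)).add (hFs _ ((hdX hζ).smul (a := a₁)
        (Eventually.of_forall fun σ => (ha₁ σ).le)))).congr_left fun σ => ?_
      rw [← h1]
      simp only [map_sub, mul_apply_eq_comp]
      abel
  set g₂ : ℝ → H := fun σ => 𝓜.br (F σ * (𝓜.WZ (t σ • g σ) * U σ)) 𝓜.Z with hg₂def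
  have hZS : ∀ σ, 𝓜.QSS_ZS (𝓜.dg (p σ) (m σ) * 𝓜.WZ (-d σ) * 𝓜.Xe ε) s := fun σ => by
    have := ((QSS_ZS_dg (𝓜 := 𝓜) (hp σ) (hm σ)).mul (QSS_ZS_WZ hR (-d σ))).mul (QSS_ZS_Xe ε)
    rwa [one_mul, one_mul] at this
  have hb1 := sec.br_Z hR (by
    simp only [QSS_br_maj hR (hc _)]
    exact QSS_reg_go hR hx) hZS
  have hb2 := sec2.br_Z hR (ς := -s) (by
    simp only [QSS_br_WZ hR, QSS_br_maj hR (hc _)]
    exact QSS_reg_go hR hx) (fun σ => by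
    have := QSS_ZS_X.mul ((QSS_ZS_dg (𝓜 := 𝓜) (hp' σ) (hm' σ)).mul
      ((QSS_ZS_WZ hR (t σ • g σ)).mul (hZS σ)))
    rwa [one_mul, one_mul, neg_one_mul] at this)
  simp only [QSS_br_WZ hR, QSS_br_maj hR (hc _)] at hb1 hb2
  have hdiff : (fun σ => g₂ σ - g σ + (2 * s * σ) • Pr.e σ) =O[l0] fun σ => σ ^ 2 :=
    (hb2.sub hb1).congr_left fun σ => by
      simp only [hg₂def, hgdef]
      module
  have hg₂a : Tendsto (fun σ => g₂ σ - 𝓜.go β (x σ) k) l0 (𝓝 0) := by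
    have h := sec2.br_approx hR (O := 𝓜.Z) (by
      simp only [QSS_br_WZ hR, QSS_br_maj hR (hc _)]
      exact QSS_reg_go hR hx)
    simp only [QSS_br_WZ hR, QSS_br_maj hR (hc _)] at h
    exact QSS_tendsto h
  have hlab : Tendsto (fun σ => t σ • (g₂ σ - g σ) - τp • Pr.e σ) l0 (𝓝 0) := by
    have h1 : t =O[l0] fun σ => σ⁻¹ :=
      ((isBigO_refl (fun σ : ℝ => σ⁻¹) l0).const_mul_left (-(s * τp) / 2)).congr_left fun σ => by
        simp only [htdef]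
        ring
    refine QSS_tendsto ((h1.smul hdiff).congr' ?_ ?_)
    · filter_upwards [hσt] with σ hσ
      have h2 : t σ * (2 * s * σ) = -τp := by
        linear_combination 2 * s * hσ - τp * hss
      rw [smul_add, smul_smul, h2, neg_smul, ← sub_eq_add_neg]
    · filter_upwards [QSS_pos] with σ hσ
      rw [smul_eq_mul]
      field_simp
  choose a₂ ha₂ ha₂' using fun σ => QSS_WZ_mul hR (-(t σ • g₂ σ)) (t σ • g σ)
  choose a₃ ha₃ ha₃' using fun σ => QSS_WZ_mul hR (-(t σ • g₂ σ) + t σ • g σ) (-xp σ)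
  choose a₄ ha₄ ha₄' using fun σ => QSS_WZ_mul hR (-(t σ • g₂ σ)) (-(t σ • g σ + -d σ))
  have sec3 := sec2.mul (G := fun σ => 𝓜.WZ (-(t σ • g₂ σ))) fun σ => QSS_WZ_unit hR _
  have hM : (fun σ => 𝓜.WZ (-(t σ • g₂ σ)) * (𝓜.WZ (t σ • g σ) *
      (c σ • (𝓜.WZ (-xp σ) * 𝓜.Uo β (x σ) k)))) = fun σ => (c σ * a₂ σ * a₃ σ) •
      (𝓜.WZ (-(xp σ + t σ • (g₂ σ - g σ))) * 𝓜.Uo β (x σ) k) := by
    funext σ
    have h1 : -(xp σ + t σ • (g₂ σ - g σ)) = -(t σ • g₂ σ) + t σ • g σ + -xp σ := by module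
    rw [h1, ← mul_assoc, ha₂', mul_smul_comm, smul_mul_assoc, ← mul_assoc, ha₃', smul_mul_assoc,
      smul_smul, smul_smul]
  have hS : (fun σ => 𝓜.WZ (-(t σ • g₂ σ)) * (𝓜.X * (𝓜.dg (p' σ) (m' σ) * (𝓜.WZ (t σ • g σ) *
      (𝓜.dg (p σ) (m σ) * 𝓜.WZ (-d σ) * 𝓜.Xe ε))))) = fun σ =>
      𝓜.dg (a₁ σ * a₄ σ * (m' σ * m σ)) (a₁ σ * a₄ σ * (p' σ * p σ)) *
        𝓜.WZ (-(t σ • g₂ σ + t σ • g σ - d σ)) * 𝓜.Xe (!ε) := by
    funext σ
    have h1 : -(t σ • g₂ σ + t σ • g σ - d σ) = -(t σ • g₂ σ) + -(t σ • g σ + -d σ) := by module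
    have h2 : 𝓜.WZ (t σ • g σ) * (𝓜.dg (p σ) (m σ) * 𝓜.WZ (-d σ) * 𝓜.Xe ε) =
        a₁ σ • (𝓜.dg (p σ) (m σ) * (𝓜.WZ (t σ • g σ + -d σ) * 𝓜.Xe ε)) := by
      rw [← mul_assoc, ← mul_assoc, QSS_dg_WZ hR, mul_assoc (𝓜.dg _ _), ha₁', mul_smul_comm,
        smul_mul_assoc, mul_assoc]
    rw [h1, h2, mul_smul_comm, mul_smul_comm, mul_smul_comm, ← mul_assoc (𝓜.dg _ _), dg_mul,
      ← mul_assoc 𝓜.X, X_dg, mul_assoc, ← mul_assoc 𝓜.X, QSS_X_WZ hR, mul_assoc, QSS_X_Xe,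
      ← mul_assoc, QSS_dg_WZ hR, mul_assoc, ← mul_assoc (𝓜.WZ _), ha₄', smul_mul_assoc,
      mul_smul_comm, smul_smul, ← QSS_smul_dg, smul_mul_assoc, smul_mul_assoc, mul_assoc]
  rw [hM, hS] at sec3
  refine ⟨⟨fun σ => 𝓜.C (t σ) (F σ * (𝓜.WZ (t σ • g σ) * U σ)), x,
    fun σ => xp σ + t σ • (g₂ σ - g σ), fun σ => t σ • g₂ σ + t σ • g σ - d σ,
    fun σ => c σ * a₂ σ * a₃ σ, fun σ => a₁ σ * a₄ σ * (m' σ * m σ),
    fun σ => a₁ σ * a₄ σ * (p' σ * p σ), !ε, fun σ => QReach.C _ (hreach σ),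
    fun σ => by simp only [norm_mul, hc, ha₂, ha₃, mul_one],
    fun σ => by simp only [norm_mul, hm, hm', ha₁, ha₄, mul_one],
    fun σ => by simp only [norm_mul, hp, hp', ha₁, ha₄, mul_one], sec3, hx, ?_, ?_⟩⟩
  · have h1 := hxp0.add hlab
    rw [add_zero] at h1
    exact h1.congr fun σ => by abel
  · have h1 := (hd.add (hga.const_smul (τp / 2))).add (hg₂a.const_smul (τp / 2))
    rw [smul_zero, add_zero, add_zero] at h1
    refine h1.congr' ?_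
    filter_upwards [hσt] with σ hσ
    have h2 : -s * σ * t σ = τp / 2 := by
      linear_combination -s * hσ + τp / 2 * hss
    rw [QSS_not, ← hsdef, smul_sub (-s * σ), smul_add (-s * σ), smul_smul, smul_smul, h2]
    simp only [hgdef]
    module

theorem SInv.stepB (hR : 𝓜.R = ⊤) (h' : 𝓜'.EClosed) (hτ : τ₀ ≠ 0) {b c t : ℕ → ℝ} {j : ℕ}
    (S : SInv Pr (tri b) (fst3 c) (fst3 t) (3 * j) (t j))
    (hs1 : 𝓜'.sE (tri b) (fst3 c) (fst3 t) (3 * j + 1) ≠ 0)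
    (hs2 : 𝓜'.sE (tri b) (fst3 c) (fst3 t) (3 * j + 2) ≠ 0) :
    Nonempty (SInv Pr (tri b) (fst3 c) (fst3 t) (3 * (j + 1)) 0) := by
  obtain ⟨U, x, xp, d, c₀, p, m, ε, reach, hc, hp, hm, sec, hx, hxp, hd⟩ := S
  set β := tri b with hβ
  set γ := fst3 c with hγ
  set τ := fst3 t with hτdef
  set k := 3 * j with hk
  have e0 : k % 3 = 0 := by omega
  have e1 : (k + 1) % 3 = 1 := by omega
  have e2 : (k + 1 + 1) % 3 = 2 := by omega
  have q0 : k / 3 = j := by omega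
  have q1 : (k + 1) / 3 = j := by omega
  have q2 : (k + 1 + 1) / 3 = j := by omega
  have hβ0 : β k = b j := by simp [hβ, tri, e0, q0]
  have hβ1 : β (k + 1) = 2 * b j := by simp [hβ, tri, e1, q1]
  have hβ2 : β (k + 1 + 1) = b j := by simp [hβ, tri, e2, q2]
  have hγ1 : γ (k + 1) = 0 := by simp [hγ, fst3, e1]
  have hγ2 : γ (k + 1 + 1) = 0 := by simp [hγ, fst3, e2]
  have hτ0 : τ k = t j := by simp [hτdef, fst3, e0, q0]
  have hτ1 : τ (k + 1) = 0 := by simp [hτdef, fst3, e1]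
  have hτ2 : τ (k + 1 + 1) = 0 := by simp [hτdef, fst3, e2]
  set s := sgE ε with hsdef
  set g : ℝ → H := fun σ => 𝓜.br (U σ) 𝓜.Z with hgdef
  have hg1 : ∀ σ, ‖g σ‖ = 1 := fun σ => 𝓜.norm_br_invol (sec.uU σ) 𝓜.invol_Z
  set d' : ℝ → H := fun σ => d σ + γ k • g σ with hd'def
  have hd' : Tendsto (fun σ => (s * σ) • d' σ -
      ∑ i ∈ Finset.range (k + 1), τ i • 𝓜.go β (x σ) i) l0 (𝓝 0) := by
    have h1 : Tendsto (fun σ => (s * σ) • γ k • g σ) l0 (𝓝 0) := by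
      have h2 := ((QSS_id.const_mul s).mul_const (γ k)).norm
      rw [mul_zero, zero_mul, norm_zero] at h2
      refine squeeze_zero_norm (fun σ => le_of_eq ?_) h2
      rw [smul_smul, norm_smul, hg1, mul_one]
    have h3 := hd.add h1
    rw [add_zero] at h3
    refine h3.congr fun σ => ?_
    rw [Finset.sum_range_succ, hτ0]
    simp only [hd'def]
    module
  obtain ⟨x₁, c₁, hc₁, sec₁, hx₁, hgo₁⟩ := QSS_majStep hR hc sec hx (fun _ => γ k)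
    tendsto_const_nhds (by rw [hτ0]; exact hxp)
  have hd₁ : ∀ σ, ∑ i ∈ Finset.range (k + 1), τ i • 𝓜.go β (x₁ σ) i =
      ∑ i ∈ Finset.range (k + 1), τ i • 𝓜.go β (x σ) i := fun σ =>
    Finset.sum_congr rfl fun i hi => by rw [hgo₁ σ i (Nat.lt_succ_iff.mp (Finset.mem_range.mp hi))]
  have hn₁ := fun σ => 𝓜.norm_br_invol (sec₁.uU σ) 𝓜.invol_Z
  obtain ⟨θ₁, hθ₁, hv₁, hq₁, hq₁'⟩ := QSS_angle (neg_ne_zero.mpr hs1) hn₁
    (QSS_im_conv (d := d') (s := s) (τp := 0) hR h' hτ hx₁ hn₁ (QSS_g_approx hR hc₁ sec₁ hx₁)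
      (by simpa only [zero_smul, add_zero, hd₁] using hd'))
  obtain ⟨x₂, c₂, hc₂, sec₂, hx₂, hgo₂⟩ := QSS_majStep hR hc₁ sec₁ hx₁ θ₁
    (by rw [hγ1]; exact hθ₁) (by simp [hτ1])
  have hd₂ : ∀ σ, ∑ i ∈ Finset.range (k + 1 + 1), τ i • 𝓜.go β (x₂ σ) i =
      ∑ i ∈ Finset.range (k + 1), τ i • 𝓜.go β (x σ) i := fun σ => by
    rw [Finset.sum_range_succ, hτ1, zero_smul, add_zero, ← hd₁]
    exact Finset.sum_congr rfl fun i hi => by rw [hgo₂ σ i (Finset.mem_range.mp hi).le]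
  have hn₂ := fun σ => 𝓜.norm_br_invol (sec₂.uU σ) 𝓜.invol_Z
  obtain ⟨θ₂, hθ₂, hv₂, hq₂, hq₂'⟩ := QSS_angle (neg_ne_zero.mpr hs2) hn₂
    (QSS_im_conv (d := d') (s := s) (τp := 0) hR h' hτ hx₂ hn₂ (QSS_g_approx hR hc₂ sec₂ hx₂)
      (by simpa only [zero_smul, add_zero, hd₂] using hd'))
  obtain ⟨x₃, c₃, hc₃, sec₃, hx₃, hgo₃⟩ := QSS_majStep hR hc₂ sec₂ hx₂ θ₂
    (by rw [hγ2]; exact hθ₂) (by simp [hτ2])
  have hd₃ : ∀ σ, ∑ i ∈ Finset.range (k + 1 + 1 + 1), τ i • 𝓜.go β (x₃ σ) i =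
      ∑ i ∈ Finset.range (k + 1), τ i • 𝓜.go β (x σ) i := fun σ => by
    rw [Finset.sum_range_succ, hτ2, zero_smul, add_zero, ← hd₂]
    exact Finset.sum_congr rfl fun i hi => by rw [hgo₃ σ i (Finset.mem_range.mp hi).le]
  choose a ha ha' using fun σ => QSS_WZ_mul hR (-(γ k • g σ)) (-d σ)
  have hpa : ∀ σ, ‖-1 * (a σ * p σ)‖ = 1 := fun σ => by simp [ha, hp]
  have hma : ∀ σ, ‖-1 * (a σ * m σ)‖ = 1 := fun σ => by simp [ha, hm]
  have sec₄ := QSS_sec_seed sec₃ (S' := fun σ =>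
    𝓜.dg (-1 * (a σ * p σ)) (-1 * (a σ * m σ)) * 𝓜.WZ (-d' σ) * 𝓜.Xe ε)
    (fun σ => mul_mem (mul_mem (dg_unitary (hpa σ) (hma σ)) (QSS_WZ_unit hR _)) (QSS_Xe_unit ε))
    (fun ζ hζ => by
      set η : ℝ → H := fun σ => 𝓜.dg (a σ * p σ) (a σ * m σ) (𝓜.Xe ε (ζ σ)) with hη
      have hηr : 𝓜.RegF η := QSS_reg_cw (QSS_reg_cw hζ (fun _ => QSS_Xe_cw ε)
        fun _ => QSS_Xe_unit ε) (fun _ => dg_cw _ _) fun σ =>
          dg_unitary (by rw [norm_mul, ha, hp, one_mul]) (by rw [norm_mul, ha, hm, one_mul])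
      have hZη : 𝓜.RegF fun σ => 𝓜.Z (η σ) :=
        QSS_reg_cw hηr (fun _ => 𝓜.invol_Z.cw) fun _ => 𝓜.invol_Z.mem_unitary
      have hr1 := (hηr.add hZη).smul (a := fun _ => (1 / 2 : ℂ))
        (Eventually.of_forall fun _ => le_rfl)
      have hr2 := (hηr.add (hZη.smul (a := fun _ => (-1 : ℂ))
        (Eventually.of_forall fun _ => le_rfl))).smul (a := fun _ => (1 / 2 : ℂ))
        (Eventually.of_forall fun _ => le_rfl)
      have h1 := QSS_block hR (b j) (one_mul 1) hv₁ hv₂ hr1 hq₁ hq₂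
      have h2 := QSS_block hR (b j) (by norm_num) hv₁ hv₂ hr2 hq₁' hq₂'
      refine (h1.add h2).congr_left fun σ => ?_
      have h3 : 𝓜.WZ (-d' σ) (η σ) = 𝓜.W (-d' σ) ((1 / 2 : ℂ) • (η σ + 𝓜.Z (η σ))) +
          𝓜.W (- -d' σ) ((1 / 2 : ℂ) • (η σ + (-1 : ℂ) • 𝓜.Z (η σ))) := by
        have hZ : ∀ w ξ : H, 𝓜.W w (𝓜.Z ξ) = 𝓜.Z (𝓜.W w ξ) := fun w ξ =>
          (congrArg (fun A : H →L[ℂ] H => A ξ) (𝓜.Z_W w (QSS_mem hR w))).symm
        rw [WZ, WQ_eq 𝓜.invol_Z]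
        simp only [map_smul, map_add, hZ, _root_.add_apply,
          _root_.smul_apply, mul_apply_eq_comp, _root_.sub_apply,
          one_apply_eq_self]
        module
      have h4 : (𝓜.WZ (-(γ k • g σ)) * (𝓜.dg (p σ) (m σ) * 𝓜.WZ (-d σ) * 𝓜.Xe ε)) (ζ σ) =
          𝓜.WZ (-d' σ) (η σ) := by
        have h5 : -d' σ = -(γ k • g σ) + -d σ := by
          simp only [hd'def]
          abel
        rw [← QSS_dg_WZ hR, mul_assoc, ← mul_assoc, ha', h5]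
        simp only [hη]
        rw [← QSS_smul_dg]
        simp only [_root_.smul_apply, mul_apply_eq_comp, map_smul, smul_mul_assoc]
      have h6 : (𝓜.dg (-1 * (a σ * p σ)) (-1 * (a σ * m σ)) * 𝓜.WZ (-d' σ) * 𝓜.Xe ε) (ζ σ) =
          -𝓜.WZ (-d' σ) (η σ) := by
        rw [← QSS_smul_dg, smul_mul_assoc, smul_mul_assoc, ← QSS_dg_WZ hR]
        simp only [hη, mul_apply_eq_comp, neg_smul, one_smul,
          _root_.neg_apply]
      rw [h6, hβ2, mul_apply_eq_comp, mul_apply_eq_comp, mul_apply_eq_comp (𝓜.B _),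
        mul_apply_eq_comp, mul_apply_eq_comp (𝓜.B _), h4, h3]
      simp only [hβ0, hβ1, map_add]
      abel)
  rw [show 3 * (j + 1) = k + 1 + 1 + 1 by omega]
  refine ⟨⟨_, x₃, fun _ => 0, d', c₃, fun σ => -1 * (a σ * p σ), fun σ => -1 * (a σ * m σ), ε,
    fun σ => QReach.B _ (QReach.C _ (QReach.B _ (QReach.C _ (QReach.B _ (QReach.C _ (reach σ)))))),
    hc₃, hpa, hma, sec₄, hx₃, by simp, ?_⟩⟩
  simpa only [zero_smul, add_zero, hd₃] using hd'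

end Weyl

end Crest.Agent.R339
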