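import Crest.Agent.R339.QLevel
import Crest.Agent.R339.QLabGates

/-! # Row 339: removing the labels one by one -/

set_option autoImplicit false

namespace Crest.Agent.R339

open MeasureTheory ProbabilityTheory Complex Filter Topology
open scoped InnerProductSpace

variable {H : Type} [NormedAddCommGroup H] [InnerProductSpace ℂ H] [CompleteSpace H]

namespace Label

variable {K : ℕ} {A : AMP K} {𝓛 : Label A H} {l : ℕ} {f : (Fin (K + 1) → ℝ) → ℝ}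
  {G U : H →L[ℂ] H}

theorem Sim.gate (hG : 𝓛.Gate l G) (h : 𝓛.Sim l U) : 𝓛.Sim l (G * U) := by
  exact ⟨mul_mem hG.unitary h.1, h.2.mul_left (fun V hV => Approx.of_mem (TL_gate hG hV))⟩

theorem Sim.sgn (hf : Sgn l f) (t : ℝ) (h : 𝓛.Sim l U) :
    𝓛.Sim l (𝓛.WZ (-(t • 𝓛.Mr f 𝓛.Ω)) * U) := by
  have hR : -(t • 𝓛.Mr f 𝓛.Ω) ∈ 𝓛.R := ((realL_Mr hf.br).smul t).neg.mem_R
  refine ⟨mul_mem (Weyl.WQ_unitary 𝓛.invol_Z hR) h.1, h.2.mul_left (fun V hV => ?_)⟩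
  obtain ⟨T, V', hT, hV', rfl⟩ := hV
  have e := hT.WZ_Mr hf.br (-t)
  rw [neg_smul] at e
  rw [← mul_assoc, e, mul_assoc]
  exact (level_step hV' hf t).mul_left (fun W hW => Approx.of_mem (TL_mul hT hW))

theorem QSim_step (n : ℕ) : ∀ (f : (Fin (K + 1) → ℝ) → ℝ) (C : ℝ), Measurable f → Lvl l f →
    (∀ ω, f (-ω) = -f ω) → (∀ ω, |f ω| ≤ C) →
    ∃ g, BR g ∧ (∀ ω, |f ω - g ω| ≤ C / 2 ^ n) ∧
      ∀ U, 𝓛.Sim l U → 𝓛.Sim l (𝓛.WZ (-𝓛.Mr g 𝓛.Ω) * U) := by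
  induction n with
  | zero =>
    intro f C _ _ _ hC
    refine ⟨fun _ => 0, BR.const 0, fun ω => by simpa using hC ω, fun U hU => ?_⟩
    rw [Mr_const]
    simpa [Weyl.QBase_WZ_zero] using hU
  | succ n ih =>
    intro f C hm hl ho hC
    obtain ⟨σ, hσ, hσ'⟩ := exists_sgn hm hl ho hC
    obtain ⟨g, hg, hg', hg''⟩ := ih (fun ω => f ω - C / 2 * σ ω) (C / 2)
      (hm.sub (hσ.meas.const_mul _))
      (fun ω ω' hω => by simp only [hl ω ω' hω, hσ.lvl ω ω' hω])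
      (fun ω => by rw [ho, hσ.odd]; ring) hσ'
    have hb : BR fun ω => C / 2 * σ ω := (BR.const _).mul hσ.br
    refine ⟨fun ω => C / 2 * σ ω + g ω, hb.add hg, fun ω => ?_, fun U hU => ?_⟩
    · have := hg' ω
      rw [pow_succ', ← div_div, ← sub_sub]
      exact this
    · have h1 := Sim.sgn hσ (C / 2) (hg'' U hU)
      rw [← Mr_smul_apply _ hσ.br, ← mul_assoc,
        𝓛.QBase_WZ_mul (realL_Mr hb).neg.mem_R (realL_Mr hg).neg.mem_R, inner_neg_neg,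
        inner_Mr_Mr hb hg, ofReal_im] at h1
      rw [Mr_add hb hg, _root_.add_apply, neg_add]
      simpa using h1

theorem Sim.odd (hf : BR f) (hl : Lvl l f) (ho : ∀ ω, f (-ω) = -f ω) (h : 𝓛.Sim l U) :
    𝓛.Sim l (𝓛.WZ (-𝓛.Mr f 𝓛.Ω) * U) := by
  obtain ⟨C, -, hC⟩ := hf.bdd
  choose g hg hg' hg'' using fun n => QSim_step (𝓛 := 𝓛) n f C hf.meas hl ho hC
  have hR : -𝓛.Mr f 𝓛.Ω ∈ 𝓛.R := (realL_Mr hf).neg.mem_R
  refine ⟨mul_mem (Weyl.WQ_unitary 𝓛.invol_Z hR) h.1, ?_⟩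
  have hlim : Tendsto (fun n => -𝓛.Mr (g n) 𝓛.Ω) atTop (𝓝 (-𝓛.Mr f 𝓛.Ω)) := by
    refine Tendsto.neg (tendsto_iff_norm_sub_tendsto_zero.2 ?_)
    have h0 : Tendsto (fun n : ℕ => C / 2 ^ n) atTop (𝓝 0) :=
      tendsto_const_nhds.div_atTop (tendsto_pow_atTop_atTop_of_one_lt (by norm_num))
    refine squeeze_zero (fun n => norm_nonneg _) (fun n => ?_) h0
    rw [norm_sub_rev, ← _root_.sub_apply, ← Mr_sub hf (hg n)]
    refine (ContinuousLinearMap.le_opNorm _ _).trans ?_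
    rw [𝓛.Ω_norm, mul_one]
    exact norm_Mr_le (hf.meas.sub (hg n).meas) (hg' n)
  exact Approx.of_tendsto (F := atTop) (Eventually.of_forall fun n => (hg'' n U h).2)
    (fun ξ => Weyl.WQ_tendsto 𝓛.regu_dense 𝓛.Z (fun n => (realL_Mr (hg n)).neg.mem_R) hR hlim (U ξ))

theorem Sim.gen (hG : 𝓛.Gen (l + 1) G) (h : 𝓛.Sim l U) : 𝓛.Sim l (G * U) := by
  induction hG with
  | one => simpa using h
  | B β _ ih =>
    rw [mul_assoc]
    exact Sim.gate (gate_B β) ih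
  | E a t ha _ ih =>
    rw [mul_assoc]
    by_cases hal : a.val ≤ l
    · exact Sim.gate (gate_E a hal t) ih
    · have ha0 : a ≠ 0 := by
        rintro rfl
        exact hal (Nat.zero_le _)
      rw [rot_Z_coord, ← Mr_smul_apply _ (A.br a)]
      refine Sim.odd ((BR.const t).mul (A.br a)) (fun ω ω' hω => ?_) (fun ω => ?_) ih
      · have := A.f_dep a ω ω' (fun b hb => hω b (by have : b.val < a.val := hb; omega))
        simp only [this]
      · rw [A.f_odd a ha0]; ring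

theorem LReach.sim (h : 𝓛.LReach (l + 1) U) : 𝓛.Sim l U := by
  induction h with
  | one => exact ⟨one_mem _, Approx.of_mem ⟨1, 1, isT_one, LReach.one, (mul_one _).symm⟩⟩
  | gate hG _ ih =>
    exact ⟨mul_mem hG.unitary ih.1, hG.approx_gen.mul_right (fun g hg => (Sim.gen hg ih).2)⟩
  | C γ hU ih =>
    exact ⟨(LReach.C γ hU).unitary, Weyl.approx_C 𝓛.regu_dense
      (fun V hV => ⟨TL_unitary hV, TL_br_mem hV⟩) ih.1 hU.br_mem ih.2 γ (fun V hV => TL_C hV γ)⟩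

theorem LReach.exists_pred (h : 𝓛.LReach (l + 1) U) {ε : ℝ} (hε : 0 < ε) :
    ∃ V, 𝓛.LReach l V ∧ 𝓛.energy (𝓛.br U 𝓛.Z) - ε ≤ 𝓛.energy (𝓛.br V 𝓛.Z) := by
  obtain ⟨V, ⟨T, V', hT, hV', rfl⟩, hV⟩ := Weyl.approx_energy
    (fun V hV => ⟨TL_unitary hV, TL_br_mem hV⟩) h.unitary h.br_mem h.sim.2 hε
  rw [hT.br] at hV
  exact ⟨V', hV', hV⟩

theorem QSim_gen_zero (hG : 𝓛.Gen 0 G) (h : 𝓛.EReach U) : 𝓛.EReach (G * U) := by
  induction hG with
  | one => simpa using h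
  | B β _ ih =>
    rw [mul_assoc]
    exact Weyl.EReach.B β ih
  | E a t ha _ ih =>
    have ha0 : a = 0 := Fin.ext (by simpa using ha)
    subst ha0
    rw [mul_assoc, rot_Z_coord, Mr_f_zero, one_apply_eq_self]
    exact Weyl.EReach.E t ih

theorem LReach.approx_ereach (h : 𝓛.LReach 0 U) : Approx {V | 𝓛.EReach V} U := by
  induction h with
  | one => exact Approx.of_mem Weyl.EReach.one
  | gate hG _ ih =>
    exact hG.approx_gen.mul_right
      (fun g hg => ih.mul_left (fun V hV => Approx.of_mem (QSim_gen_zero hg hV)))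
  | C γ hU ih =>
    exact Weyl.approx_C 𝓛.regu_dense
      (fun V hV => ⟨(lreach_of_ereach hV).unitary, (lreach_of_ereach hV).br_mem⟩) hU.unitary
      hU.br_mem ih γ (fun V hV => Weyl.EReach.C γ hV)

theorem LReach.exists_ereach (h : 𝓛.LReach l U) {ε : ℝ} (hε : 0 < ε) :
    ∃ V, 𝓛.EReach V ∧ 𝓛.energy (𝓛.br U 𝓛.Z) - ε ≤ 𝓛.energy (𝓛.br V 𝓛.Z) := by
  induction l generalizing U ε with
  | zero =>
    exact Weyl.approx_energy
      (fun V hV => ⟨(lreach_of_ereach hV).unitary, (lreach_of_ereach hV).br_mem⟩) h.unitary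
      h.br_mem h.approx_ereach hε
  | succ l ih =>
    obtain ⟨V, hV, h1⟩ := h.exists_pred (half_pos hε)
    obtain ⟨W, hW, h2⟩ := ih hV (half_pos hε)
    exact ⟨W, hW, by linarith⟩

end Label

end Crest.Agent.R339
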