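import Crest.Agent.R339.QReg

/-! # Row 339: the transfer functionals `ψ ↦ ⟪Ω, W v (1 + s Z) ψ⟫` -/

set_option autoImplicit false
set_option linter.deprecated false

namespace Crest.Agent.R339

open MeasureTheory ProbabilityTheory Complex Filter Topology Asymptotics
open scoped InnerProductSpace

variable {H : Type} [NormedAddCommGroup H] [InnerProductSpace ℂ H] [CompleteSpace H]

namespace Weyl

variable (𝓜 : Weyl H)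

/-- twice the spectral projection of `Z` -/
noncomputable def quE (s : ℝ) : H →L[ℂ] H := 1 + (s : ℂ) • 𝓜.Z

/-- the transfer functional -/
noncomputable def quL (v : H) (s : ℝ) : H →L[ℂ] ℂ :=
  (innerSL ℂ 𝓜.Ω).comp (𝓜.W v * 𝓜.quE s)

theorem quL_apply (v : H) (s : ℝ) (ψ : H) :
    𝓜.quL v s ψ = ⟪𝓜.Ω, (𝓜.W v * 𝓜.quE s) ψ⟫_ℂ := rfl

theorem quE_Z {s : ℝ} (hs : s * s = 1) : 𝓜.quE s * 𝓜.Z = (s : ℂ) • 𝓜.quE s := by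
  have h : (s : ℂ) * s = 1 := by exact_mod_cast hs
  rw [quE, add_mul, one_mul, smul_mul_assoc, 𝓜.Z_sq, smul_add, smul_smul, h, one_smul, add_comm]

theorem quE_X (s : ℝ) : 𝓜.quE s * 𝓜.X = 𝓜.X * 𝓜.quE (-s) := by
  rw [quE, quE, add_mul, mul_add, one_mul, mul_one, smul_mul_assoc, mul_smul_comm, 𝓜.XZ,
    ofReal_neg, neg_smul, smul_neg, neg_neg]

theorem quE_W (s : ℝ) {g : H} (hg : g ∈ 𝓜.R) : 𝓜.quE s * 𝓜.W g = 𝓜.W g * 𝓜.quE s := by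
  rw [quE, add_mul, mul_add, one_mul, mul_one, smul_mul_assoc, mul_smul_comm, 𝓜.Z_W g hg]

theorem quE_WZ {s : ℝ} (hs : s * s = 1) {g : H} (hg : g ∈ 𝓜.R) :
    𝓜.quE s * 𝓜.WZ g = 𝓜.W (s • g) * 𝓜.quE s := by
  have hZ := 𝓜.Z_sq
  have a1 : (1 + 𝓜.Z) * (1 + 𝓜.Z) = (2 : ℂ) • (1 + 𝓜.Z) := by
    rw [mul_add, add_mul, add_mul, hZ, two_smul]
    simp only [one_mul, mul_one]
    abel
  have a2 : (1 + 𝓜.Z) * (1 - 𝓜.Z) = 0 := by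
    rw [mul_sub, add_mul, add_mul, hZ]
    simp only [one_mul, mul_one]
    abel
  have a3 : (1 - 𝓜.Z) * (1 + 𝓜.Z) = 0 := by
    rw [mul_add, sub_mul, sub_mul, hZ]
    simp only [one_mul, mul_one]
    abel
  have a4 : (1 - 𝓜.Z) * (1 - 𝓜.Z) = (2 : ℂ) • (1 - 𝓜.Z) := by
    rw [mul_sub, sub_mul, sub_mul, hZ, two_smul]
    simp only [one_mul, mul_one]
    abel
  rw [← 𝓜.quE_W s (𝓜.R.smul_mem s hg), WZ, WQ_eq 𝓜.invol_Z, mul_add, mul_smul_comm,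
    mul_smul_comm, ← mul_assoc, ← mul_assoc]
  rcases mul_self_eq_one_iff.1 hs with rfl | rfl
  · have e : 𝓜.quE 1 = 1 + 𝓜.Z := by rw [quE, ofReal_one, one_smul]
    rw [e, a1, a2, zero_mul, smul_zero, add_zero, smul_mul_assoc, smul_smul, one_smul]
    norm_num
  · have e : 𝓜.quE (-1) = 1 - 𝓜.Z := by
      rw [quE, ofReal_neg, ofReal_one, neg_smul, one_smul, sub_eq_add_neg]
    rw [e, a3, a4, zero_mul, smul_zero, zero_add, smul_mul_assoc, smul_smul, neg_smul, one_smul]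
    norm_num

theorem qu_inner_X (ψ : H) : ⟪𝓜.Ω, 𝓜.X ψ⟫_ℂ = ⟪𝓜.Ω, ψ⟫_ℂ := by
  rw [← ContinuousLinearMap.adjoint_inner_left, ← ContinuousLinearMap.star_eq_adjoint, 𝓜.X_star,
    𝓜.XΩ]

theorem quL_Z (v : H) {s : ℝ} (hs : s * s = 1) (ψ : H) :
    𝓜.quL v s (𝓜.Z ψ) = s * 𝓜.quL v s ψ := by
  rw [quL_apply, quL_apply, ← ContinuousLinearMap.mul_apply, mul_assoc, 𝓜.quE_Z hs, mul_smul_comm,
    ContinuousLinearMap.smul_apply, inner_smul_right]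

theorem quL_X {v : H} (hv : v ∈ 𝓜.R) (s : ℝ) (ψ : H) :
    𝓜.quL v s (𝓜.X ψ) = 𝓜.quL v (-s) ψ := by
  rw [quL_apply, quL_apply, ← ContinuousLinearMap.mul_apply, mul_assoc, 𝓜.quE_X, ← mul_assoc,
    ← 𝓜.X_W v hv, mul_assoc, ContinuousLinearMap.mul_apply, qu_inner_X]

theorem quL_B {v : H} (hv : v ∈ 𝓜.R) (s β : ℝ) (ψ : H) :
    𝓜.quL v s (𝓜.B β ψ) = ((Real.cos β : ℝ) : ℂ) * 𝓜.quL v s ψ -
      I * ((Real.sin β : ℝ) : ℂ) * 𝓜.quL v (-s) ψ := by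
  rw [B, ContinuousLinearMap.sub_apply, ContinuousLinearMap.smul_apply,
    ContinuousLinearMap.smul_apply, map_sub, map_smul, map_smul, 𝓜.quL_X hv,
    ContinuousLinearMap.one_apply, smul_eq_mul, smul_eq_mul]

theorem quL_WZ {v g : H} (hv : v ∈ 𝓜.R) (hg : g ∈ 𝓜.R) {s : ℝ} (hs : s * s = 1) (ψ : H) :
    𝓜.quL v s (𝓜.WZ g ψ) = exp (-(I * (⟪v, s • g⟫_ℂ).im)) * 𝓜.quL (v + s • g) s ψ := by
  rw [quL_apply, quL_apply, ← ContinuousLinearMap.mul_apply, mul_assoc, 𝓜.quE_WZ hs hg,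
    ← mul_assoc, 𝓜.W_mul v hv _ (𝓜.R.smul_mem s hg), smul_mul_assoc,
    ContinuousLinearMap.smul_apply, inner_smul_right]

theorem quL_even {v : H} (hv : v ∈ 𝓜.R) (s : ℝ) {ψ : H} (hψ : 𝓜.X ψ = ψ) :
    𝓜.quL v s ψ = ⟪𝓜.Ω, 𝓜.W v ψ⟫_ℂ := by
  have h1 := 𝓜.quL_X hv s ψ
  rw [hψ] at h1
  have h2 : 𝓜.quL v s ψ + 𝓜.quL v (-s) ψ = 2 * ⟪𝓜.Ω, 𝓜.W v ψ⟫_ℂ := by
    simp only [quL_apply, quE, ContinuousLinearMap.mul_apply, ContinuousLinearMap.add_apply,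
      ContinuousLinearMap.one_apply, ContinuousLinearMap.smul_apply, map_add, map_smul,
      inner_add_right, inner_smul_right, ofReal_neg]
    ring
  rw [← h1] at h2
  linear_combination h2 / 2

theorem quL_sum (ψ : H) : ⟪𝓜.Ω, ψ⟫_ℂ = (1 / 2) * (𝓜.quL 0 1 ψ + 𝓜.quL 0 (-1) ψ) := by
  simp only [quL_apply, quE, 𝓜.W_zero, one_mul, ContinuousLinearMap.add_apply,
    ContinuousLinearMap.one_apply, ContinuousLinearMap.smul_apply,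
    inner_add_right, inner_smul_right, ofReal_neg]
  ring

omit [CompleteSpace H] in
theorem qu_norm_add (v u : H) : -(I * (⟪v, u⟫_ℂ).im) + -((‖v + u‖ : ℂ) ^ 2 / 2) =
    -((‖v‖ : ℂ) ^ 2 / 2) - ⟪v, u⟫_ℂ - (‖u‖ : ℂ) ^ 2 / 2 := by
  have h1 : ‖v + u‖ ^ 2 = ‖v‖ ^ 2 + 2 * (⟪v, u⟫_ℂ).re + ‖u‖ ^ 2 := norm_add_sq (𝕜 := ℂ) v u
  have h2 : ((‖v + u‖ : ℝ) : ℂ) ^ 2 = (‖v‖ : ℂ) ^ 2 + 2 * ((⟪v, u⟫_ℂ).re : ℂ) + (‖u‖ : ℂ) ^ 2 := by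
    exact_mod_cast congrArg (fun r : ℝ => (r : ℂ)) h1
  have h3 := re_add_im ⟪v, u⟫_ℂ
  rw [h2]
  linear_combination -h3

theorem qu_vac_gen {T : ℕ} (x : Fin T → H) (hx : ∀ t, x t ∈ 𝓜.R) {v : H} (hv : v ∈ 𝓜.R) :
    ⟪𝓜.Ω, 𝓜.W v ((List.ofFn fun t => 𝓜.W (x t)).prod 𝓜.Ω)⟫_ℂ =
      exp (-((‖v‖ : ℂ) ^ 2 / 2) - (∑ t, ⟪v, x t⟫_ℂ) - (∑ t, (‖x t‖ : ℂ) ^ 2 / 2) -
        ∑ s, ∑ t, if s < t then ⟪x s, x t⟫_ℂ else 0) := by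
  induction T generalizing v with
  | zero => simpa using 𝓜.vac v hv
  | succ T ih =>
    rw [List.ofFn_succ, List.prod_cons, ContinuousLinearMap.mul_apply,
      ← ContinuousLinearMap.mul_apply (𝓜.W v), 𝓜.W_mul v hv _ (hx 0),
      ContinuousLinearMap.smul_apply, inner_smul_right,
      ih (fun t => x t.succ) (fun t => hx _) (𝓜.R.add_mem hv (hx 0)), ← exp_add]
    congr 1
    have h := qu_norm_add v (x 0)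
    simp only [Fin.sum_univ_succ, inner_add_left, Finset.sum_add_distrib,
      if_false, Fin.succ_pos, if_true, Fin.not_lt_zero, Fin.succ_lt_succ_iff, zero_add]
    linear_combination h

theorem qu_vac_two {v u : H} (hv : v ∈ 𝓜.R) (hu : u ∈ 𝓜.R) :
    ⟪𝓜.Ω, 𝓜.W v (𝓜.W u 𝓜.Ω)⟫_ℂ =
      exp (-((‖v‖ : ℂ) ^ 2 / 2) - ⟪v, u⟫_ℂ - (‖u‖ : ℂ) ^ 2 / 2) := by
  rw [← ContinuousLinearMap.mul_apply, 𝓜.W_mul v hv u hu, ContinuousLinearMap.smul_apply,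
    inner_smul_right, 𝓜.vac _ (𝓜.R.add_mem hv hu), ← exp_add, qu_norm_add]

/-- the annihilation identity -/
theorem qu_ann {v h : H} (hv : v ∈ 𝓜.R) (hh : h ∈ 𝓜.R) :
    ⟪𝓜.Ω, 𝓜.W v (I • 𝓜.phi h 𝓜.Ω)⟫_ℂ = -⟪v, h⟫_ℂ * ⟪𝓜.Ω, 𝓜.W v 𝓜.Ω⟫_ℂ := by
  obtain ⟨c, hc⟩ := regu_Ω (𝓜 := 𝓜)
  have h1 := (((innerSL ℂ 𝓜.Ω).comp (𝓜.W v)).restrictScalars ℝ).hasFDerivAt.comp_hasDerivAt
    (0 : ℝ) (hc.hasDerivAt_W hh)
  have h2 : (((innerSL ℂ 𝓜.Ω).comp (𝓜.W v)).restrictScalars ℝ) ∘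
      (fun t : ℝ => 𝓜.W (t • h) 𝓜.Ω) = fun t : ℝ =>
      exp (-((‖v‖ : ℂ) ^ 2 / 2) - (t : ℂ) * ⟪v, h⟫_ℂ - (t : ℂ) ^ 2 * ((‖h‖ : ℂ) ^ 2 / 2)) := by
    funext t
    have h3 := 𝓜.qu_vac_two hv (𝓜.R.smul_mem t hh)
    have h4 : ((‖t • h‖ : ℝ) : ℂ) ^ 2 = (t : ℂ) ^ 2 * (‖h‖ : ℂ) ^ 2 := by
      have : ‖t • h‖ ^ 2 = t ^ 2 * ‖h‖ ^ 2 := by rw [norm_smul, mul_pow, Real.norm_eq_abs, sq_abs]
      exact_mod_cast congrArg (fun r : ℝ => (r : ℂ)) this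
    have h5 : ⟪v, t • h⟫_ℂ = (t : ℂ) * ⟪v, h⟫_ℂ := by
      rw [← Complex.coe_smul, inner_smul_right]
    rw [h4, h5, mul_div_assoc] at h3
    exact h3
  rw [h2] at h1
  have h6 : HasDerivAt (fun t : ℂ =>
      exp (-((‖v‖ : ℂ) ^ 2 / 2) - t * ⟪v, h⟫_ℂ - t ^ 2 * ((‖h‖ : ℂ) ^ 2 / 2)))
      (-⟪v, h⟫_ℂ * exp (-((‖v‖ : ℂ) ^ 2 / 2))) ((0 : ℝ) : ℂ) := by
    have h7 := ((((hasDerivAt_id ((0 : ℝ) : ℂ)).mul_const ⟪v, h⟫_ℂ).const_sub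
      (-((‖v‖ : ℂ) ^ 2 / 2))).sub
      (((hasDerivAt_id ((0 : ℝ) : ℂ)).pow 2).mul_const ((‖h‖ : ℂ) ^ 2 / 2))).cexp
    refine h7.congr_deriv ?_
    simp [mul_comm]
  rw [𝓜.vac v hv]
  exact h1.unique h6.comp_ofReal

end Weyl

end Crest.Agent.R339
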