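import Crest.Agent.R339.QUnivAux1

/-! # Row 339: universal, continuous and analytic functions of the Gram matrix -/

set_option autoImplicit false
set_option linter.deprecated false

namespace Crest.Agent.R339

open MeasureTheory ProbabilityTheory Complex Filter Topology Asymptotics
open scoped InnerProductSpace

/-- continuous in the Gram matrix, analytic along analytic curves -/
structure QuNice (m : ℕ) (Ψ : (ℕ → ℝ) → (ℕ → ℕ → ℂ) → ℂ) : Prop where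
  cont : ∀ β (ι : Type) (F : Filter ι) (G : ι → ℕ → ℕ → ℂ) (G₀ : ℕ → ℕ → ℂ),
    (∀ i < m, ∀ j < m, Tendsto (fun a => G a i j) F (𝓝 (G₀ i j))) →
      Tendsto (fun a => Ψ β (G a)) F (𝓝 (Ψ β G₀))
  ana : ∀ (β : ℝ → ℕ → ℝ) (G : ℝ → ℕ → ℕ → ℂ), (∀ j, AnalyticOnNhd ℝ (fun s => β s j) Set.univ) →
    (∀ i < m, ∀ j < m, AnalyticOnNhd ℝ (fun s => G s i j) Set.univ) →
      AnalyticOnNhd ℝ (fun s => Ψ (β s) (G s)) Set.univ

namespace QuNice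

variable {m : ℕ} {Ψ Φ : (ℕ → ℝ) → (ℕ → ℕ → ℂ) → ℂ}

theorem const (c : ℂ) : QuNice m fun _ _ => c :=
  ⟨fun _ _ _ _ _ _ => tendsto_const_nhds, fun _ _ _ _ => analyticOnNhd_const⟩

theorem add (h : QuNice m Ψ) (h' : QuNice m Φ) : QuNice m fun β G => Ψ β G + Φ β G :=
  ⟨fun β ι F G G₀ hG => (h.cont β ι F G G₀ hG).add (h'.cont β ι F G G₀ hG),
    fun β G hβ hG => (h.ana β G hβ hG).add (h'.ana β G hβ hG)⟩

theorem mul (h : QuNice m Ψ) (h' : QuNice m Φ) : QuNice m fun β G => Ψ β G * Φ β G :=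
  ⟨fun β ι F G G₀ hG => (h.cont β ι F G G₀ hG).mul (h'.cont β ι F G G₀ hG),
    fun β G hβ hG => (h.ana β G hβ hG).mul (h'.ana β G hβ hG)⟩

theorem neg (h : QuNice m Ψ) : QuNice m fun β G => -Ψ β G :=
  ⟨fun β ι F G G₀ hG => (h.cont β ι F G G₀ hG).neg, fun β G hβ hG => (h.ana β G hβ hG).neg⟩

theorem sub (h : QuNice m Ψ) (h' : QuNice m Φ) : QuNice m fun β G => Ψ β G - Φ β G :=
  ⟨fun β ι F G G₀ hG => (h.cont β ι F G G₀ hG).sub (h'.cont β ι F G G₀ hG),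
    fun β G hβ hG => (h.ana β G hβ hG).sub (h'.ana β G hβ hG)⟩

theorem entry {i j : ℕ} (hi : i < m) (hj : j < m) : QuNice m fun _ G => G i j :=
  ⟨fun _ _ _ _ _ hG => hG i hi j hj, fun _ _ _ hG => hG i hi j hj⟩

theorem sum (S : Finset ℕ) {Ψ : ℕ → (ℕ → ℝ) → (ℕ → ℕ → ℂ) → ℂ} (h : ∀ i ∈ S, QuNice m (Ψ i)) :
    QuNice m fun β G => ∑ i ∈ S, Ψ i β G := by
  induction S using Finset.induction_on with
  | empty => simpa using const 0
  | insert i S hi ih =>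
    simp only [Finset.sum_insert hi]
    exact (h i (Finset.mem_insert_self _ _)).add (ih fun j hj => h j (Finset.mem_insert_of_mem hj))

theorem expo (h : QuNice m Ψ) : QuNice m fun β G => exp (Ψ β G) :=
  ⟨fun β ι F G G₀ hG => (h.cont β ι F G G₀ hG).cexp, fun β G hβ hG s hs =>
    (analyticAt_cexp.restrictScalars (𝕜 := ℝ)).comp (h.ana β G hβ hG s hs)⟩

theorem im (h : QuNice m Ψ) : QuNice m fun β G => ((Ψ β G).im : ℂ) :=
  ⟨fun β ι F G G₀ hG => ((ofRealCLM.comp imCLM).continuous.tendsto _).comp (h.cont β ι F G G₀ hG),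
    fun β G hβ hG s hs => ((ofRealCLM.comp imCLM).analyticAt _).comp (h.ana β G hβ hG s hs)⟩

theorem cos (e : ℝ) (j : ℕ) : QuNice m fun β _ => ((Real.cos (e * β j) : ℝ) : ℂ) :=
  ⟨fun _ _ _ _ _ _ => tendsto_const_nhds, fun _ _ hβ _ s hs => (ofRealCLM.analyticAt _).comp
    (Real.analyticAt_cos.comp (analyticAt_const.mul (hβ j s hs)))⟩

theorem sin (e : ℝ) (j : ℕ) : QuNice m fun β _ => ((Real.sin (e * β j) : ℝ) : ℂ) :=
  ⟨fun _ _ _ _ _ _ => tendsto_const_nhds, fun _ _ hβ _ s hs => (ofRealCLM.analyticAt _).comp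
    (Real.analyticAt_sin.comp (analyticAt_const.mul (hβ j s hs)))⟩

end QuNice

/-- a vector in every model -/
abbrev QuFam : Type 1 := ∀ (H : Type) [NormedAddCommGroup H] [InnerProductSpace ℂ H]
  [CompleteSpace H], Weyl H → (ℕ → ℝ) → (ℕ → H) → H

section comb

variable {H : Type} [NormedAddCommGroup H] [InnerProductSpace ℂ H]

/-- a real combination of the field vectors -/
noncomputable def quV (m : ℕ) (n : ℕ → ℝ) (x : ℕ → H) : H := ∑ j ∈ Finset.range m, n j • x j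

theorem quV_zero (m : ℕ) (x : ℕ → H) : quV m (fun _ => 0) x = 0 := by simp [quV]

theorem quV_inner (m : ℕ) (n : ℕ → ℝ) (x : ℕ → H) (u : H) :
    ⟪quV m n x, u⟫_ℂ = ∑ j ∈ Finset.range m, (n j : ℂ) * ⟪x j, u⟫_ℂ := by
  rw [quV, sum_inner]
  refine Finset.sum_congr rfl fun j _ => ?_
  rw [← Complex.coe_smul, inner_smul_left, conj_ofReal]

theorem quV_norm (m : ℕ) (n : ℕ → ℝ) (x : ℕ → H) : (‖quV m n x‖ : ℂ) ^ 2 =
    ∑ i ∈ Finset.range m, (n i : ℂ) * ∑ j ∈ Finset.range m, (n j : ℂ) * ⟪x i, x j⟫_ℂ := by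
  have h := inner_self_eq_norm_sq_to_K (𝕜 := ℂ) (quV m n x)
  rw [quV_inner] at h
  refine h.symm.trans (Finset.sum_congr rfl fun i _ => ?_)
  rw [quV, inner_sum]
  congr 1
  refine Finset.sum_congr rfl fun j _ => ?_
  rw [← Complex.coe_smul, inner_smul_right]

theorem quV_add {m i : ℕ} (hi : i < m) (n : ℕ → ℝ) (c : ℝ) (x : ℕ → H) :
    quV m n x + c • x i = quV m (fun j => n j + if j = i then c else 0) x := by
  simp only [quV, add_smul, Finset.sum_add_distrib, ite_smul, zero_smul, Finset.sum_ite_eq',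
    Finset.mem_range, hi, if_true]

theorem quV_mem [CompleteSpace H] (𝓜 : Weyl H) {x : ℕ → H} (hx : ∀ j, x j ∈ 𝓜.R) (m : ℕ)
    (n : ℕ → ℝ) : quV m n x ∈ 𝓜.R :=
  𝓜.R.sum_mem fun j _ => 𝓜.R.smul_mem _ (hx j)

end comb

/-- all transfer functionals of the family are universal -/
def QuGood (m : ℕ) (ξ : QuFam) : Prop :=
  ∀ s : ℝ, s * s = 1 → ∀ n : ℕ → ℝ, ∃ Ψ, QuNice m Ψ ∧
    ∀ (H : Type) [NormedAddCommGroup H] [InnerProductSpace ℂ H] [CompleteSpace H] (𝓜 : Weyl H)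
      (β : ℕ → ℝ) (x : ℕ → H), (∀ j, x j ∈ 𝓜.R) →
        𝓜.quL (quV m n x) s (ξ H 𝓜 β x) = Ψ β fun i j => ⟪x i, x j⟫_ℂ

namespace QuGood

variable {m : ℕ} {ξ ξ' : QuFam}

theorem congr (h : QuGood m ξ)
    (e : ∀ (H : Type) [NormedAddCommGroup H] [InnerProductSpace ℂ H] [CompleteSpace H] (𝓜 : Weyl H)
      (β : ℕ → ℝ) (x : ℕ → H), (∀ j, x j ∈ 𝓜.R) → ξ' H 𝓜 β x = ξ H 𝓜 β x) : QuGood m ξ' := by
  intro s hs n
  obtain ⟨Ψ, h1, h2⟩ := h s hs n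
  exact ⟨Ψ, h1, fun H _ _ _ 𝓜 β x hx => by rw [e H 𝓜 β x hx, h2 H 𝓜 β x hx]⟩

theorem vac : QuGood m fun _ _ _ _ 𝓜 _ _ => 𝓜.Ω := by
  intro s _ n
  refine ⟨fun _ G => exp (-((∑ i ∈ Finset.range m, (n i : ℂ) *
    ∑ j ∈ Finset.range m, (n j : ℂ) * G i j) * (1 / 2))), ?_, fun H _ _ _ 𝓜 β x hx => ?_⟩
  · refine (((QuNice.sum _ fun i hi => (QuNice.const _).mul (QuNice.sum _ fun j hj =>
      (QuNice.const _).mul (QuNice.entry (Finset.mem_range.1 hi) (Finset.mem_range.1 hj)))).mul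
      (QuNice.const _)).neg).expo
  · rw [𝓜.quL_even (quV_mem 𝓜 hx m n) s 𝓜.XΩ, 𝓜.vac _ (quV_mem 𝓜 hx m n), quV_norm,
      div_eq_mul_one_div]

theorem Z (h : QuGood m ξ) : QuGood m fun H _ _ _ 𝓜 β x => 𝓜.Z (ξ H 𝓜 β x) := by
  intro s hs n
  obtain ⟨Ψ, h1, h2⟩ := h s hs n
  exact ⟨fun β G => s * Ψ β G, (QuNice.const _).mul h1, fun H _ _ _ 𝓜 β x hx => by
    rw [𝓜.quL_Z _ hs, h2 H 𝓜 β x hx]⟩

theorem B (h : QuGood m ξ) (e : ℝ) (j : ℕ) :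
    QuGood m fun H _ _ _ 𝓜 β x => 𝓜.B (e * β j) (ξ H 𝓜 β x) := by
  intro s hs n
  obtain ⟨Ψ, h1, h2⟩ := h s hs n
  obtain ⟨Φ, h3, h4⟩ := h (-s) (by rw [neg_mul_neg, hs]) n
  exact ⟨fun β G => ((Real.cos (e * β j) : ℝ) : ℂ) * Ψ β G -
      I * ((Real.sin (e * β j) : ℝ) : ℂ) * Φ β G,
    ((QuNice.cos e j).mul h1).sub (((QuNice.const _).mul (QuNice.sin e j)).mul h3),
    fun H _ _ _ 𝓜 β x hx => by
      rw [𝓜.quL_B (quV_mem 𝓜 hx m n), h2 H 𝓜 β x hx, h4 H 𝓜 β x hx]⟩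

theorem WZ (h : QuGood m ξ) (c : ℝ) {i : ℕ} (hi : i < m) :
    QuGood m fun H _ _ _ 𝓜 β x => 𝓜.WZ (c • x i) (ξ H 𝓜 β x) := by
  intro s hs n
  obtain ⟨Ψ, h1, h2⟩ := h s hs fun j => n j + if j = i then s * c else 0
  refine ⟨fun β G => exp (-(I * ((∑ j ∈ Finset.range m, (n j : ℂ) *
      (((s * c : ℝ) : ℂ) * G j i)).im : ℂ))) * Ψ β G, ?_, fun H _ _ _ 𝓜 β x hx => ?_⟩
  · exact (((QuNice.const _).mul (QuNice.sum _ fun j hj => (QuNice.const _).mul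
      ((QuNice.const _).mul (QuNice.entry (Finset.mem_range.1 hj) hi))).im).neg.expo).mul h1
  · rw [𝓜.quL_WZ (quV_mem 𝓜 hx m n) (𝓜.R.smul_mem c (hx i)) hs, smul_smul, quV_add hi,
      h2 H 𝓜 β x hx, quV_inner]
    simp only [← Complex.coe_smul, inner_smul_right]

theorem Uo (h : QuGood m ξ) {k : ℕ} (hk : k ≤ m) :
    QuGood m fun H _ _ _ 𝓜 β x => 𝓜.Uo β x k (ξ H 𝓜 β x) := by
  induction k with
  | zero => exact h
  | succ k ih =>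
    refine (((ih (by omega)).WZ (-1) (i := k) (by omega)).B 1 k).congr fun H _ _ _ 𝓜 β x _ => ?_
    rw [one_mul, neg_smul, one_smul]
    rfl

theorem Uo_star {k : ℕ} (hk : k ≤ m) : ∀ {ξ : QuFam}, QuGood m ξ →
    QuGood m fun H _ _ _ 𝓜 β x => star (𝓜.Uo β x k) (ξ H 𝓜 β x) := by
  induction k with
  | zero =>
    intro ξ h
    refine h.congr fun H _ _ _ 𝓜 β x _ => ?_
    rw [Weyl.Uo, star_one]
    rfl
  | succ k ih =>
    intro ξ h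
    refine (ih (by omega) ((h.B (-1) k).WZ 1 (i := k) (by omega))).congr
      fun H _ _ _ 𝓜 β x hx => ?_
    rw [Weyl.Uo, star_mul, star_mul, Weyl.WQ_star 𝓜.invol_Z (𝓜.R.neg_mem (hx k)), neg_neg,
      𝓜.B_star, one_smul, neg_mul, one_mul]
    rfl

theorem inner (h : QuGood m ξ) : ∃ Ψ, QuNice m Ψ ∧
    ∀ (H : Type) [NormedAddCommGroup H] [InnerProductSpace ℂ H] [CompleteSpace H] (𝓜 : Weyl H)
      (β : ℕ → ℝ) (x : ℕ → H), (∀ j, x j ∈ 𝓜.R) →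
        ⟪𝓜.Ω, ξ H 𝓜 β x⟫_ℂ = Ψ β fun i j => ⟪x i, x j⟫_ℂ := by
  obtain ⟨Ψ, h1, h2⟩ := h 1 (one_mul 1) fun _ => 0
  obtain ⟨Φ, h3, h4⟩ := h (-1) (by norm_num) fun _ => 0
  refine ⟨fun β G => (1 / 2) * (Ψ β G + Φ β G), (QuNice.const _).mul (h1.add h3),
    fun H _ _ _ 𝓜 β x hx => ?_⟩
  have h5 := h2 H 𝓜 β x hx
  have h6 := h4 H 𝓜 β x hx
  rw [quV_zero] at h5 h6
  rw [𝓜.quL_sum, h5, h6]

end QuGood

end Crest.Agent.R339
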