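import Crest.Agent.R339.QLabReach

/-! # Row 339: the final state of the message passing scheme -/

set_option autoImplicit false

namespace Crest.Agent.R339

open MeasureTheory ProbabilityTheory Complex Filter Topology
open scoped InnerProductSpace

variable {H : Type} [NormedAddCommGroup H] [InnerProductSpace ℂ H] [CompleteSpace H]

namespace Label

variable {K : ℕ} {A : AMP K} (𝓛 : Label A H)

theorem QValue_sa {T : H →L[ℂ] H} (hT : star T = T) (x y : H) : ⟪T x, y⟫_ℂ = ⟪x, T y⟫_ℂ := by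
  rw [← ContinuousLinearMap.adjoint_inner_right, ← ContinuousLinearMap.star_eq_adjoint, hT]

theorem QValue_cross {n : (Fin (K + 1) → ℝ) → ℝ} (hn : BR n) {g : H} (hg : g ∈ 𝓛.R) :
    ⟪𝓛.Mr n (𝓛.Z 𝓛.Ω), 𝓛.W g 𝓛.Ω⟫_ℂ = 0 := by
  rw [QValue_sa (Mr_star hn), QValue_sa 𝓛.Z_star]
  exact inner_Z_M_W hn hg

theorem QValue_inner {f m n : (Fin (K + 1) → ℝ) → ℝ} (hf : BR f) (hm : BR m) (hn : BR n) :
    ⟪𝓛.Mr f 𝓛.Ω, 𝓛.Mr m 𝓛.Ω + 𝓛.Mr n (𝓛.Z 𝓛.Ω)⟫_ℂ = ((∫ ω, f ω * m ω ∂gam K : ℝ) : ℂ) := by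
  rw [inner_add_right, inner_Mr_Mr hf hm]
  have h1 := 𝓛.QValue_cross (hf.mul hn) (Submodule.zero_mem _)
  rw [𝓛.W_zero, Mr_mul hf hn] at h1
  have h2 : ⟪𝓛.Mr f 𝓛.Ω, 𝓛.Mr n (𝓛.Z 𝓛.Ω)⟫_ℂ = 0 := by
    rw [QValue_sa (Mr_star hf), inner_eq_zero_symm]
    exact h1
  rw [h2, add_zero]

omit 𝓛 in
theorem QValue_deriv {m s : (Fin (K + 1) → ℝ) → ℝ} (hm : BR m) (hs : Measurable s)
    (hs' : Integrable s (gam K)) :
    HasDerivAt (fun t : ℝ => ∫ ω, (m ω : ℂ) * exp (I * ((t * s ω : ℝ) : ℂ)) ∂gam K)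
      (∫ ω, (m ω : ℂ) * (I * (s ω : ℂ)) ∂gam K) 0 := by
  obtain ⟨C, hC0, hC⟩ := hm.bdd
  have hmm : Measurable fun ω => (m ω : ℂ) := hm.1
  have hsm : Measurable fun ω => (s ω : ℂ) := Complex.measurable_ofReal.comp hs
  have h := hasDerivAt_integral_of_dominated_loc_of_deriv_le (μ := gam K) (x₀ := (0 : ℝ))
    (F := fun (t : ℝ) ω => (m ω : ℂ) * exp (I * ((t * s ω : ℝ) : ℂ)))
    (F' := fun (t : ℝ) ω => (m ω : ℂ) * (exp (I * ((t * s ω : ℝ) : ℂ)) * (I * (s ω : ℂ))))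
    (bound := fun ω => C * |s ω|) (s := Set.univ) univ_mem
    (Eventually.of_forall fun t =>
      (BM.mul hm (BM.cexp (hs.const_mul t))).1.aestronglyMeasurable)
    (BM.mul hm (BM.cexp (hs.const_mul 0))).integrable
    (hmm.mul ((BM.cexp (hs.const_mul 0)).1.mul (hsm.const_mul I))).aestronglyMeasurable
    (Eventually.of_forall fun ω t _ => by
      rw [norm_mul, norm_mul, norm_mul, norm_exp_I_mul_ofReal, Complex.norm_I, Complex.norm_real,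
        Complex.norm_real, one_mul, one_mul, Real.norm_eq_abs, Real.norm_eq_abs]
      exact mul_le_mul_of_nonneg_right (hC ω) (abs_nonneg _))
    (hs'.abs.const_mul C)
    (Eventually.of_forall fun ω t _ => by
      have h1 : HasDerivAt (fun t : ℝ => t * s ω) (s ω) t := by
        simpa using (hasDerivAt_id t).mul_const (s ω)
      exact ((h1.ofReal_comp.const_mul I).cexp).const_mul _)
  simpa using h.2

theorem energy_Mr {m n : (Fin (K + 1) → ℝ) → ℝ} (hm : BR m) (hn : BR n) :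
    𝓛.energy (𝓛.Mr m 𝓛.Ω + 𝓛.Mr n (𝓛.Z 𝓛.Ω)) =
      ∑ a, (∫ ω, A.f a ω * m ω ∂gam K) * ∫ ω, ω a * m ω ∂gam K := by
  set g := 𝓛.Mr m 𝓛.Ω + 𝓛.Mr n (𝓛.Z 𝓛.Ω) with hg
  set c : Fin (K + 1) → ℝ := fun a => ∫ ω, A.f a ω * m ω ∂gam K with hc
  have hin : ∀ a, ⟪𝓛.M (fun ω => (A.f a ω : ℂ)) 𝓛.Ω, g⟫_ℂ = (c a : ℂ) := fun a =>
    𝓛.QValue_inner (A.br a) hm hn
  have hgR : g ∈ 𝓛.R := (𝓛.mem_R g).2 fun a => by rw [hin, ofReal_im]
  have hin' : ∀ (t : ℝ) a, (⟪𝓛.M (fun ω => (A.f a ω : ℂ)) 𝓛.Ω, t • g⟫_ℂ).re = t * c a := by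
    intro t a
    rw [← Complex.coe_smul, inner_smul_right, hin, ← ofReal_mul, ofReal_re]
  set s : (Fin (K + 1) → ℝ) → ℝ := fun ω => ∑ a, c a * ω a with hs
  set κ : ℝ := ‖g‖ ^ 2 - ∑ a, c a ^ 2 with hκ
  have hsm : Measurable s := Finset.measurable_sum _ fun a _ => (measurable_pi_apply a).const_mul _
  have hci : ∀ a : Fin (K + 1), Integrable (fun ω : Fin (K + 1) → ℝ => ω a) (gam K) := fun a =>
    integrable_eval IsGaussian.integrable_id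
  have hsi : Integrable s (gam K) := integrable_finsetSum _ fun a _ => (hci a).const_mul _
  have e1 : ∀ t : ℝ, ⟪g, 𝓛.W (t • g) 𝓛.Ω⟫_ℂ =
      (∫ ω, (m ω : ℂ) * exp (I * ((t * s ω : ℝ) : ℂ)) ∂gam K) *
        exp (-((t ^ 2 * κ / 2 : ℝ) : ℂ)) := by
    intro t
    have htR : t • g ∈ 𝓛.R := Submodule.smul_mem _ t hgR
    have e2 : ⟪g, 𝓛.W (t • g) 𝓛.Ω⟫_ℂ = ⟪𝓛.Ω, 𝓛.Mr m (𝓛.W (t • g) 𝓛.Ω)⟫_ℂ := by
      generalize t • g = u at htR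
      rw [hg, inner_add_left, 𝓛.QValue_cross hn htR, add_zero, QValue_sa (Mr_star hm)]
    rw [e2]
    refine (𝓛.vacM _ hm _ htR).trans ?_
    simp only [hin']
    congr 1
    · refine integral_congr_ae (Eventually.of_forall fun ω => ?_)
      simp only [hs, Finset.mul_sum, mul_assoc]
    · rw [norm_smul, mul_pow, Real.norm_eq_abs, sq_abs, hκ, mul_sub, Finset.mul_sum]
      simp only [mul_pow]
  have d1 := QValue_deriv hm hsm hsi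
  have d2 : HasDerivAt (fun t : ℝ => exp (-((t ^ 2 * κ / 2 : ℝ) : ℂ))) 0 0 := by
    have h1 : HasDerivAt (fun t : ℝ => t ^ 2 * κ / 2) 0 0 := by
      simpa using ((hasDerivAt_pow 2 (0 : ℝ)).mul_const κ).div_const 2
    simpa using h1.ofReal_comp.neg.cexp
  have d3 := Complex.imCLM.hasFDerivAt.comp_hasDerivAt (0 : ℝ) (d1.mul d2)
  have e3 : (fun t : ℝ => (⟪g, 𝓛.W (t • g) 𝓛.Ω⟫_ℂ).im) = Complex.imCLM ∘
      ((fun t : ℝ => ∫ ω, (m ω : ℂ) * exp (I * ((t * s ω : ℝ) : ℂ)) ∂gam K) *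
        fun t : ℝ => exp (-((t ^ 2 * κ / 2 : ℝ) : ℂ))) := by
    funext t
    rw [e1]
    rfl
  unfold Weyl.energy
  rw [e3, d3.deriv]
  obtain ⟨C, -, hC⟩ := hm.bdd
  have hi : ∀ a : Fin (K + 1), Integrable (fun ω : Fin (K + 1) → ℝ => ω a * m ω) (gam K) :=
    fun a => (hci a).mul_bdd hm.meas.aestronglyMeasurable (Eventually.of_forall hC)
  have e4 : ∫ ω, (m ω : ℂ) * (I * (s ω : ℂ)) ∂gam K =
      I * ((∑ a, c a * ∫ ω, ω a * m ω ∂gam K : ℝ) : ℂ) := by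
    have e5 : ∑ a, c a * ∫ ω, ω a * m ω ∂gam K = ∫ ω, m ω * s ω ∂gam K := by
      simp only [← integral_const_mul]
      rw [← integral_finsetSum _ fun a _ => (hi a).const_mul _]
      refine integral_congr_ae (Eventually.of_forall fun ω => ?_)
      simp only [hs, Finset.mul_sum]
      exact Finset.sum_congr rfl fun a _ => by ring
    rw [e5, ← integral_complex_ofReal, ← integral_const_mul]
    refine integral_congr_ae (Eventually.of_forall fun ω => ?_)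
    simp only [ofReal_mul]
    ring
  rw [e4]
  change _ = ∑ a, c a * ∫ ω, ω a * m ω ∂gam K
  generalize (∑ a, c a * ∫ ω, ω a * m ω ∂gam K) = r
  simp

theorem exists_value : ∃ U, 𝓛.LReach K U ∧ 𝓛.energy (𝓛.br U 𝓛.Z) = A.value := by
  set θ : (Fin (K + 1) → ℝ) → ℝ := fun ω => -(Real.arcsin (A.m ω) / 2) with hθ
  have hθm : Measurable θ := ((Real.measurable_arcsin.comp A.m_meas).div_const 2).neg
  have hθo : ∀ ω, θ (-ω) = -θ ω := fun ω => by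
    simp only [hθ, A.m_odd, Real.arcsin_neg]
    ring
  have hm : BR A.m := BR.of A.m_meas A.m_bdd
  have h2 : Measurable fun ω => 2 * θ ω := hθm.const_mul 2
  refine ⟨𝓛.rot 𝓛.Y θ * 1, LReach.loc (loc_rot_Y hθm (Lvl.of_ge le_rfl θ) hθo) LReach.one, ?_⟩
  have e1 : 𝓛.Z * 𝓛.Y = -(𝓛.Y * 𝓛.Z) := by rw [𝓛.ZY, 𝓛.YZ]
  have e2 := rot_conj_anticomm (linv_Y (𝓛 := 𝓛)) hθm cm_Z e1
  have e3 : (fun ω => Real.sin (2 * θ ω)) = fun ω => -A.m ω := by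
    funext ω
    have h := abs_le.1 (A.m_bdd ω)
    have : 2 * θ ω = -Real.arcsin (A.m ω) := by simp only [hθ]; ring
    rw [this, Real.sin_neg, Real.sin_arcsin h.1 h.2]
  have e4 : 𝓛.Z * 𝓛.rot 𝓛.Y (fun ω => 2 * θ ω) =
      𝓛.Mr A.m * 𝓛.X + 𝓛.Mr (fun ω => Real.cos (2 * θ ω)) * 𝓛.Z := by
    unfold rot
    rw [e3, Mr_neg hm, mul_sub, ← cm_Z.Mr (BR.cos h2), mul_smul_comm, neg_mul, mul_neg,
      ← mul_assoc, ← cm_Z.Mr hm, mul_assoc, 𝓛.ZY, mul_neg, neg_neg, mul_smul_comm, smul_smul,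
      I_mul_I, neg_smul, one_smul, sub_neg_eq_add, add_comm]
  have e5 : 𝓛.br (𝓛.rot 𝓛.Y θ * 1) 𝓛.Z =
      𝓛.Mr A.m 𝓛.Ω + 𝓛.Mr (fun ω => Real.cos (2 * θ ω)) (𝓛.Z 𝓛.Ω) := by
    rw [mul_one]
    have : 𝓛.br (𝓛.rot 𝓛.Y θ) 𝓛.Z = (star (𝓛.rot 𝓛.Y θ) * 𝓛.Z * 𝓛.rot 𝓛.Y θ) 𝓛.Ω := rfl
    rw [this, e2, e4]
    show 𝓛.Mr A.m (𝓛.X 𝓛.Ω) + _ = _
    rw [𝓛.XΩ]
    rfl
  rw [e5, 𝓛.energy_Mr hm (BR.cos h2)]
  rfl

end Label

end Crest.Agent.R339
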